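import Vale.Agent.P137.MathlibUsed
import Vale.Agent.P137.Statement
import Vale.Agent.P137.StatementU

set_option linter.all false

namespace Vale.Agent.P137.Fast

@[reducible] noncomputable def fi0 (d : ℕ) : NormedAddCommGroup (EuclideanSpace ℝ (Fin d)) := inferInstance
@[reducible] noncomputable def fi1 (d : ℕ) : InnerProductSpace ℝ (EuclideanSpace ℝ (Fin d)) := inferInstance
@[reducible] noncomputable def fi2 (d : ℕ) : NormedSpace ℝ (EuclideanSpace ℝ (Fin d)) := inferInstance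
@[reducible] noncomputable def fi3 (d : ℕ) : Module ℝ (EuclideanSpace ℝ (Fin d)) := inferInstance
@[reducible] noncomputable def fi4 (d : ℕ) : AddCommMonoid (EuclideanSpace ℝ (Fin d)) := inferInstance
@[reducible] noncomputable def fi5 (d : ℕ) : MeasurableSpace (EuclideanSpace ℝ (Fin d)) := inferInstance
@[reducible] noncomputable def fi6 (d : ℕ) : MeasureTheory.MeasureSpace (EuclideanSpace ℝ (Fin d)) := inferInstance
@[reducible] noncomputable def fi7 (d : ℕ) : BorelSpace (EuclideanSpace ℝ (Fin d)) := inferInstance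
@[reducible] noncomputable def fi8 (d : ℕ) : TopologicalSpace (EuclideanSpace ℝ (Fin d)) := inferInstance
@[reducible] noncomputable def fi9 (d : ℕ) : IsTopologicalAddGroup (EuclideanSpace ℝ (Fin d)) := inferInstance
@[reducible] noncomputable def fi10 (d : ℕ) : ContinuousAdd (EuclideanSpace ℝ (Fin d)) := inferInstance
@[reducible] noncomputable def fi11 (d : ℕ) : ContinuousSMul ℝ (EuclideanSpace ℝ (Fin d)) := inferInstance
@[reducible] noncomputable def fi12 (d : ℕ) : ContinuousConstSMul ℝ (EuclideanSpace ℝ (Fin d)) := inferInstance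
@[reducible] noncomputable def fi13 (d : ℕ) : T2Space (EuclideanSpace ℝ (Fin d)) := inferInstance
@[reducible] noncomputable def fi14 (d : ℕ) : FiniteDimensional ℝ (EuclideanSpace ℝ (Fin d)) := inferInstance
@[reducible] noncomputable def fi15 (d : ℕ) : ProperSpace (EuclideanSpace ℝ (Fin d)) := inferInstance
@[reducible] noncomputable def fi16 (d : ℕ) : LocallyCompactSpace (EuclideanSpace ℝ (Fin d)) := inferInstance
@[reducible] noncomputable def fi17 (d : ℕ) : WeaklyLocallyCompactSpace (EuclideanSpace ℝ (Fin d)) := inferInstance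
@[reducible] noncomputable def fi18 (d : ℕ) : SecondCountableTopology (EuclideanSpace ℝ (Fin d)) := inferInstance
@[reducible] noncomputable def fi19 (d : ℕ) : MeasurableAdd (EuclideanSpace ℝ (Fin d)) := inferInstance
@[reducible] noncomputable def fi20 (d : ℕ) : MeasurableNeg (EuclideanSpace ℝ (Fin d)) := inferInstance
@[reducible] noncomputable def fi21 (d : ℕ) : HasContDiffBump (EuclideanSpace ℝ (Fin d)) := inferInstance
@[reducible] noncomputable def fi22 (d : ℕ) : CompleteSpace (EuclideanSpace ℝ (Fin d)) := inferInstance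
@[reducible] noncomputable def fi23 (d : ℕ) : MeasureTheory.SFinite (MeasureTheory.volume : MeasureTheory.Measure (EuclideanSpace ℝ (Fin d))) := inferInstance
@[reducible] noncomputable def fi24 (d : ℕ) : MeasureTheory.IsLocallyFiniteMeasure (MeasureTheory.volume : MeasureTheory.Measure (EuclideanSpace ℝ (Fin d))) := inferInstance
@[reducible] noncomputable def fi25 (d : ℕ) : (MeasureTheory.volume : MeasureTheory.Measure (EuclideanSpace ℝ (Fin d))).IsAddHaarMeasure := inferInstance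
@[reducible] noncomputable def fi26 (d : ℕ) : (MeasureTheory.volume : MeasureTheory.Measure (EuclideanSpace ℝ (Fin d))).IsAddLeftInvariant := inferInstance
@[reducible] noncomputable def fi27 (d : ℕ) : (MeasureTheory.volume : MeasureTheory.Measure (EuclideanSpace ℝ (Fin d))).IsNegInvariant := inferInstance
@[reducible] noncomputable def fi28 (d : ℕ) : NormedAddCommGroup (EuclideanSpace ℝ (Fin d) →L[ℝ] ℝ) := inferInstance
@[reducible] noncomputable def fi29 (d : ℕ) : NormedSpace ℝ (EuclideanSpace ℝ (Fin d) →L[ℝ] ℝ) := inferInstance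
@[reducible] noncomputable def fi30 (d : ℕ) : SeminormedAddGroup (EuclideanSpace ℝ (Fin d) →L[ℝ] ℝ) := inferInstance
@[reducible] noncomputable def fi31 (d : ℕ) : Norm (EuclideanSpace ℝ (Fin d) →L[ℝ] ℝ) := inferInstance
@[reducible] noncomputable def fi32 (d : ℕ) : ENorm (EuclideanSpace ℝ (Fin d) →L[ℝ] ℝ) := inferInstance
@[reducible] noncomputable def fi33 (d : ℕ) : ContinuousENorm (EuclideanSpace ℝ (Fin d) →L[ℝ] ℝ) := inferInstance
@[reducible] noncomputable def fi34 : AddLeftMono ℝ := inferInstance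
@[reducible] noncomputable def fi35 : AddRightMono ℝ := inferInstance
@[reducible] noncomputable def fi36 : CharZero ℝ := inferInstance
@[reducible] noncomputable def fi37 : AddRightStrictMono ℝ := inferInstance
@[reducible] noncomputable def fi38 : PosMulReflectLT ℝ := inferInstance
@[reducible] noncomputable def fi39 : AddRightReflectLE ℝ := inferInstance
@[reducible] noncomputable def fi40 : AddRightReflectLT ℝ := inferInstance
@[reducible] noncomputable def fi41 : IsOrderedModule ℝ ℝ := inferInstance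
@[reducible] noncomputable def fi42 : ExistsAddOfLE ℝ := inferInstance
@[reducible] noncomputable def fi43 : PosMulStrictMono ℝ := inferInstance
@[reducible] noncomputable def fi44 : T2Space ℝ := inferInstance
@[reducible] noncomputable def fi45 : NeZero (1 : ℝ) := inferInstance

end Vale.Agent.P137.Fast

attribute [local instance] Vale.Agent.P137.Fast.fi0 Vale.Agent.P137.Fast.fi1
  Vale.Agent.P137.Fast.fi2 Vale.Agent.P137.Fast.fi3 Vale.Agent.P137.Fast.fi4
  Vale.Agent.P137.Fast.fi5 Vale.Agent.P137.Fast.fi6 Vale.Agent.P137.Fast.fi7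
  Vale.Agent.P137.Fast.fi8 Vale.Agent.P137.Fast.fi9 Vale.Agent.P137.Fast.fi10
  Vale.Agent.P137.Fast.fi11 Vale.Agent.P137.Fast.fi12 Vale.Agent.P137.Fast.fi13
  Vale.Agent.P137.Fast.fi14 Vale.Agent.P137.Fast.fi15 Vale.Agent.P137.Fast.fi16
  Vale.Agent.P137.Fast.fi17 Vale.Agent.P137.Fast.fi18 Vale.Agent.P137.Fast.fi19
  Vale.Agent.P137.Fast.fi20 Vale.Agent.P137.Fast.fi21 Vale.Agent.P137.Fast.fi22
  Vale.Agent.P137.Fast.fi23 Vale.Agent.P137.Fast.fi24 Vale.Agent.P137.Fast.fi25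
  Vale.Agent.P137.Fast.fi26 Vale.Agent.P137.Fast.fi27 Vale.Agent.P137.Fast.fi28
  Vale.Agent.P137.Fast.fi29 Vale.Agent.P137.Fast.fi30 Vale.Agent.P137.Fast.fi31
  Vale.Agent.P137.Fast.fi32 Vale.Agent.P137.Fast.fi33 Vale.Agent.P137.Fast.fi34
  Vale.Agent.P137.Fast.fi35 Vale.Agent.P137.Fast.fi36 Vale.Agent.P137.Fast.fi37
  Vale.Agent.P137.Fast.fi38 Vale.Agent.P137.Fast.fi39 Vale.Agent.P137.Fast.fi40
  Vale.Agent.P137.Fast.fi41 Vale.Agent.P137.Fast.fi42 Vale.Agent.P137.Fast.fi43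
  Vale.Agent.P137.Fast.fi44 Vale.Agent.P137.Fast.fi45


section

section

open MeasureTheory Set
open scoped ENNReal ContDiff

namespace Vale.Agent.P137

/-- Euclidean space `ℝ^d`. -/
abbrev E (d : ℕ) := EuclideanSpace ℝ (Fin d)

/-- The centered Hardy-Littlewood maximal function, with values in `[0, ∞]`. -/
noncomputable def centeredMax {d : ℕ} (f : EuclideanSpace ℝ (Fin d) → ℝ)
    (x : EuclideanSpace ℝ (Fin d)) : ℝ≥0∞ :=
  ⨆ (r : ℝ) (_ : 0 < r), (∫⁻ y in Metric.ball x r, ‖f y‖ₑ) / volume (Metric.ball x r)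

/-- `g` is the weak gradient of `f` on `ℝ^d`; both are locally integrable. -/
def IsWeakGradient {d : ℕ} (f : EuclideanSpace ℝ (Fin d) → ℝ)
    (g : EuclideanSpace ℝ (Fin d) → EuclideanSpace ℝ (Fin d)) : Prop :=
  LocallyIntegrable f ∧ LocallyIntegrable g ∧
    ∀ φ : EuclideanSpace ℝ (Fin d) → ℝ, ContDiff ℝ ∞ φ → HasCompactSupport φ → ∀ i : Fin d,
      ∫ x, f x * fderiv ℝ φ x (EuclideanSpace.single i 1) = - ∫ x, g x i * φ x

end Vale.Agent.P137
end
end

section

section

open MeasureTheory Set Metric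
open scoped ENNReal

namespace Vale.Agent.P137

noncomputable section

/-- The isometry-like identification of `ℝ × ℝ^n` with `ℝ^(n+1)`. -/
def Phi (n : ℕ) : ℝ × E n ≃ᵐ E (n + 1) :=
  ((MeasurableEquiv.refl ℝ).prodCongr (MeasurableEquiv.toLp 2 (Fin n → ℝ)).symm).trans
    ((MeasurableEquiv.piFinSuccAbove (fun _ : Fin (n + 1) => ℝ) 0).symm.trans
      (MeasurableEquiv.toLp 2 (Fin (n + 1) → ℝ)))

lemma Phi_mp (n : ℕ) : MeasurePreserving (Phi n) := by
  unfold Phi
  have h1 : MeasurePreserving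
      ((MeasurableEquiv.refl ℝ).prodCongr (MeasurableEquiv.toLp 2 (Fin n → ℝ)).symm) :=
    (MeasurePreserving.id volume).prod (EuclideanSpace.volume_preserving_symm_measurableEquiv_toLp _)
  exact h1.trans ((volume_preserving_piFinSuccAbove (fun _ : Fin (n + 1) => ℝ) 0).symm.trans
    (EuclideanSpace.volume_preserving_symm_measurableEquiv_toLp _).symm)

/-- The first basis vector. -/
def e1 (n : ℕ) : E (n + 1) := EuclideanSpace.single 0 1

lemma norm_e1 (n : ℕ) : ‖e1 n‖ = 1 := by simp only [e1, PiLp.norm_single, norm_one]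

lemma Phi_apply_zero (n : ℕ) (a : ℝ) (z : E n) : Phi n (a, z) 0 = a := by
  simp only [Phi, MeasurableEquiv.piFinSuccAbove, Fin.zero_succAbove, Fin.insertNthEquiv_zero, MeasurableEquiv.symm_mk, Equiv.symm_symm, MeasurableEquiv.trans_apply, MeasurableEquiv.coe_mk, MeasurableEquiv.toLp_apply, Fin.consEquiv_apply, Fin.cons_zero]
  rfl

lemma Phi_apply_succ (n : ℕ) (a : ℝ) (z : E n) (i : Fin n) : Phi n (a, z) i.succ = z i := by
  simp [Phi, MeasurableEquiv.piFinSuccAbove]
  rfl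

lemma norm_sq_Phi (n : ℕ) (a : ℝ) (z : E n) : ‖Phi n (a, z)‖ ^ 2 = a ^ 2 + ‖z‖ ^ 2 := by
  rw [EuclideanSpace.norm_sq_eq, EuclideanSpace.norm_sq_eq, Fin.sum_univ_succ]
  simp only [Phi_apply_zero, Phi_apply_succ]
  simp only [Real.norm_eq_abs, sq_abs]

lemma Phi_sub (n : ℕ) (a σ : ℝ) (z : E n) : Phi n (a, z) - σ • e1 n = Phi n (a - σ, z) := by
  ext i
  refine Fin.cases ?_ (fun j => ?_) i
  · simp [Phi_apply_zero, e1]
  · simp [Phi_apply_succ, e1]

end

end Vale.Agent.P137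
end
end

section

section

open MeasureTheory Set Metric
open scoped ENNReal

namespace Vale.Agent.P137

noncomputable section

/-- Squared radius of the disc spanned by the intersection of the two spheres. -/
def cap (r t u : ℝ) : ℝ := t ^ 2 - ((t ^ 2 + u ^ 2 - r ^ 2) / (2 * u)) ^ 2

lemma clampA (x g : ℝ) (hg : 0 ≤ g) :
    max (min (2 * g) (x + g)) 0 = max (-g) (min x g) + g := by
  simp only [max_def, min_def]; split_ifs <;> linarith

lemma clampB (x x' g : ℝ) (hxx : x' ≤ x) (hg : 0 ≤ g) :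
    max (min x g - max x' (-g)) 0 = max (-g) (min x g) - max (-g) (min x' g) := by
  rcases le_total x g with h1 | h1
  · rw [min_eq_left h1, min_eq_left (hxx.trans h1), max_comm x' (-g)]
    rcases le_total (-g) x with h2 | h2
    · rw [max_eq_right h2, max_eq_left]
      rw [sub_nonneg, max_le_iff]; exact ⟨h2, hxx⟩
    · rw [max_eq_left h2, max_eq_left (hxx.trans h2), max_eq_right] <;> linarith only [h2]
  · rw [min_eq_right h1, max_comm x' (-g), max_eq_right (by linarith only [hg] : -g ≤ g)]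
    rcases le_total x' g with h2 | h2
    · rw [min_eq_left h2, max_eq_left]
      rw [sub_nonneg, max_le_iff]; constructor <;> linarith only [hg, h2]
    · rw [min_eq_right h2, max_eq_right (by linarith only [hg, h2] : -g ≤ x'), max_eq_right (by linarith only [hg] : -g ≤ g),
        max_eq_right] <;> linarith only [h2]

lemma ofReal_max (x : ℝ) : ENNReal.ofReal (max x 0) = ENNReal.ofReal x := by
  rcases le_total x 0 with h | h
  · rw [max_eq_right h, ENNReal.ofReal_zero, ENNReal.ofReal_of_nonpos h]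
  · rw [max_eq_left h]

lemma slice_interval {σ r t q : ℝ} (hσ : r < σ) (hr : 0 < r) (ht : r < t) (hq : 0 ≤ q)
    (hqr : q < r ^ 2) :
    volume {a : ℝ | (a - σ) ^ 2 + q < r ^ 2 ∧ a ^ 2 + q < t ^ 2}
      = ENNReal.ofReal (max (min (2 * √(r ^ 2 - q)) ((√(t ^ 2 - q) - σ) + √(r ^ 2 - q))) 0) := by
  set g := √(r ^ 2 - q) with hg
  set τ := √(t ^ 2 - q) with hτ
  have hg0 : 0 < g := Real.sqrt_pos.2 (by linarith only [hqr])
  have htr : r ^ 2 < t ^ 2 := by nlinarith only [hr, ht]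
  have hτ0 : 0 < τ := Real.sqrt_pos.2 (by linarith only [hqr, htr])
  have hg2 : g ^ 2 = r ^ 2 - q := Real.sq_sqrt (by linarith only [hqr])
  have hτ2 : τ ^ 2 = t ^ 2 - q := Real.sq_sqrt (by linarith only [hqr, htr])
  have hgr : g ≤ r := by
    rw [hg]; exact Real.sqrt_le_iff.2 ⟨hr.le, by linarith only [hq]⟩
  have hset : {a : ℝ | (a - σ) ^ 2 + q < r ^ 2 ∧ a ^ 2 + q < t ^ 2}
      = Ioo (σ - g) (min (σ + g) τ) := by
    ext a
    simp only [mem_ofPred_eq, mem_Ioo, lt_min_iff]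
    constructor
    · rintro ⟨h1, h2⟩
      have h1' : (a - σ) ^ 2 < g ^ 2 := by linarith only [hg2, h1]
      have h2' : a ^ 2 < τ ^ 2 := by linarith only [hτ2, h2]
      have h3 := abs_lt_of_sq_lt_sq h1' hg0.le
      have h4 := abs_lt_of_sq_lt_sq h2' hτ0.le
      rw [abs_lt] at h3 h4
      exact ⟨by linarith only [h3], by linarith only [h3], h4.2⟩
    · rintro ⟨h1, h2, h3⟩
      have ha : 0 < a := by linarith only [hσ, hgr, h1]
      constructor
      · have : (a - σ) ^ 2 < g ^ 2 := by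
          rw [sq_lt_sq, abs_of_pos hg0, abs_lt]
          constructor <;> linarith only [h1, h2]
        linarith only [hg2, this]
      · have : a ^ 2 < τ ^ 2 := by
          rw [sq_lt_sq, abs_of_pos hτ0, abs_of_pos ha]
          exact h3
        linarith only [hτ2, this]
  rw [hset, Real.volume_Ioo, ofReal_max]
  congr 1
  rcases le_total (σ + g) τ with h | h
  · rw [min_eq_left h, min_eq_left (by linarith only [h])]; ring
  · rw [min_eq_right h, min_eq_right (by linarith only [h])]; ring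

/-- The key slice identity. -/
lemma slice_identity {σ σ' r t q : ℝ} (hσ : r < σ) (hσσ : σ ≤ σ') (hr : 0 < r) (ht : r < t)
    (hq : 0 ≤ q) :
    volume {a : ℝ | (a - σ) ^ 2 + q < r ^ 2 ∧ a ^ 2 + q < t ^ 2}
      = volume {a : ℝ | (a - σ') ^ 2 + q < r ^ 2 ∧ a ^ 2 + q < t ^ 2}
        + volume {u : ℝ | u ∈ Ioo σ σ' ∧ q < cap r t u} := by
  rcases lt_or_ge q (r ^ 2) with hqr | hqr
  · rw [slice_interval hσ hr ht hq hqr, slice_interval (hσ.trans_le hσσ) hr ht hq hqr]
    set g := √(r ^ 2 - q) with hg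
    set τ := √(t ^ 2 - q) with hτ
    have hg0 : 0 < g := Real.sqrt_pos.2 (by linarith only [hqr])
    have htr : r ^ 2 < t ^ 2 := by nlinarith only [hr, ht]
    have hτ0 : 0 < τ := Real.sqrt_pos.2 (by linarith only [hqr, htr])
    have hg2 : g ^ 2 = r ^ 2 - q := Real.sq_sqrt (by linarith only [hqr])
    have hτ2 : τ ^ 2 = t ^ 2 - q := Real.sq_sqrt (by linarith only [hqr, htr])
    have hset : {u : ℝ | u ∈ Ioo σ σ' ∧ q < cap r t u}
        = Ioo (max σ (τ - g)) (min σ' (τ + g)) := by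
      ext u
      simp only [mem_ofPred_eq, mem_Ioo, lt_min_iff, max_lt_iff]
      have key : σ < u → (q < cap r t u ↔ (τ - g < u ∧ u < τ + g)) := by
        intro hu
        have hu0 : 0 < u := by linarith only [hσ, hr, hu]
        have hP : 0 < (t ^ 2 + u ^ 2 - r ^ 2) / (2 * u) := by
          apply div_pos _ (by linarith only [hσ, hr, hu]); nlinarith only [htr]
        have s1 : q < cap r t u ↔ (t ^ 2 + u ^ 2 - r ^ 2) / (2 * u) < τ := by
          unfold cap
          constructor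
          · intro h
            have h5 : ((t ^ 2 + u ^ 2 - r ^ 2) / (2 * u)) ^ 2 < τ ^ 2 := by linarith only [hτ2, h]
            have := abs_lt_of_sq_lt_sq h5 hτ0.le
            rwa [abs_of_pos hP] at this
          · intro h
            have h5 : ((t ^ 2 + u ^ 2 - r ^ 2) / (2 * u)) ^ 2 < τ ^ 2 := by
              rw [sq_lt_sq, abs_of_pos hP, abs_of_pos hτ0]; exact h
            linarith only [hτ2, h5]
        rw [s1, div_lt_iff₀ (by linarith only [hσ, hr, hu])]
        have s2 : t ^ 2 + u ^ 2 - r ^ 2 < τ * (2 * u) ↔ (u - τ) ^ 2 < g ^ 2 := by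
          constructor <;> intro h <;> linarith only [hg2, hτ2, h]
        rw [s2, sq_lt_sq, abs_of_pos hg0, abs_lt]
        constructor
        · rintro ⟨h1, h2⟩; constructor <;> linarith only [h1, h2]
        · rintro ⟨h1, h2⟩; constructor <;> linarith only [h1, h2]
      constructor
      · rintro ⟨⟨h1, h2⟩, h3⟩
        have := (key h1).1 h3
        exact ⟨⟨h1, this.1⟩, h2, this.2⟩
      · rintro ⟨⟨h1, h2⟩, h3, h4⟩
        exact ⟨⟨h1, h3⟩, (key h1).2 ⟨h2, h4⟩⟩
    rw [hset, Real.volume_Ioo]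
    have e3 : min σ' (τ + g) - max σ (τ - g) = min (τ - σ) g - max (τ - σ') (-g) := by
      have a1 : min σ' (τ + g) = τ - max (τ - σ') (-g) := by
        rcases le_total σ' (τ + g) with h | h
        · rw [min_eq_left h, max_eq_left (by linarith only [h])]; ring
        · rw [min_eq_right h, max_eq_right (by linarith only [h])]; ring
      have a2 : max σ (τ - g) = τ - min (τ - σ) g := by
        rcases le_total σ (τ - g) with h | h
        · rw [max_eq_right h, min_eq_right (by linarith only [h])]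
        · rw [max_eq_left h, min_eq_left (by linarith only [h])]; ring
      rw [a1, a2]; ring
    rw [e3, ← ofReal_max (min (τ - σ) g - max (τ - σ') (-g)),
      ← ENNReal.ofReal_add (le_max_right _ _) (le_max_right _ _)]
    congr 1
    rw [clampA _ _ hg0.le, clampA _ _ hg0.le, clampB _ _ _ (by linarith only [hσσ]) hg0.le]
    ring
  · have e1 : {a : ℝ | (a - σ) ^ 2 + q < r ^ 2 ∧ a ^ 2 + q < t ^ 2} = ∅ := by
      ext a; simp only [mem_ofPred_eq, mem_empty_iff_false, iff_false, not_and]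
      intro h; linarith only [hqr, h, sq_nonneg (a - σ)]
    have e2 : {a : ℝ | (a - σ') ^ 2 + q < r ^ 2 ∧ a ^ 2 + q < t ^ 2} = ∅ := by
      ext a; simp only [mem_ofPred_eq, mem_empty_iff_false, iff_false, not_and]
      intro h; linarith only [hqr, h, sq_nonneg (a - σ')]
    have e3 : {u : ℝ | u ∈ Ioo σ σ' ∧ q < cap r t u} = ∅ := by
      ext u; simp only [mem_ofPred_eq, mem_empty_iff_false, iff_false, not_and]
      intro hu
      have hu0 : 0 < u := by linarith only [hσ, hr, hu.1]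
      have e4 : cap r t u = r ^ 2 - ((t ^ 2 - u ^ 2 - r ^ 2) / (2 * u)) ^ 2 := by
        unfold cap; field_simp; ring
      rw [e4]
      linarith only [hqr, sq_nonneg ((t ^ 2 - u ^ 2 - r ^ 2) / (2 * u))]
    rw [e1, e2, e3]; simp

end

end Vale.Agent.P137
end
end

section

section

open MeasureTheory Set Metric
open scoped ENNReal

namespace Vale.Agent.P137

noncomputable section

/-- The intersection of the ball of radius `r` centered at `σ e₁` with the ball of radius `t`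
centered at the origin. -/
def lens (n : ℕ) (σ r t : ℝ) : Set (E (n + 1)) := ball (σ • e1 n) r ∩ ball 0 t

lemma measurableSet_lens (n : ℕ) (σ r t : ℝ) : MeasurableSet (lens n σ r t) :=
  measurableSet_ball.inter measurableSet_ball

lemma Phi_mem_lens {n : ℕ} {σ r t : ℝ} (hr : 0 < r) (ht : 0 < t) (a : ℝ) (z : E n) :
    Phi n (a, z) ∈ lens n σ r t ↔ (a - σ) ^ 2 + ‖z‖ ^ 2 < r ^ 2 ∧ a ^ 2 + ‖z‖ ^ 2 < t ^ 2 := by
  unfold lens
  rw [mem_inter_iff, mem_ball, mem_ball, dist_eq_norm, dist_zero_right, Phi_sub,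
    ← norm_sq_Phi, ← norm_sq_Phi, sq_lt_sq, sq_lt_sq, abs_of_nonneg (norm_nonneg _), abs_of_pos hr,
    abs_of_nonneg (norm_nonneg _), abs_of_pos ht]

lemma volume_lens {n : ℕ} {σ r t : ℝ} (hr : 0 < r) (ht : 0 < t) :
    volume (lens n σ r t)
      = ∫⁻ z : E n, volume {a : ℝ | (a - σ) ^ 2 + ‖z‖ ^ 2 < r ^ 2 ∧ a ^ 2 + ‖z‖ ^ 2 < t ^ 2} := by
  rw [← (Phi_mp n).measure_preimage (measurableSet_lens n σ r t).nullMeasurableSet]
  change (volume.prod volume) _ = _
  rw [Measure.prod_apply_symm ((Phi n).measurable (measurableSet_lens n σ r t))]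
  congr 1
  ext z
  congr 1
  ext a
  simp only [mem_preimage, Phi_mem_lens hr ht, mem_ofPred_eq]

lemma measurable_cap (r t : ℝ) : Measurable (cap r t) := by
  unfold cap; fun_prop

lemma lens_identity {n : ℕ} {σ σ' r t : ℝ} (hσ : r < σ) (hσσ : σ ≤ σ') (hr : 0 < r) (ht : r < t) :
    volume (lens n σ r t) = volume (lens n σ' r t)
      + ∫⁻ u in Ioo σ σ', volume (ball (0 : E n) (√(cap r t u))) := by
  have hmeasS : MeasurableSet {p : ℝ × E n | p.1 ∈ Ioo σ σ' ∧ ‖p.2‖ ^ 2 < cap r t p.1} := by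
    apply MeasurableSet.inter
    · exact measurable_fst measurableSet_Ioo
    · exact measurableSet_lt (by fun_prop) ((measurable_cap r t).comp measurable_fst)
  rw [volume_lens hr (hr.trans ht), volume_lens hr (hr.trans ht)]
  have h1 : ∫⁻ z : E n, volume {a : ℝ | (a - σ) ^ 2 + ‖z‖ ^ 2 < r ^ 2 ∧ a ^ 2 + ‖z‖ ^ 2 < t ^ 2}
      = ∫⁻ z : E n, (volume {a : ℝ | (a - σ') ^ 2 + ‖z‖ ^ 2 < r ^ 2 ∧ a ^ 2 + ‖z‖ ^ 2 < t ^ 2}
        + volume {u : ℝ | u ∈ Ioo σ σ' ∧ ‖z‖ ^ 2 < cap r t u}) := by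
    congr 1
    ext z
    exact slice_identity hσ hσσ hr ht (by positivity)
  have hmeas2 : Measurable (fun z : E n => volume {u : ℝ | u ∈ Ioo σ σ' ∧ ‖z‖ ^ 2 < cap r t u}) :=
    measurable_measure_prodMk_right hmeasS
  rw [h1, lintegral_add_right _ hmeas2]
  congr 1
  have h2 : ∫⁻ z : E n, volume {u : ℝ | u ∈ Ioo σ σ' ∧ ‖z‖ ^ 2 < cap r t u}
      = (volume.prod volume) {p : ℝ × E n | p.1 ∈ Ioo σ σ' ∧ ‖p.2‖ ^ 2 < cap r t p.1} := by
    rw [Measure.prod_apply_symm hmeasS]
    rfl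
  rw [h2, Measure.prod_apply hmeasS, ← lintegral_indicator measurableSet_Ioo]
  congr 1
  ext u
  by_cases hu : u ∈ Ioo σ σ'
  · rw [indicator_of_mem hu]
    congr 1
    ext z
    simp only [mem_preimage, mem_ofPred_eq, hu, true_and, mem_ball, dist_zero_right]
    rw [Real.lt_sqrt (norm_nonneg _)]
  · rw [indicator_of_notMem hu]
    have : (Prod.mk u ⁻¹' {p : ℝ × E n | p.1 ∈ Ioo σ σ' ∧ ‖p.2‖ ^ 2 < cap r t p.1}) = ∅ := by
      ext z; simp only [mem_preimage, mem_ofPred_eq, hu, false_and, mem_empty_iff_false]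
    rw [this, measure_empty]

/-- Volume of the unit ball. -/
def om (n : ℕ) : ℝ := (volume (ball (0 : E n) 1)).toReal

lemma om_pos (n : ℕ) : 0 < om n :=
  ENNReal.toReal_pos (measure_ball_pos _ _ one_pos).ne' measure_ball_lt_top.ne

lemma volume_ball_toReal {n : ℕ} (x : E (n + 1)) {r : ℝ} (hr : 0 ≤ r) :
    (volume (ball x r)).toReal = r ^ (n + 1) * om (n + 1) := by
  rw [Measure.addHaar_ball _ _ hr, ENNReal.toReal_mul, ENNReal.toReal_ofReal (by positivity)]
  simp only [finrank_euclideanSpace, Fintype.card_fin, om]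

lemma lens_sub {n : ℕ} {σ σ' r t : ℝ} (hσ : r < σ) (hσσ : σ ≤ σ') (hr : 0 < r) (ht : r < t) :
    (volume (lens (n + 1) σ r t)).toReal - (volume (lens (n + 1) σ' r t)).toReal
      = ∫ u in σ..σ', om (n + 1) * √(cap r t u) ^ (n + 1) := by
  have h := lens_identity (n := n + 1) hσ hσσ hr ht
  have fin : ∀ s, volume (lens (n + 1) s r t) ≠ ∞ := fun s =>
    ne_top_of_le_ne_top measure_ball_lt_top.ne (measure_mono inter_subset_left)
  have h3 : ∫⁻ u in Ioo σ σ', volume (ball (0 : E (n + 1)) (√(cap r t u))) ≠ ∞ := by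
    intro hc
    rw [hc] at h
    exact fin σ (by rw [h]; simp)
  rw [h, ENNReal.toReal_add (fin σ') h3, add_sub_cancel_left,
    intervalIntegral.integral_of_le hσσ, ← integral_toReal]
  · rw [integral_Ioc_eq_integral_Ioo]
    congr 1
    ext u
    rw [volume_ball_toReal _ (Real.sqrt_nonneg _)]
    ring
  · have : (fun u => volume (ball (0 : E (n + 1)) (√(cap r t u))))
      = fun u => ENNReal.ofReal (√(cap r t u) ^ (n + 1)) * volume (ball (0 : E (n + 1)) 1) := by
      ext u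
      rw [Measure.addHaar_ball _ _ (Real.sqrt_nonneg _)]
      simp only [finrank_euclideanSpace, Fintype.card_fin, Real.sqrt_nonneg, ENNReal.ofReal_pow]
    rw [this]
    have := measurable_cap r t
    (clear * - this; fun_prop)
  · filter_upwards with u using measure_ball_lt_top

end

end Vale.Agent.P137
end
end

section

section

open MeasureTheory Set intervalIntegral

namespace Vale.Agent.P137

noncomputable section

/-- The net increment of a primitive of `φ` over `[a, b]`. -/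
def inc (φ : ℝ → ℝ) (a b : ℝ) : ℝ := ∫ t in a..b, φ t

/-- The total variation of a primitive of `φ` over `[a, b]`. -/
def tv (φ : ℝ → ℝ) (a b : ℝ) : ℝ := ∫ t in a..b, |φ t|

/-- The defect of additivity of the absolute increment when `[a, b]` is halved. -/
def ee (φ : ℝ → ℝ) (a b : ℝ) : ℝ :=
  (|inc φ a ((a + b) / 2)| + |inc φ ((a + b) / 2) b| - |inc φ a b|) / 2

/-- The weight `2 ^ (-1/2)`. -/
def qq : ℝ := (Real.sqrt 2)⁻¹

/-- Weighted sum of the defects over the first `n` dyadic generations of `[a, b]`. -/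
def NN (φ : ℝ → ℝ) : ℕ → ℝ → ℝ → ℝ
  | 0, _, _ => 0
  | n + 1, a, b => ee φ a b + qq * (NN φ n a ((a + b) / 2) + NN φ n ((a + b) / 2) b)

lemma qq_pos : 0 < qq := by unfold qq; positivity

lemma qq_sq : qq * qq = 1 / 2 := by
  unfold qq
  rw [← mul_inv, Real.mul_self_sqrt (by norm_num)]; norm_num

lemma qq_lt_one : qq < 1 := by
  have h := qq_sq
  have h0 := qq_pos
  by_contra hc
  push Not at hc
  nlinarith only [h, hc]

lemma sqrt_half (x : ℝ) : Real.sqrt (x / 2) = Real.sqrt x * qq := by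
  unfold qq
  rw [Real.sqrt_div' x (by norm_num : (0:ℝ) ≤ 2), div_eq_mul_inv]

lemma min_mul_eq (m M D : ℝ) (h : m ≤ M) :
    min (m * D) (M * D) = (m + M) / 2 * D - (M - m) / 2 * |D| := by
  rcases le_total 0 D with hD | hD
  · rw [abs_of_nonneg hD, min_eq_left (mul_le_mul_of_nonneg_right h hD)]; ring
  · rw [abs_of_nonpos hD, min_eq_right (mul_le_mul_of_nonpos_right h hD)]; ring

lemma inc_add {φ : ℝ → ℝ} {a b c : ℝ} (h1 : IntervalIntegrable φ volume a b)
    (h2 : IntervalIntegrable φ volume b c) : inc φ a b + inc φ b c = inc φ a c :=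
  intervalIntegral.integral_add_adjacent_intervals h1 h2

lemma tv_add {φ : ℝ → ℝ} {a b c : ℝ} (h1 : IntervalIntegrable φ volume a b)
    (h2 : IntervalIntegrable φ volume b c) : tv φ a b + tv φ b c = tv φ a c :=
  intervalIntegral.integral_add_adjacent_intervals h1.abs h2.abs

lemma abs_inc_le_tv {φ : ℝ → ℝ} {a b : ℝ} (hab : a ≤ b) : |inc φ a b| ≤ tv φ a b := by
  unfold inc tv
  exact intervalIntegral.abs_integral_le_integral_abs hab

lemma tv_nonneg {φ : ℝ → ℝ} {a b : ℝ} (hab : a ≤ b) : 0 ≤ tv φ a b :=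
  intervalIntegral.integral_nonneg hab (fun _ _ => abs_nonneg _)

lemma ee_nonneg {φ : ℝ → ℝ} {a b : ℝ} (h : IntervalIntegrable φ volume a b) (hab : a ≤ b) :
    0 ≤ ee φ a b := by
  have h1 : IntervalIntegrable φ volume a ((a + b) / 2) :=
    h.mono_set (by rw [uIcc_of_le (by linarith only [hab]), uIcc_of_le hab]; exact Icc_subset_Icc_right (by linarith only [hab]))
  have h2 : IntervalIntegrable φ volume ((a + b) / 2) b :=
    h.mono_set (by rw [uIcc_of_le (by linarith only [hab]), uIcc_of_le hab]; exact Icc_subset_Icc_left (by linarith only [hab]))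
  have := inc_add h1 h2
  unfold ee
  rw [← this]
  have := abs_add_le (inc φ a ((a + b) / 2)) (inc φ ((a + b) / 2) b)
  linarith only [this]

lemma NN_nonneg {φ : ℝ → ℝ} (n : ℕ) : ∀ {a b : ℝ}, IntervalIntegrable φ volume a b → a ≤ b →
    0 ≤ NN φ n a b := by
  induction n with
  | zero => intro a b _ _; simp only [NN, Std.le_refl]
  | succ n ih =>
    intro a b h hab
    have h1 : IntervalIntegrable φ volume a ((a + b) / 2) :=
      h.mono_set (by rw [uIcc_of_le (by linarith only [hab]), uIcc_of_le hab]; exact Icc_subset_Icc_right (by linarith only [hab]))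
    have h2 : IntervalIntegrable φ volume ((a + b) / 2) b :=
      h.mono_set (by rw [uIcc_of_le (by linarith only [hab]), uIcc_of_le hab]; exact Icc_subset_Icc_left (by linarith only [hab]))
    have i1 := ih h1 (by linarith only [hab])
    have i2 := ih h2 (by linarith only [hab])
    have := ee_nonneg h hab
    have := qq_pos
    simp only [NN]
    positivity

/-- A Stieltjes type lower bound: if `T` is Hölder-`1/2` on `[a,b]` with values in `[m, M]`
then `∫ T dF` is at least `min (m ΔF) (M ΔF)` up to the dyadic non-monotonicity of `F`. -/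
theorem stieltjes_lower (φ T : ℝ → ℝ) (K : ℝ) (hK : 0 ≤ K) (n : ℕ) :
    ∀ a b : ℝ, a ≤ b → IntervalIntegrable φ volume a b →
      (∀ s ∈ Icc a b, ∀ t ∈ Icc a b, |T s - T t| ≤ K * Real.sqrt |s - t|) →
      ∀ m M : ℝ, (∀ t ∈ Icc a b, m ≤ T t ∧ T t ≤ M) →
      min (m * inc φ a b) (M * inc φ a b)
        - K * Real.sqrt (b - a) * (NN φ n a b + qq ^ n * tv φ a b) ≤ ∫ t in a..b, T t * φ t := by
  induction n with
  | zero =>
    intro a b hab hφ hT m M hmM
    have hTc : ContinuousOn T (Icc a b) := by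
      rw [Metric.continuousOn_iff]
      intro x hx ε hε
      refine ⟨(ε / (K + 1)) ^ 2, by positivity, fun y hy hxy => ?_⟩
      rw [Real.dist_eq] at hxy ⊢
      calc |T y - T x| ≤ K * Real.sqrt |y - x| := hT y hy x hx
        _ ≤ K * (ε / (K + 1)) := by
            apply mul_le_mul_of_nonneg_left _ hK
            rw [← Real.sqrt_sq (by positivity : 0 ≤ ε / (K + 1))]
            exact Real.sqrt_le_sqrt hxy.le
        _ < ε := by
            rw [mul_div_assoc', div_lt_iff₀ (by positivity)]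
            linarith only [hε]
    obtain ⟨xm, hxm, hxm'⟩ := isCompact_Icc.exists_isMinOn (nonempty_Icc.2 hab) hTc
    obtain ⟨xM, hxM, hxM'⟩ := isCompact_Icc.exists_isMaxOn (nonempty_Icc.2 hab) hTc
    have hosc : T xM - T xm ≤ K * Real.sqrt (b - a) := by
      have h1 := hT xM hxM xm hxm
      have h2 : Real.sqrt |xM - xm| ≤ Real.sqrt (b - a) := by
        apply Real.sqrt_le_sqrt
        rw [abs_le]; constructor <;> linarith only [hxm.1, hxm.2, hxM.1, hxM.2]
      have h3 := le_abs_self (T xM - T xm)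
      nlinarith only [hK, h1, h2, h3]
    have hTφ : IntervalIntegrable (fun t => T t * φ t) volume a b := by
      apply hφ.continuousOn_mul
      rwa [uIcc_of_le hab]
    have hV : 0 ≤ tv φ a b := tv_nonneg hab
    have hmin : min (m * inc φ a b) (M * inc φ a b)
        ≤ min (T xm * inc φ a b) (T xM * inc φ a b) := by
      rcases le_total 0 (inc φ a b) with hD | hD
      · apply le_min
        · exact (min_le_left _ _).trans (mul_le_mul_of_nonneg_right (hmM xm hxm).1 hD)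
        · exact (min_le_left _ _).trans (mul_le_mul_of_nonneg_right (hmM xM hxM).1 hD)
      · apply le_min
        · exact (min_le_right _ _).trans (mul_le_mul_of_nonpos_right (hmM xm hxm).2 hD)
        · exact (min_le_right _ _).trans (mul_le_mul_of_nonpos_right (hmM xM hxM).2 hD)
    have key : T xm * inc φ a b - (T xM - T xm) * tv φ a b ≤ ∫ t in a..b, T t * φ t := by
      have e1 : T xm * inc φ a b - (T xM - T xm) * tv φ a b
          = ∫ t in a..b, (T xm * φ t - (T xM - T xm) * |φ t|) := by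
        rw [intervalIntegral.integral_sub (hφ.const_mul _) (hφ.abs.const_mul _),
          intervalIntegral.integral_const_mul, intervalIntegral.integral_const_mul]
        rfl
      rw [e1]
      apply intervalIntegral.integral_mono_on hab ((hφ.const_mul _).sub (hφ.abs.const_mul _)) hTφ
      intro t ht
      have h1 : T xm ≤ T t := hxm' ht
      have h2 : T t ≤ T xM := hxM' ht
      have h3 : -|φ t| ≤ φ t := neg_abs_le _
      have h4 : 0 ≤ |φ t| := abs_nonneg _
      nlinarith only [h1, h2, h3, h4]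
    have : min (T xm * inc φ a b) (T xM * inc φ a b) ≤ T xm * inc φ a b := min_le_left _ _
    simp only [NN, pow_zero, one_mul, zero_add]
    nlinarith only [hosc, hV, hmin, key, this]
  | succ n ih =>
    intro a b hab hφ hT m M hmM
    have hTc : ContinuousOn T (Icc a b) := by
      rw [Metric.continuousOn_iff]
      intro x hx ε hε
      refine ⟨(ε / (K + 1)) ^ 2, by positivity, fun y hy hxy => ?_⟩
      rw [Real.dist_eq] at hxy ⊢
      calc |T y - T x| ≤ K * Real.sqrt |y - x| := hT y hy x hx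
        _ ≤ K * (ε / (K + 1)) := by
            apply mul_le_mul_of_nonneg_left _ hK
            rw [← Real.sqrt_sq (by positivity : 0 ≤ ε / (K + 1))]
            exact Real.sqrt_le_sqrt hxy.le
        _ < ε := by
            rw [mul_div_assoc', div_lt_iff₀ (by positivity)]
            linarith only [hε]
    obtain ⟨xm, hxm, hxm'⟩ := isCompact_Icc.exists_isMinOn (nonempty_Icc.2 hab) hTc
    obtain ⟨xM, hxM, hxM'⟩ := isCompact_Icc.exists_isMaxOn (nonempty_Icc.2 hab) hTc
    have hosc : T xM - T xm ≤ K * Real.sqrt (b - a) := by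
      have h1 := hT xM hxM xm hxm
      have h2 : Real.sqrt |xM - xm| ≤ Real.sqrt (b - a) := by
        apply Real.sqrt_le_sqrt
        rw [abs_le]; constructor <;> linarith only [hxm.1, hxm.2, hxM.1, hxM.2]
      have h3 := le_abs_self (T xM - T xm)
      nlinarith only [hK, h1, h2, h3]
    have hle : T xm ≤ T xM := hxm' hxM
    set c := (a + b) / 2 with hc
    have hac : a ≤ c := by rw [hc]; linarith only [hab]
    have hcb : c ≤ b := by rw [hc]; linarith only [hab]
    have h1 : IntervalIntegrable φ volume a c :=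
      hφ.mono_set (by rw [uIcc_of_le hac, uIcc_of_le hab]; exact Icc_subset_Icc_right hcb)
    have h2 : IntervalIntegrable φ volume c b :=
      hφ.mono_set (by rw [uIcc_of_le hcb, uIcc_of_le hab]; exact Icc_subset_Icc_left hac)
    have hTφ1 : IntervalIntegrable (fun t => T t * φ t) volume a c := by
      apply h1.continuousOn_mul
      rw [uIcc_of_le hac]; exact hTc.mono (Icc_subset_Icc_right hcb)
    have hTφ2 : IntervalIntegrable (fun t => T t * φ t) volume c b := by
      apply h2.continuousOn_mul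
      rw [uIcc_of_le hcb]; exact hTc.mono (Icc_subset_Icc_left hac)
    have I1 := ih a c hac h1
      (fun s hs t ht => hT s ⟨hs.1, hs.2.trans hcb⟩ t ⟨ht.1, ht.2.trans hcb⟩)
      (T xm) (T xM) (fun t ht => ⟨hxm' ⟨ht.1, ht.2.trans hcb⟩, hxM' ⟨ht.1, ht.2.trans hcb⟩⟩)
    have I2 := ih c b hcb h2
      (fun s hs t ht => hT s ⟨hac.trans hs.1, hs.2⟩ t ⟨hac.trans ht.1, ht.2⟩)
      (T xm) (T xM) (fun t ht => ⟨hxm' ⟨hac.trans ht.1, ht.2⟩, hxM' ⟨hac.trans ht.1, ht.2⟩⟩)
    have s1 : Real.sqrt (c - a) = Real.sqrt (b - a) * qq := by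
      rw [← sqrt_half]; congr 1; rw [hc]; ring
    have s2 : Real.sqrt (b - c) = Real.sqrt (b - a) * qq := by
      rw [← sqrt_half]; congr 1; rw [hc]; ring
    rw [s1] at I1
    rw [s2] at I2
    rw [← intervalIntegral.integral_add_adjacent_intervals hTφ1 hTφ2]
    have hmin : min (m * inc φ a b) (M * inc φ a b)
        ≤ min (T xm * inc φ a b) (T xM * inc φ a b) := by
      rcases le_total 0 (inc φ a b) with hD | hD
      · apply le_min
        · exact (min_le_left _ _).trans (mul_le_mul_of_nonneg_right (hmM xm hxm).1 hD)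
        · exact (min_le_left _ _).trans (mul_le_mul_of_nonneg_right (hmM xM hxM).1 hD)
      · apply le_min
        · exact (min_le_right _ _).trans (mul_le_mul_of_nonpos_right (hmM xm hxm).2 hD)
        · exact (min_le_right _ _).trans (mul_le_mul_of_nonpos_right (hmM xM hxM).2 hD)
    rw [min_mul_eq _ _ _ hle] at I1 I2 hmin
    have hinc := inc_add h1 h2
    have htv := tv_add h1 h2
    have hee : ee φ a b = (|inc φ a c| + |inc φ c b| - |inc φ a b|) / 2 := rfl
    have heen : 0 ≤ ee φ a b := ee_nonneg hφ hab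
    have hNN : NN φ (n + 1) a b = ee φ a b + qq * (NN φ n a c + NN φ n c b) := rfl
    rw [hNN]
    have e3 : (T xM - T xm) * ee φ a b ≤ K * Real.sqrt (b - a) * ee φ a b :=
      mul_le_mul_of_nonneg_right hosc heen
    have e4 : qq ^ (n + 1) * tv φ a b = qq * (qq ^ n * tv φ a c + qq ^ n * tv φ c b) := by
      rw [← htv]; ring
    rw [e4]
    have e5 : (T xm + T xM) / 2 * inc φ a b = (T xm + T xM) / 2 * inc φ a c
        + (T xm + T xM) / 2 * inc φ c b := by rw [← hinc]; ring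
    have e6 : (T xM - T xm) * ee φ a b = (T xM - T xm) / 2 * |inc φ a c|
        + (T xM - T xm) / 2 * |inc φ c b| - (T xM - T xm) / 2 * |inc φ a b| := by
      rw [hee]; ring
    linarith only [e5, e6, I1, I2, hmin, e3]

end

end Vale.Agent.P137
end
end

section

section

open MeasureTheory Set intervalIntegral

namespace Vale.Agent.P137

noncomputable section

lemma sum_two_children (g : ℕ → ℝ) (hg : ∀ j, 0 ≤ g j) (N : ℕ) :
    ∑ i ∈ Finset.range N, (g (2 * i) + g (2 * i + 5)) ≤ ∑ j ∈ Finset.range (2 * N + 4), g j := by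
  rw [Finset.sum_add_distrib]
  have e1 : ∑ i ∈ Finset.range N, g (2 * i) = ∑ j ∈ (Finset.range N).image (fun i => 2 * i), g j := by
    rw [Finset.sum_image]
    intro a _ b _ h
    simpa only [mul_eq_mul_left_iff, OfNat.ofNat_ne_zero, or_false] using h
  have e2 : ∑ i ∈ Finset.range N, g (2 * i + 5)
      = ∑ j ∈ (Finset.range N).image (fun i => 2 * i + 5), g j := by
    rw [Finset.sum_image]
    intro a _ b _ h
    simpa only [Nat.add_right_cancel_iff, mul_eq_mul_left_iff, OfNat.ofNat_ne_zero, or_false] using h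
  rw [e1, e2, ← Finset.sum_union]
  · apply Finset.sum_le_sum_of_subset_of_nonneg
    · intro j hj
      simp only [Finset.mem_union, Finset.mem_image, Finset.mem_range] at hj ⊢
      rcases hj with ⟨a, ha, rfl⟩ | ⟨a, ha, rfl⟩ <;> omega
    · intro j _ _; exact hg j
  · rw [Finset.disjoint_left]
    intro j hj hj'
    simp only [Finset.mem_image, Finset.mem_range] at hj hj'
    obtain ⟨a, _, rfl⟩ := hj
    obtain ⟨b, _, hb⟩ := hj'
    omega

/-- The length of the generation `k` intervals. -/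
def hh (h0 : ℝ) (k : ℕ) : ℝ := h0 / 2 ^ k

lemma hh_pos {h0 : ℝ} (h : 0 < h0) (k : ℕ) : 0 < hh h0 k := by unfold hh; positivity

lemma hh_succ (h0 : ℝ) (k : ℕ) : hh h0 k = 2 * hh h0 (k + 1) := by
  unfold hh; rw [pow_succ]; field_simp

/-- Level sums of absolute increments. -/
def XX (φ : ℝ → ℝ) (x0 h0 : ℝ) (k N : ℕ) : ℝ :=
  ∑ i ∈ Finset.range N, |inc φ (x0 + i * hh h0 k) (x0 + (i + 5) * hh h0 k)|

/-- Level sums of the weighted defects. -/
def ZZ (φ : ℝ → ℝ) (x0 h0 : ℝ) (n k N : ℕ) : ℝ :=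
  ∑ i ∈ Finset.range N, NN φ n (x0 + i * hh h0 k) (x0 + (i + 5) * hh h0 k)

lemma XX_nonneg (φ : ℝ → ℝ) (x0 h0 : ℝ) (k N : ℕ) : 0 ≤ XX φ x0 h0 k N :=
  Finset.sum_nonneg (fun _ _ => abs_nonneg _)

lemma sum_tv_shift {φ : ℝ → ℝ} (hφ : Integrable φ) {x h : ℝ} (hh : 0 ≤ h) (N : ℕ) :
    ∑ i ∈ Finset.range N, tv φ (x + i * h) (x + (i + 1) * h) ≤ ∫ t, |φ t| := by
  have e : ∑ i ∈ Finset.range N, tv φ (x + i * h) (x + (i + 1) * h)
      = ∫ t in (x + (0:ℕ) * h)..(x + (N:ℕ) * h), |φ t| := by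
    have := intervalIntegral.sum_integral_adjacent_intervals (f := fun t => |φ t|) (μ := volume)
      (a := fun i : ℕ => x + i * h) (n := N) (fun k _ => hφ.abs.intervalIntegrable)
    rw [← this]
    apply Finset.sum_congr rfl
    intro i _
    unfold tv
    push_cast
    rfl
  rw [e, intervalIntegral.integral_of_le (by push_cast; nlinarith only [hh])]
  exact setIntegral_le_integral hφ.abs (Filter.Eventually.of_forall (fun _ => abs_nonneg _))

lemma XX_le {φ : ℝ → ℝ} (hφ : Integrable φ) {x0 h0 : ℝ} (h : 0 < h0) (k N : ℕ) :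
    XX φ x0 h0 k N ≤ 5 * ∫ t, |φ t| := by
  have hp := (hh_pos h k).le
  have key : ∀ i ∈ Finset.range N, |inc φ (x0 + i * hh h0 k) (x0 + (i + 5) * hh h0 k)| ≤
      tv φ ((x0) + i * hh h0 k) ((x0) + (i + 1) * hh h0 k)
      + tv φ ((x0 + hh h0 k) + i * hh h0 k) ((x0 + hh h0 k) + (i + 1) * hh h0 k)
      + tv φ ((x0 + 2 * hh h0 k) + i * hh h0 k) ((x0 + 2 * hh h0 k) + (i + 1) * hh h0 k)
      + tv φ ((x0 + 3 * hh h0 k) + i * hh h0 k) ((x0 + 3 * hh h0 k) + (i + 1) * hh h0 k)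
      + tv φ ((x0 + 4 * hh h0 k) + i * hh h0 k) ((x0 + 4 * hh h0 k) + (i + 1) * hh h0 k) := by
    intro i _
    have hi : ∀ a b : ℝ, IntervalIntegrable φ volume a b := fun a b => hφ.intervalIntegrable
    have e1 : (x0 + hh h0 k) + i * hh h0 k = (x0) + (i + 1) * hh h0 k := by ring
    have e2 : (x0 + 2 * hh h0 k) + i * hh h0 k = (x0 + hh h0 k) + (i + 1) * hh h0 k := by ring
    have e3 : (x0 + 3 * hh h0 k) + i * hh h0 k = (x0 + 2 * hh h0 k) + (i + 1) * hh h0 k := by ring
    have e4 : (x0 + 4 * hh h0 k) + i * hh h0 k = (x0 + 3 * hh h0 k) + (i + 1) * hh h0 k := by ring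
    rw [e1, tv_add (hi _ _) (hi _ _), e2, tv_add (hi _ _) (hi _ _), e3, tv_add (hi _ _) (hi _ _),
      e4, tv_add (hi _ _) (hi _ _)]
    have e5 : x0 + 4 * hh h0 k + (i + 1) * hh h0 k = x0 + (i + 5) * hh h0 k := by ring
    rw [e5]
    apply abs_inc_le_tv
    linarith only [hp]
  unfold XX
  refine (Finset.sum_le_sum key).trans ?_
  simp only [Finset.sum_add_distrib]
  have a0 := sum_tv_shift hφ (x := x0) hp N
  have a1 := sum_tv_shift hφ (x := x0 + hh h0 k) hp N
  have a2 := sum_tv_shift hφ (x := x0 + 2 * hh h0 k) hp N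
  have a3 := sum_tv_shift hφ (x := x0 + 3 * hh h0 k) hp N
  have a4 := sum_tv_shift hφ (x := x0 + 4 * hh h0 k) hp N
  linarith only [a0, a1, a2, a3, a4]

lemma mid_eq (x0 h0 : ℝ) (k i : ℕ) :
    ((x0 + i * hh h0 k) + (x0 + (i + 5) * hh h0 k)) / 2 = x0 + (2 * i + 5) * hh h0 (k + 1) := by
  rw [hh_succ]; ring

lemma ZZ_succ {φ : ℝ → ℝ} (hφ : Integrable φ) {x0 h0 : ℝ} (h : 0 < h0) (n k N : ℕ) :
    ZZ φ x0 h0 (n + 1) k N ≤
      (XX φ x0 h0 (k + 1) (2 * N + 4) - XX φ x0 h0 k N) / 2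
        + qq * ZZ φ x0 h0 n (k + 1) (2 * N + 4) := by
  have hp := (hh_pos h (k + 1)).le
  have l1 := sum_two_children (fun j => |inc φ (x0 + j * hh h0 (k + 1)) (x0 + (j + 5) * hh h0 (k + 1))|)
    (fun j => abs_nonneg _) N
  have l2 := sum_two_children (fun j => NN φ n (x0 + j * hh h0 (k + 1)) (x0 + (j + 5) * hh h0 (k + 1)))
    (fun j => NN_nonneg n hφ.intervalIntegrable (by linarith only [hp])) N
  have e : ZZ φ x0 h0 (n + 1) k N =
      (∑ i ∈ Finset.range N,
        (|inc φ (x0 + (2 * i : ℕ) * hh h0 (k + 1)) (x0 + ((2 * i : ℕ) + 5) * hh h0 (k + 1))|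
        + |inc φ (x0 + (2 * i + 5 : ℕ) * hh h0 (k + 1)) (x0 + ((2 * i + 5 : ℕ) + 5) * hh h0 (k + 1))|)
        - XX φ x0 h0 k N) / 2
      + qq * ∑ i ∈ Finset.range N,
        (NN φ n (x0 + (2 * i : ℕ) * hh h0 (k + 1)) (x0 + ((2 * i : ℕ) + 5) * hh h0 (k + 1))
        + NN φ n (x0 + (2 * i + 5 : ℕ) * hh h0 (k + 1)) (x0 + ((2 * i + 5 : ℕ) + 5) * hh h0 (k + 1))) := by
    unfold ZZ XX
    rw [← Finset.sum_sub_distrib, Finset.sum_div, Finset.mul_sum, ← Finset.sum_add_distrib]
    apply Finset.sum_congr rfl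
    intro i _
    simp only [NN]
    unfold ee
    rw [mid_eq]
    have a1 : x0 + (i:ℝ) * hh h0 k = x0 + (2 * i : ℕ) * hh h0 (k + 1) := by
      rw [hh_succ]; push_cast; ring
    have a2 : x0 + ((i:ℝ) + 5) * hh h0 k = x0 + ((2 * i + 5 : ℕ) + 5) * hh h0 (k + 1) := by
      rw [hh_succ]; push_cast; ring
    rw [a1, a2]
    push_cast
    ring_nf
  rw [e]
  have hq := qq_pos
  have l1' := l1
  have l2' := mul_le_mul_of_nonneg_left l2 hq.le
  unfold XX ZZ at *
  linarith only [l1', l2']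

/-- Number of intervals needed at each generation. -/
def lev : ℕ → ℕ → ℕ
  | N, 0 => N
  | N, j + 1 => lev (2 * N + 4) j

lemma lev_succ (N j : ℕ) : lev N (j + 1) = 2 * lev N j + 4 := by
  induction j generalizing N with
  | zero => simp [lev]
  | succ j ih =>
    rw [lev, ih]; rfl

/-- The sum over all scales and positions of the weighted defects is bounded
by the total variation. -/
theorem forest_sum {φ : ℝ → ℝ} (hφ : Integrable φ) {x0 h0 : ℝ} (h : 0 < h0) (n : ℕ) :
    ∀ K k0 N : ℕ, ∑ j ∈ Finset.range K, ZZ φ x0 h0 n (k0 + j) (lev N j)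
      ≤ 1 / (2 * (1 - qq)) * (5 * ∫ t, |φ t|) := by
  have hq := qq_pos
  have hq1 := qq_lt_one
  have hV : 0 ≤ 5 * ∫ t, |φ t| := by
    have := integral_nonneg (μ := volume) (f := fun t => |φ t|) (fun _ => abs_nonneg _)
    linarith only [this]
  have hc : 0 ≤ 1 / (2 * (1 - qq)) := by
    apply div_nonneg (by norm_num); linarith only [hq1]
  induction n with
  | zero =>
    intro K k0 N
    simp only [ZZ, NN, Finset.sum_const_zero]
    (clear * - hq1; positivity)
  | succ n ih =>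
    intro K k0 N
    calc ∑ j ∈ Finset.range K, ZZ φ x0 h0 (n + 1) (k0 + j) (lev N j)
        ≤ ∑ j ∈ Finset.range K, ((XX φ x0 h0 (k0 + (j + 1)) (lev N (j + 1))
            - XX φ x0 h0 (k0 + j) (lev N j)) / 2
            + qq * ZZ φ x0 h0 n (k0 + 1 + j) (lev (2 * N + 4) j)) := by
          apply Finset.sum_le_sum
          intro j _
          have := ZZ_succ hφ h n (k0 + j) (lev N j) (x0 := x0)
          rw [← lev_succ] at this
          have e : k0 + j + 1 = k0 + 1 + j := by ring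
          rw [show k0 + (j + 1) = k0 + j + 1 by ring]
          rw [show lev (2 * N + 4) j = lev N (j + 1) from rfl]
          rw [← e]
          exact this
      _ = (XX φ x0 h0 (k0 + K) (lev N K) - XX φ x0 h0 (k0 + 0) (lev N 0)) / 2
            + qq * ∑ j ∈ Finset.range K, ZZ φ x0 h0 n (k0 + 1 + j) (lev (2 * N + 4) j) := by
          rw [Finset.sum_add_distrib, ← Finset.sum_div, Finset.mul_sum,
            Finset.sum_range_sub (fun j => XX φ x0 h0 (k0 + j) (lev N j))]
      _ ≤ (5 * ∫ t, |φ t|) / 2 + qq * (1 / (2 * (1 - qq)) * (5 * ∫ t, |φ t|)) := by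
          have a1 := XX_le hφ h (k0 + K) (lev N K) (x0 := x0)
          have a2 := XX_nonneg φ x0 h0 (k0 + 0) (lev N 0)
          have a3 := mul_le_mul_of_nonneg_left (ih K (k0 + 1) (2 * N + 4)) hq.le
          linarith only [a1, a2, a3]
      _ = 1 / (2 * (1 - qq)) * (5 * ∫ t, |φ t|) := by
          have : 1 - qq ≠ 0 := by linarith only [hq1]
          field_simp
          ring

end

end Vale.Agent.P137
end
end

section

section

open MeasureTheory Set intervalIntegral
open scoped ENNReal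

namespace Vale.Agent.P137

noncomputable section

lemma two_point {u H : ℝ → ℝ} {x y s ε : ℝ} (hs : s = 1 ∨ s = -1) (he : 0 ≤ ε * (y - x))
    (hu : -(ε * (y - x)) ≤ s * (u y - u x)) :
    |max (u y) (H y) - max (u x) (H x)| ≤ |H y - H x|
      + s * ((max (u y) (H y) - H y) - (max (u x) (H x) - H x)) + 2 * (ε * (y - x)) := by
  rcases hs with rfl | rfl
  · rcases le_total (u y) (H y) with h1 | h1 <;> rcases le_total (u x) (H x) with h2 | h2 <;>
    simp only [max_eq_left, max_eq_right, h1, h2] <;>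
    rcases abs_cases (H y - H x) with ⟨e1, e2⟩ | ⟨e1, e2⟩ <;> rw [e1] <;>
    (try rw [abs_le]; constructor) <;> linarith only [he, hu, h1, e2, h2]
  · rcases le_total (u y) (H y) with h1 | h1 <;> rcases le_total (u x) (H x) with h2 | h2 <;>
    simp only [max_eq_left, max_eq_right, h1, h2] <;>
    rcases abs_cases (H y - H x) with ⟨e1, e2⟩ | ⟨e1, e2⟩ <;> rw [e1] <;>
    (try rw [abs_le]; constructor) <;> linarith only [he, e2, h2, hu]

lemma eVariationOn_le_of_majorant {f P : ℝ → ℝ} {a b : ℝ} (hab : a ≤ b)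
    (h : ∀ x ∈ Icc a b, ∀ y ∈ Icc a b, x ≤ y → |f y - f x| ≤ P y - P x) :
    eVariationOn f (Icc a b) ≤ ENNReal.ofReal (P b - P a) := by
  have hmono : MonotoneOn P (Icc a b) := by
    intro x hx y hy hxy
    have := h x hx y hy hxy
    have := abs_nonneg (f y - f x)
    linarith
  unfold eVariationOn
  apply iSup_le
  rintro ⟨n, u, hu, hus⟩
  calc ∑ i ∈ Finset.range n, edist (f (u (i + 1))) (f (u i))
      ≤ ∑ i ∈ Finset.range n, ENNReal.ofReal (P (u (i + 1)) - P (u i)) := by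
        apply Finset.sum_le_sum
        intro i _
        rw [edist_dist, Real.dist_eq]
        exact ENNReal.ofReal_le_ofReal (h _ (hus i) _ (hus (i + 1)) (hu (Nat.le_succ i)))
    _ = ENNReal.ofReal (∑ i ∈ Finset.range n, (P (u (i + 1)) - P (u i))) := by
        rw [ENNReal.ofReal_sum_of_nonneg]
        intro i _
        have := hmono (hus i) (hus (i + 1)) (hu (Nat.le_succ i))
        linarith only [this]
    _ = ENNReal.ofReal (P (u n) - P (u 0)) := by
        rw [Finset.sum_range_sub (fun i => P (u i))]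
    _ ≤ ENNReal.ofReal (P b - P a) := by
        apply ENNReal.ofReal_le_ofReal
        have h1 := hmono (hus n) (right_mem_Icc.2 hab) (hus n).2
        have h2 := hmono (left_mem_Icc.2 hab) (hus 0) (hus 0).1
        linarith only [h1, h2]

lemma eVariationOn_Icc_add {f : ℝ → ℝ} {a b c : ℝ} (hab : a ≤ b) (hbc : b ≤ c) :
    eVariationOn f (Icc a b) + eVariationOn f (Icc b c) = eVariationOn f (Icc a c) := by
  have := eVariationOn.Icc_add_Icc f (s := univ) hab hbc (mem_univ b)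
  simpa only [univ_inter] using this

/-- The real-valued variation on an interval. -/
def var (f : ℝ → ℝ) (a b : ℝ) : ℝ := (eVariationOn f (Icc a b)).toReal

lemma fin_sub {f : ℝ → ℝ} {a b x y : ℝ} (hfin : eVariationOn f (Icc a b) ≠ ∞) (h1 : a ≤ x)
    (h2 : y ≤ b) : eVariationOn f (Icc x y) ≠ ∞ :=
  ne_top_of_le_ne_top hfin (eVariationOn.mono f (Icc_subset_Icc h1 h2))

lemma var_add {f : ℝ → ℝ} {a b c : ℝ} (hab : a ≤ b) (hbc : b ≤ c)
    (hfin : eVariationOn f (Icc a c) ≠ ∞) : var f a b + var f b c = var f a c := by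
  unfold var
  rw [← ENNReal.toReal_add (fin_sub hfin le_rfl hbc) (fin_sub hfin hab le_rfl),
    eVariationOn_Icc_add hab hbc]

lemma abs_sub_le_var {f : ℝ → ℝ} {a b : ℝ} (hab : a ≤ b)
    (hfin : eVariationOn f (Icc a b) ≠ ∞) : |f b - f a| ≤ var f a b := by
  have h3 : edist (f b) (f a) ≤ eVariationOn f (Icc a b) :=
    eVariationOn.edist_le f (right_mem_Icc.2 hab) (left_mem_Icc.2 hab)
  rw [← Real.dist_eq, dist_edist]
  exact ENNReal.toReal_mono hfin h3

lemma var_self (f : ℝ → ℝ) (a : ℝ) : var f a a = 0 := by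
  unfold var
  rw [eVariationOn.subsingleton f (by simp [Set.Subsingleton])]; simp

/-- One interval: the variation of `max u H` when `u` is nearly monotone. -/
lemma one_interval {u H : ℝ → ℝ} {a b s ε : ℝ} (hs : s = 1 ∨ s = -1) (hab : a ≤ b)
    (hε : 0 ≤ ε) (hfin : eVariationOn H (Icc a b) ≠ ∞)
    (hu : ∀ x ∈ Icc a b, ∀ y ∈ Icc a b, x ≤ y → -(ε * (y - x)) ≤ s * (u y - u x)) :
    eVariationOn (fun x => max (u x) (H x)) (Icc a b) ≠ ∞ ∧
    var (fun x => max (u x) (H x)) a b ≤ var H a b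
        + s * ((max (u b) (H b) - H b) - (max (u a) (H a) - H a)) + 2 * (ε * (b - a)) := by
  have hmaj : ∀ x ∈ Icc a b, ∀ y ∈ Icc a b, x ≤ y →
      |max (u y) (H y) - max (u x) (H x)| ≤
        (var H a y + s * (max (u y) (H y) - H y) + 2 * (ε * y))
        - (var H a x + s * (max (u x) (H x) - H x) + 2 * (ε * x)) := by
    intro x hx y hy hxy
    have h1 := two_point (H := H) hs (mul_nonneg hε (by linarith only [hxy])) (hu x hx y hy hxy)
    have e := var_add (f := H) hx.1 hxy (fin_sub hfin le_rfl hy.2)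
    have h4 := abs_sub_le_var hxy (fin_sub hfin hx.1 hy.2)
    linarith only [h1, e, h4]
  have h := eVariationOn_le_of_majorant (f := fun x => max (u x) (H x))
    (P := fun x => var H a x + s * (max (u x) (H x) - H x) + 2 * (ε * x)) hab hmaj
  refine ⟨ne_top_of_le_ne_top ENNReal.ofReal_ne_top h, ?_⟩
  have hnn := hmaj a (left_mem_Icc.2 hab) b (right_mem_Icc.2 hab) hab
  have hab0 := abs_nonneg (max (u b) (H b) - max (u a) (H a))
  have h5 := ENNReal.toReal_mono ENNReal.ofReal_ne_top h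
  rw [ENNReal.toReal_ofReal (by linarith only [hnn, hab0])] at h5
  unfold var at h5 ⊢
  refine h5.trans ?_
  have := var_self H a
  unfold var at this
  rw [this]
  linarith only

/-- Many intervals. -/
lemma many_intervals {u H : ℝ → ℝ} {a h : ℝ} (hh : 0 ≤ h) (s ε δ : ℕ → ℝ)
    (hs : ∀ i, s i = 1 ∨ s i = -1) (hε : ∀ i, 0 ≤ ε i) (hδ : ∀ i, 0 ≤ δ i) (N : ℕ)
    (hfin : eVariationOn H (Icc a (a + N * h)) ≠ ∞)
    (hu : ∀ i < N, ∀ x ∈ Icc (a + i * h) (a + (i + 1) * h), ∀ y ∈ Icc (a + i * h) (a + (i + 1) * h),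
      x ≤ y → -(ε i * (y - x)) ≤ s i * (u y - u x))
    (hj : ∀ i, i + 1 < N → s i = 1 → s (i + 1) = -1 →
      max (u (a + (i + 1) * h)) (H (a + (i + 1) * h)) - H (a + (i + 1) * h) ≤ δ (i + 1)) :
    ∀ m, 1 ≤ m → m ≤ N →
      eVariationOn (fun x => max (u x) (H x)) (Icc a (a + m * h)) ≠ ∞ ∧
      var (fun x => max (u x) (H x)) a (a + m * h) ≤ var H a (a + m * h)
        + (max (u a) (H a) - H a)
        + s (m - 1) * (max (u (a + m * h)) (H (a + m * h)) - H (a + m * h))
        + ∑ i ∈ Finset.range m, (2 * (ε i * h) + 2 * δ i) := by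
  intro m hm
  induction m, hm using Nat.le_induction with
  | base =>
    intro hN
    have h1 := one_interval (u := u) (H := H) (a := a) (b := a + (1:ℕ) * h) (hs 0)
      (by push_cast; linarith only [hh]) (hε 0)
      (fin_sub hfin le_rfl (by
        have : (1:ℝ) ≤ N := by exact_mod_cast hN
        push_cast; nlinarith only [hh, this]))
      (by
        intro x hx y hy hxy
        apply hu 0 (by omega) x _ y _ hxy
        · push_cast at hx ⊢; convert hx using 2 <;> ring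
        · push_cast at hy ⊢; convert hy using 2 <;> ring)
    refine ⟨h1.1, h1.2.trans ?_⟩
    simp only [Finset.sum_range_one, Nat.cast_one, one_mul, Nat.sub_self]
    have w0 : 0 ≤ max (u a) (H a) - H a := by have := le_max_right (u a) (H a); linarith only [this]
    have := hδ 0
    rcases hs 0 with e | e <;> rw [e] <;> linarith only [w0, this]
  | succ m hm ih =>
    intro hN
    obtain ⟨ihf, ih'⟩ := ih (by omega)
    have hmN : ((m:ℝ) + 1) ≤ N := by exact_mod_cast hN
    have hm0 : (0:ℝ) ≤ m := Nat.cast_nonneg m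
    have hfin2 : eVariationOn H (Icc a (a + (m + 1) * h)) ≠ ∞ :=
      fin_sub hfin le_rfl (by nlinarith only [hh, hmN])
    have h1 := one_interval (u := u) (H := H) (a := a + m * h) (b := a + (m + 1) * h) (hs m)
      (by linarith only [hh]) (hε m) (fin_sub hfin2 (by nlinarith only [hh]) le_rfl) (hu m (by (clear * - hN; omega)))
    have e1 : a + ((m + 1 : ℕ):ℝ) * h = a + (m + 1) * h := by push_cast; ring
    rw [e1]
    have hfv : eVariationOn (fun x => max (u x) (H x)) (Icc a (a + (m + 1) * h)) ≠ ∞ := by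
      rw [← eVariationOn_Icc_add (f := fun x => max (u x) (H x)) (b := a + m * h)
        (by nlinarith only [hh]) (by linarith only [hh])]
      exact ENNReal.add_ne_top.2 ⟨ihf, h1.1⟩
    refine ⟨hfv, ?_⟩
    rw [← var_add (f := fun x => max (u x) (H x)) (b := a + m * h)
      (by nlinarith only [hh]) (by linarith only [hh]) hfv,
      ← var_add (f := H) (b := a + m * h) (by nlinarith only [hh]) (by linarith only [hh]) hfin2]
    have wnn : ∀ x, 0 ≤ max (u x) (H x) - H x := fun x => by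
      have := le_max_right (u x) (H x); linarith only [this]
    have hjunc : s (m - 1) * (max (u (a + m * h)) (H (a + m * h)) - H (a + m * h))
        - s m * (max (u (a + m * h)) (H (a + m * h)) - H (a + m * h)) ≤ 2 * δ m := by
      have w := wnn (a + m * h)
      have hd := hδ m
      rcases hs (m - 1) with e | e <;> rcases hs m with e' | e' <;> rw [e, e']
      · linarith only [hd]
      · have := hj (m - 1) (by (clear * - hm hN; omega)) e (by rw [Nat.sub_add_cancel hm]; exact e')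
        have e3 : a + (((m - 1 : ℕ) : ℝ) + 1) * h = a + m * h := by
          rw [Nat.cast_sub hm]; push_cast; ring
        rw [e3, Nat.sub_add_cancel hm] at this
        linarith only [this]
      · linarith only [w, hd]
      · linarith only [hd]
    have h2 := h1.2
    rw [Finset.sum_range_succ]
    simp only [Nat.add_sub_cancel]
    have e5 : ε m * (a + (m + 1) * h - (a + m * h)) = ε m * h := by ring
    rw [e5] at h2
    linarith only [ih', hjunc, h2]

end

end Vale.Agent.P137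
end
end

section

section

open MeasureTheory Set intervalIntegral
open scoped ENNReal

namespace Vale.Agent.P137

noncomputable section

/-- The properties of the distribution functions `v ρ r t` of the norm of a uniform point of the
ball of radius `r` centered at distance `ρ` that are used in the one-dimensional argument. -/
structure IsKernel (v : ℝ → ℝ → ℝ → ℝ) (C0 : ℝ) : Prop where
  C0_nonneg : 0 ≤ C0
  nonneg : ∀ ρ r t, 0 ≤ v ρ r t
  le_one : ∀ ρ r t, v ρ r t ≤ 1
  zero : ∀ ρ ∈ Icc (1:ℝ) 2, ∀ r ∈ Ioc (0:ℝ) (1/16), ∀ t, t ≤ ρ - r → v ρ r t = 0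
  one : ∀ ρ ∈ Icc (1:ℝ) 2, ∀ r ∈ Ioc (0:ℝ) (1/16), ∀ t, ρ + r ≤ t → v ρ r t = 1
  anti : ∀ ρ ∈ Icc (1:ℝ) 2, ∀ ρ' ∈ Icc (1:ℝ) 2, ρ ≤ ρ' → ∀ r ∈ Ioc (0:ℝ) (1/16), ∀ t,
    v ρ' r t ≤ v ρ r t
  smooth : ∀ ρ ∈ Icc (1:ℝ) 2, ∀ ρ' ∈ Icc (1:ℝ) 2, ρ ≤ ρ' → ∀ r ∈ Ioc (0:ℝ) (1/16),
    ∀ s ∈ Icc (1/2:ℝ) 4, ∀ t ∈ Icc (1/2:ℝ) 4,
    |(v ρ r s - v ρ' r s) - (v ρ r t - v ρ' r t)| ≤ C0 * ((ρ' - ρ) / r) * Real.sqrt (|s - t| / r)
  holder : ∀ ρ ∈ Icc (1:ℝ) 2, ∀ r ∈ Ioc (0:ℝ) (1/16),
    ∀ s ∈ Icc (1/2:ℝ) 4, ∀ t ∈ Icc (1/2:ℝ) 4,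
    |v ρ r s - v ρ r t| ≤ C0 * Real.sqrt (|s - t| / r)

lemma inc_neg (φ : ℝ → ℝ) (a b : ℝ) : inc (fun t => -φ t) a b = - inc φ a b := by
  unfold inc; exact intervalIntegral.integral_neg

lemma tv_neg (φ : ℝ → ℝ) (a b : ℝ) : tv (fun t => -φ t) a b = tv φ a b := by
  unfold tv; simp only [abs_neg]

lemma ee_neg (φ : ℝ → ℝ) (a b : ℝ) : ee (fun t => -φ t) a b = ee φ a b := by
  unfold ee; simp only [inc_neg, abs_neg]

lemma NN_neg (φ : ℝ → ℝ) (n : ℕ) : ∀ a b : ℝ, NN (fun t => -φ t) n a b = NN φ n a b := by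
  induction n with
  | zero => intro a b; simp [NN]
  | succ n ih => intro a b; simp only [NN, ee_neg, ih]

/-- The error attached to an interval. -/
def MM (φ : ℝ → ℝ) (n : ℕ) (a b : ℝ) : ℝ := NN φ n a b + qq ^ n * tv φ a b

lemma MM_nonneg {φ : ℝ → ℝ} {a b : ℝ} (n : ℕ) (hφ : IntervalIntegrable φ volume a b) (hab : a ≤ b) :
    0 ≤ MM φ n a b := by
  unfold MM
  have := NN_nonneg n hφ hab
  have := tv_nonneg (φ := φ) hab
  have := qq_pos
  positivity

lemma MM_neg (φ : ℝ → ℝ) (n : ℕ) (a b : ℝ) : MM (fun t => -φ t) n a b = MM φ n a b := by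
  unfold MM; rw [NN_neg, tv_neg]

/-- Restricting an integral to the support. -/
lemma integral_support {g : ℝ → ℝ} {a b c d : ℝ} (hac : a ≤ c) (hcd : c ≤ d) (hdb : d ≤ b)
    (h1 : ∀ t ∈ Icc a c, g t = 0) (h2 : ∀ t ∈ Icc d b, g t = 0)
    (hg : IntervalIntegrable g volume c d) :
    ∫ t in a..b, g t = ∫ t in c..d, g t := by
  have i1 : ∫ t in a..c, g t = 0 := by
    rw [intervalIntegral.integral_congr (g := fun _ => (0:ℝ))]
    · simp
    · intro t ht; rw [uIcc_of_le hac] at ht; exact h1 t ht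
  have i2 : ∫ t in d..b, g t = 0 := by
    rw [intervalIntegral.integral_congr (g := fun _ => (0:ℝ))]
    · simp
    · intro t ht; rw [uIcc_of_le hdb] at ht; exact h2 t ht
  have I1 : IntervalIntegrable g volume a c := by
    apply (intervalIntegrable_const (c := (0:ℝ))).congr
    intro t ht
    rw [uIoc_of_le hac] at ht
    exact (h1 t ⟨ht.1.le, ht.2⟩).symm
  have I2 : IntervalIntegrable g volume d b := by
    apply (intervalIntegrable_const (c := (0:ℝ))).congr
    intro t ht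
    rw [uIoc_of_le hdb] at ht
    exact (h2 t ⟨ht.1.le, ht.2⟩).symm
  rw [← intervalIntegral.integral_add_adjacent_intervals (I1.trans hg) I2,
    ← intervalIntegral.integral_add_adjacent_intervals I1 hg, i1, i2]
  ring

/-- The relation between the averages `A ρ r` and the distribution functions. -/
def Represents (A : ℝ → ℝ → ℝ) (v : ℝ → ℝ → ℝ → ℝ) (φ : ℝ → ℝ) : Prop :=
  ∀ ρ ∈ Icc (1:ℝ) 2, ∀ ρ' ∈ Icc (1:ℝ) 2, ∀ r ∈ Ioc (0:ℝ) (1/16), ∀ r' ∈ Ioc (0:ℝ) (1/16),
    A ρ' r' - A ρ r = ∫ t in (1/2:ℝ)..4, (v ρ r t - v ρ' r' t) * φ t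

lemma Represents.neg {A : ℝ → ℝ → ℝ} {v : ℝ → ℝ → ℝ → ℝ} {φ : ℝ → ℝ} (h : Represents A v φ) :
    Represents (fun ρ r => -A ρ r) v (fun t => -φ t) := by
  intro ρ hρ ρ' hρ' r hr r' hr'
  have := h ρ hρ ρ' hρ' r hr r' hr'
  simp only [mul_neg, intervalIntegral.integral_neg, ← this]
  ring

lemma holder_cont {T : ℝ → ℝ} {K a b : ℝ} (hK : 0 ≤ K)
    (hT : ∀ s ∈ Icc a b, ∀ t ∈ Icc a b, |T s - T t| ≤ K * Real.sqrt |s - t|) :
    ContinuousOn T (Icc a b) := by
  rw [Metric.continuousOn_iff]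
  intro x hx ε hε
  refine ⟨(ε / (K + 1)) ^ 2, by positivity, fun y hy hxy => ?_⟩
  rw [Real.dist_eq] at hxy ⊢
  calc |T y - T x| ≤ K * Real.sqrt |y - x| := hT y hy x hx
    _ ≤ K * (ε / (K + 1)) := by
        apply mul_le_mul_of_nonneg_left _ hK
        rw [← Real.sqrt_sq (by positivity : 0 ≤ ε / (K + 1))]
        exact Real.sqrt_le_sqrt hxy.le
    _ < ε := by
        rw [mul_div_assoc', div_lt_iff₀ (by positivity)]
        linarith only [hε]

lemma near_mono {v : ℝ → ℝ → ℝ → ℝ} {C0 : ℝ} (hv : IsKernel v C0) {φ : ℝ → ℝ}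
    (hφ : Integrable φ) {A : ℝ → ℝ → ℝ} (hA : Represents A v φ) {h a r x y : ℝ} (hh : 0 < h)
    (hh' : h ≤ 1 / 16) (h1 : 1 ≤ a) (h2 : a + h ≤ 2) (hr : r ∈ Icc (h / 2) h) (n : ℕ)
    (hinc : 0 ≤ inc φ (a - 2 * h) (a + 3 * h)) (hx : x ∈ Icc a (a + h)) (hy : y ∈ Icc a (a + h))
    (hxy : x ≤ y) :
    -(7 * C0 / h * MM φ n (a - 2 * h) (a + 3 * h) * (y - x)) ≤ A y r - A x r := by
  have hr0 : 0 < r := by linarith only [hh, hr.1]
  have hrm : r ∈ Ioc (0:ℝ) (1/16) := ⟨hr0, hr.2.trans hh'⟩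
  have hx12 : x ∈ Icc (1:ℝ) 2 := ⟨h1.trans hx.1, hx.2.trans h2⟩
  have hy12 : y ∈ Icc (1:ℝ) 2 := ⟨h1.trans hy.1, hy.2.trans h2⟩
  have hC0 := hv.C0_nonneg
  have hsr : 0 < Real.sqrt r := Real.sqrt_pos.2 hr0
  set K : ℝ := C0 * ((y - x) / r) / Real.sqrt r with hK
  have hyx : 0 ≤ y - x := by linarith only [hxy]
  have hK0 : 0 ≤ K := by rw [hK]; (clear * - hxy hr0 hC0; (clear * - hC0 hxy hr0; positivity))
  have hT : ∀ s ∈ Icc (a - 2 * h) (a + 3 * h), ∀ t ∈ Icc (a - 2 * h) (a + 3 * h),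
      |(v x r s - v y r s) - (v x r t - v y r t)| ≤ K * Real.sqrt |s - t| := by
    intro s hs t ht
    have := hv.smooth x hx12 y hy12 hxy r hrm s ⟨by linarith only [hh, hh', h1, hs.1], by linarith only [hh, hh', h2, hs.2]⟩ t
      ⟨by linarith only [hh, hh', h1, ht.1], by linarith only [hh, hh', h2, ht.2]⟩
    rw [Real.sqrt_div (abs_nonneg _)] at this
    refine this.trans (le_of_eq ?_)
    rw [hK]; (clear * - hr0; field_simp)
  have hTc := holder_cont hK0 hT
  have hsupp : ∫ t in (1/2:ℝ)..4, (v x r t - v y r t) * φ t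
      = ∫ t in (a - 2 * h)..(a + 3 * h), (v x r t - v y r t) * φ t := by
    apply integral_support (by linarith only [hh', h1]) (by linarith only [hh]) (by linarith only [hh', h2])
    · intro t ht
      rw [hv.zero x hx12 r hrm t (by linarith only [hh, ht.2, hx.1, hr.2]),
        hv.zero y hy12 r hrm t (by linarith only [hh, ht.2, hy.1, hr.2])]
      ring
    · intro t ht
      rw [hv.one x hx12 r hrm t (by linarith only [hh, ht.1, hx.2, hr.2]),
        hv.one y hy12 r hrm t (by linarith only [hh, ht.1, hy.2, hr.2])]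
      ring
    · apply hφ.intervalIntegrable.continuousOn_mul
      rwa [uIcc_of_le (by linarith only [hh])]
  have key := stieltjes_lower φ (fun t => v x r t - v y r t) K hK0 n (a - 2 * h) (a + 3 * h)
    (by linarith only [hh]) hφ.intervalIntegrable hT 0 1 (by
      intro t _
      refine ⟨by linarith only [hxy, hv.anti x hx12 y hy12 hxy r hrm t], ?_⟩
      linarith only [hv.le_one x r t, hv.nonneg y r t])
  rw [hA x hx12 y hy12 r hrm r hrm, hsupp]
  rw [zero_mul, one_mul, min_eq_left hinc] at key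
  have hM : 0 ≤ MM φ n (a - 2 * h) (a + 3 * h) := MM_nonneg n hφ.intervalIntegrable (by linarith only [hh])
  have hKs : K * Real.sqrt (a + 3 * h - (a - 2 * h)) ≤ 7 * C0 / h * (y - x) := by
    have e1 : a + 3 * h - (a - 2 * h) = 5 * h := by ring
    rw [e1, hK]
    have e2 : C0 * ((y - x) / r) / Real.sqrt r * Real.sqrt (5 * h)
        = C0 * (y - x) * ((1 / r) * Real.sqrt (5 * h / r)) := by
      rw [Real.sqrt_div (by (clear * - hh; positivity))]; (clear * - hh hr0; field_simp)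
    rw [e2]
    have e3 : 5 * h / r ≤ 10 := by
      rw [div_le_iff₀ hr0]; linarith only [hr.1]
    have e4 : Real.sqrt (5 * h / r) ≤ 3.5 := by
      rw [Real.sqrt_le_left (by norm_num)]
      exact e3.trans (by norm_num)
    have e5 : 1 / r ≤ 2 / h := by
      rw [div_le_div_iff₀ hr0 hh]; linarith only [hr.1]
    calc C0 * (y - x) * ((1 / r) * Real.sqrt (5 * h / r))
        ≤ C0 * (y - x) * ((2 / h) * 3.5) := by
          apply mul_le_mul_of_nonneg_left _ (by (clear * - hxy hC0; positivity))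
          apply mul_le_mul e5 e4 (Real.sqrt_nonneg _) (by (clear * - hh; positivity))
      _ = 7 * C0 / h * (y - x) := by ring
  have := mul_le_mul_of_nonneg_right hKs hM
  unfold MM at this ⊢
  linarith only [key, this]

lemma near_mono_neg {v : ℝ → ℝ → ℝ → ℝ} {C0 : ℝ} (hv : IsKernel v C0) {φ : ℝ → ℝ}
    (hφ : Integrable φ) {A : ℝ → ℝ → ℝ} (hA : Represents A v φ) {h a r x y : ℝ} (hh : 0 < h)
    (hh' : h ≤ 1 / 16) (h1 : 1 ≤ a) (h2 : a + h ≤ 2) (hr : r ∈ Icc (h / 2) h) (n : ℕ)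
    (hinc : inc φ (a - 2 * h) (a + 3 * h) ≤ 0) (hx : x ∈ Icc a (a + h)) (hy : y ∈ Icc a (a + h))
    (hxy : x ≤ y) :
    A y r - A x r ≤ 7 * C0 / h * MM φ n (a - 2 * h) (a + 3 * h) * (y - x) := by
  have := near_mono hv hφ.neg hA.neg hh hh' h1 h2 hr n
    (by
      have e := inc_neg φ (a - 2 * h) (a + 3 * h)
      change 0 ≤ inc (fun t => -φ t) _ _
      rw [e]; linarith only [hinc]) hx hy hxy
  have e : MM (-φ) n (a - 2 * h) (a + 3 * h) = MM φ n (a - 2 * h) (a + 3 * h) :=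
    MM_neg φ n _ _
  rw [e] at this
  linarith only [this]

/-- A trapezoidal cut-off. -/
def psi (a h t : ℝ) : ℝ := max 0 (min 1 (2 - |t - a| / h))

lemma psi_nonneg (a h t : ℝ) : 0 ≤ psi a h t := le_max_left _ _

lemma psi_le_one (a h t : ℝ) : psi a h t ≤ 1 := max_le zero_le_one (min_le_left _ _)

lemma psi_eq_one {a h t : ℝ} (hh : 0 < h) (ht : |t - a| ≤ h) : psi a h t = 1 := by
  unfold psi
  have : |t - a| / h ≤ 1 := by rw [div_le_one hh]; exact ht
  rw [min_eq_left (by linarith only [this]), max_eq_right zero_le_one]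

lemma psi_eq_zero {a h t : ℝ} (hh : 0 < h) (ht : 2 * h ≤ |t - a|) : psi a h t = 0 := by
  unfold psi
  have : 2 ≤ |t - a| / h := by rw [le_div_iff₀ hh]; exact ht
  rw [max_eq_left]
  exact (min_le_right _ _).trans (by linarith only [this])

lemma psi_holder {a h : ℝ} (hh : 0 < h) (s t : ℝ) :
    |psi a h s - psi a h t| ≤ 1 / Real.sqrt h * Real.sqrt |s - t| := by
  have h1 : |psi a h s - psi a h t| ≤ 1 := by
    rw [abs_le]
    constructor <;> linarith only [psi_nonneg a h s, psi_le_one a h t, psi_nonneg a h t, psi_le_one a h s]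
  have h2 : |psi a h s - psi a h t| ≤ |s - t| / h := by
    unfold psi
    refine (abs_max_sub_max_le_max _ _ _ _).trans ?_
    refine max_le (by simp only [sub_self, abs_zero]; positivity) ?_
    refine (abs_min_sub_min_le_max _ _ _ _).trans ?_
    refine max_le (by simp only [sub_self, abs_zero]; positivity) ?_
    have e : 2 - |s - a| / h - (2 - |t - a| / h) = (|t - a| - |s - a|) / h := by ring
    rw [e, abs_div, abs_of_pos hh]
    apply div_le_div_of_nonneg_right _ hh.le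
    have := abs_abs_sub_abs_le_abs_sub (t - a) (s - a)
    refine this.trans (le_of_eq ?_)
    rw [abs_sub_comm s t]; congr 1; ring
  have h3 : Real.sqrt (|s - t| / h) = 1 / Real.sqrt h * Real.sqrt |s - t| := by
    rw [Real.sqrt_div (abs_nonneg _)]; ring
  rw [← h3]
  rcases le_total (|s - t| / h) 1 with h4 | h4
  · refine h2.trans ?_
    apply Real.le_sqrt_of_sq_le
    have : 0 ≤ |s - t| / h := by positivity
    nlinarith only [h4, this]
  · refine h1.trans ?_
    rw [Real.one_le_sqrt]; exact h4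

end

end Vale.Agent.P137
end
end

section

section

open MeasureTheory Set Metric
open scoped ENNReal

namespace Vale.Agent.P137

noncomputable section

/-- Distribution function of the norm of a uniform random point of the ball of radius `r`
centered at `ρ e₁` in `ℝ^(n+2)`. -/
def vv (n : ℕ) (ρ r t : ℝ) : ℝ :=
  (volume (lens (n + 1) ρ r t)).toReal / (r ^ (n + 2) * om (n + 2))

lemma cap_eq {r t u : ℝ} (hu : u ≠ 0) :
    cap r t u = r ^ 2 - ((t ^ 2 - u ^ 2 - r ^ 2) / (2 * u)) ^ 2 := by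
  unfold cap; field_simp; ring

lemma abs_sqrt_sub_le {a b : ℝ} (ha : 0 ≤ a) (hb : 0 ≤ b) : |√a - √b| ≤ √|a - b| := by
  apply Real.le_sqrt_of_sq_le
  rw [sq_abs]
  have h1 := Real.sqrt_nonneg a
  have h2 := Real.sqrt_nonneg b
  have h3 := Real.sq_sqrt ha
  have h4 := Real.sq_sqrt hb
  rcases le_total b a with h | h
  · rw [abs_of_nonneg (by linarith only [h])]
    have := Real.sqrt_le_sqrt h
    nlinarith only [h2, h3, h4, this]
  · rw [abs_of_nonpos (by linarith only [h])]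
    have := Real.sqrt_le_sqrt h
    nlinarith only [h1, h3, h4, this]

lemma sqrt_max (x : ℝ) : √(max x 0) = √x := by
  rcases le_total x 0 with h | h
  · rw [max_eq_right h, Real.sqrt_zero, Real.sqrt_eq_zero_of_nonpos h]
  · rw [max_eq_left h]

lemma sqrt_cap_le {r t u : ℝ} (hr : 0 < r) (hu : u ≠ 0) : √(cap r t u) ≤ r := by
  rw [Real.sqrt_le_left hr.le, cap_eq hu]
  linarith only [sq_nonneg ((t ^ 2 - u ^ 2 - r ^ 2) / (2 * u))]

lemma sqrt_cap_sub {r s t u : ℝ} (hr : 0 < r) (hu : 1 ≤ u) (hs : s ∈ Icc (1/2:ℝ) 4)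
    (ht : t ∈ Icc (1/2:ℝ) 4) : |√(cap r t u) - √(cap r s u)| ≤ √(8 * r * |t - s|) := by
  have hu0 : u ≠ 0 := by linarith only [hu]
  set gt := (t ^ 2 - u ^ 2 - r ^ 2) / (2 * u) with hgt
  set gs := (s ^ 2 - u ^ 2 - r ^ 2) / (2 * u) with hgs
  have hmt : max (cap r t u) 0 = r ^ 2 - (min |gt| r) ^ 2 := by
    rw [cap_eq hu0, ← hgt, ← sq_abs gt]
    rcases le_total |gt| r with h | h
    · rw [min_eq_left h, max_eq_left]; nlinarith only [h, abs_nonneg gt]
    · rw [min_eq_right h, max_eq_right]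
      · ring
      · nlinarith only [hr, h]
  have hms : max (cap r s u) 0 = r ^ 2 - (min |gs| r) ^ 2 := by
    rw [cap_eq hu0, ← hgs, ← sq_abs gs]
    rcases le_total |gs| r with h | h
    · rw [min_eq_left h, max_eq_left]; nlinarith only [h, abs_nonneg gs]
    · rw [min_eq_right h, max_eq_right]
      · ring
      · nlinarith only [hr, h]
  rw [← sqrt_max (cap r t u), ← sqrt_max (cap r s u)]
  refine (abs_sqrt_sub_le (le_max_right _ _) (le_max_right _ _)).trans ?_
  apply Real.sqrt_le_sqrt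
  rw [hmt, hms]
  have e1 : r ^ 2 - (min |gt| r) ^ 2 - (r ^ 2 - (min |gs| r) ^ 2)
      = (min |gs| r - min |gt| r) * (min |gs| r + min |gt| r) := by ring
  rw [e1, abs_mul]
  have b1 : |min |gs| r - min |gt| r| ≤ |gs - gt| := by
    refine (abs_min_sub_min_le_max _ _ _ _).trans ?_
    rw [sub_self, abs_zero, max_eq_left (abs_nonneg _)]
    exact abs_abs_sub_abs_le_abs_sub gs gt
  have b2 : |min |gs| r + min |gt| r| ≤ 2 * r := by
    rw [abs_of_nonneg (add_nonneg (le_min (abs_nonneg _) hr.le) (le_min (abs_nonneg _) hr.le))]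
    linarith only [min_le_right |gs| r, min_le_right |gt| r]
  have b3 : |gs - gt| ≤ 4 * |t - s| := by
    have e2 : gs - gt = (s - t) * ((s + t) / (2 * u)) := by
      rw [hgs, hgt]; field_simp; ring
    rw [e2, abs_mul, abs_sub_comm s t, mul_comm]
    apply mul_le_mul_of_nonneg_right _ (abs_nonneg _)
    rw [abs_of_nonneg (div_nonneg (by linarith only [hs.1, ht.1]) (by linarith only [hu])),
      div_le_iff₀ (by linarith only [hu])]
    linarith only [hu, hs.2, ht.2]
  calc |min |gs| r - min |gt| r| * |min |gs| r + min |gt| r|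
      ≤ (4 * |t - s|) * (2 * r) :=
        mul_le_mul (b1.trans b3) b2 (abs_nonneg _) (by (clear * -; positivity))
    _ = 8 * r * |t - s| := by ring

/-- The smoothing constant. -/
def CK (n : ℕ) : ℝ := 3 * (n + 1) * om (n + 1) / om (n + 2)

lemma CK_pos (n : ℕ) : 0 < CK n := by
  unfold CK
  have := om_pos (n + 1)
  have := om_pos (n + 2)
  positivity

lemma cont_cap {r t σ σ' : ℝ} (hσ : 0 < σ) (hσσ : σ ≤ σ') :
    ContinuousOn (cap r t) (uIcc σ σ') := by
  unfold cap
  rw [uIcc_of_le hσσ]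
  apply ContinuousOn.sub continuousOn_const
  apply ContinuousOn.pow
  apply ContinuousOn.div (by fun_prop) (by fun_prop)
  intro x hx
  have : 0 < x := lt_of_lt_of_le hσ hx.1
  positivity

lemma intervalIntegrable_cap {n : ℕ} {r t σ σ' : ℝ} (hσ : 0 < σ) (hσσ : σ ≤ σ') :
    IntervalIntegrable (fun u => om (n + 1) * √(cap r t u) ^ (n + 1)) volume σ σ' := by
  apply ContinuousOn.intervalIntegrable
  have := cont_cap (r := r) (t := t) hσ hσσ
  exact continuousOn_const.mul ((this.sqrt).pow _)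

lemma vv_sub {n : ℕ} {σ σ' r t : ℝ} (hσ : r < σ) (hσσ : σ ≤ σ') (hr : 0 < r) (ht : r < t) :
    vv n σ r t - vv n σ' r t
      = (∫ u in σ..σ', om (n + 1) * √(cap r t u) ^ (n + 1)) / (r ^ (n + 2) * om (n + 2)) := by
  unfold vv
  rw [← sub_div, lens_sub hσ hσσ hr ht]

lemma vv_smooth {n : ℕ} {ρ ρ' r s t : ℝ} (hρ : 1 ≤ ρ) (hρρ : ρ ≤ ρ') (hr : 0 < r)
    (hr' : r ≤ 1 / 16) (hs : s ∈ Icc (1/2:ℝ) 4) (ht : t ∈ Icc (1/2:ℝ) 4) :
    |(vv n ρ r s - vv n ρ' r s) - (vv n ρ r t - vv n ρ' r t)|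
      ≤ CK n * ((ρ' - ρ) / r) * √(|s - t| / r) := by
  have hom1 := om_pos (n + 1)
  have hom2 := om_pos (n + 2)
  rw [vv_sub (by linarith only [hρ, hr, hr']) hρρ hr (by linarith only [hr, hr', hs.1]),
    vv_sub (by linarith only [hρ, hr']) hρρ hr (by linarith only [hr, hr', ht.1]), ← sub_div,
    ← intervalIntegral.integral_sub (intervalIntegrable_cap (by linarith only [hρ]) hρρ)
      (intervalIntegrable_cap (by linarith only [hρ]) hρρ), abs_div,
    abs_of_pos (by (clear * - hr hom2; positivity) : 0 < r ^ (n + 2) * om (n + 2)), div_le_iff₀ (by positivity)]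
  have hb : ∀ u ∈ uIoc ρ ρ', ‖om (n + 1) * √(cap r s u) ^ (n + 1)
      - om (n + 1) * √(cap r t u) ^ (n + 1)‖
      ≤ om (n + 1) * ((n + 1) * r ^ n * √(8 * r * |s - t|)) := by
    intro u hu
    rw [uIoc_of_le hρρ] at hu
    have hu1 : 1 ≤ u := hρ.trans hu.1.le
    have hu0 : u ≠ 0 := by linarith only [hu1]
    rw [← mul_sub, norm_mul, Real.norm_eq_abs, Real.norm_eq_abs, abs_of_pos hom1]
    apply mul_le_mul_of_nonneg_left _ hom1.le
    refine (abs_pow_sub_pow_le _ _ _).trans ?_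
    rw [abs_of_nonneg (Real.sqrt_nonneg (cap r s u)), abs_of_nonneg (Real.sqrt_nonneg (cap r t u))]
    have h1 := sqrt_cap_sub hr hu1 ht hs
    have h2 : max √(cap r s u) √(cap r t u) ^ (n + 1 - 1) ≤ r ^ n := by
      rw [Nat.add_sub_cancel]
      apply pow_le_pow_left₀ (le_max_of_le_left (Real.sqrt_nonneg _))
      exact max_le (sqrt_cap_le hr hu0) (sqrt_cap_le hr hu0)
    have h3 : 0 ≤ max √(cap r s u) √(cap r t u) ^ (n + 1 - 1) :=
      pow_nonneg (le_max_of_le_left (Real.sqrt_nonneg _)) _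
    calc |√(cap r s u) - √(cap r t u)| * ((n + 1 : ℕ) : ℝ)
          * max √(cap r s u) √(cap r t u) ^ (n + 1 - 1)
        ≤ √(8 * r * |s - t|) * ((n + 1 : ℕ) : ℝ) * r ^ n := by
          apply mul_le_mul _ h2 h3 (by (clear * -; positivity))
          exact mul_le_mul_of_nonneg_right h1 (by (clear * -; positivity))
      _ = (n + 1) * r ^ n * √(8 * r * |s - t|) := by push_cast; ring
  have := intervalIntegral.norm_integral_le_of_norm_le_const hb
  rw [Real.norm_eq_abs, abs_of_nonneg (by linarith only [hρρ] : 0 ≤ ρ' - ρ)] at this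
  refine this.trans ?_
  have e1 : √(8 * r * |s - t|) ≤ 3 * r * √(|s - t| / r) := by
    have : 8 * r * |s - t| = (8 * r ^ 2) * (|s - t| / r) := by (clear * - hr; field_simp)
    rw [this, Real.sqrt_mul (by positivity), Real.sqrt_mul (by norm_num), Real.sqrt_sq hr.le]
    have h8 : √8 ≤ 3 := by rw [Real.sqrt_le_left (by norm_num)]; norm_num
    apply mul_le_mul_of_nonneg_right _ (Real.sqrt_nonneg _)
    exact mul_le_mul_of_nonneg_right h8 hr.le
  have e2 : CK n * ((ρ' - ρ) / r) * √(|s - t| / r) * (r ^ (n + 2) * om (n + 2))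
      = om (n + 1) * ((n + 1) * r ^ n * (3 * r * √(|s - t| / r))) * (ρ' - ρ) := by
    unfold CK
    field_simp
    ring
  rw [e2]
  apply mul_le_mul_of_nonneg_right _ (by linarith only [hρρ])
  apply mul_le_mul_of_nonneg_left _ hom1.le
  apply mul_le_mul_of_nonneg_left e1 (by (clear * - hr; positivity))

lemma vv_nonneg (n : ℕ) (ρ r t : ℝ) : 0 ≤ vv n ρ r t := by
  unfold vv
  rcases le_or_gt r 0 with h | h
  · have : lens (n + 1) ρ r t = ∅ := by
      unfold lens; rw [ball_eq_empty.2 h]; simp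
    rw [this]; simp
  · have := om_pos (n + 2)
    (clear * - h this; positivity)

lemma vv_le_one (n : ℕ) (ρ r t : ℝ) : vv n ρ r t ≤ 1 := by
  unfold vv
  rcases le_or_gt r 0 with h | h
  · have : lens (n + 1) ρ r t = ∅ := by
      unfold lens; rw [ball_eq_empty.2 h]; simp
    rw [this]; simp only [measure_empty, ENNReal.toReal_zero, zero_div, zero_le_one]
  · have := om_pos (n + 2)
    rw [div_le_one (by positivity), ← volume_ball_toReal (ρ • e1 (n + 1)) h.le]
    exact ENNReal.toReal_mono measure_ball_lt_top.ne (measure_mono inter_subset_left)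

lemma norm_smul_e1 {n : ℕ} {ρ : ℝ} (hρ : 0 ≤ ρ) : ‖ρ • e1 n‖ = ρ := by
  rw [norm_smul, norm_e1, mul_one, Real.norm_eq_abs, abs_of_nonneg hρ]

lemma vv_zero {n : ℕ} {ρ r t : ℝ} (hρ : 0 ≤ ρ) (h : t ≤ ρ - r) : vv n ρ r t = 0 := by
  unfold vv
  have : lens (n + 1) ρ r t = ∅ := by
    ext x
    simp only [lens, mem_inter_iff, mem_ball, dist_zero_right, mem_empty_iff_false, iff_false,
      not_and, not_lt]
    intro hx
    have h1 : ‖ρ • e1 (n + 1)‖ ≤ ‖x‖ + dist x (ρ • e1 (n + 1)) := by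
      rw [dist_eq_norm]
      have := norm_sub_norm_le (ρ • e1 (n + 1)) x
      rw [norm_sub_rev] at this
      linarith only [this]
    rw [norm_smul_e1 hρ] at h1
    linarith only [h, hx, h1]
  rw [this]; simp

lemma vv_one {n : ℕ} {ρ r t : ℝ} (hρ : 0 ≤ ρ) (hr : 0 < r) (h : ρ + r ≤ t) : vv n ρ r t = 1 := by
  unfold vv
  have : lens (n + 1) ρ r t = ball (ρ • e1 (n + 1)) r := by
    unfold lens
    rw [inter_eq_left]
    intro x hx
    rw [mem_ball] at hx ⊢
    rw [dist_zero_right]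
    have h1 : ‖x‖ ≤ ‖ρ • e1 (n + 1)‖ + dist x (ρ • e1 (n + 1)) := by
      rw [dist_eq_norm]
      have := norm_sub_norm_le x (ρ • e1 (n + 1))
      linarith only [this]
    rw [norm_smul_e1 hρ] at h1
    linarith only [h, hx, h1]
  rw [this, volume_ball_toReal _ hr.le, div_self]
  have := om_pos (n + 2)
  positivity

lemma vv_anti {n : ℕ} {ρ ρ' r t : ℝ} (hρ : 1 ≤ ρ) (hρρ : ρ ≤ ρ') (hr : 0 < r) (hr' : r ≤ 1 / 16) :
    vv n ρ' r t ≤ vv n ρ r t := by
  rcases le_or_gt t r with h | h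
  · rw [vv_zero (by linarith only [hρ, hρρ]) (by linarith only [hρ, hρρ, hr, hr', h])]
    exact vv_nonneg _ _ _ _
  · have h1 := vv_sub (n := n) (σ := ρ) (σ' := ρ') (by linarith only [hρ, hr']) hρρ hr h
    have hom1 := om_pos (n + 1)
    have hom2 := om_pos (n + 2)
    have : 0 ≤ (∫ u in ρ..ρ', om (n + 1) * √(cap r t u) ^ (n + 1)) / (r ^ (n + 2) * om (n + 2)) := by
      apply div_nonneg _ (by (clear * - hr hom2; positivity))
      apply intervalIntegral.integral_nonneg hρρ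
      intro u _
      (clear * - hom1; positivity)
    linarith only [h1, this]

lemma vv_holder_aux {n : ℕ} {ρ r s t : ℝ} (hρ : 1 ≤ ρ) (hρ' : ρ ≤ 2) (hr : 0 < r)
    (hr' : r ≤ 1 / 16) (hs : s ∈ Icc (ρ - r) (ρ + r)) (ht : t ∈ Icc (ρ - r) (ρ + r)) :
    |vv n ρ r s - vv n ρ r t| ≤ 2 * CK n * √(|s - t| / r) := by
  have h1 := vv_smooth (n := n) (ρ' := ρ + 2 * r) hρ (by linarith only [hr]) hr hr' (s := s) (t := t)
    ⟨by linarith only [hρ, hr', hs.1], by linarith only [hρ', hr', hs.2]⟩ ⟨by linarith only [hρ, hr, hr', ht.1], by linarith only [hρ', hr, hr', ht.2]⟩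
  rw [vv_zero (ρ := ρ + 2 * r) (t := s) (by linarith only [hρ, hr]) (by linarith only [hs.2]),
    vv_zero (ρ := ρ + 2 * r) (t := t) (by linarith only [hρ, hr]) (by linarith only [ht.2]),
    sub_zero, sub_zero] at h1
  have e : (ρ + 2 * r - ρ) / r = 2 := by field_simp; ring
  rw [e] at h1
  linarith only [h1]

lemma vv_clamp {n : ℕ} {ρ r s : ℝ} (hρ : 0 ≤ ρ) (hr : 0 < r) :
    vv n ρ r s = vv n ρ r (max (ρ - r) (min s (ρ + r))) := by
  rcases le_total s (ρ + r) with h1 | h1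
  · rw [min_eq_left h1]
    rcases le_total s (ρ - r) with h2 | h2
    · rw [max_eq_left h2, vv_zero hρ h2, vv_zero hρ le_rfl]
    · rw [max_eq_right h2]
  · rw [min_eq_right h1, max_eq_right (by linarith only [hr]), vv_one hρ hr h1, vv_one hρ hr le_rfl]

lemma isKernel_vv (n : ℕ) : IsKernel (vv n) (2 * CK n) where
  C0_nonneg := by have := CK_pos n; linarith only [this]
  nonneg := vv_nonneg n
  le_one := vv_le_one n
  zero := fun ρ hρ r _ t h => vv_zero (by linarith only [hρ.1]) h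
  one := fun ρ hρ r hr t h => vv_one (by linarith only [hρ.1]) hr.1 h
  anti := fun ρ hρ ρ' _ h r hr t => vv_anti hρ.1 h hr.1 hr.2
  smooth := by
    intro ρ hρ ρ' hρ' h r hr s hs t ht
    refine (vv_smooth hρ.1 h hr.1 hr.2 hs ht).trans ?_
    apply mul_le_mul_of_nonneg_right _ (Real.sqrt_nonneg _)
    apply mul_le_mul_of_nonneg_right _ (div_nonneg (by linarith only [h]) hr.1.le)
    have := CK_pos n
    linarith only [this]
  holder := by
    intro ρ hρ r hr s _ t _
    rw [vv_clamp (s := s) (by linarith only [hρ.1]) hr.1, vv_clamp (s := t) (by linarith only [hρ.1]) hr.1]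
    have m1 : ∀ x, max (ρ - r) (min x (ρ + r)) ∈ Icc (ρ - r) (ρ + r) := fun x =>
      ⟨le_max_left _ _, max_le (by linarith only [hr.1]) (min_le_right _ _)⟩
    refine (vv_holder_aux hρ.1 hρ.2 hr.1 hr.2 (m1 s) (m1 t)).trans ?_
    apply mul_le_mul_of_nonneg_left _ (by have := CK_pos n; linarith only [this])
    apply Real.sqrt_le_sqrt
    apply div_le_div_of_nonneg_right _ hr.1.le
    refine (abs_max_sub_max_le_max _ _ _ _).trans ?_
    rw [sub_self, abs_zero]
    refine max_le (abs_nonneg _) ?_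
    refine (abs_min_sub_min_le_max _ _ _ _).trans ?_
    rw [sub_self, abs_zero]
    exact max_le le_rfl (abs_nonneg _)

end

end Vale.Agent.P137
end
end

section

section

open MeasureTheory Set Metric
open scoped ENNReal

namespace Vale.Agent.P137

noncomputable section

/-- `F` is a primitive of `φ` on `(0, ∞)`. -/
structure IsProfile (F φ : ℝ → ℝ) : Prop where
  int : ∀ a b : ℝ, 0 < a → a ≤ b → IntervalIntegrable φ volume a b
  sub : ∀ a b : ℝ, 0 < a → a ≤ b → F b - F a = ∫ t in a..b, φ t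

/-- Average of the radial function `F ‖·‖` over the ball of radius `r` centered at `ρ e₁`. -/
def AA (n : ℕ) (F : ℝ → ℝ) (ρ r : ℝ) : ℝ :=
  (∫ y in ball (ρ • e1 (n + 1)) r, F ‖y‖) / (r ^ (n + 2) * om (n + 2))

lemma norm_mem_of_mem_ball {n : ℕ} {ρ r : ℝ} (hρ : 0 ≤ ρ) {y : E (n + 1)}
    (hy : y ∈ ball (ρ • e1 n) r) : ρ - r < ‖y‖ ∧ ‖y‖ < ρ + r := by
  rw [mem_ball, dist_eq_norm] at hy
  have h1 := norm_sub_norm_le (ρ • e1 n) y
  have h2 := norm_sub_norm_le y (ρ • e1 n)
  rw [norm_sub_rev] at h1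
  rw [norm_smul_e1 hρ] at h1 h2
  constructor <;> linarith only [hy, h1, h2]

lemma AA_eq {n : ℕ} {F φ : ℝ → ℝ} (hF : IsProfile F φ) {ρ r : ℝ} (hρ : ρ ∈ Icc (1:ℝ) 2)
    (hr : r ∈ Ioc (0:ℝ) (1/16)) :
    AA n F ρ r = F 4 - ∫ t in (1/2:ℝ)..4, vv n ρ r t * φ t := by
  have hom := om_pos (n + 2)
  have hrp := hr.1
  have hφ : IntegrableOn φ (Ioc (1/2:ℝ) 4) := by
    have := hF.int (1/2) 4 (by norm_num) (by norm_num)
    rwa [intervalIntegrable_iff_integrableOn_Ioc_of_le (by norm_num)] at this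
  set B : Set (E (n + 2)) := ball (ρ • e1 (n + 1)) r with hB
  have hBm : MeasurableSet B := measurableSet_ball
  have hBfin : volume B < ∞ := measure_ball_lt_top
  -- pointwise formula
  have hpt : ∀ y ∈ B, F ‖y‖ = F 4 - ∫ t in Ioc (1/2:ℝ) 4,
      (ball (0 : E (n + 2)) t).indicator (fun _ => φ t) y := by
    intro y hy
    obtain ⟨h1, h2⟩ := norm_mem_of_mem_ball (by linarith only [hρ.1]) hy
    have hy1 : 1/2 < ‖y‖ := by linarith only [h1, hρ.1, hr.2]
    have hy2 : ‖y‖ ≤ 4 := by linarith only [h2, hρ.2, hr.2]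
    have h3 := hF.sub ‖y‖ 4 (by linarith only [hy1]) hy2
    have h4 : ∫ t in Ioc (1/2:ℝ) 4, (ball (0 : E (n + 2)) t).indicator (fun _ => φ t) y
        = ∫ t in ‖y‖..4, φ t := by
      rw [intervalIntegral.integral_of_le hy2]
      have : (fun t : ℝ => (ball (0 : E (n + 2)) t).indicator (fun _ => φ t) y)
          = (Ioi ‖y‖).indicator φ := by
        ext t
        simp only [indicator, mem_ball, dist_zero_right, mem_Ioi]
      rw [this, setIntegral_indicator measurableSet_Ioi]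
      congr 2
      ext t
      simp only [mem_inter_iff, mem_Ioc, mem_Ioi]
      constructor
      · rintro ⟨⟨_, h5⟩, h6⟩; exact ⟨h6, h5⟩
      · rintro ⟨h5, h6⟩; exact ⟨⟨by linarith only [hy1, h5], h6⟩, h5⟩
    rw [h4, ← h3]; ring
  -- integrability on the product
  have hprod : Integrable (fun p : E (n + 2) × ℝ =>
      (ball (0 : E (n + 2)) p.2).indicator (fun _ => φ p.2) p.1)
      ((volume.restrict B).prod (volume.restrict (Ioc (1/2:ℝ) 4))) := by
    have hS : MeasurableSet {p : E (n + 2) × ℝ | ‖p.1‖ < p.2} :=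
      measurableSet_lt (by fun_prop) (by fun_prop)
    have h1 : (fun p : E (n + 2) × ℝ => (ball (0 : E (n + 2)) p.2).indicator (fun _ => φ p.2) p.1)
        = {p : E (n + 2) × ℝ | ‖p.1‖ < p.2}.indicator (fun p => φ p.2) := by
      ext p
      simp only [indicator, mem_ball, dist_zero_right, mem_ofPred_eq]
    rw [h1]
    apply Integrable.indicator _ hS
    have : IsFiniteMeasure (volume.restrict B) := ⟨by simpa only [MeasurableSet.univ, Measure.restrict_apply, univ_inter] using hBfin⟩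
    exact hφ.comp_snd _
  have hswap : ∫ y in B, ∫ t in Ioc (1/2:ℝ) 4,
      (ball (0 : E (n + 2)) t).indicator (fun _ => φ t) y
      = ∫ t in Ioc (1/2:ℝ) 4, (volume (lens (n + 1) ρ r t)).toReal * φ t := by
    rw [integral_integral_swap hprod]
    congr 1
    ext t
    rw [setIntegral_indicator measurableSet_ball, setIntegral_const, smul_eq_mul]
    rfl
  have hinner : Integrable (fun y => ∫ t in Ioc (1/2:ℝ) 4,
      (ball (0 : E (n + 2)) t).indicator (fun _ => φ t) y) (volume.restrict B) :=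
    hprod.integral_prod_left
  have hI : ∫ y in B, F ‖y‖ = r ^ (n + 2) * om (n + 2) * F 4
      - ∫ t in Ioc (1/2:ℝ) 4, (volume (lens (n + 1) ρ r t)).toReal * φ t := by
    rw [setIntegral_congr_fun hBm hpt, integral_sub (by
      rw [integrable_const_iff]
      right
      exact ⟨by simpa only [MeasurableSet.univ, Measure.restrict_apply, univ_inter] using hBfin⟩) hinner, hswap, setIntegral_const, smul_eq_mul]
    congr 2
    rw [← volume_ball_toReal (ρ • e1 (n + 1)) hrp.le]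
    rfl
  unfold AA
  rw [hI, sub_div, mul_div_cancel_left₀ _ (by (clear * - hom hrp; positivity)), intervalIntegral.integral_of_le (by norm_num)]
  congr 1
  rw [← integral_div]
  congr 1
  ext t
  unfold vv
  ring

/-- Restriction of the derivative to the interval `[1/2, 4]`. -/
def phiR (φ : ℝ → ℝ) : ℝ → ℝ := (Ioc (1/2:ℝ) 4).indicator φ

lemma phiR_integrable {F φ : ℝ → ℝ} (hF : IsProfile F φ) : Integrable (phiR φ) := by
  unfold phiR
  rw [integrable_indicator_iff measurableSet_Ioc]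
  have := hF.int (1/2) 4 (by norm_num) (by norm_num)
  rwa [intervalIntegrable_iff_integrableOn_Ioc_of_le (by norm_num)] at this

lemma represents_AA {n : ℕ} {F φ : ℝ → ℝ} (hF : IsProfile F φ) :
    Represents (AA n F) (vv n) (phiR φ) := by
  intro ρ hρ ρ' hρ' r hr r' hr'
  have hφ := hF.int (1/2) 4 (by norm_num) (by norm_num)
  have hK := isKernel_vv n
  have hcont : ∀ ρ ∈ Icc (1:ℝ) 2, ∀ r ∈ Ioc (0:ℝ) (1/16), ContinuousOn (vv n ρ r) (uIcc (1/2:ℝ) 4) := by
    intro ρ hρ r hr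
    rw [uIcc_of_le (by norm_num)]
    have hsr : 0 < √r := Real.sqrt_pos.2 hr.1
    apply holder_cont (K := 2 * CK n / √r) (by have := CK_pos n; (clear * - this hsr; positivity))
    intro s hs t ht
    refine (hK.holder ρ hρ r hr s hs t ht).trans (le_of_eq ?_)
    rw [Real.sqrt_div (abs_nonneg _)]; ring
  rw [AA_eq hF hρ hr, AA_eq hF hρ' hr']
  have i1 : IntervalIntegrable (fun t => vv n ρ r t * φ t) volume (1/2) 4 :=
    hφ.continuousOn_mul (hcont ρ hρ r hr)
  have i2 : IntervalIntegrable (fun t => vv n ρ' r' t * φ t) volume (1/2) 4 :=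
    hφ.continuousOn_mul (hcont ρ' hρ' r' hr')
  have : ∫ t in (1/2:ℝ)..4, (vv n ρ r t - vv n ρ' r' t) * phiR φ t
      = ∫ t in (1/2:ℝ)..4, (vv n ρ r t * φ t - vv n ρ' r' t * φ t) := by
    apply intervalIntegral.integral_congr_ae
    filter_upwards with t ht
    rw [uIoc_of_le (by norm_num)] at ht
    unfold phiR
    rw [indicator_of_mem ht]
    ring
  rw [this, intervalIntegral.integral_sub i1 i2]
  ring

end

end Vale.Agent.P137
end
end

section

section

open MeasureTheory Set intervalIntegral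
open scoped ENNReal

namespace Vale.Agent.P137

noncomputable section

lemma junction {v : ℝ → ℝ → ℝ → ℝ} {C0 : ℝ} (hv : IsKernel v C0) {φ : ℝ → ℝ}
    (hφ : Integrable φ) {A : ℝ → ℝ → ℝ} (hA : Represents A v φ) {h a r : ℝ} (hh : 0 < h)
    (hh' : h ≤ 1 / 16) (h1 : 1 ≤ a) (h2 : a ≤ 2) (hr : r ∈ Icc (h / 2) h) (n : ℕ)
    (hinc1 : 0 ≤ inc φ (a - 3 * h) (a + 2 * h)) (hinc2 : inc φ (a - 2 * h) (a + 3 * h) ≤ 0) :
    A a r - A a h ≤ (2 + 3 * C0) *
      (MM φ n (a - 3 * h) (a + 2 * h) + MM φ n (a - 2 * h) (a + 3 * h)) := by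
  have hr0 : 0 < r := by linarith only [hh, hr.1]
  have hrm : r ∈ Ioc (0:ℝ) (1/16) := ⟨hr0, hr.2.trans hh'⟩
  have hhm : h ∈ Ioc (0:ℝ) (1/16) := ⟨hh, hh'⟩
  have ha12 : a ∈ Icc (1:ℝ) 2 := ⟨h1, h2⟩
  have hC0 := hv.C0_nonneg
  have hsh : 0 < Real.sqrt h := Real.sqrt_pos.2 hh
  have hsr : 0 < Real.sqrt r := Real.sqrt_pos.2 hr0
  set T : ℝ → ℝ := fun t => v a h t - v a r t with hTdef
  have hT1 : ∀ t, T t ≤ 1 := fun t => by
    simp only [hTdef]; linarith only [hv.le_one a h t, hv.nonneg a r t]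
  have hT1' : ∀ t, -1 ≤ T t := fun t => by
    simp only [hTdef]; linarith only [hv.le_one a r t, hv.nonneg a h t]
  have hT0 : ∀ t, h ≤ |t - a| → T t = 0 := by
    intro t ht
    simp only [hTdef]
    rcases le_abs.1 ht with h3 | h3
    · rw [hv.one a ha12 h hhm t (by linarith only [h3]), hv.one a ha12 r hrm t (by linarith only [h3, hr.2])]; ring
    · rw [hv.zero a ha12 h hhm t (by linarith only [h3]), hv.zero a ha12 r hrm t (by linarith only [h3, hr.2])]; ring
  set K : ℝ := (1 + 2.5 * C0) / Real.sqrt h with hK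
  have hK0 : 0 ≤ K := by rw [hK]; (clear * - hh hC0; (clear * - hC0 hh; positivity))
  have hrsq : 1 / Real.sqrt r ≤ 1.5 / Real.sqrt h := by
    rw [div_le_div_iff₀ hsr hsh, one_mul]
    have : Real.sqrt h ≤ Real.sqrt (2.25 * r) := Real.sqrt_le_sqrt (by linarith only [hr0, hr.1])
    rw [Real.sqrt_mul (by norm_num)] at this
    have e : Real.sqrt 2.25 = 1.5 := by
      rw [show (2.25:ℝ) = 1.5 ^ 2 by norm_num]; exact Real.sqrt_sq (by norm_num)
    rwa [e] at this
  have hTh : ∀ s ∈ Icc (1/2:ℝ) 4, ∀ t ∈ Icc (1/2:ℝ) 4,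
      |T s - T t| ≤ 2.5 * C0 / Real.sqrt h * Real.sqrt |s - t| := by
    intro s hs t ht
    have i1 := hv.holder a ha12 h hhm s hs t ht
    have i2 := hv.holder a ha12 r hrm s hs t ht
    rw [Real.sqrt_div (abs_nonneg _)] at i1 i2
    have e : T s - T t = (v a h s - v a h t) - (v a r s - v a r t) := by
      simp only [hTdef]; ring
    rw [e]
    refine (abs_sub _ _).trans ?_
    have hs0 := Real.sqrt_nonneg |s - t|
    have i3 : C0 * (Real.sqrt |s - t| / Real.sqrt r)
        ≤ C0 * (1.5 / Real.sqrt h * Real.sqrt |s - t|) := by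
      apply mul_le_mul_of_nonneg_left _ hC0
      rw [div_eq_mul_one_div, mul_comm]
      exact mul_le_mul_of_nonneg_right hrsq hs0
    calc |v a h s - v a h t| + |v a r s - v a r t|
        ≤ C0 * (Real.sqrt |s - t| / Real.sqrt h) + C0 * (1.5 / Real.sqrt h * Real.sqrt |s - t|) :=
          add_le_add i1 (i2.trans i3)
      _ = 2.5 * C0 / Real.sqrt h * Real.sqrt |s - t| := by ring
  have hP : ∀ s ∈ Icc (1/2:ℝ) 4, ∀ t ∈ Icc (1/2:ℝ) 4,
      |(psi a h s + T s) - (psi a h t + T t)| ≤ K * Real.sqrt |s - t| := by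
    intro s hs t ht
    have i1 := psi_holder (a := a) hh s t
    have i2 := hTh s hs t ht
    have e : (psi a h s + T s) - (psi a h t + T t) = (psi a h s - psi a h t) + (T s - T t) := by ring
    rw [e]
    refine (abs_add_le _ _).trans ((add_le_add i1 i2).trans (le_of_eq ?_))
    rw [hK]; ring
  have hQ : ∀ s ∈ Icc (1/2:ℝ) 4, ∀ t ∈ Icc (1/2:ℝ) 4,
      |(psi a h s - T s) - (psi a h t - T t)| ≤ K * Real.sqrt |s - t| := by
    intro s hs t ht
    have i1 := psi_holder (a := a) hh s t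
    have i2 := hTh s hs t ht
    have e : (psi a h s - T s) - (psi a h t - T t) = (psi a h s - psi a h t) - (T s - T t) := by ring
    rw [e]
    refine (abs_sub _ _).trans ((add_le_add i1 i2).trans (le_of_eq ?_))
    rw [hK]; ring
  have hnn : ∀ t, 0 ≤ psi a h t + T t ∧ 0 ≤ psi a h t - T t := by
    intro t
    rcases le_total |t - a| h with h3 | h3
    · rw [psi_eq_one hh h3]; constructor <;> linarith only [hT1' t, hT1 t]
    · rw [hT0 t h3]; constructor <;> linarith only [psi_nonneg a h t]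
  have hle2 : ∀ t, psi a h t + T t ≤ 2 ∧ psi a h t - T t ≤ 2 := by
    intro t
    constructor <;> linarith only [hT1 t, hT1' t, psi_le_one a h t]
  have hsub1 : Icc (a - 3 * h) (a + 2 * h) ⊆ Icc (1/2:ℝ) 4 :=
    Icc_subset_Icc (by linarith only [hh, hh', h1]) (by linarith only [hh, hh', h2])
  have hsub2 : Icc (a - 2 * h) (a + 3 * h) ⊆ Icc (1/2:ℝ) 4 :=
    Icc_subset_Icc (by linarith only [hh, hh', h1]) (by linarith only [hh, hh', h2])
  have k1 := stieltjes_lower φ (fun t => psi a h t - T t) K hK0 n (a - 3 * h) (a + 2 * h)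
    (by linarith only [hh]) hφ.intervalIntegrable
    (fun s hs t ht => hQ s (hsub1 hs) t (hsub1 ht)) 0 2
    (fun t _ => ⟨(hnn t).2, (hle2 t).2⟩)
  have k2 := stieltjes_lower (fun t => -φ t) (fun t => psi a h t + T t) K hK0 n
    (a - 2 * h) (a + 3 * h)
    (by linarith only [hh]) hφ.neg.intervalIntegrable
    (fun s hs t ht => hP s (hsub2 hs) t (hsub2 ht)) 0 2
    (fun t _ => ⟨(hnn t).1, (hle2 t).1⟩)
  rw [inc_neg, NN_neg, tv_neg] at k2
  rw [zero_mul, min_eq_left (by linarith only [hinc1])] at k1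
  rw [zero_mul, min_eq_left (by linarith only [hinc2])] at k2
  have hcontP : ContinuousOn (fun t => psi a h t + T t) (Icc (1/2:ℝ) 4) := holder_cont hK0 hP
  have hcontQ : ContinuousOn (fun t => psi a h t - T t) (Icc (1/2:ℝ) 4) := holder_cont hK0 hQ
  have intP : ∀ c d : ℝ, c ≤ d → Icc c d ⊆ Icc (1/2:ℝ) 4 →
      IntervalIntegrable (fun t => (psi a h t + T t) * φ t) volume c d := by
    intro c d hcd hs
    apply hφ.intervalIntegrable.continuousOn_mul
    rw [uIcc_of_le hcd]; exact hcontP.mono hs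
  have intQ : ∀ c d : ℝ, c ≤ d → Icc c d ⊆ Icc (1/2:ℝ) 4 →
      IntervalIntegrable (fun t => (psi a h t - T t) * φ t) volume c d := by
    intro c d hcd hs
    apply hφ.intervalIntegrable.continuousOn_mul
    rw [uIcc_of_le hcd]; exact hcontQ.mono hs
  have hz : ∀ t, 2 * h ≤ |t - a| → psi a h t = 0 ∧ T t = 0 := fun t ht =>
    ⟨psi_eq_zero hh ht, hT0 t (by linarith only [hh, ht])⟩
  have s1 : ∫ t in (1/2:ℝ)..4, (psi a h t - T t) * φ t
      = ∫ t in (a - 3 * h)..(a + 2 * h), (psi a h t - T t) * φ t := by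
    apply integral_support (by linarith only [hh, hh', h1]) (by linarith only [hh]) (by linarith only [hh, hh', h2])
    · intro t ht
      obtain ⟨e1, e2⟩ := hz t (by rw [abs_of_nonpos (by linarith only [hh, ht.2])]; linarith only [hh, ht.2])
      rw [e1, e2]; ring
    · intro t ht
      obtain ⟨e1, e2⟩ := hz t (by rw [abs_of_nonneg (by linarith only [hh, ht.1])]; linarith only [ht.1])
      rw [e1, e2]; ring
    · exact intQ _ _ (by linarith only [hh]) hsub1
  have s2 : ∫ t in (1/2:ℝ)..4, (psi a h t + T t) * φ t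
      = ∫ t in (a - 2 * h)..(a + 3 * h), (psi a h t + T t) * φ t := by
    apply integral_support (by linarith only [hh', h1]) (by linarith only [hh]) (by linarith only [hh', h2])
    · intro t ht
      obtain ⟨e1, e2⟩ := hz t (by rw [abs_of_nonpos (by linarith only [hh, ht.2])]; linarith only [ht.2])
      rw [e1, e2]; ring
    · intro t ht
      obtain ⟨e1, e2⟩ := hz t (by rw [abs_of_nonneg (by linarith only [hh, ht.1])]; linarith only [hh, ht.1])
      rw [e1, e2]; ring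
    · exact intP _ _ (by linarith only [hh]) hsub2
  have s3 : 2 * ∫ t in (1/2:ℝ)..4, T t * φ t
      = (∫ t in (1/2:ℝ)..4, (psi a h t + T t) * φ t)
        - ∫ t in (1/2:ℝ)..4, (psi a h t - T t) * φ t := by
    rw [← intervalIntegral.integral_sub (intP _ _ (by norm_num) le_rfl)
      (intQ _ _ (by norm_num) le_rfl), ← intervalIntegral.integral_const_mul]
    congr 1; ext t; ring
  have e4 : ∫ t in (a - 2 * h)..(a + 3 * h), (psi a h t + T t) * -φ t
      = -∫ t in (a - 2 * h)..(a + 3 * h), (psi a h t + T t) * φ t := by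
    rw [← intervalIntegral.integral_neg]; congr 1; ext t; ring
  rw [e4, ← s2] at k2
  rw [← s1] at k1
  have hAh := hA a ha12 a ha12 h hhm r hrm
  have hM1 : 0 ≤ MM φ n (a - 3 * h) (a + 2 * h) := MM_nonneg n hφ.intervalIntegrable (by linarith only [hh])
  have hM2 : 0 ≤ MM φ n (a - 2 * h) (a + 3 * h) := MM_nonneg n hφ.intervalIntegrable (by linarith only [hh])
  have hKs : K * Real.sqrt (5 * h) ≤ 2 * (2 + 3 * C0) := by
    rw [hK, Real.sqrt_mul (by norm_num)]
    have e5 : (1 + 2.5 * C0) / Real.sqrt h * (Real.sqrt 5 * Real.sqrt h)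
        = (1 + 2.5 * C0) * Real.sqrt 5 := by (clear * - hh hC0; field_simp)
    rw [e5]
    have e6 : Real.sqrt 5 ≤ 2.25 := by
      rw [Real.sqrt_le_left (by norm_num)]; norm_num
    nlinarith only [hC0, e6]
  have w1 : a + 2 * h - (a - 3 * h) = 5 * h := by ring
  have w2 : a + 3 * h - (a - 2 * h) = 5 * h := by ring
  rw [w1] at k1
  rw [w2] at k2
  have m1 := mul_le_mul_of_nonneg_right hKs hM1
  have m2 := mul_le_mul_of_nonneg_right hKs hM2
  unfold MM at m1 m2 ⊢
  rw [hAh]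
  have : ∫ t in (1/2:ℝ)..4, (v a h t - v a r t) * φ t = ∫ t in (1/2:ℝ)..4, T t * φ t := rfl
  rw [this]
  linarith only [k1, k2, s3, m1, m2]

end

end Vale.Agent.P137
end
end

section

section

open MeasureTheory Set intervalIntegral Filter
open scoped ENNReal Topology

namespace Vale.Agent.P137

noncomputable section

/-- Supremum of the averages over radii in `[h/2, h]`. -/
def GG (A : ℝ → ℝ → ℝ) (h ρ : ℝ) : ℝ := sSup ((A ρ) '' Icc (h / 2) h)

lemma rep_bound {v : ℝ → ℝ → ℝ → ℝ} {C0 : ℝ} (hv : IsKernel v C0) {φ : ℝ → ℝ}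
    (hφ : Integrable φ) {A : ℝ → ℝ → ℝ} (hA : Represents A v φ) {ρ ρ' r r' : ℝ}
    (hρ : ρ ∈ Icc (1:ℝ) 2) (hρ' : ρ' ∈ Icc (1:ℝ) 2) (hr : r ∈ Ioc (0:ℝ) (1/16))
    (hr' : r' ∈ Ioc (0:ℝ) (1/16)) : |A ρ' r' - A ρ r| ≤ ∫ t, |φ t| := by
  rw [hA ρ hρ ρ' hρ' r hr r' hr', ← Real.norm_eq_abs]
  refine (intervalIntegral.norm_integral_le_of_norm_le (g := fun t => |φ t|) (by norm_num) ?_
    hφ.abs.intervalIntegrable).trans ?_
  · filter_upwards with t _
    rw [Real.norm_eq_abs, abs_mul]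
    have : |v ρ r t - v ρ' r' t| ≤ 1 := by
      rw [abs_le]
      constructor <;> linarith only [hv.nonneg ρ r t, hv.nonneg ρ' r' t, hv.le_one ρ r t, hv.le_one ρ' r' t]
    nlinarith only [this, abs_nonneg (φ t)]
  · rw [intervalIntegral.integral_of_le (by norm_num)]
    exact setIntegral_le_integral hφ.abs (Filter.Eventually.of_forall (fun _ => abs_nonneg _))

lemma GG_bdd {v : ℝ → ℝ → ℝ → ℝ} {C0 : ℝ} (hv : IsKernel v C0) {φ : ℝ → ℝ}
    (hφ : Integrable φ) {A : ℝ → ℝ → ℝ} (hA : Represents A v φ) {h ρ : ℝ} (hh : 0 < h)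
    (hh' : h ≤ 1 / 16) (hρ : ρ ∈ Icc (1:ℝ) 2) : BddAbove ((A ρ) '' Icc (h / 2) h) := by
  refine ⟨A ρ h + ∫ t, |φ t|, ?_⟩
  rintro _ ⟨r, hr, rfl⟩
  have := rep_bound hv hφ hA hρ hρ (r := h) (r' := r) ⟨hh, hh'⟩ ⟨by linarith only [hh, hr.1], hr.2.trans hh'⟩
  have := (abs_le.1 this).2
  linarith only [this]

lemma le_GG {v : ℝ → ℝ → ℝ → ℝ} {C0 : ℝ} (hv : IsKernel v C0) {φ : ℝ → ℝ}
    (hφ : Integrable φ) {A : ℝ → ℝ → ℝ} (hA : Represents A v φ) {h ρ r : ℝ} (hh : 0 < h)
    (hh' : h ≤ 1 / 16) (hρ : ρ ∈ Icc (1:ℝ) 2) (hr : r ∈ Icc (h / 2) h) : A ρ r ≤ GG A h ρ :=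
  le_csSup (GG_bdd hv hφ hA hh hh' hρ) ⟨r, hr, rfl⟩

lemma GG_le {A : ℝ → ℝ → ℝ} {h ρ B : ℝ} (hh : 0 < h)
    (hB : ∀ r ∈ Icc (h / 2) h, A ρ r ≤ B) : GG A h ρ ≤ B := by
  apply csSup_le
  · exact ⟨A ρ h, h, ⟨by linarith only [hh], le_rfl⟩, rfl⟩
  · rintro _ ⟨r, hr, rfl⟩; exact hB r hr

lemma sum_tv5 {φ : ℝ → ℝ} (hφ : Integrable φ) {x h : ℝ} (hp : 0 ≤ h) (N : ℕ) :
    ∑ i ∈ Finset.range N, tv φ (x + i * h) (x + (i + 5) * h) ≤ 5 * ∫ t, |φ t| := by
  have key : ∀ i ∈ Finset.range N, tv φ (x + i * h) (x + (i + 5) * h) =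
      tv φ ((x) + i * h) ((x) + (i + 1) * h)
      + tv φ ((x + h) + i * h) ((x + h) + (i + 1) * h)
      + tv φ ((x + 2 * h) + i * h) ((x + 2 * h) + (i + 1) * h)
      + tv φ ((x + 3 * h) + i * h) ((x + 3 * h) + (i + 1) * h)
      + tv φ ((x + 4 * h) + i * h) ((x + 4 * h) + (i + 1) * h) := by
    intro i _
    have hi : ∀ a b : ℝ, IntervalIntegrable φ volume a b := fun a b => hφ.intervalIntegrable
    have e1 : (x + h) + i * h = (x) + (i + 1) * h := by ring
    have e2 : (x + 2 * h) + i * h = (x + h) + (i + 1) * h := by ring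
    have e3 : (x + 3 * h) + i * h = (x + 2 * h) + (i + 1) * h := by ring
    have e4 : (x + 4 * h) + i * h = (x + 3 * h) + (i + 1) * h := by ring
    rw [e1, tv_add (hi _ _) (hi _ _), e2, tv_add (hi _ _) (hi _ _), e3, tv_add (hi _ _) (hi _ _),
      e4, tv_add (hi _ _) (hi _ _)]
    congr 1
    ring
  rw [Finset.sum_congr rfl key]
  simp only [Finset.sum_add_distrib]
  have a0 := sum_tv_shift hφ (x := x) hp N
  have a1 := sum_tv_shift hφ (x := x + h) hp N
  have a2 := sum_tv_shift hφ (x := x + 2 * h) hp N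
  have a3 := sum_tv_shift hφ (x := x + 3 * h) hp N
  have a4 := sum_tv_shift hφ (x := x + 4 * h) hp N
  linarith only [a0, a1, a2, a3, a4]

lemma sum_shift_le (g g' : ℕ → ℝ) (hg : ∀ i, 0 ≤ g i) (h0 : g' 0 = 0) (hs : ∀ i, g' (i + 1) = g i)
    (N : ℕ) : ∑ i ∈ Finset.range N, g' i ≤ ∑ i ∈ Finset.range N, g i := by
  cases N with
  | zero => simp
  | succ N =>
    rw [Finset.sum_range_succ', h0, add_zero, Finset.sum_range_succ]
    simp only [hs]
    have := hg N
    linarith only [this]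

/-- One step of the induction over the scales. -/
lemma step {v : ℝ → ℝ → ℝ → ℝ} {C0 : ℝ} (hv : IsKernel v C0) {φ : ℝ → ℝ}
    (hφ : Integrable φ) {A : ℝ → ℝ → ℝ} (hA : Represents A v φ) {H : ℝ → ℝ} {h : ℝ} {N : ℕ}
    (hN1 : 1 ≤ N) (hNh : N * h = 1) (hh' : h ≤ 1 / 16) (hH : ∀ ρ ∈ Icc (1:ℝ) 2, A ρ h ≤ H ρ)
    (hfin : eVariationOn H (Icc 1 2) ≠ ∞) (n : ℕ) :
    eVariationOn (fun ρ => max (GG A h ρ) (H ρ)) (Icc 1 2) ≠ ∞ ∧
    var (fun ρ => max (GG A h ρ) (H ρ)) 1 2 ≤ var H 1 2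
      + (max (GG A h 1) (H 1) - H 1) + (max (GG A h 2) (H 2) - H 2)
      + (26 * C0 + 8) * ∑ i ∈ Finset.range N, MM φ n (1 + i * h - 2 * h) (1 + i * h + 3 * h) := by
  have hN0 : (1:ℝ) ≤ N := by exact_mod_cast hN1
  have hh : 0 < h := by
    by_contra hc
    push Not at hc
    nlinarith only [hNh, hc]
  have hC0 := hv.C0_nonneg
  have e2 : (1:ℝ) + N * h = 2 := by rw [hNh]; norm_num
  set m : ℕ → ℝ := fun i => MM φ n (1 + i * h - 2 * h) (1 + i * h + 3 * h) with hm
  have hm0 : ∀ i, 0 ≤ m i := fun i => MM_nonneg n hφ.intervalIntegrable (by linarith only [hh])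
  set s : ℕ → ℝ := fun i => if 0 ≤ inc φ (1 + i * h - 2 * h) (1 + i * h + 3 * h) then 1 else -1
    with hsdef
  set ε : ℕ → ℝ := fun i => 7 * C0 / h * m i with hε
  set δ : ℕ → ℝ := fun i => (2 + 3 * C0) * ((if i = 0 then 0 else m (i - 1)) + m i) with hδ
  have hδ0 : ∀ i, 0 ≤ δ i := by
    intro i
    simp only [hδ]
    have := hm0 i
    have := hm0 (i - 1)
    split_ifs <;> positivity
  have key := many_intervals (u := GG A h) (H := H) (a := 1) (h := h) hh.le s ε δ
    (by intro i; simp only [hsdef]; split_ifs <;> simp)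
    (by intro i; simp only [hε]; have := hm0 i; (clear * - hh hC0 this; positivity))
    hδ0 N (by rw [e2]; exact hfin)
    (by
      intro i hi x hx y hy hxy
      have hi' : (i:ℝ) + 1 ≤ N := by exact_mod_cast hi
      have hi0 : (0:ℝ) ≤ i := Nat.cast_nonneg i
      have ha1 : (1:ℝ) ≤ 1 + i * h := by nlinarith only [hh]
      have ha2 : 1 + i * h + h ≤ 2 := by nlinarith only [e2, hi']
      have hx' : x ∈ Icc (1 + i * h) (1 + i * h + h) := ⟨hx.1, by linarith only [hx.2]⟩
      have hy' : y ∈ Icc (1 + i * h) (1 + i * h + h) := ⟨hy.1, by linarith only [hy.2]⟩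
      have hx12 : x ∈ Icc (1:ℝ) 2 := ⟨ha1.trans hx'.1, hx'.2.trans ha2⟩
      have hy12 : y ∈ Icc (1:ℝ) 2 := ⟨ha1.trans hy'.1, hy'.2.trans ha2⟩
      by_cases hinc : 0 ≤ inc φ (1 + i * h - 2 * h) (1 + i * h + 3 * h)
      · have : s i = 1 := by simp only [hsdef]; rw [if_pos hinc]
        rw [this, one_mul]
        have : GG A h x ≤ GG A h y + ε i * (y - x) := by
          apply GG_le hh
          intro r hr
          have h3 := near_mono hv hφ hA hh hh' ha1 ha2 hr n hinc hx' hy' hxy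
          have h4 := le_GG hv hφ hA hh hh' hy12 hr
          simp only [hε, hm]
          linarith only [h3, h4]
        linarith only [this]
      · push Not at hinc
        have : s i = -1 := by simp only [hsdef]; rw [if_neg (not_le.2 hinc)]
        rw [this]
        have : GG A h y ≤ GG A h x + ε i * (y - x) := by
          apply GG_le hh
          intro r hr
          have h3 := near_mono_neg hv hφ hA hh hh' ha1 ha2 hr n hinc.le hx' hy' hxy
          have h4 := le_GG hv hφ hA hh hh' hx12 hr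
          simp only [hε, hm]
          linarith only [h3, h4]
        linarith only [this])
    (by
      intro i hi hs1 hs2
      have hi' : (i:ℝ) + 1 + 1 ≤ N := by exact_mod_cast hi
      have hi0 : (0:ℝ) ≤ i := Nat.cast_nonneg i
      have ha1 : (1:ℝ) ≤ 1 + (i + 1) * h := by nlinarith only [e2]
      have ha2 : 1 + (i + 1) * h ≤ 2 := by nlinarith only [e2, hi']
      have hinc1 : 0 ≤ inc φ (1 + i * h - 2 * h) (1 + i * h + 3 * h) := by
        by_contra hc
        simp only [hsdef] at hs1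
        rw [if_neg hc] at hs1
        norm_num at hs1
      have hinc2 : inc φ (1 + (i + 1) * h - 2 * h) (1 + (i + 1) * h + 3 * h) ≤ 0 := by
        by_contra hc
        push Not at hc
        simp only [hsdef] at hs2
        push_cast at hs2
        rw [if_pos hc.le] at hs2
        norm_num at hs2
      have hd : δ (i + 1) = (2 + 3 * C0) * (m i + m (i + 1)) := by
        simp only [hδ, Nat.add_eq_zero_iff, one_ne_zero, and_false, ↓reduceIte, add_tsub_cancel_right]
      rw [hd]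
      have hG : GG A h (1 + (i + 1) * h) ≤ H (1 + (i + 1) * h)
          + (2 + 3 * C0) * (m i + m (i + 1)) := by
        apply GG_le hh
        intro r hr
        have e3 : 1 + ((i:ℝ) + 1) * h - 3 * h = 1 + i * h - 2 * h := by ring
        have e4 : 1 + ((i:ℝ) + 1) * h + 2 * h = 1 + i * h + 3 * h := by ring
        have h3 := junction hv hφ hA hh hh' ha1 ha2 hr n (by rw [e3, e4]; exact hinc1) hinc2
        rw [e3, e4] at h3
        have h4 := hH _ ⟨ha1, ha2⟩
        simp only [hm]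
        push_cast
        linarith only [h3, h4]
      have hmm : 0 ≤ (2 + 3 * C0) * (m i + m (i + 1)) := by
        have := hm0 i
        have := hm0 (i + 1)
        (clear A hA H hN1 hh' hH hfin hN0 e2 hm s hsdef ε hε δ hδ hδ0 hi hs1 hs2 hi' hi0 ha1 ha2 hinc1 hinc2 hd hG; positivity)
      rw [sub_le_iff_le_add, max_le_iff]
      constructor <;> linarith only [hG, hmm])
    N hN1 le_rfl
  rw [e2] at key
  refine ⟨key.1, key.2.trans ?_⟩
  have w2 : 0 ≤ max (GG A h 2) (H 2) - H 2 := by have := le_max_right (GG A h 2) (H 2); linarith only [this]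
  have hs1 : s (N - 1) * (max (GG A h 2) (H 2) - H 2) ≤ max (GG A h 2) (H 2) - H 2 := by
    simp only [hsdef]
    split_ifs <;> linarith only [w2]
  have hsum : ∑ i ∈ Finset.range N, (2 * (ε i * h) + 2 * δ i)
      ≤ (26 * C0 + 8) * ∑ i ∈ Finset.range N, m i := by
    have hshift := sum_shift_le m (fun i => if i = 0 then 0 else m (i - 1)) hm0 (by simp)
      (by intro i; simp only [Nat.add_eq_zero_iff, one_ne_zero, and_false, ↓reduceIte, add_tsub_cancel_right]) N
    have e5 : ∑ i ∈ Finset.range N, (2 * (ε i * h) + 2 * δ i)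
        = 14 * C0 * ∑ i ∈ Finset.range N, m i
          + 2 * (2 + 3 * C0) * (∑ i ∈ Finset.range N, (if i = 0 then 0 else m (i - 1))
            + ∑ i ∈ Finset.range N, m i) := by
      rw [← Finset.sum_add_distrib, Finset.mul_sum, Finset.mul_sum, ← Finset.sum_add_distrib]
      apply Finset.sum_congr rfl
      intro i _
      simp only [hε, hδ]
      field_simp
      ring
    rw [e5]
    have : 2 * (2 + 3 * C0) * (∑ i ∈ Finset.range N, (if i = 0 then 0 else m (i - 1)))
        ≤ 2 * (2 + 3 * C0) * ∑ i ∈ Finset.range N, m i :=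
      mul_le_mul_of_nonneg_left hshift (by (clear * - hC0; positivity))
    linarith only [this]
  linarith only [hs1, hsum]

lemma lev32 (k : ℕ) : lev 32 k + 4 = 36 * 2 ^ k := by
  induction k with
  | zero => simp [lev]
  | succ k ih => rw [lev_succ, pow_succ]; omega

lemma sum_MM_le {φ : ℝ → ℝ} (hφ : Integrable φ) (n k : ℕ) :
    ∑ i ∈ Finset.range (32 * 2 ^ k), MM φ n (1 + i * hh (1/32) k - 2 * hh (1/32) k)
      (1 + i * hh (1/32) k + 3 * hh (1/32) k)
    ≤ ZZ φ (15/16) (1/32) n k (lev 32 k) + qq ^ n * (5 * ∫ t, |φ t|) := by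
  have hp := hh_pos (h0 := 1/32) (by norm_num) k
  have hq := qq_pos
  unfold MM
  rw [Finset.sum_add_distrib]
  have e0 : (2:ℝ) ^ k * hh (1/32) k = 1/32 := by
    unfold hh; field_simp
  have h2k : 1 ≤ 2 ^ k := Nat.one_le_two_pow
  apply add_le_add
  · unfold ZZ
    have e1 : ∑ i ∈ Finset.range (32 * 2 ^ k), NN φ n (1 + i * hh (1/32) k - 2 * hh (1/32) k)
        (1 + i * hh (1/32) k + 3 * hh (1/32) k)
        = ∑ j ∈ Finset.Ico (2 * 2 ^ k - 2 : ℕ) (2 * 2 ^ k - 2 + 32 * 2 ^ k : ℕ),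
          NN φ n (15/16 + (j : ℕ) * hh (1/32) k) (15/16 + ((j : ℕ) + 5) * hh (1/32) k) := by
      rw [Finset.sum_Ico_eq_sum_range]
      have : 2 * 2 ^ k - 2 + 32 * 2 ^ k - (2 * 2 ^ k - 2) = 32 * 2 ^ k := by omega
      rw [this]
      apply Finset.sum_congr rfl
      intro i _
      have c1 : ((2 * 2 ^ k - 2 + i : ℕ) : ℝ) = 2 * 2 ^ k - 2 + i := by
        rw [Nat.cast_add, Nat.cast_sub (by omega)]; push_cast; ring
      rw [c1]
      congr 1
      · linear_combination (-2) * e0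
      · linear_combination (-2) * e0
    rw [e1]
    apply Finset.sum_le_sum_of_subset_of_nonneg
    · intro j hj
      rw [Finset.mem_Ico] at hj
      rw [Finset.mem_range]
      have := lev32 k
      omega
    · intro j _ _
      exact NN_nonneg n hφ.intervalIntegrable (by linarith only [hp])
  · rw [← Finset.mul_sum]
    apply mul_le_mul_of_nonneg_left _ (by positivity)
    have := sum_tv5 hφ (x := 1 - 2 * hh (1/32) k) hp.le (32 * 2 ^ k)
    refine le_trans (le_of_eq ?_) this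
    apply Finset.sum_congr rfl
    intro i _
    congr 1 <;> ring

/-- The main one-dimensional estimate: the variation on `[1,2]` of the truncated
maximal functions, uniformly in the truncation. -/
theorem all_scales {v : ℝ → ℝ → ℝ → ℝ} {C0 : ℝ} (hv : IsKernel v C0) {φ : ℝ → ℝ}
    (hφ : Integrable φ) {A : ℝ → ℝ → ℝ} (hA : Represents A v φ) {H : ℕ → ℝ → ℝ}
    (h0 : ∀ ρ ∈ Icc (1:ℝ) 2, A ρ (1/32) ≤ H 0 ρ)
    (hstep : ∀ k, ∀ ρ ∈ Icc (1:ℝ) 2, H (k + 1) ρ = max (GG A (hh (1/32) k) ρ) (H k ρ))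
    (hfin : eVariationOn (H 0) (Icc 1 2) ≠ ∞) (K : ℕ) :
    eVariationOn (H K) (Icc 1 2) ≠ ∞ ∧
    var (H K) 1 2 ≤ var (H 0) 1 2
      + (2 + (26 * C0 + 8) * (5 / (2 * (1 - qq)))) * ∫ t, |φ t| := by
  have hC0 := hv.C0_nonneg
  have hV : 0 ≤ ∫ t, |φ t| := integral_nonneg (fun _ => abs_nonneg _)
  have hhk : ∀ k, hh (1/32) k ≤ 1/16 := by
    intro k
    unfold hh
    rw [div_le_iff₀ (by positivity)]
    have : (1:ℝ) ≤ 2 ^ k := one_le_pow₀ (by norm_num)
    linarith only [this]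
  have hhp : ∀ k, 0 < hh (1/32) k := fun k => hh_pos (by norm_num) k
  -- comparison with the averages
  have hAH : ∀ k, ∀ ρ ∈ Icc (1:ℝ) 2, A ρ (hh (1/32) k) ≤ H k ρ := by
    intro k
    induction k with
    | zero =>
      intro ρ hρ
      have : hh (1/32) 0 = 1/32 := by unfold hh; simp
      rw [this]; exact h0 ρ hρ
    | succ k ih =>
      intro ρ hρ
      rw [hstep k ρ hρ]
      refine le_trans ?_ (le_max_left _ _)
      apply le_GG hv hφ hA (hhp k) (hhk k) hρ
      have := hh_succ (1/32) k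
      have := hhp (k + 1)
      constructor <;> linarith
  have hHle : ∀ k, ∀ ρ ∈ Icc (1:ℝ) 2, H k ρ ≤ H 0 ρ + ∫ t, |φ t| := by
    intro k
    induction k with
    | zero => intro ρ _; linarith only [hV]
    | succ k ih =>
      intro ρ hρ
      rw [hstep k ρ hρ]
      apply max_le _ (ih ρ hρ)
      apply GG_le (hhp k)
      intro r hr
      have hrm : r ∈ Ioc (0:ℝ) (1/16) := ⟨by linarith only [hr.1, hhp k], hr.2.trans (hhk k)⟩
      have := rep_bound hv hφ hA hρ hρ (r := 1/32) (r' := r) ⟨by norm_num, by norm_num⟩ hrm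
      have := (abs_le.1 this).2
      have := h0 ρ hρ
      linarith
  -- the induction
  have main : ∀ n K : ℕ, eVariationOn (H K) (Icc 1 2) ≠ ∞ ∧
      var (H K) 1 2 ≤ var (H 0) 1 2 + (H K 1 - H 0 1) + (H K 2 - H 0 2)
        + (26 * C0 + 8) * ∑ k ∈ Finset.range K,
          (ZZ φ (15/16) (1/32) n (0 + k) (lev 32 k) + qq ^ n * (5 * ∫ t, |φ t|)) := by
    intro n K
    induction K with
    | zero => exact ⟨hfin, by simp⟩
    | succ K ih =>
      obtain ⟨f1, f2⟩ := ih
      have hcong : EqOn (H (K + 1)) (fun ρ => max (GG A (hh (1/32) K) ρ) (H K ρ)) (Icc 1 2) :=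
        fun ρ hρ => hstep K ρ hρ
      have hNh : ((32 * 2 ^ K : ℕ) : ℝ) * hh (1/32) K = 1 := by
        unfold hh; push_cast; field_simp
      have st := step hv hφ hA (H := H K) (h := hh (1/32) K) (N := 32 * 2 ^ K)
        (by have : 1 ≤ 2 ^ K := Nat.one_le_two_pow
            (clear * - this; omega)) hNh (hhk K) (hAH K) f1 n
      have ev : eVariationOn (H (K + 1)) (Icc 1 2)
          = eVariationOn (fun ρ => max (GG A (hh (1/32) K) ρ) (H K ρ)) (Icc 1 2) :=
        eVariationOn.congr hcong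
      have ev' : var (H (K + 1)) 1 2
          = var (fun ρ => max (GG A (hh (1/32) K) ρ) (H K ρ)) 1 2 := by
        unfold var; rw [ev]
      refine ⟨by rw [ev]; exact st.1, ?_⟩
      rw [ev', Finset.sum_range_succ, zero_add]
      have h3 := st.2
      have h4 := mul_le_mul_of_nonneg_left (sum_MM_le hφ n K) (by (clear * - hC0; positivity) : 0 ≤ 26 * C0 + 8)
      have e1 := hstep K 1 ⟨le_rfl, by norm_num⟩
      have e2 := hstep K 2 ⟨by norm_num, le_rfl⟩
      rw [e1, e2]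
      linarith only [f2, h3, h4]
  refine ⟨(main 0 K).1, ?_⟩
  -- let `n → ∞`
  have hq0 := qq_pos
  have hq1 := qq_lt_one
  have bound : ∀ n : ℕ, var (H K) 1 2 ≤ var (H 0) 1 2
      + (2 + (26 * C0 + 8) * (5 / (2 * (1 - qq)))) * (∫ t, |φ t|)
      + (26 * C0 + 8) * (K * (qq ^ n * (5 * ∫ t, |φ t|))) := by
    intro n
    have h1 := (main n K).2
    rw [Finset.sum_add_distrib, Finset.sum_const, Finset.card_range, nsmul_eq_mul] at h1
    have h2 := mul_le_mul_of_nonneg_left (forest_sum hφ (x0 := 15/16) (h0 := 1/32) (by norm_num)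
      n K 0 32) (by (clear * - hC0; positivity) : 0 ≤ 26 * C0 + 8)
    have h3 := hHle K 1 ⟨le_rfl, by norm_num⟩
    have h4 := hHle K 2 ⟨by norm_num, le_rfl⟩
    have e : (26 * C0 + 8) * (1 / (2 * (1 - qq)) * (5 * ∫ t, |φ t|))
        = (26 * C0 + 8) * (5 / (2 * (1 - qq))) * ∫ t, |φ t| := by ring
    rw [e] at h2
    linarith only [h1, h2, h3, h4]
  have hlim : Tendsto (fun n : ℕ => var (H 0) 1 2
      + (2 + (26 * C0 + 8) * (5 / (2 * (1 - qq)))) * (∫ t, |φ t|)
      + (26 * C0 + 8) * (K * (qq ^ n * (5 * ∫ t, |φ t|)))) atTop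
      (𝓝 (var (H 0) 1 2
      + (2 + (26 * C0 + 8) * (5 / (2 * (1 - qq)))) * (∫ t, |φ t|)
      + (26 * C0 + 8) * (K * (0 * (5 * ∫ t, |φ t|))))) := by
    apply Tendsto.add tendsto_const_nhds
    apply Tendsto.const_mul
    apply Tendsto.const_mul
    apply Tendsto.mul_const
    exact tendsto_pow_atTop_nhds_zero_of_lt_one hq0.le hq1
  have := ge_of_tendsto' hlim bound
  linarith only [this]

end

end Vale.Agent.P137
end
end

section

section

open MeasureTheory Set Metric
open scoped ENNReal NNReal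

namespace Vale.Agent.P137

noncomputable section

variable {n : ℕ}

/-- Average of `u` over `ball x r` (real valued). -/
def avg (u : E (n + 2) → ℝ) (x : E (n + 2)) (r : ℝ) : ℝ :=
  (∫ y in ball x r, u y) / (r ^ (n + 2) * om (n + 2))

/-- The maximal function truncated to radii at least `δ`. -/
def Mtr (u : E (n + 2) → ℝ) (δ : ℝ) (x : E (n + 2)) : ℝ := sSup ((avg u x) '' Ici δ)

/-- The full maximal function, real valued. -/
def Mfull (u : E (n + 2) → ℝ) (x : E (n + 2)) : ℝ := sSup ((avg u x) '' Ioi 0)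

lemma den_pos {r : ℝ} (hr : 0 < r) : 0 < r ^ (n + 2) * om (n + 2) := by
  have := om_pos (n + 2); positivity

lemma avg_nonneg {u : E (n + 2) → ℝ} (hu : ∀ x, 0 ≤ u x) (x : E (n + 2)) {r : ℝ} (hr : 0 < r) :
    0 ≤ avg u x r := by
  unfold avg
  exact div_nonneg (integral_nonneg (fun _ => hu _)) (den_pos hr).le

lemma avg_le {u : E (n + 2) → ℝ} (hu : ∀ x, 0 ≤ u x) (hi : Integrable u) (x : E (n + 2)) {r δ : ℝ}
    (hδ : 0 < δ) (hr : δ ≤ r) : avg u x r ≤ (∫ y, u y) / (δ ^ (n + 2) * om (n + 2)) := by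
  unfold avg
  apply div_le_div₀ (integral_nonneg (fun _ => hu _))
    (setIntegral_le_integral hi (Filter.Eventually.of_forall hu)) (den_pos hδ)
  apply mul_le_mul_of_nonneg_right _ (om_pos _).le
  exact pow_le_pow_left₀ hδ.le hr _

lemma Mtr_bdd {u : E (n + 2) → ℝ} (hu : ∀ x, 0 ≤ u x) (hi : Integrable u) (x : E (n + 2)) {δ : ℝ}
    (hδ : 0 < δ) : BddAbove ((avg u x) '' Ici δ) := by
  refine ⟨(∫ y, u y) / (δ ^ (n + 2) * om (n + 2)), ?_⟩
  rintro _ ⟨r, hr, rfl⟩
  exact avg_le hu hi x hδ hr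

lemma avg_le_Mtr {u : E (n + 2) → ℝ} (hu : ∀ x, 0 ≤ u x) (hi : Integrable u) (x : E (n + 2))
    {δ r : ℝ} (hδ : 0 < δ) (hr : δ ≤ r) : avg u x r ≤ Mtr u δ x :=
  le_csSup (Mtr_bdd hu hi x hδ) ⟨r, hr, rfl⟩

lemma Mtr_le {u : E (n + 2) → ℝ} (x : E (n + 2)) {δ B : ℝ} (h : ∀ r, δ ≤ r → avg u x r ≤ B) :
    Mtr u δ x ≤ B := by
  apply csSup_le
  · exact ⟨_, δ, self_mem_Ici, rfl⟩
  · rintro _ ⟨r, hr, rfl⟩; exact h r hr

lemma Mtr_nonneg {u : E (n + 2) → ℝ} (hu : ∀ x, 0 ≤ u x) (hi : Integrable u) (x : E (n + 2)) {δ : ℝ}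
    (hδ : 0 < δ) : 0 ≤ Mtr u δ x :=
  (avg_nonneg hu x hδ).trans (avg_le_Mtr hu hi x hδ le_rfl)

lemma pow_sub_one_le {d : ℕ} {a x : ℝ} (ha : 0 ≤ a) (hx : 0 ≤ x) (hx1 : x ≤ 1) :
    (1 + a * x) ^ d - 1 ≤ x * ((1 + a) ^ d - 1) := by
  induction d with
  | zero => simp
  | succ d ih =>
    rw [pow_succ, pow_succ]
    have h1 : (1:ℝ) ≤ (1 + a) ^ d := one_le_pow₀ (by linarith only [ha])
    have h2 : 0 ≤ (1 + a * x) := by positivity
    have h3 : (1 + a * x) ^ d ≤ 1 + x * ((1 + a) ^ d - 1) := by linarith only [ih]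
    have h4 : (1 + a * x) ^ d * (1 + a * x) ≤ (1 + x * ((1 + a) ^ d - 1)) * (1 + a * x) :=
      mul_le_mul_of_nonneg_right h3 h2
    have h5 : 0 ≤ a * x * (1 - x) * ((1 + a) ^ d - 1) := by
      apply mul_nonneg _ (by linarith only [h1])
      apply mul_nonneg (by positivity) (by linarith only [hx1])
    linarith only [h4, h5]

/-- Quantitative Lipschitz estimate of the truncated maximal function. -/
lemma Mtr_lip {u : E (n + 2) → ℝ} (hu : ∀ x, 0 ≤ u x) (hi : Integrable u) {x x' : E (n + 2)}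
    {δ L S : ℝ} (hδ : 0 < δ) (hL : 0 < L) (hS : Mtr u δ x' ≤ S) (hd : dist x x' ≤ L) :
    Mtr u δ x - Mtr u δ x' ≤ dist x x' / L * ((1 + L / δ) ^ (n + 2) * S) := by
  set h := dist x x' with hh
  have hh0 : 0 ≤ h := dist_nonneg
  have hS0 : 0 ≤ S := (Mtr_nonneg hu hi x' hδ).trans hS
  have hM0 := Mtr_nonneg hu hi x' hδ
  have key : Mtr u δ x ≤ (1 + h / δ) ^ (n + 2) * Mtr u δ x' := by
    apply Mtr_le
    intro r hr
    have hr0 : 0 < r := hδ.trans_le hr
    have h1 : ∫ y in ball x r, u y ≤ ∫ y in ball x' (r + h), u y := by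
      apply setIntegral_mono_set hi.integrableOn (Filter.Eventually.of_forall hu)
      apply Filter.Eventually.of_forall
      apply ball_subset_ball'
      rw [← hh]
    have h2 : avg u x r ≤ ((r + h) / r) ^ (n + 2) * avg u x' (r + h) := by
      unfold avg
      rw [div_pow, div_mul_div_comm, mul_comm (r ^ (n + 2)) ((r + h) ^ (n + 2) * om (n + 2)),
        mul_assoc ((r + h) ^ (n + 2)), mul_div_mul_left _ _ (by (clear * - hr0; positivity)), mul_comm (om (n + 2))]
      apply div_le_div_of_nonneg_right h1 (den_pos hr0).le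
    refine h2.trans ?_
    apply mul_le_mul _ (avg_le_Mtr hu hi x' hδ (by linarith only [hh0, hr])) (avg_nonneg hu x' (by linarith only [hδ, hh0, hr]))
      (by (clear * - hδ; positivity))
    apply pow_le_pow_left₀ (by (clear * - hr0; positivity))
    rw [add_div, div_self hr0.ne']
    have : h / r ≤ h / δ := div_le_div_of_nonneg_left hh0 hδ hr
    linarith only [this]
  have h3 := pow_sub_one_le (d := n + 2) (a := L / δ) (x := h / L) (by positivity) (by positivity)
    (by rw [div_le_one hL]; exact hd)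
  have e1 : L / δ * (h / L) = h / δ := by field_simp
  rw [e1] at h3
  have hp : 1 ≤ (1 + L / δ) ^ (n + 2) := one_le_pow₀ (by
    have : 0 ≤ L / δ := by positivity
    linarith only [this])
  have hx0 : 0 ≤ h / L := by (clear * - hL; positivity)
  calc Mtr u δ x - Mtr u δ x' ≤ ((1 + h / δ) ^ (n + 2) - 1) * Mtr u δ x' := by linarith only [key]
    _ ≤ (h / L * ((1 + L / δ) ^ (n + 2) - 1)) * Mtr u δ x' := mul_le_mul_of_nonneg_right h3 hM0
    _ ≤ (h / L * ((1 + L / δ) ^ (n + 2))) * Mtr u δ x' := by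
        apply mul_le_mul_of_nonneg_right _ hM0
        apply mul_le_mul_of_nonneg_left _ hx0
        linarith only
    _ ≤ (h / L * ((1 + L / δ) ^ (n + 2))) * S := mul_le_mul_of_nonneg_left hS (by (clear * - hδ hL; (clear * - hL hδ; positivity)))
    _ = h / L * ((1 + L / δ) ^ (n + 2) * S) := by ring

lemma Mtr_lip' {u : E (n + 2) → ℝ} (hu : ∀ x, 0 ≤ u x) (hi : Integrable u) {x x' : E (n + 2)}
    {δ L S : ℝ} (hδ : 0 < δ) (hL : 0 < L) (hS : Mtr u δ x ≤ S) (hS' : Mtr u δ x' ≤ S)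
    (hd : dist x x' ≤ L) :
    |Mtr u δ x - Mtr u δ x'| ≤ dist x x' / L * ((1 + L / δ) ^ (n + 2) * S) := by
  rw [abs_le]
  constructor
  · have := Mtr_lip hu hi hδ hL hS (x := x') (x' := x) (by rwa [dist_comm])
    rw [dist_comm] at this
    linarith only [this]
  · exact Mtr_lip hu hi hδ hL hS' hd

end

end Vale.Agent.P137
end
end

section

section

open MeasureTheory Set Metric
open scoped ENNReal NNReal

namespace Vale.Agent.P137

noncomputable section

variable {n : ℕ}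

/-- The profile of a nonnegative radial function in `W^{1,1}(ℝ^(n+2))`. -/
structure Good (n : ℕ) (F φ : ℝ → ℝ) : Prop where
  prof : IsProfile F φ
  meas : Measurable φ
  nonneg : ∀ t, 0 ≤ F t
  wint : IntegrableOn (fun t => t ^ (n + 1) * φ t) (Ioi 0)
  uint : Integrable (fun x : E (n + 2) => F ‖x‖)

/-- Weighted total variation. -/
def PF (n : ℕ) (φ : ℝ → ℝ) (R : ℝ) : ℝ≥0∞ :=
  ∫⁻ τ in Ioi (0:ℝ), ‖φ τ‖ₑ * ENNReal.ofReal (min 1 (τ / R) ^ (n + 2))

lemma Good.intOn {F φ : ℝ → ℝ} (h : Good n F φ) {s : ℝ} (hs : 0 < s) : IntegrableOn φ (Ioi s) := by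
  have h1 : IntegrableOn (fun t => (s ^ (n + 1))⁻¹ * (t ^ (n + 1) * φ t)) (Ioi s) :=
    (h.wint.mono_set (Ioi_subset_Ioi hs.le)).const_mul _
  refine Integrable.mono h1 h.meas.aestronglyMeasurable ?_
  filter_upwards [ae_restrict_mem measurableSet_Ioi] with t ht
  have ht' : s < t := ht
  have h2 : 1 ≤ (s ^ (n + 1))⁻¹ * t ^ (n + 1) := by
    rw [inv_mul_eq_div, one_le_div (by positivity)]
    exact pow_le_pow_left₀ hs.le ht'.le _
  rw [← mul_assoc, norm_mul,
    Real.norm_of_nonneg (by linarith only [h2] : 0 ≤ (s ^ (n + 1))⁻¹ * t ^ (n + 1))]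
  nlinarith only [h2, norm_nonneg (φ t)]

lemma Good.sub_le {F φ : ℝ → ℝ} (h : Good n F φ) {s t : ℝ} (hs : 0 < s) (hst : s ≤ t) :
    |F t - F s| ≤ ∫ τ in Ioi s, |φ τ| := by
  rw [h.prof.sub s t hs hst]
  refine (intervalIntegral.abs_integral_le_integral_abs hst).trans ?_
  rw [intervalIntegral.integral_of_le hst]
  apply setIntegral_mono_set (h.intOn hs).abs (Filter.Eventually.of_forall (fun _ => abs_nonneg _))
  exact Filter.Eventually.of_forall (fun x hx => hx.1)

lemma Good.tail {F φ : ℝ → ℝ} (h : Good n F φ) {s : ℝ} (hs : 0 < s) :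
    F s ≤ ∫ τ in Ioi s, |φ τ| := by
  by_contra hc
  push Not at hc
  set c := F s - ∫ τ in Ioi s, |φ τ| with hcdef
  have hc0 : 0 < c := by linarith only [hc]
  have h1 : ∀ t, s ≤ t → c ≤ F t := by
    intro t ht
    have := (abs_le.1 (h.sub_le hs ht)).1
    linarith only [this]
  have h2 := h.uint.measure_norm_ge_lt_top hc0
  have h3 : (ball (0 : E (n + 2)) s)ᶜ ⊆ {x : E (n + 2) | c ≤ ‖F ‖x‖‖} := by
    intro x hx
    simp only [mem_compl_iff, mem_ball, dist_zero_right, not_lt] at hx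
    have := h1 _ hx
    simp only [mem_ofPred_eq]
    rw [Real.norm_of_nonneg (h.nonneg _)]
    exact this
  have h4 : volume (ball (0 : E (n + 2)) s)ᶜ = ∞ := by
    have h5 : volume (univ : Set (E (n + 2))) = ∞ :=
      measure_univ_of_isAddLeftInvariant volume
    have h6 : volume (univ : Set (E (n + 2))) ≤ volume (ball (0 : E (n + 2)) s)
        + volume (ball (0 : E (n + 2)) s)ᶜ := by
      rw [← union_compl_self (ball (0 : E (n + 2)) s)]
      exact measure_union_le _ _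
    rw [h5] at h6
    by_contra h7
    have := ENNReal.add_ne_top.2 ⟨(measure_ball_lt_top (μ := (volume : Measure (E (n + 2))))
      (x := 0) (r := s)).ne, h7⟩
    exact this (top_le_iff.1 h6)
  have h8 := measure_mono (μ := volume) h3
  rw [h4] at h8
  exact absurd (lt_of_le_of_lt h8 h2) (lt_irrefl _)

lemma Good.tail' {F φ : ℝ → ℝ} (h : Good n F φ) {s : ℝ} (hs : 0 < s) :
    ENNReal.ofReal (F s) ≤ ∫⁻ τ in Ioi s, ‖φ τ‖ₑ := by
  have h1 := ENNReal.ofReal_le_ofReal (h.tail hs)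
  rw [ofReal_integral_eq_lintegral_ofReal (h.intOn hs).abs
    (Filter.Eventually.of_forall (fun _ => abs_nonneg _))] at h1
  refine h1.trans (le_of_eq ?_)
  congr 1
  ext τ
  rw [← Real.norm_eq_abs, ofReal_norm]

lemma PF_lt_top {F φ : ℝ → ℝ} (h : Good n F φ) : PF n φ 1 < ∞ := by
  have h1 : ∫⁻ τ in Ioi (0:ℝ), ‖τ ^ (n + 1) * φ τ‖ₑ < ∞ := h.wint.hasFiniteIntegral
  refine lt_of_le_of_lt ?_ h1
  apply setLIntegral_mono_ae (by
    have := h.meas
    (clear * - this; fun_prop))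
  filter_upwards with τ hτ
  have hτ0 : (0:ℝ) < τ := hτ
  rw [enorm_mul, mul_comm]
  apply mul_le_mul_left
  rw [div_one, Real.enorm_eq_ofReal (by positivity)]
  apply ENNReal.ofReal_le_ofReal
  rcases le_total τ 1 with h2 | h2
  · rw [min_eq_right h2]
    exact pow_le_pow_of_le_one hτ0.le h2 (by omega)
  · rw [min_eq_left h2, one_pow]
    exact one_le_pow₀ h2

lemma volume_ball_ofReal {n : ℕ} (x : E (n + 1)) {r : ℝ} (hr : 0 ≤ r) :
    volume (ball x r) = ENNReal.ofReal (r ^ (n + 1) * om (n + 1)) := by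
  rw [← volume_ball_toReal x hr, ENNReal.ofReal_toReal measure_ball_lt_top.ne]

lemma lintegral_ball_le {F φ : ℝ → ℝ} (h : Good n F φ) {t : ℝ} (ht : 0 < t) :
    ∫⁻ y in ball (0 : E (n + 2)) t, ENNReal.ofReal (F ‖y‖)
      ≤ ∫⁻ τ in Ioi (0:ℝ), ‖φ τ‖ₑ * ENNReal.ofReal (min t τ ^ (n + 2) * om (n + 2)) := by
  have hmeas := h.meas
  have h1 : ∫⁻ y in ball (0 : E (n + 2)) t, ENNReal.ofReal (F ‖y‖)
      ≤ ∫⁻ y in ball (0 : E (n + 2)) t, ∫⁻ τ in Ioi (0:ℝ),
        (ball (0 : E (n + 2)) τ).indicator (fun _ => ‖φ τ‖ₑ) y := by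
    apply lintegral_mono_ae
    have h0 : ∀ᵐ y : E (n + 2) ∂(volume.restrict (ball (0 : E (n + 2)) t)), y ≠ 0 := by
      apply ae_restrict_of_ae
      simp [ae_iff, measure_singleton]
    filter_upwards [h0] with y hy
    have hy0 : 0 < ‖y‖ := norm_pos_iff.2 hy
    refine (h.tail' hy0).trans ?_
    have e1 : (fun τ : ℝ => (ball (0 : E (n + 2)) τ).indicator (fun _ => ‖φ τ‖ₑ) y)
        = (Ioi ‖y‖).indicator (fun τ => ‖φ τ‖ₑ) := by
      ext τ
      simp only [indicator, mem_ball, dist_zero_right, mem_Ioi]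
    rw [e1, setLIntegral_indicator measurableSet_Ioi]
    apply lintegral_mono_set
    intro τ hτ
    exact ⟨hτ, hy0.trans hτ⟩
  refine h1.trans (le_of_eq ?_)
  have hS : MeasurableSet {p : E (n + 2) × ℝ | ‖p.1‖ < p.2} :=
    measurableSet_lt (by fun_prop) (by fun_prop)
  rw [lintegral_lintegral_swap]
  · apply setLIntegral_congr_fun measurableSet_Ioi
    intro τ hτ
    have hτ0 : (0:ℝ) < τ := hτ
    simp only
    rw [setLIntegral_indicator measurableSet_ball, setLIntegral_const]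
    have e2 : ball (0 : E (n + 2)) τ ∩ ball 0 t = ball 0 (min t τ) := by
      ext z
      simp only [mem_inter_iff, mem_ball, dist_zero_right, lt_min_iff]
      (clear * -; tauto)
    rw [e2, volume_ball_ofReal _ (le_min ht.le hτ0.le)]
  · have e3 : (Function.uncurry fun (y : E (n + 2)) (τ : ℝ) =>
        (ball (0 : E (n + 2)) τ).indicator (fun _ => ‖φ τ‖ₑ) y)
        = {p : E (n + 2) × ℝ | ‖p.1‖ < p.2}.indicator (fun p => ‖φ p.2‖ₑ) := by
      ext p
      simp only [Function.uncurry, indicator, mem_ball, dist_zero_right, mem_ofPred_eq]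
    rw [e3]
    apply Measurable.aemeasurable
    apply Measurable.indicator _ hS
    (clear * - hmeas; fun_prop)

lemma avg_zero_le {F φ : ℝ → ℝ} (h : Good n F φ) {t : ℝ} (ht : 1 ≤ t) :
    ENNReal.ofReal (avg (fun x : E (n + 2) => F ‖x‖) 0 t) ≤ PF n φ 1 := by
  have ht0 : 0 < t := by linarith only [ht]
  have hom := om_pos (n + 2)
  unfold avg
  rw [ENNReal.ofReal_div_of_pos (den_pos ht0),
    ofReal_integral_eq_lintegral_ofReal h.uint.integrableOn
      (Filter.Eventually.of_forall (fun _ => h.nonneg _))]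
  apply ENNReal.div_le_of_le_mul
  refine (lintegral_ball_le h ht0).trans ?_
  unfold PF
  rw [← lintegral_mul_const _ (by have := h.meas; (clear * - this; fun_prop))]
  apply setLIntegral_mono_ae (by have := h.meas; fun_prop)
  filter_upwards with τ hτ
  have hτ0 : (0:ℝ) < τ := hτ
  rw [mul_assoc]
  apply mul_le_mul_right
  rw [← ENNReal.ofReal_mul (by positivity)]
  apply ENNReal.ofReal_le_ofReal
  rw [← mul_assoc, ← mul_pow]
  apply mul_le_mul_of_nonneg_right _ hom.le
  apply pow_le_pow_left₀ (by positivity)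
  rw [div_one]
  rcases le_total τ 1 with h2 | h2
  · rw [min_eq_right h2]
    exact (min_le_right _ _).trans (by nlinarith only [ht, hτ0])
  · rw [min_eq_left h2, one_mul]
    exact min_le_left _ _

/-- The truncated maximal function at large radii is controlled by `PF`. -/
lemma Mtr_large {F φ : ℝ → ℝ} (h : Good n F φ) {ρ : ℝ} (hρ : ρ ∈ Icc (1:ℝ) 2) :
    Mtr (fun x : E (n + 2) => F ‖x‖) (1/32) (ρ • e1 (n + 1)) ≤ 65 ^ (n + 2) * (PF n φ 1).toReal := by
  apply Mtr_le
  intro r hr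
  have hr0 : 0 < r := by linarith only [hr]
  have hu : ∀ x : E (n + 2), 0 ≤ F ‖x‖ := fun x => h.nonneg _
  have h1 : ∫ y in ball (ρ • e1 (n + 1)) r, F ‖y‖ ≤ ∫ y in ball (0 : E (n + 2)) (r + 2), F ‖y‖ := by
    apply setIntegral_mono_set h.uint.integrableOn (Filter.Eventually.of_forall hu)
    apply Filter.Eventually.of_forall
    apply ball_subset_ball'
    rw [dist_zero_right, norm_smul_e1 (by linarith only [hρ.1])]
    linarith only [hρ.2]
  have h2 : avg (fun x : E (n + 2) => F ‖x‖) (ρ • e1 (n + 1)) r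
      ≤ 65 ^ (n + 2) * avg (fun x : E (n + 2) => F ‖x‖) 0 (r + 2) := by
    unfold avg
    rw [mul_div_assoc', div_le_div_iff₀ (den_pos hr0) (den_pos (by linarith only [hr0]))]
    have h3 : (r + 2) ^ (n + 2) ≤ 65 ^ (n + 2) * r ^ (n + 2) := by
      rw [← mul_pow]
      apply pow_le_pow_left₀ (by linarith only [hr0])
      linarith only [hr]
    have hI : 0 ≤ ∫ y in ball (0 : E (n + 2)) (r + 2), F ‖y‖ := integral_nonneg (fun _ => hu _)
    have hom := om_pos (n + 2)
    calc (∫ y in ball (ρ • e1 (n + 1)) r, F ‖y‖) * ((r + 2) ^ (n + 2) * om (n + 2))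
        ≤ (∫ y in ball (0 : E (n + 2)) (r + 2), F ‖y‖)
            * ((65 ^ (n + 2) * r ^ (n + 2)) * om (n + 2)) := by
          apply mul_le_mul h1 _ (by positivity) hI
          exact mul_le_mul_of_nonneg_right h3 hom.le
      _ = 65 ^ (n + 2) * (∫ y in ball (0 : E (n + 2)) (r + 2), F ‖y‖)
            * (r ^ (n + 2) * om (n + 2)) := by ring
  refine h2.trans ?_
  apply mul_le_mul_of_nonneg_left _ (by positivity)
  have h4 := avg_zero_le h (t := r + 2) (by linarith only [hr0])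
  rw [← ENNReal.ofReal_le_iff_le_toReal (PF_lt_top h).ne]
  exact h4

lemma dist_e1 {n : ℕ} (ρ ρ' : ℝ) : dist (ρ • e1 n) (ρ' • e1 n) = |ρ - ρ'| := by
  rw [dist_eq_norm, ← sub_smul, norm_smul, norm_e1, mul_one, Real.norm_eq_abs]

/-- The variation at large radii. -/
lemma var_large {F φ : ℝ → ℝ} (h : Good n F φ) :
    eVariationOn (fun ρ => Mtr (fun x : E (n + 2) => F ‖x‖) (1/32) (ρ • e1 (n + 1)))
      (Icc (1:ℝ) 2) ≤ ENNReal.ofReal (33 ^ (n + 2) * (65 ^ (n + 2) * (PF n φ 1).toReal)) := by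
  have hu : ∀ x : E (n + 2), 0 ≤ F ‖x‖ := fun x => h.nonneg _
  set S := 65 ^ (n + 2) * (PF n φ 1).toReal with hS
  have hS0 : 0 ≤ S := by positivity
  have := eVariationOn_le_of_majorant
    (f := fun ρ => Mtr (fun x : E (n + 2) => F ‖x‖) (1/32) (ρ • e1 (n + 1)))
    (P := fun ρ => 33 ^ (n + 2) * S * ρ) (a := 1) (b := 2) (by norm_num) (by
      intro x hx y hy hxy
      have h1 := Mtr_lip' hu h.uint (x := y • e1 (n + 1)) (x' := x • e1 (n + 1)) (δ := 1/32)
        (L := 1) (S := S) (by norm_num) one_pos (Mtr_large h hy) (Mtr_large h hx)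
        (by rw [dist_e1, abs_of_nonneg (by linarith only [hxy])]; linarith only [hx.1, hy.2])
      rw [dist_e1, abs_of_nonneg (by linarith only [hxy] : 0 ≤ y - x)] at h1
      refine h1.trans (le_of_eq ?_)
      norm_num
      ring)
  refine this.trans (ENNReal.ofReal_le_ofReal ?_)
  linarith only

end

end Vale.Agent.P137
end
end

section

section

open MeasureTheory Set Metric Filter
open scoped ENNReal NNReal Topology

namespace Vale.Agent.P137

noncomputable section

variable {n : ℕ}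

/-- The constant in the unit annulus estimate. -/
def C1 (n : ℕ) : ℝ := 33 ^ (n + 2) * 65 ^ (n + 2)
  + (2 + (26 * (2 * CK n) + 8) * (5 / (2 * (1 - qq)))) * 2 ^ (n + 2)

lemma C1_nonneg (n : ℕ) : 0 ≤ C1 n := by
  unfold C1
  have h1 := CK_pos n
  have h2 := qq_lt_one
  have h3 : 0 ≤ 5 / (2 * (1 - qq)) := div_nonneg (by norm_num) (by linarith only [h2])
  positivity

lemma Mtr_step {u : E (n + 2) → ℝ} (hu : ∀ x, 0 ≤ u x) (hi : Integrable u) (x : E (n + 2)) {h : ℝ}
    (hh : 0 < h) : Mtr u (h / 2) x = max (sSup ((avg u x) '' Icc (h / 2) h)) (Mtr u h x) := by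
  unfold Mtr
  have e : Ici (h / 2) = Icc (h / 2) h ∪ Ici h := by
    ext r
    simp only [mem_union, mem_Icc, mem_Ici]
    constructor
    · intro h1
      rcases le_total r h with h2 | h2
      · left; exact ⟨h1, h2⟩
      · right; exact h2
    · rintro (h1 | h1)
      · exact h1.1
      · linarith only [hh, h1]
  rw [e, image_union, csSup_union]
  · exact (Mtr_bdd hu hi x (half_pos hh)).mono (image_mono (fun r hr => hr.1))
  · exact ⟨_, h, ⟨by linarith only [hh], le_rfl⟩, rfl⟩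
  · exact Mtr_bdd hu hi x hh
  · exact ⟨_, h, self_mem_Ici, rfl⟩

lemma integral_phiR_le {F φ : ℝ → ℝ} (h : Good n F φ) :
    ∫ t, |phiR φ t| ≤ 2 ^ (n + 2) * (PF n φ 1).toReal := by
  have h1 : ENNReal.ofReal (∫ t, |phiR φ t|) ≤ ENNReal.ofReal (2 ^ (n + 2)) * PF n φ 1 := by
    rw [ofReal_integral_eq_lintegral_ofReal (phiR_integrable h.prof).abs
      (Filter.Eventually.of_forall (fun _ => abs_nonneg _))]
    unfold PF
    rw [← lintegral_const_mul _ (by have := h.meas; (clear * - this; fun_prop)),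
      ← lintegral_indicator measurableSet_Ioi]
    apply lintegral_mono
    intro t
    simp only
    by_cases ht : t ∈ Ioc (1/2:ℝ) 4
    · have ht0 : t ∈ Ioi (0:ℝ) := by have := ht.1; simp only [mem_Ioi]; linarith only [this]
      rw [indicator_of_mem ht0]
      unfold phiR
      rw [indicator_of_mem ht, ← Real.norm_eq_abs, ofReal_norm, mul_left_comm,
        ← ENNReal.ofReal_mul (by positivity), div_one]
      have h2 : (1:ℝ) ≤ 2 ^ (n + 2) * min 1 t ^ (n + 2) := by
        rw [← mul_pow]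
        apply one_le_pow₀
        rcases le_total t 1 with h3 | h3
        · rw [min_eq_right h3]; linarith only [ht.1]
        · rw [min_eq_left h3]; norm_num
      have h4 : (1:ℝ≥0∞) ≤ ENNReal.ofReal (2 ^ (n + 2) * min 1 t ^ (n + 2)) := by
        rw [← ENNReal.ofReal_one]; exact ENNReal.ofReal_le_ofReal h2
      calc ‖φ t‖ₑ = ‖φ t‖ₑ * 1 := by rw [mul_one]
        _ ≤ _ := mul_le_mul_right h4 _
    · unfold phiR
      rw [indicator_of_notMem ht, abs_zero, ENNReal.ofReal_zero]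
      exact zero_le
  have h2 : ENNReal.ofReal (2 ^ (n + 2)) * PF n φ 1
      = ENNReal.ofReal (2 ^ (n + 2) * (PF n φ 1).toReal) := by
    rw [ENNReal.ofReal_mul (by positivity), ENNReal.ofReal_toReal (PF_lt_top h).ne]
  rw [h2] at h1
  exact (ENNReal.ofReal_le_ofReal_iff (by positivity)).1 h1

/-- The uniform estimate on the unit annulus. -/
theorem unit_annulus {F φ : ℝ → ℝ} (h : Good n F φ) (K : ℕ) :
    eVariationOn (fun ρ => Mtr (fun x : E (n + 2) => F ‖x‖) (hh (1/32) K) (ρ • e1 (n + 1)))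
      (Icc (1:ℝ) 2) ≤ ENNReal.ofReal (C1 n) * PF n φ 1 := by
  have hu : ∀ x : E (n + 2), 0 ≤ F ‖x‖ := fun x => h.nonneg _
  have hK := isKernel_vv n
  have h00 : hh (1/32) 0 = 1/32 := by unfold hh; simp
  have hv0 := var_large h
  have key := all_scales hK (phiR_integrable h.prof) (represents_AA (n := n) h.prof)
    (H := fun k ρ => Mtr (fun x : E (n + 2) => F ‖x‖) (hh (1/32) k) (ρ • e1 (n + 1)))
    (by
      intro ρ _
      rw [h00]
      exact avg_le_Mtr hu h.uint _ (by norm_num) le_rfl)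
    (by
      intro k ρ _
      have hp := hh_pos (h0 := 1/32) (by norm_num) k
      have e : hh (1/32) (k + 1) = hh (1/32) k / 2 := by rw [hh_succ (1/32) k]; ring
      rw [e, Mtr_step hu h.uint _ hp]
      rfl)
    (by
      rw [h00]
      exact ne_top_of_le_ne_top ENNReal.ofReal_ne_top hv0) K
  obtain ⟨k1, k2⟩ := key
  have hv0' : var (fun ρ => Mtr (fun x : E (n + 2) => F ‖x‖) (hh (1/32) 0) (ρ • e1 (n + 1))) 1 2
      ≤ 33 ^ (n + 2) * (65 ^ (n + 2) * (PF n φ 1).toReal) := by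
    rw [h00]
    unfold var
    exact ENNReal.toReal_le_of_le_ofReal (by (clear * -; positivity)) hv0
  have hφ := integral_phiR_le h
  have hq := qq_lt_one
  have hc : 0 ≤ 2 + (26 * (2 * CK n) + 8) * (5 / (2 * (1 - qq))) := by
    have h1 := CK_pos n
    have h3 : 0 ≤ 5 / (2 * (1 - qq)) := div_nonneg (by norm_num) (by linarith only [hq])
    (clear * - h1 hq; positivity)
  have h5 := mul_le_mul_of_nonneg_left hφ hc
  have h6 : var (fun ρ => Mtr (fun x : E (n + 2) => F ‖x‖) (hh (1/32) K) (ρ • e1 (n + 1))) 1 2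
      ≤ C1 n * (PF n φ 1).toReal := by
    unfold C1
    refine k2.trans ?_
    linarith only [hv0', h5]
  rw [← ENNReal.ofReal_toReal (PF_lt_top h).ne, ← ENNReal.ofReal_mul (C1_nonneg n),
    ← ENNReal.ofReal_toReal k1]
  exact ENNReal.ofReal_le_ofReal h6

lemma avg_le_of_le {u : E (n + 2) → ℝ} (hi : Integrable u) {x : E (n + 2)} {r B : ℝ} (hr : 0 < r)
    (hB : ∀ y ∈ ball x r, u y ≤ B) : avg u x r ≤ B := by
  unfold avg
  rw [div_le_iff₀ (den_pos hr), ← volume_ball_toReal x hr.le]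
  have h1 : ∫ y in ball x r, u y ≤ ∫ y in ball x r, B := by
    apply setIntegral_mono_on hi.integrableOn _ measurableSet_ball hB
    rw [integrableOn_const_iff]
    right
    exact measure_ball_lt_top
  refine h1.trans (le_of_eq ?_)
  rw [setIntegral_const, smul_eq_mul, mul_comm]
  rfl

lemma Good.bdd {F φ : ℝ → ℝ} (h : Good n F φ) {x : E (n + 2)} (hx : x ≠ 0) :
    BddAbove ((avg (fun x : E (n + 2) => F ‖x‖) x) '' Ioi 0) := by
  have hu : ∀ x : E (n + 2), 0 ≤ F ‖x‖ := fun x => h.nonneg _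
  have hx0 : 0 < ‖x‖ := norm_pos_iff.2 hx
  refine ⟨max (∫ τ in Ioi (‖x‖ / 2), |φ τ|)
    ((∫ y : E (n + 2), F ‖y‖) / ((‖x‖ / 2) ^ (n + 2) * om (n + 2))), ?_⟩
  rintro _ ⟨r, hr, rfl⟩
  have hr0 : (0:ℝ) < r := hr
  rcases lt_or_ge r (‖x‖ / 2) with h1 | h1
  · apply le_max_of_le_left
    apply avg_le_of_le h.uint hr0
    intro y hy
    rw [mem_ball, dist_eq_norm] at hy
    have h2 : ‖x‖ / 2 < ‖y‖ := by
      have := norm_sub_norm_le x y
      rw [norm_sub_rev] at this
      linarith only [h1, hy, this]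
    refine (h.tail (by linarith only [hr0, h1, h2])).trans ?_
    apply setIntegral_mono_set (h.intOn (half_pos hx0)).abs
      (Filter.Eventually.of_forall (fun _ => abs_nonneg _))
    exact Filter.Eventually.of_forall (Ioi_subset_Ioi h2.le)
  · apply le_max_of_le_right
    exact avg_le hu h.uint x (half_pos hx0) h1

lemma tendsto_hh : Tendsto (fun k => hh (1/32) k) atTop (𝓝 0) := by
  unfold hh
  have : Tendsto (fun k : ℕ => (1/32 : ℝ) * (1/2) ^ k) atTop (𝓝 ((1/32) * 0)) :=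
    (tendsto_pow_atTop_nhds_zero_of_lt_one (by norm_num) (by norm_num)).const_mul _
  rw [mul_zero] at this
  refine this.congr (fun k => ?_)
  rw [one_div_pow]; ring

lemma Mtr_le_Mfull {u : E (n + 2) → ℝ} {x : E (n + 2)} (hb : BddAbove ((avg u x) '' Ioi 0)) {δ : ℝ}
    (hδ : 0 < δ) : Mtr u δ x ≤ Mfull u x := by
  apply Mtr_le
  intro r hr
  exact le_csSup hb ⟨r, hδ.trans_le hr, rfl⟩

lemma tendsto_Mtr {u : E (n + 2) → ℝ} (hu : ∀ x, 0 ≤ u x) (hi : Integrable u) {x : E (n + 2)}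
    (hb : BddAbove ((avg u x) '' Ioi 0)) :
    Tendsto (fun k => Mtr u (hh (1/32) k) x) atTop (𝓝 (Mfull u x)) := by
  have hp : ∀ k, 0 < hh (1/32) k := fun k => hh_pos (by norm_num) k
  rw [tendsto_order]
  constructor
  · intro a ha
    have hne : ((avg u x) '' Ioi 0).Nonempty := ⟨_, 1, mem_Ioi.2 one_pos, rfl⟩
    obtain ⟨_, ⟨r, hr, rfl⟩, h1⟩ := exists_lt_of_lt_csSup hne ha
    have hr0 : (0:ℝ) < r := hr
    filter_upwards [(tendsto_order.1 tendsto_hh).2 r hr0] with k hk
    exact lt_of_lt_of_le h1 (avg_le_Mtr hu hi x (hp k) hk.le)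
  · intro a ha
    filter_upwards with k
    exact lt_of_le_of_lt (Mtr_le_Mfull hb (hp k)) ha

lemma smul_e1_ne_zero {ρ : ℝ} (hρ : 0 < ρ) : ρ • e1 (n + 1) ≠ 0 := by
  rw [← norm_pos_iff, norm_smul_e1 hρ.le]; exact hρ

/-- The unit annulus estimate for the full maximal function. -/
theorem unit_annulus_full {F φ : ℝ → ℝ} (h : Good n F φ) :
    eVariationOn (fun ρ => Mfull (fun x : E (n + 2) => F ‖x‖) (ρ • e1 (n + 1))) (Icc (1:ℝ) 2)
      ≤ ENNReal.ofReal (C1 n) * PF n φ 1 := by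
  have hu : ∀ x : E (n + 2), 0 ≤ F ‖x‖ := fun x => h.nonneg _
  by_contra hc
  push Not at hc
  have := eVariationOn.lowerSemicontinuous_aux (p := atTop)
    (F := fun k ρ => Mtr (fun x : E (n + 2) => F ‖x‖) (hh (1/32) k) (ρ • e1 (n + 1)))
    (fun ρ hρ => tendsto_Mtr hu h.uint (h.bdd (smul_e1_ne_zero (by linarith only [hρ.1])))) hc
  obtain ⟨k, hk⟩ := this.exists
  exact absurd (unit_annulus h k) (not_le.2 hk)

end

end Vale.Agent.P137
end
end

section

section

open MeasureTheory Set Metric Filter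
open scoped ENNReal NNReal Topology Pointwise

namespace Vale.Agent.P137

noncomputable section

variable {n : ℕ}

lemma Good.scale {F φ : ℝ → ℝ} (h : Good n F φ) {R : ℝ} (hR : 0 < R) :
    Good n (fun s => F (R * s)) (fun s => R * φ (R * s)) where
  prof := by
    constructor
    · intro a b ha hab
      have h1 := (h.prof.int (R * a) (R * b) (by positivity)
        (mul_le_mul_of_nonneg_left hab hR.le)).comp_mul_left (c := R)
      have e1 : R * a / R = a := by field_simp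
      have e2 : R * b / R = b := by (clear * - hR; field_simp)
      rw [e1, e2] at h1
      exact h1.const_mul R
    · intro a b ha hab
      rw [h.prof.sub (R * a) (R * b) (by positivity) (mul_le_mul_of_nonneg_left hab hR.le),
        intervalIntegral.integral_const_mul, intervalIntegral.mul_integral_comp_mul_left]
  meas := by have := h.meas; fun_prop
  nonneg := fun t => h.nonneg _
  wint := by
    have h1 : IntegrableOn (fun t => (fun s => s ^ (n + 1) * φ s) (R * t)) (Ioi 0) := by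
      refine (integrableOn_Ioi_comp_mul_left_iff (fun s => s ^ (n + 1) * φ s) 0 hR).mpr ?_
      rw [mul_zero]
      exact h.wint
    have h2 := h1.const_mul ((R ^ n)⁻¹)
    refine h2.congr (Filter.Eventually.of_forall (fun t => ?_))
    simp only
    rw [mul_pow, pow_succ R n]
    (clear * - hR; field_simp)
  uint := by
    have h1 := h.uint.comp_smul (R := R) hR.ne'
    refine h1.congr (Filter.Eventually.of_forall (fun x => ?_))
    simp only
    rw [norm_smul, Real.norm_of_nonneg hR.le]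

lemma avg_scale (u : E (n + 2) → ℝ) {R : ℝ} (hR : 0 < R) (x : E (n + 2)) (r : ℝ) :
    avg (fun y => u (R • y)) x r = avg u (R • x) (R * r) := by
  unfold avg
  have h1 := Measure.setIntegral_comp_smul_of_pos volume u (ball x r) hR
  rw [h1, _root_.smul_ball hR.ne', Real.norm_of_nonneg hR.le, smul_eq_mul, mul_pow]
  have : Module.finrank ℝ (E (n + 2)) = n + 2 := by simp
  rw [this]
  field_simp

lemma Mfull_scale (u : E (n + 2) → ℝ) {R : ℝ} (hR : 0 < R) (x : E (n + 2)) :
    Mfull (fun y => u (R • y)) x = Mfull u (R • x) := by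
  unfold Mfull
  congr 1
  ext a
  simp only [mem_image, mem_Ioi]
  constructor
  · rintro ⟨r, hr, rfl⟩
    exact ⟨R * r, by positivity, (avg_scale u hR x r).symm⟩
  · rintro ⟨r, hr, rfl⟩
    refine ⟨r / R, by positivity, ?_⟩
    rw [avg_scale u hR x, mul_div_cancel₀ _ hR.ne']

lemma PF_scale {φ : ℝ → ℝ} (hφ : Measurable φ) {R : ℝ} (hR : 0 < R) :
    PF n (fun s => R * φ (R * s)) 1 = PF n φ R := by
  unfold PF
  have h1 : ∫⁻ τ in Ioi (0:ℝ), ‖R * φ (R * τ)‖ₑ * ENNReal.ofReal (min 1 (τ / 1) ^ (n + 2))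
      = ∫⁻ τ, (fun s => (Ioi (0:ℝ)).indicator
          (fun s => ENNReal.ofReal R * (‖φ s‖ₑ * ENNReal.ofReal (min 1 (s / R) ^ (n + 2)))) s)
          (R * τ) := by
    rw [← lintegral_indicator measurableSet_Ioi]
    congr 1
    ext τ
    by_cases hτ : τ ∈ Ioi (0:ℝ)
    · have hτ' : R * τ ∈ Ioi (0:ℝ) := by
        have : (0:ℝ) < τ := hτ
        simp only [mem_Ioi]; positivity
      rw [indicator_of_mem hτ]
      simp only
      rw [indicator_of_mem hτ', enorm_mul, Real.enorm_eq_ofReal hR.le, mul_assoc,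
        mul_div_cancel_left₀ _ hR.ne', div_one]
    · have hτ' : R * τ ∉ Ioi (0:ℝ) := by
        simp only [mem_Ioi, not_lt] at hτ ⊢
        exact mul_nonpos_of_nonneg_of_nonpos hR.le hτ
      rw [indicator_of_notMem hτ]
      simp only
      rw [indicator_of_notMem hτ']
  rw [h1]
  have hm : Measurable (fun s => (Ioi (0:ℝ)).indicator
      (fun s => ENNReal.ofReal R * (‖φ s‖ₑ * ENNReal.ofReal (min 1 (s / R) ^ (n + 2)))) s) := by
    apply Measurable.indicator _ measurableSet_Ioi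
    (clear * - hφ; fun_prop)
  rw [← lintegral_map (μ := volume) (g := fun τ => R * τ) hm (measurable_const_mul R)]
  have h2 := Real.smul_map_volume_mul_left hR.ne'
  rw [abs_of_pos hR] at h2
  have h3 : ∫⁻ s, (Ioi (0:ℝ)).indicator
      (fun s => ENNReal.ofReal R * (‖φ s‖ₑ * ENNReal.ofReal (min 1 (s / R) ^ (n + 2)))) s
        ∂(Measure.map (fun τ => R * τ) volume)
      = ∫⁻ s, (Ioi (0:ℝ)).indicator
      (fun s => (‖φ s‖ₑ * ENNReal.ofReal (min 1 (s / R) ^ (n + 2)))) s
        ∂(ENNReal.ofReal R • Measure.map (fun τ => R * τ) volume) := by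
    rw [lintegral_smul_measure, smul_eq_mul, ← lintegral_const_mul' _ _ ENNReal.ofReal_ne_top]
    congr 1
    ext s
    by_cases hs : s ∈ Ioi (0:ℝ)
    · rw [indicator_of_mem hs, indicator_of_mem hs]
    · rw [indicator_of_notMem hs, indicator_of_notMem hs, mul_zero]
  rw [h3, h2, lintegral_indicator measurableSet_Ioi]

/-- Profile of the maximal function. -/
def Gm (n : ℕ) (F : ℝ → ℝ) (ρ : ℝ) : ℝ := Mfull (fun x : E (n + 2) => F ‖x‖) (ρ • e1 (n + 1))

/-- The annulus estimate. -/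
theorem annulus {F φ : ℝ → ℝ} (h : Good n F φ) {R : ℝ} (hR : 0 < R) :
    eVariationOn (Gm n F) (Icc R (2 * R)) ≤ ENNReal.ofReal (C1 n) * PF n φ R := by
  have h1 := unit_annulus_full (h.scale hR)
  rw [PF_scale h.meas hR] at h1
  refine le_trans (le_of_eq ?_) h1
  have e1 : (fun ρ => Mfull (fun x : E (n + 2) => F (R * ‖x‖)) (ρ • e1 (n + 1)))
      = Gm n F ∘ (fun ρ => R * ρ) := by
    ext ρ
    have e2 : (fun x : E (n + 2) => F (R * ‖x‖))
        = fun x => (fun y : E (n + 2) => F ‖y‖) (R • x) := by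
      ext x
      simp only
      rw [norm_smul, Real.norm_of_nonneg hR.le]
    rw [e2, Mfull_scale (fun y : E (n + 2) => F ‖y‖) hR, smul_smul]
    rfl
  rw [e1, eVariationOn.comp_eq_of_monotoneOn]
  · congr 1
    rw [image_mul_left_Icc hR.le (by norm_num)]
    congr 1 <;> ring
  · intro x _ y _ hxy
    exact mul_le_mul_of_nonneg_left hxy hR.le

end

end Vale.Agent.P137
end
end

section

section

open MeasureTheory Set Filter
open scoped ENNReal NNReal Topology

namespace Vale.Agent.P137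

lemma ac_posPart {f : ℝ → ℝ} {a b : ℝ} (hf : AbsolutelyContinuousOnInterval f a b) :
    AbsolutelyContinuousOnInterval (fun x => max (f x) 0) a b := by
  refine squeeze_zero (fun t => ?_) (fun t => ?_) hf
  · exact Finset.sum_nonneg (fun i _ => dist_nonneg)
  · refine Finset.sum_le_sum (fun i _ => ?_)
    rw [Real.dist_eq, Real.dist_eq]
    exact abs_max_sub_max_le_abs _ _ _

lemma ac_const (c : ℝ) (a b : ℝ) : AbsolutelyContinuousOnInterval (fun _ : ℝ => c) a b := by
  have : LipschitzOnWith 0 (fun _ : ℝ => c) (uIcc a b) := (LipschitzWith.const c).lipschitzOnWith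
  exact this.absolutelyContinuousOnInterval

/-- The fundamental theorem for a function of bounded variation which is a Lipschitz function
off the set where it is close to an absolutely continuous minorant. -/
theorem ftc_of_approx {F G : ℝ → ℝ} {a b : ℝ} (hab : a ≤ b)
    (hF : AbsolutelyContinuousOnInterval F a b) (hle : ∀ x ∈ Icc a b, F x ≤ G x)
    (happ : ∀ ε > 0, ∃ M : ℝ → ℝ, ∃ K : ℝ≥0, LipschitzOnWith K M (Icc a b) ∧
      (∀ x ∈ Icc a b, M x ≤ G x) ∧ (∀ x ∈ Icc a b, F x + ε ≤ G x → G x = M x))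
    (hvar : eVariationOn G (Icc a b) ≠ ∞) :
    ∫ x in a..b, deriv G x = G b - G a := by
  have hc : ∀ k : ℕ, (0:ℝ) < 1 / ((k:ℝ) + 1) := fun k => by (clear * -; positivity)
  choose M K hM hMG hGM using fun k : ℕ => happ _ (hc k)
  set h : ℝ → ℝ := fun x => G x - F x with hh
  set H : ℕ → ℝ → ℝ := fun k x => max (M k x - F x - 1 / ((k:ℝ) + 1)) 0 with hH
  have hHh : ∀ k, ∀ x ∈ Icc a b, H k x = max (h x - 1 / ((k:ℝ) + 1)) 0 := by
    intro k x hx
    simp only [hH, hh]
    by_cases hx' : F x + 1 / ((k:ℝ) + 1) ≤ G x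
    · rw [hGM k x hx hx']
    · push Not at hx'
      rw [max_eq_right, max_eq_right]
      · linarith only [hx']
      · have := hMG k x hx; linarith only [hx', this]
  have hHac : ∀ k, AbsolutelyContinuousOnInterval (H k) a b := by
    intro k
    have h1 : AbsolutelyContinuousOnInterval (M k) a b := by
      apply LipschitzOnWith.absolutelyContinuousOnInterval (K := K k)
      rw [uIcc_of_le hab]; exact hM k
    exact ac_posPart ((h1.fun_sub hF).fun_sub (ac_const _ a b))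
  have hGbv : BoundedVariationOn G (uIcc a b) := by rw [uIcc_of_le hab]; exact hvar
  have hFbv : BoundedVariationOn F (uIcc a b) := hF.boundedVariationOn
  have hGd := hGbv.ae_differentiableAt_of_mem_uIcc
  have hFd := hFbv.ae_differentiableAt_of_mem_uIcc
  have hHd : ∀ᵐ x : ℝ, ∀ k, x ∈ uIcc a b → DifferentiableAt ℝ (H k) x :=
    ae_all_iff.mpr (fun k => (hHac k).ae_differentiableAt)
  have hGi := hGbv.intervalIntegrable_deriv
  have hFi := hFbv.intervalIntegrable_deriv
  have hne : ∀ᵐ x : ℝ, x ≠ b := by simp [ae_iff, measure_singleton]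
  -- key pointwise facts
  have key : ∀ᵐ x : ℝ, x ∈ uIoc a b →
      (∀ k, |deriv (H k) x| ≤ |deriv G x - deriv F x|) ∧
      Tendsto (fun k => deriv (H k) x) atTop (𝓝 (deriv G x - deriv F x)) := by
    filter_upwards [hGd, hFd, hHd, hne] with x h1 h2 h3 h4 hx
    rw [uIoc_of_le hab] at hx
    have hx0 : x ∈ uIcc a b := by rw [uIcc_of_le hab]; exact Ioc_subset_Icc_self hx
    have hxo : x ∈ Ioo a b := ⟨hx.1, lt_of_le_of_ne hx.2 h4⟩
    have hnb : Icc a b ∈ 𝓝 x := Icc_mem_nhds hxo.1 hxo.2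
    have hd : HasDerivAt h (deriv G x - deriv F x) x :=
      (h1 hx0).hasDerivAt.sub (h2 hx0).hasDerivAt
    have hcont : ContinuousAt h x := hd.continuousAt
    have hpos : ∀ k : ℕ, 1 / ((k:ℝ) + 1) < h x → deriv (H k) x = deriv G x - deriv F x := by
      intro k hk
      have e1 : ∀ᶠ y in 𝓝 x, 1 / ((k:ℝ) + 1) < h y := hcont.eventually (lt_mem_nhds hk)
      have e2 : H k =ᶠ[𝓝 x] fun y => h y - 1 / ((k:ℝ) + 1) := by
        filter_upwards [e1, hnb] with y hy hy'
        rw [hHh k y hy', max_eq_left (by linarith only [hy])]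
      rw [e2.deriv_eq, deriv_sub_const]
      exact hd.deriv
    have hzero : ∀ k : ℕ, h x ≤ 1 / ((k:ℝ) + 1) → deriv (H k) x = 0 := by
      intro k hk
      apply IsLocalMin.deriv_eq_zero
      refine Eventually.of_forall (fun y => ?_)
      rw [hHh k x (mem_of_mem_nhds hnb), max_eq_right (by linarith only [hk])]
      exact le_max_right _ _
    refine ⟨fun k => ?_, ?_⟩
    · rcases lt_or_ge (1 / ((k:ℝ) + 1)) (h x) with hk | hk
      · rw [hpos k hk]
      · rw [hzero k hk, abs_zero]; exact abs_nonneg _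
    · have hx1 : 0 ≤ h x := sub_nonneg.mpr (hle x (mem_of_mem_nhds hnb))
      rcases hx1.eq_or_lt with hx2 | hx2
      · have e1 : deriv G x - deriv F x = 0 := by
          rw [← hd.deriv]
          apply IsLocalMin.deriv_eq_zero
          filter_upwards [hnb] with y hy
          rw [← hx2]
          exact sub_nonneg.mpr (hle y hy)
        rw [e1]
        refine tendsto_const_nhds.congr (fun k => ?_)
        rw [hzero k (by rw [← hx2]; exact (hc k).le)]
      · obtain ⟨N, hN⟩ := exists_nat_one_div_lt hx2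
        refine tendsto_const_nhds.congr' ?_
        filter_upwards [eventually_ge_atTop N] with k hk
        rw [hpos k]
        refine lt_of_le_of_lt ?_ hN
        apply one_div_le_one_div_of_le (by (clear * -; positivity))
        have : (N:ℝ) ≤ k := by exact_mod_cast hk
        linarith only [this]
  have lim1 : Tendsto (fun k => ∫ x in a..b, deriv (H k) x) atTop
      (𝓝 (∫ x in a..b, (deriv G x - deriv F x))) := by
    apply intervalIntegral.tendsto_integral_filter_of_dominated_convergence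
      (fun x => |deriv G x - deriv F x|)
    · exact Eventually.of_forall (fun k => (hHac k).intervalIntegrable_deriv.aestronglyMeasurable_restrict_uIoc)
    · exact Eventually.of_forall (fun k => by
        filter_upwards [key] with x hx hx'
        exact (hx hx').1 k)
    · exact (hGi.sub hFi).abs
    · filter_upwards [key] with x hx hx'
      exact (hx hx').2
  have lim2 : Tendsto (fun k => ∫ x in a..b, deriv (H k) x) atTop (𝓝 (h b - h a)) := by
    have e1 : ∀ k, ∫ x in a..b, deriv (H k) x = H k b - H k a :=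
      fun k => (hHac k).integral_deriv_eq_sub
    simp only [e1]
    have e2 : ∀ x ∈ Icc a b, Tendsto (fun k => H k x) atTop (𝓝 (h x)) := by
      intro x hx
      have e3 : Tendsto (fun k : ℕ => max (h x - 1 / ((k:ℝ) + 1)) 0) atTop
          (𝓝 (max (h x - 0) 0)) :=
        (tendsto_const_nhds.sub tendsto_one_div_add_atTop_nhds_zero_nat).max tendsto_const_nhds
      rw [sub_zero, max_eq_left (sub_nonneg.mpr (hle x hx))] at e3
      exact e3.congr (fun k => (hHh k x hx).symm)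
    exact (e2 b (right_mem_Icc.mpr hab)).sub (e2 a (left_mem_Icc.mpr hab))
  have e := tendsto_nhds_unique lim1 lim2
  rw [intervalIntegral.integral_sub hGi hFi, hF.integral_deriv_eq_sub] at e
  simp only [hh] at e
  linarith only [e]

theorem integral_abs_deriv_le_variation {G : ℝ → ℝ} {a b : ℝ} (hab : a ≤ b)
    (hvar : eVariationOn G (Icc a b) ≠ ∞) :
    ∫ x in a..b, |deriv G x| ≤ (eVariationOn G (Icc a b)).toReal := by
  set V : ℝ → ℝ := fun x => variationOnFromTo G (Icc a b) a x with hV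
  have hl : LocallyBoundedVariationOn G (Icc a b) :=
    BoundedVariationOn.locallyBoundedVariationOn hvar
  have hVm : MonotoneOn V (Icc a b) := variationOnFromTo.monotoneOn hl (left_mem_Icc.mpr hab)
  have hGV : ∀ x ∈ Icc a b, ∀ y ∈ Icc a b, x ≤ y → |G y - G x| ≤ V y - V x := by
    intro x hx y hy hxy
    have e1 : V x + variationOnFromTo G (Icc a b) x y = V y :=
      variationOnFromTo.add hl (left_mem_Icc.mpr hab) hx hy
    have e2 : |G y - G x| ≤ variationOnFromTo G (Icc a b) x y := by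
      rw [variationOnFromTo.eq_of_le _ _ hxy, ← Real.dist_eq, dist_edist]
      apply ENNReal.toReal_mono (hl x y hx hy)
      exact eVariationOn.edist_le _ ⟨hy, hxy, le_rfl⟩ ⟨hx, le_rfl, hxy⟩
    linarith only [e1, e2]
  have hVb : V b - V a = (eVariationOn G (Icc a b)).toReal := by
    simp only [hV]
    rw [variationOnFromTo.self, variationOnFromTo.eq_of_le _ _ hab, inter_self, sub_zero]
  have hGbv : BoundedVariationOn G (uIcc a b) := by rw [uIcc_of_le hab]; exact hvar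
  have hGd := hGbv.ae_differentiableAt_of_mem_uIcc
  have hVm' : MonotoneOn V (uIcc a b) := by rw [uIcc_of_le hab]; exact hVm
  have hVi := hVm'.intervalIntegrable_deriv
  have hVd : ∀ᵐ x : ℝ, x ∈ Icc a b → DifferentiableWithinAt ℝ V (Icc a b) x :=
    hVm.ae_differentiableWithinAt_of_mem
  have hne : ∀ᵐ x : ℝ, x ≠ b := by simp [ae_iff, measure_singleton]
  have key : ∀ᵐ x : ℝ, x ∈ Ioc a b → |deriv G x| ≤ deriv V x := by
    filter_upwards [hGd, hVd, hne] with x h1 h2 h4 hx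
    have hx0 : x ∈ uIcc a b := by rw [uIcc_of_le hab]; exact Ioc_subset_Icc_self hx
    have hxo : x ∈ Ioo a b := ⟨hx.1, lt_of_le_of_ne hx.2 h4⟩
    have hnb : Icc a b ∈ 𝓝 x := Icc_mem_nhds hxo.1 hxo.2
    have hx1 : x ∈ Icc a b := mem_of_mem_nhds hnb
    have d1 := ((h1 hx0).hasDerivAt.tendsto_slope).abs
    have d2 := ((h2 hx1).differentiableAt hnb).hasDerivAt.tendsto_slope
    refine le_of_tendsto_of_tendsto d1 d2 ?_
    filter_upwards [nhdsWithin_le_nhds hnb, self_mem_nhdsWithin] with y hy hyx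
    have hyx' : y ≠ x := hyx
    rw [slope_def_field, slope_def_field, abs_div]
    rcases lt_or_gt_of_ne hyx' with h | h
    · rw [abs_of_neg (by linarith only [h] : y - x < 0), ← neg_sub (V x) (V y), neg_div, ← div_neg,
        abs_sub_comm]
      apply div_le_div_of_nonneg_right (hGV y hy x hx1 h.le) (by linarith only [h])
    · rw [abs_of_pos (by linarith only [h] : 0 < y - x)]
      apply div_le_div_of_nonneg_right (hGV x hx1 y hy h.le) (by linarith only [h])
  calc ∫ x in a..b, |deriv G x| ≤ ∫ x in a..b, deriv V x := by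
        rw [intervalIntegral.integral_of_le hab, intervalIntegral.integral_of_le hab]
        apply setIntegral_mono_ae_restrict hGbv.intervalIntegrable_deriv.abs.1 hVi.1
        exact (ae_restrict_iff' measurableSet_Ioc).mpr key
    _ ≤ V b - V a := by
        have := hVm'.intervalIntegral_deriv_mem_uIcc
        rw [uIcc_of_le (sub_nonneg.mpr (hVm (left_mem_Icc.mpr hab) (right_mem_Icc.mpr hab) hab))]
          at this
        exact this.2
    _ = _ := hVb

end Vale.Agent.P137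
end
end

section

section

open MeasureTheory Set Metric Filter
open scoped ENNReal NNReal Topology

namespace Vale.Agent.P137

noncomputable section

variable {n : ℕ}

lemma ac_congr {f g : ℝ → ℝ} {a b : ℝ} (hf : AbsolutelyContinuousOnInterval f a b)
    (h : ∀ x ∈ uIcc a b, f x = g x) : AbsolutelyContinuousOnInterval g a b := by
  rw [absolutelyContinuousOnInterval_iff] at hf ⊢
  intro ε hε
  obtain ⟨δ, hδ, h1⟩ := hf ε hε
  refine ⟨δ, hδ, fun E hE hE' => ?_⟩
  have h2 := h1 E hE hE'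
  refine lt_of_le_of_lt (le_of_eq ?_) h2
  refine Finset.sum_congr rfl (fun i hi => ?_)
  rw [h _ (hE.1 i hi).1, h _ (hE.1 i hi).2]

lemma IsProfile.ac {F φ : ℝ → ℝ} (hF : IsProfile F φ) {a b : ℝ} (ha : 0 < a) (hab : a ≤ b) :
    AbsolutelyContinuousOnInterval F a b := by
  have h1 := (hF.int a b ha hab).absolutelyContinuousOnInterval_intervalIntegral
    (c := a) left_mem_uIcc
  refine ac_congr (h1.fun_add (ac_const (F a) a b)) (fun x hx => ?_)
  rw [uIcc_of_le hab] at hx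
  rw [← hF.sub a x ha hx.1]
  ring

lemma IsProfile.cont {F φ : ℝ → ℝ} (hF : IsProfile F φ) {a b : ℝ} (ha : 0 < a) (hab : a ≤ b) :
    ContinuousOn F (Icc a b) := by
  have := (hF.ac ha hab).continuousOn
  rwa [uIcc_of_le hab] at this

lemma le_avg_of_le {u : E (n + 2) → ℝ} (hi : Integrable u) {x : E (n + 2)} {r B : ℝ} (hr : 0 < r)
    (hB : ∀ y ∈ ball x r, B ≤ u y) : B ≤ avg u x r := by
  have h := avg_le_of_le hi.neg (x := x) hr (B := -B) (fun y hy => neg_le_neg (hB y hy))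
  unfold avg at *
  simp only [Pi.neg_apply] at h
  rw [integral_neg, neg_div] at h
  linarith only [h]

lemma PF_lt_top' {F φ : ℝ → ℝ} (h : Good n F φ) {R : ℝ} (hR : 0 < R) : PF n φ R < ∞ := by
  rw [← PF_scale h.meas hR]
  exact PF_lt_top (h.scale hR)

lemma var_ne_top {F φ : ℝ → ℝ} (h : Good n F φ) {a b : ℝ} (ha : 0 < a) :
    eVariationOn (Gm n F) (Icc a b) ≠ ∞ := by
  have h1 : ∀ N : ℕ, eVariationOn (Gm n F) (Icc a (2 ^ N * a)) ≠ ∞ := by
    intro N
    induction N with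
    | zero =>
      rw [pow_zero, one_mul, Icc_self, eVariationOn.subsingleton _ subsingleton_singleton]
      exact ENNReal.zero_ne_top
    | succ N ih =>
      have hp : 0 < 2 ^ N * a := by positivity
      have hle : a ≤ 2 ^ N * a := by
        have : (1:ℝ) ≤ 2 ^ N := one_le_pow₀ (by norm_num)
        nlinarith only [hp, this]
      have e1 : (2:ℝ) ^ (N + 1) * a = 2 * (2 ^ N * a) := by ring
      rw [e1]
      have e2 := eVariationOn.Icc_add_Icc (Gm n F) (s := univ) hle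
        (by linarith only [hp] : 2 ^ N * a ≤ 2 * (2 ^ N * a)) (mem_univ _)
      simp only [univ_inter] at e2
      rw [← e2]
      apply ENNReal.add_ne_top.2 ⟨ih, ?_⟩
      refine ne_top_of_le_ne_top ?_ (annulus h hp)
      exact ENNReal.mul_ne_top ENNReal.ofReal_ne_top (PF_lt_top' h hp).ne
  obtain ⟨N, hN⟩ := pow_unbounded_of_one_lt (b / a) (one_lt_two : (1:ℝ) < 2)
  refine ne_top_of_le_ne_top (h1 N) (eVariationOn.mono _ (Icc_subset_Icc le_rfl ?_))
  rw [div_lt_iff₀ ha] at hN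
  exact hN.le

lemma Mtr_anti {u : E (n + 2) → ℝ} (hu : ∀ x, 0 ≤ u x) (hi : Integrable u) {x : E (n + 2)}
    {δ B : ℝ} (hδ : 0 < δ) (hb : BddAbove ((avg u x) '' Ioi 0))
    (h1 : ∀ r, 0 < r → r < δ → avg u x r ≤ B) (h2 : B < Mfull u x) :
    Mfull u x = Mtr u δ x := by
  apply le_antisymm _ (Mtr_le_Mfull hb hδ)
  by_contra hc
  push Not at hc
  have hne : ((avg u x) '' Ioi 0).Nonempty := ⟨_, 1, mem_Ioi.2 one_pos, rfl⟩
  obtain ⟨_, ⟨r, hr, rfl⟩, h3⟩ := exists_lt_of_lt_csSup hne (max_lt h2 hc)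
  have hr0 : (0:ℝ) < r := hr
  rcases lt_or_ge r δ with h4 | h4
  · exact absurd (h1 r hr0 h4) (not_le.2 (lt_of_le_of_lt (le_max_left _ _) h3))
  · exact absurd (avg_le_Mtr hu hi x hδ h4) (not_le.2 (lt_of_le_of_lt (le_max_right _ _) h3))

/-- Local uniform control of small averages. -/
lemma small_avg {F φ : ℝ → ℝ} (h : Good n F φ) {a b : ℝ} (ha : 0 < a) (hab : a ≤ b) {ε : ℝ}
    (hε : 0 < ε) : ∃ δ > 0, δ ≤ 1 ∧ ∀ ρ ∈ Icc a b, ∀ r, 0 < r → r < δ →
      |avg (fun x : E (n + 2) => F ‖x‖) (ρ • e1 (n + 1)) r - F ρ| ≤ ε := by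
  have hc := h.prof.cont (half_pos ha) (by linarith only [ha, hab] : a / 2 ≤ b + 1)
  have huc := isCompact_Icc.uniformContinuousOn_of_continuous hc
  rw [Metric.uniformContinuousOn_iff] at huc
  obtain ⟨δ, hδ, h1⟩ := huc ε hε
  refine ⟨min (min δ (a / 2)) 1, by positivity, min_le_right _ _, fun ρ hρ r hr hr' => ?_⟩
  have hr1 : r < δ := lt_of_lt_of_le hr' ((min_le_left _ _).trans (min_le_left _ _))
  have hr2 : r < a / 2 := lt_of_lt_of_le hr' ((min_le_left _ _).trans (min_le_right _ _))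
  have hr3 : r < 1 := lt_of_lt_of_le hr' (min_le_right _ _)
  have h2 : ∀ y ∈ ball (ρ • e1 (n + 1)) r, |F ‖y‖ - F ρ| ≤ ε := by
    intro y hy
    obtain ⟨h3, h4⟩ := norm_mem_of_mem_ball (by linarith only [hr, hr2, hρ.1]) hy
    have h5 := h1 ‖y‖ ⟨by linarith only [hr2, h3, hρ.1], by linarith only [hr3, h4, hρ.2]⟩ ρ
      ⟨by linarith only [hr2, h3, h4, hρ.1], by linarith only [hr, hr3, hρ.2]⟩ (by rw [Real.dist_eq, abs_lt]; constructor <;> linarith only [hr1, h3, h4])
    rw [Real.dist_eq] at h5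
    exact h5.le
  rw [abs_le]
  constructor
  · have := le_avg_of_le h.uint (x := ρ • e1 (n + 1)) hr (B := F ρ - ε)
      (fun y hy => by have := (abs_le.1 (h2 y hy)).1; linarith only [this])
    linarith only [this]
  · have := avg_le_of_le h.uint (x := ρ • e1 (n + 1)) hr (B := F ρ + ε)
      (fun y hy => by have := (abs_le.1 (h2 y hy)).2; linarith only [this])
    linarith only [this]

lemma le_Gm {F φ : ℝ → ℝ} (h : Good n F φ) {ρ : ℝ} (hρ : 0 < ρ) : F ρ ≤ Gm n F ρ := by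
  refine le_of_forall_pos_le_add (fun ε hε => ?_)
  obtain ⟨δ, hδ, -, h1⟩ := small_avg h hρ le_rfl hε
  have h2 := h1 ρ ⟨le_rfl, le_rfl⟩ (δ / 2) (by positivity) (by linarith only [hδ])
  have h3 : avg (fun x : E (n + 2) => F ‖x‖) (ρ • e1 (n + 1)) (δ / 2) ≤ Gm n F ρ :=
    le_csSup (h.bdd (smul_e1_ne_zero hρ)) ⟨δ / 2, by simp only [mem_Ioi]; positivity, rfl⟩
  linarith only [h3, (abs_le.1 h2).1]

/-- The profile of the maximal function satisfies the fundamental theorem of calculus. -/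
theorem ftc_Gm {F φ : ℝ → ℝ} (h : Good n F φ) {a b : ℝ} (ha : 0 < a) (hab : a ≤ b) :
    ∫ x in a..b, deriv (Gm n F) x = Gm n F b - Gm n F a := by
  have hu : ∀ x : E (n + 2), 0 ≤ F ‖x‖ := fun x => h.nonneg _
  refine ftc_of_approx hab (h.prof.ac ha hab) (fun x hx => le_Gm h (ha.trans_le hx.1)) ?_
    (var_ne_top h ha)
  intro ε hε
  obtain ⟨δ, hδ, -, h1⟩ := small_avg h ha hab (half_pos hε)
  set u : E (n + 2) → ℝ := fun x => F ‖x‖ with hudef
  set S : ℝ := (∫ y, u y) / (δ ^ (n + 2) * om (n + 2)) with hS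
  have hS0 : 0 ≤ S := div_nonneg (integral_nonneg hu) (den_pos hδ).le
  have hMS : ∀ x, Mtr u δ x ≤ S := fun x => Mtr_le x (fun r hr => avg_le hu h.uint x hδ hr)
  have hL : 0 < b - a + 1 := by linarith only [hab]
  set K : ℝ := (1 / (b - a + 1)) * ((1 + (b - a + 1) / δ) ^ (n + 2) * S) with hK
  have hK0 : 0 ≤ K := by (clear * - hab hδ hS0; positivity)
  refine ⟨fun ρ => Mtr u δ (ρ • e1 (n + 1)), Real.toNNReal K, ?_, ?_, ?_⟩
  · apply LipschitzOnWith.of_dist_le_mul
    intro x hx y hy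
    have hd : dist (x • e1 (n + 1)) (y • e1 (n + 1)) ≤ b - a + 1 := by
      rw [dist_e1, abs_le]
      constructor <;> linarith only [hx.1, hx.2, hy.1, hy.2]
    have := Mtr_lip' hu h.uint hδ hL (hMS _) (hMS _) hd
    rw [Real.dist_eq]
    refine this.trans (le_of_eq ?_)
    rw [dist_e1, ← Real.dist_eq]
    rw [Real.coe_toNNReal K hK0, hK]
    ring
  · intro ρ hρ
    exact Mtr_le_Mfull (h.bdd (smul_e1_ne_zero (ha.trans_le hρ.1))) hδ
  · intro ρ hρ hρ'
    apply Mtr_anti hu h.uint hδ (h.bdd (smul_e1_ne_zero (ha.trans_le hρ.1)))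
      (B := F ρ + ε / 2)
    · intro r hr hr'
      have := (abs_le.1 (h1 ρ hρ r hr hr')).2
      linarith only [this]
    · exact lt_of_lt_of_le (by linarith only [hε]) hρ'

/-- Dyadic estimate of the derivative of the profile. -/
theorem dyadic_deriv {F φ : ℝ → ℝ} (h : Good n F φ) {R : ℝ} (hR : 0 < R) :
    ∫⁻ ρ in Ioc R (2 * R), ‖deriv (Gm n F) ρ‖ₑ ≤ ENNReal.ofReal (C1 n) * PF n φ R := by
  have hab : R ≤ 2 * R := by linarith only [hR]
  have hv := var_ne_top h hR (b := 2 * R)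
  have h1 := integral_abs_deriv_le_variation hab hv
  have h2 : BoundedVariationOn (Gm n F) (uIcc R (2 * R)) := by rw [uIcc_of_le hab]; exact hv
  have h3 : IntegrableOn (deriv (Gm n F)) (Ioc R (2 * R)) := by
    have := h2.intervalIntegrable_deriv
    rwa [intervalIntegrable_iff_integrableOn_Ioc_of_le hab] at this
  rw [← ofReal_integral_norm_eq_lintegral_enorm h3]
  refine le_trans ?_ (annulus h hR)
  rw [← ENNReal.ofReal_toReal hv]
  apply ENNReal.ofReal_le_ofReal
  rw [intervalIntegral.integral_of_le hab] at h1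
  exact h1

end

end Vale.Agent.P137
end
end

section

section

open MeasureTheory Set Metric Filter
open scoped ENNReal NNReal Topology

namespace Vale.Agent.P137

noncomputable section

variable {n : ℕ}

lemma lintegral_inv_sq {τ : ℝ} (hτ : 0 < τ) :
    ∫⁻ R in Ioi τ, ENNReal.ofReal (R ^ (-2:ℝ)) = ENNReal.ofReal (τ⁻¹) := by
  have h1 := integrableOn_Ioi_rpow_of_lt (a := (-2:ℝ)) (by norm_num) hτ
  rw [← ofReal_integral_eq_lintegral_ofReal h1]
  · rw [integral_Ioi_rpow_of_lt (by norm_num) hτ]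
    congr 1
    have : (-2:ℝ) + 1 = -1 := by norm_num
    rw [this, Real.rpow_neg_one]
    ring
  · filter_upwards [ae_restrict_mem measurableSet_Ioi] with t ht
    exact Real.rpow_nonneg (hτ.le.trans (le_of_lt ht)) _

lemma inner_bound (n : ℕ) {τ : ℝ} (hτ : 0 < τ) :
    ∫⁻ R in Ioi (0:ℝ), ENNReal.ofReal (R ^ n) * ENNReal.ofReal (min 1 (τ / R) ^ (n + 2))
      ≤ ENNReal.ofReal (2 * τ ^ (n + 1)) := by
  rw [← Ioc_union_Ioi_eq_Ioi hτ.le, lintegral_union measurableSet_Ioi (Ioc_disjoint_Ioi le_rfl)]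
  have h1 : ∫⁻ R in Ioc (0:ℝ) τ, ENNReal.ofReal (R ^ n) * ENNReal.ofReal (min 1 (τ / R) ^ (n + 2))
      ≤ ENNReal.ofReal (τ ^ (n + 1)) := by
    calc ∫⁻ R in Ioc (0:ℝ) τ, ENNReal.ofReal (R ^ n) * ENNReal.ofReal (min 1 (τ / R) ^ (n + 2))
        ≤ ∫⁻ R in Ioc (0:ℝ) τ, ENNReal.ofReal (τ ^ n) := by
          apply setLIntegral_mono' measurableSet_Ioc
          intro R hR
          rw [← ENNReal.ofReal_mul (pow_nonneg hR.1.le _)]
          apply ENNReal.ofReal_le_ofReal
          have e1 : R ^ n ≤ τ ^ n := pow_le_pow_left₀ hR.1.le hR.2 _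
          have e2 : min 1 (τ / R) ^ (n + 2) ≤ 1 :=
            pow_le_one₀ (le_min zero_le_one (div_nonneg hτ.le hR.1.le)) (min_le_left _ _)
          calc R ^ n * min 1 (τ / R) ^ (n + 2) ≤ R ^ n * 1 :=
                mul_le_mul_of_nonneg_left e2 (pow_nonneg hR.1.le _)
            _ ≤ τ ^ n := by rw [mul_one]; exact e1
      _ = ENNReal.ofReal (τ ^ (n + 1)) := by
          rw [setLIntegral_const, Real.volume_Ioc, sub_zero, ← ENNReal.ofReal_mul (by positivity),
            ← pow_succ]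
  have h2 : ∫⁻ R in Ioi τ, ENNReal.ofReal (R ^ n) * ENNReal.ofReal (min 1 (τ / R) ^ (n + 2))
      ≤ ENNReal.ofReal (τ ^ (n + 1)) := by
    calc ∫⁻ R in Ioi τ, ENNReal.ofReal (R ^ n) * ENNReal.ofReal (min 1 (τ / R) ^ (n + 2))
        = ∫⁻ R in Ioi τ, ENNReal.ofReal (τ ^ (n + 2)) * ENNReal.ofReal (R ^ (-2:ℝ)) := by
          apply setLIntegral_congr_fun measurableSet_Ioi
          intro R hR
          have hR0 : τ < R := hR
          have hR1 : 0 < R := hτ.trans hR0
          simp only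
          rw [← ENNReal.ofReal_mul (by positivity), ← ENNReal.ofReal_mul (by positivity),
            min_eq_right ((div_le_one hR1).2 hR0.le)]
          congr 1
          rw [Real.rpow_neg hR1.le, show (2:ℝ) = ((2:ℕ):ℝ) by norm_num, Real.rpow_natCast, div_pow,
            pow_add R n 2]
          field_simp
      _ = ENNReal.ofReal (τ ^ (n + 2)) * ENNReal.ofReal (τ⁻¹) := by
          rw [lintegral_const_mul' _ _ ENNReal.ofReal_ne_top, lintegral_inv_sq hτ]
      _ ≤ ENNReal.ofReal (τ ^ (n + 1)) := by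
          rw [← ENNReal.ofReal_mul (by positivity)]
          apply ENNReal.ofReal_le_ofReal
          apply le_of_eq
          field_simp
          ring
  calc _ ≤ ENNReal.ofReal (τ ^ (n + 1)) + ENNReal.ofReal (τ ^ (n + 1)) := add_le_add h1 h2
    _ = ENNReal.ofReal (2 * τ ^ (n + 1)) := by
        rw [← ENNReal.ofReal_add (by positivity) (by positivity)]; congr 1; ring

lemma measurable_ind : Measurable (fun p : ℝ × ℝ =>
    (Ioc p.2 (2 * p.2)).indicator (fun _ => (1 : ℝ≥0∞)) p.1) := by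
  have e1 : (fun p : ℝ × ℝ => (Ioc p.2 (2 * p.2)).indicator (fun _ => (1 : ℝ≥0∞)) p.1)
      = ({p : ℝ × ℝ | p.2 < p.1} ∩ {p : ℝ × ℝ | p.1 ≤ 2 * p.2}).indicator
        (fun _ => (1 : ℝ≥0∞)) := by
    ext p
    simp only [indicator, mem_Ioc, mem_inter_iff, mem_ofPred_eq]
  rw [e1]
  apply Measurable.indicator measurable_const
  exact (measurableSet_lt measurable_snd measurable_fst).inter
    (measurableSet_le measurable_fst (measurable_snd.const_mul 2))

lemma lower_bound (n : ℕ) {ρ : ℝ} (hρ : 0 < ρ) :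
    ENNReal.ofReal (ρ ^ (n + 1)) ≤ ENNReal.ofReal (2 ^ (n + 1)) *
      ∫⁻ R in Ioi (0:ℝ), (Ioc R (2 * R)).indicator (fun _ => (1 : ℝ≥0∞)) ρ
        * ENNReal.ofReal (R ^ n) := by
  have h1 : ENNReal.ofReal ((ρ / 2) ^ (n + 1)) ≤
      ∫⁻ R in Ioi (0:ℝ), (Ioc R (2 * R)).indicator (fun _ => (1 : ℝ≥0∞)) ρ
        * ENNReal.ofReal (R ^ n) := by
    calc ENNReal.ofReal ((ρ / 2) ^ (n + 1))
        = ∫⁻ R in Ico (ρ / 2) ρ, ENNReal.ofReal ((ρ / 2) ^ n) := by
          rw [setLIntegral_const, Real.volume_Ico, ← ENNReal.ofReal_mul (by positivity)]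
          congr 1
          ring
      _ ≤ ∫⁻ R in Ico (ρ / 2) ρ, (Ioc R (2 * R)).indicator (fun _ => (1 : ℝ≥0∞)) ρ
        * ENNReal.ofReal (R ^ n) := by
          apply setLIntegral_mono' measurableSet_Ico
          intro R hR
          have hm : ρ ∈ Ioc R (2 * R) := ⟨hR.2, by linarith only [hR.1]⟩
          rw [indicator_of_mem hm, one_mul]
          exact ENNReal.ofReal_le_ofReal (pow_le_pow_left₀ (by positivity) hR.1 _)
      _ ≤ _ := by
          apply lintegral_mono_set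
          intro R hR
          exact lt_of_lt_of_le (half_pos hρ) hR.1
  calc ENNReal.ofReal (ρ ^ (n + 1))
      = ENNReal.ofReal (2 ^ (n + 1)) * ENNReal.ofReal ((ρ / 2) ^ (n + 1)) := by
        rw [← ENNReal.ofReal_mul (by positivity), ← mul_pow]
        congr 2
        ring
    _ ≤ _ := by (clear * - h1; gcongr)

/-- Integration of the dyadic estimates against the weight. -/
lemma weighted_aux {w v : ℝ → ℝ≥0∞} (hw : Measurable w) (hv : Measurable v) {c : ℝ≥0∞}
    (h : ∀ R, 0 < R → ∫⁻ ρ in Ioc R (2 * R), w ρ ≤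
      c * ∫⁻ τ in Ioi (0:ℝ), v τ * ENNReal.ofReal (min 1 (τ / R) ^ (n + 2))) :
    ∫⁻ ρ in Ioi (0:ℝ), ENNReal.ofReal (ρ ^ (n + 1)) * w ρ
      ≤ ENNReal.ofReal (2 ^ (n + 2)) * c * ∫⁻ τ in Ioi (0:ℝ), ENNReal.ofReal (τ ^ (n + 1)) * v τ := by
  have m1 : Measurable (fun p : ℝ × ℝ => ENNReal.ofReal (p.2 ^ n)) := by fun_prop
  have m2 : Measurable (fun p : ℝ × ℝ => (Ioc p.2 (2 * p.2)).indicator (fun _ => (1 : ℝ≥0∞)) p.1
      * ENNReal.ofReal (p.2 ^ n)) := measurable_ind.mul m1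
  have m3 : Measurable (fun p : ℝ × ℝ => (Ioc p.2 (2 * p.2)).indicator (fun _ => (1 : ℝ≥0∞)) p.1
      * ENNReal.ofReal (p.2 ^ n) * w p.1) := m2.mul (hw.comp measurable_fst)
  have m4 : Measurable (fun p : ℝ × ℝ => ENNReal.ofReal (p.1 ^ n) *
      (v p.2 * ENNReal.ofReal (min 1 (p.2 / p.1) ^ (n + 2)))) := by
    have : Measurable (fun p : ℝ × ℝ => v p.2) := hv.comp measurable_snd
    (clear * - hv; fun_prop)
  calc ∫⁻ ρ in Ioi (0:ℝ), ENNReal.ofReal (ρ ^ (n + 1)) * w ρ
      ≤ ∫⁻ ρ in Ioi (0:ℝ), ENNReal.ofReal (2 ^ (n + 1)) *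
          (∫⁻ R in Ioi (0:ℝ), (Ioc R (2 * R)).indicator (fun _ => (1 : ℝ≥0∞)) ρ
            * ENNReal.ofReal (R ^ n) * w ρ) := by
        apply setLIntegral_mono' measurableSet_Ioi
        intro ρ hρ
        rw [lintegral_mul_const'' _ (by
          have : Measurable (fun R : ℝ => (Ioc R (2 * R)).indicator (fun _ => (1 : ℝ≥0∞)) ρ
            * ENNReal.ofReal (R ^ n)) := m2.comp (measurable_const.prodMk measurable_id)
          exact this.aemeasurable), ← mul_assoc]
        exact mul_le_mul_left (lower_bound n hρ) _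
    _ = ENNReal.ofReal (2 ^ (n + 1)) * ∫⁻ ρ in Ioi (0:ℝ),
          (∫⁻ R in Ioi (0:ℝ), (Ioc R (2 * R)).indicator (fun _ => (1 : ℝ≥0∞)) ρ
            * ENNReal.ofReal (R ^ n) * w ρ) := lintegral_const_mul' _ _ ENNReal.ofReal_ne_top
    _ = ENNReal.ofReal (2 ^ (n + 1)) * ∫⁻ R in Ioi (0:ℝ),
          (∫⁻ ρ in Ioi (0:ℝ), (Ioc R (2 * R)).indicator (fun _ => (1 : ℝ≥0∞)) ρ
            * ENNReal.ofReal (R ^ n) * w ρ) := by
        rw [lintegral_lintegral_swap]
        exact m3.aemeasurable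
    _ ≤ ENNReal.ofReal (2 ^ (n + 1)) * ∫⁻ R in Ioi (0:ℝ), c * (∫⁻ τ in Ioi (0:ℝ),
          ENNReal.ofReal (R ^ n) * (v τ * ENNReal.ofReal (min 1 (τ / R) ^ (n + 2)))) := by
        gcongr ENNReal.ofReal (2 ^ (n + 1)) * ?_
        apply setLIntegral_mono' measurableSet_Ioi
        intro R hR
        have hR0 : (0:ℝ) < R := hR
        rw [lintegral_const_mul' _ _ ENNReal.ofReal_ne_top]
        have e1 : ∫⁻ ρ in Ioi (0:ℝ), (Ioc R (2 * R)).indicator (fun _ => (1 : ℝ≥0∞)) ρ
            * ENNReal.ofReal (R ^ n) * w ρ = ENNReal.ofReal (R ^ n) *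
            ∫⁻ ρ in Ioc R (2 * R), w ρ := by
          rw [← lintegral_const_mul' _ _ ENNReal.ofReal_ne_top,
            ← lintegral_indicator measurableSet_Ioi, ← lintegral_indicator measurableSet_Ioc]
          congr 1
          ext ρ
          by_cases hρ : ρ ∈ Ioc R (2 * R)
          · have hρ' : ρ ∈ Ioi (0:ℝ) := hR0.trans hρ.1
            rw [indicator_of_mem hρ', indicator_of_mem hρ, indicator_of_mem hρ, one_mul]
          · rw [indicator_of_notMem hρ]
            by_cases hρ' : ρ ∈ Ioi (0:ℝ)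
            · rw [indicator_of_mem hρ', indicator_of_notMem hρ, zero_mul, zero_mul]
            · rw [indicator_of_notMem hρ']
        rw [e1]
        calc ENNReal.ofReal (R ^ n) * ∫⁻ ρ in Ioc R (2 * R), w ρ
            ≤ ENNReal.ofReal (R ^ n) * (c * ∫⁻ τ in Ioi (0:ℝ), v τ *
              ENNReal.ofReal (min 1 (τ / R) ^ (n + 2))) := by gcongr; exact h R hR0
          _ = _ := by ring
    _ = ENNReal.ofReal (2 ^ (n + 1)) * (c * ∫⁻ R in Ioi (0:ℝ), (∫⁻ τ in Ioi (0:ℝ),
          ENNReal.ofReal (R ^ n) * (v τ * ENNReal.ofReal (min 1 (τ / R) ^ (n + 2))))) := by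
        rw [lintegral_const_mul'']
        exact (m4.lintegral_prod_right (ν := volume.restrict (Ioi 0))).aemeasurable
    _ = ENNReal.ofReal (2 ^ (n + 1)) * (c * ∫⁻ τ in Ioi (0:ℝ), (∫⁻ R in Ioi (0:ℝ),
          ENNReal.ofReal (R ^ n) * (v τ * ENNReal.ofReal (min 1 (τ / R) ^ (n + 2))))) := by
        rw [lintegral_lintegral_swap]
        exact m4.aemeasurable
    _ ≤ ENNReal.ofReal (2 ^ (n + 1)) * (c * ∫⁻ τ in Ioi (0:ℝ),
          ENNReal.ofReal 2 * (ENNReal.ofReal (τ ^ (n + 1)) * v τ)) := by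
        gcongr ENNReal.ofReal (2 ^ (n + 1)) * (c * ?_)
        apply setLIntegral_mono' measurableSet_Ioi
        intro τ hτ
        have hτ0 : (0:ℝ) < τ := hτ
        have e2 : ∀ R : ℝ, ENNReal.ofReal (R ^ n) *
            (v τ * ENNReal.ofReal (min 1 (τ / R) ^ (n + 2)))
            = v τ * (ENNReal.ofReal (R ^ n) * ENNReal.ofReal (min 1 (τ / R) ^ (n + 2))) := by
          intro R; ring
        simp only [e2]
        rw [lintegral_const_mul'' _ (by (clear * -; fun_prop))]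
        calc v τ * ∫⁻ R in Ioi (0:ℝ), ENNReal.ofReal (R ^ n) *
              ENNReal.ofReal (min 1 (τ / R) ^ (n + 2))
            ≤ v τ * ENNReal.ofReal (2 * τ ^ (n + 1)) := by gcongr; exact inner_bound n hτ0
          _ = _ := by rw [ENNReal.ofReal_mul (by norm_num)]; ring
    _ = _ := by
        rw [lintegral_const_mul' _ _ ENNReal.ofReal_ne_top]
        have e3 : ENNReal.ofReal ((2:ℝ) ^ (n + 2)) = ENNReal.ofReal (2 ^ (n + 1)) *
            ENNReal.ofReal 2 := by
          rw [← ENNReal.ofReal_mul (by positivity)]; congr 1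
        rw [e3]
        ring

/-- Weighted bound of the derivative of the profile of the maximal function. -/
theorem weighted {F φ : ℝ → ℝ} (h : Good n F φ) :
    ∫⁻ ρ in Ioi (0:ℝ), ENNReal.ofReal (ρ ^ (n + 1)) * ‖deriv (Gm n F) ρ‖ₑ
      ≤ ENNReal.ofReal (2 ^ (n + 2)) * ENNReal.ofReal (C1 n) *
        ∫⁻ τ in Ioi (0:ℝ), ENNReal.ofReal (τ ^ (n + 1)) * ‖φ τ‖ₑ := by
  apply weighted_aux
  · exact (measurable_deriv _).enorm
  · exact h.meas.enorm
  · intro R hR
    exact dyadic_deriv h hR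

end

end Vale.Agent.P137
end
end

section

section

open MeasureTheory Set Metric Filter
open scoped ENNReal NNReal Topology

namespace Vale.Agent.P137

noncomputable section

variable {n : ℕ}

lemma ac_abs {f : ℝ → ℝ} {a b : ℝ} (hf : AbsolutelyContinuousOnInterval f a b) :
    AbsolutelyContinuousOnInterval (fun x => |f x|) a b := by
  refine squeeze_zero (fun t => ?_) (fun t => ?_) hf
  · exact Finset.sum_nonneg (fun i _ => dist_nonneg)
  · refine Finset.sum_le_sum (fun i _ => ?_)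
    rw [Real.dist_eq, Real.dist_eq]
    exact abs_abs_sub_abs_le_abs_sub _ _

lemma intOn_of_weight {φ : ℝ → ℝ} (hm : Measurable φ)
    (hw : IntegrableOn (fun t => t ^ (n + 1) * φ t) (Ioi 0)) {s : ℝ} (hs : 0 < s) :
    IntegrableOn φ (Ioi s) := by
  have h1 : IntegrableOn (fun t => (s ^ (n + 1))⁻¹ * (t ^ (n + 1) * φ t)) (Ioi s) :=
    (hw.mono_set (Ioi_subset_Ioi hs.le)).const_mul _
  refine Integrable.mono h1 hm.aestronglyMeasurable ?_
  filter_upwards [ae_restrict_mem measurableSet_Ioi] with t ht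
  have ht' : s < t := ht
  have h2 : 1 ≤ (s ^ (n + 1))⁻¹ * t ^ (n + 1) := by
    rw [inv_mul_eq_div, one_le_div (by positivity)]
    exact pow_le_pow_left₀ hs.le ht'.le _
  rw [← mul_assoc, norm_mul,
    Real.norm_of_nonneg (by linarith only [h2] : 0 ≤ (s ^ (n + 1))⁻¹ * t ^ (n + 1))]
  nlinarith only [h2, norm_nonneg (φ t)]

lemma isProfile_of {F φ : ℝ → ℝ} (hm : Measurable φ)
    (hw : IntegrableOn (fun t => t ^ (n + 1) * φ t) (Ioi 0))
    (hs : ∀ a b : ℝ, 0 < a → a ≤ b → F b - F a = ∫ t in a..b, φ t) : IsProfile F φ where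
  int := by
    intro a b ha hab
    rw [intervalIntegrable_iff_integrableOn_Ioc_of_le hab]
    exact (intOn_of_weight hm hw ha).mono_set Ioc_subset_Ioi_self
  sub := hs

lemma IsProfile.ae_hasDerivAt {F φ : ℝ → ℝ} (hF : IsProfile F φ) {a b : ℝ} (ha : 0 < a)
    (hab : a ≤ b) : ∀ᵐ x : ℝ, x ∈ Ioo a b → HasDerivAt F (φ x) x := by
  filter_upwards [(hF.int a b ha hab).ae_hasDerivAt_integral] with x hx hx'
  have h1 : x ∈ uIcc a b := by rw [uIcc_of_le hab]; exact Ioo_subset_Icc_self hx'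
  have h2 := (hx h1 a left_mem_uIcc).const_add (F a)
  refine h2.congr_of_eventuallyEq ?_
  filter_upwards [Ioo_mem_nhds hx'.1 hx'.2] with y hy
  rw [← hF.sub a y ha hy.1.le]
  ring

lemma IsProfile.abs_deriv_le {F φ : ℝ → ℝ} (hF : IsProfile F φ) :
    ∀ᵐ x : ℝ, x ∈ Ioi (0:ℝ) → |deriv (fun t => |F t|) x| ≤ |φ x| := by
  have h1 : ∀ k : ℕ, ∀ᵐ x : ℝ, x ∈ Ioo (1 / ((k:ℝ) + 1)) ((k:ℝ) + 1) →
      |deriv (fun t => |F t|) x| ≤ |φ x| := by
    intro k
    have hk0 : (0:ℝ) < 1 / ((k:ℝ) + 1) := by (clear * -; positivity)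
    have hk1 : 1 / ((k:ℝ) + 1) ≤ (k:ℝ) + 1 := by
      rw [div_le_iff₀ (by positivity)]
      have : (0:ℝ) ≤ k := k.cast_nonneg
      nlinarith only []
    filter_upwards [hF.ae_hasDerivAt hk0 hk1, (ac_abs (hF.ac hk0 hk1)).ae_differentiableAt]
      with x h2 h3 hx
    have h4 := h2 hx
    have h5 := (h3 (by rw [uIcc_of_le hk1]; exact Ioo_subset_Icc_self hx)).hasDerivAt
    refine le_of_tendsto_of_tendsto h5.tendsto_slope.abs h4.tendsto_slope.abs ?_
    filter_upwards with y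
    rw [slope_def_field, slope_def_field, abs_div, abs_div]
    exact div_le_div_of_nonneg_right (abs_abs_sub_abs_le_abs_sub _ _) (abs_nonneg _)
  filter_upwards [ae_all_iff.mpr h1] with x hx hx0
  have hx1 : (0:ℝ) < x := hx0
  obtain ⟨k, hk⟩ := exists_nat_gt (max x (1 / x))
  have hk1 : x < k := lt_of_le_of_lt (le_max_left _ _) hk
  have hk2 : 1 / x < k := lt_of_le_of_lt (le_max_right _ _) hk
  refine hx k ⟨?_, by linarith only [hk1]⟩
  rw [div_lt_iff₀ hx1] at hk2
  rw [div_lt_iff₀ (by linarith only [hx1, hk1])]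
  linarith only [hx1, hk2]

lemma abs_good {F φ : ℝ → ℝ} (hm : Measurable φ)
    (hw : IntegrableOn (fun t => t ^ (n + 1) * φ t) (Ioi 0))
    (hs : ∀ a b : ℝ, 0 < a → a ≤ b → F b - F a = ∫ t in a..b, φ t)
    (hu : Integrable (fun x : E (n + 2) => F ‖x‖)) :
    Good n (fun t => |F t|) (deriv (fun t => |F t|)) where
  prof := by
    have hF := isProfile_of hm hw hs
    exact ⟨fun a b ha hab => (ac_abs (hF.ac ha hab)).intervalIntegrable_deriv,
      fun a b ha hab => (ac_abs (hF.ac ha hab)).integral_deriv_eq_sub.symm⟩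
  meas := measurable_deriv _
  nonneg := fun t => abs_nonneg _
  wint := by
    have hF := isProfile_of hm hw hs
    refine Integrable.mono hw (((measurable_id.pow_const (n + 1)).mul
      (measurable_deriv _)).aestronglyMeasurable) ?_
    rw [ae_restrict_iff' measurableSet_Ioi]
    filter_upwards [hF.abs_deriv_le] with t ht ht'
    simp only [norm_mul, Real.norm_eq_abs]
    exact mul_le_mul_of_nonneg_left (ht ht') (abs_nonneg _)
  uint := hu.abs

/-- Averages of a radial function are invariant under rotations. -/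
lemma avg_rot {G : ℝ → ℝ} {x y : E (n + 2)} (h : ‖x‖ = ‖y‖) (r : ℝ) :
    avg (fun z : E (n + 2) => G ‖z‖) x r = avg (fun z : E (n + 2) => G ‖z‖) y r := by
  set L := Submodule.reflection (Submodule.span ℝ {x - y})ᗮ with hL
  have hLx : L x = y := Submodule.reflection_sub h
  unfold avg
  congr 1
  have h1 := (L.measurePreserving).setIntegral_preimage_emb
    L.toHomeomorph.measurableEmbedding (fun z : E (n + 2) => G ‖z‖) (ball (L x) r)
  rw [LinearIsometryEquiv.preimage_ball, L.symm_apply_apply] at h1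
  rw [hLx] at h1
  rw [← h1]
  simp only [LinearIsometryEquiv.norm_map]

lemma Mfull_rot {G : ℝ → ℝ} {x y : E (n + 2)} (h : ‖x‖ = ‖y‖) :
    Mfull (fun z : E (n + 2) => G ‖z‖) x = Mfull (fun z : E (n + 2) => G ‖z‖) y := by
  unfold Mfull
  have : avg (fun z : E (n + 2) => G ‖z‖) x = avg (fun z : E (n + 2) => G ‖z‖) y := by
    ext r; exact avg_rot h r
  rw [this]

lemma Mfull_eq_Gm {G : ℝ → ℝ} (x : E (n + 2)) :
    Mfull (fun z : E (n + 2) => G ‖z‖) x = Gm n G ‖x‖ := by
  unfold Gm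
  apply Mfull_rot
  rw [norm_smul_e1 (norm_nonneg _)]

/-- The maximal function of the definition is the real valued one. -/
lemma centeredMax_eq {f u : E (n + 2) → ℝ} (hu : ∀ x, 0 ≤ u x) (hi : Integrable u)
    (hfu : ∀ᵐ x, |f x| = u x) {x : E (n + 2)} (hb : BddAbove ((avg u x) '' Ioi 0)) :
    centeredMax f x = ENNReal.ofReal (Mfull u x) := by
  have h1 : ∀ r : ℝ, 0 < r → (∫⁻ y in ball x r, ‖f y‖ₑ) / volume (ball x r)
      = ENNReal.ofReal (avg u x r) := by
    intro r hr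
    have e1 : ∫⁻ y in ball x r, ‖f y‖ₑ = ENNReal.ofReal (∫ y in ball x r, u y) := by
      rw [ofReal_integral_eq_lintegral_ofReal hi.integrableOn (Eventually.of_forall hu)]
      apply lintegral_congr_ae
      filter_upwards [ae_restrict_of_ae hfu] with y hy
      rw [← hy, ← ofReal_norm, Real.norm_eq_abs]
    rw [e1, volume_ball_ofReal x hr.le, ← ENNReal.ofReal_div_of_pos (den_pos hr)]
    rfl
  unfold centeredMax
  have h2 : (⨆ (r : ℝ) (_ : 0 < r), (∫⁻ y in ball x r, ‖f y‖ₑ) / volume (ball x r))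
      = ⨆ (r : ℝ) (_ : 0 < r), ENNReal.ofReal (avg u x r) :=
    iSup_congr (fun r => iSup_congr (fun hr => h1 r hr))
  rw [h2]
  apply le_antisymm
  · refine iSup_le (fun r => iSup_le (fun hr => ?_))
    exact ENNReal.ofReal_le_ofReal (le_csSup hb ⟨r, hr, rfl⟩)
  · by_cases ht : (⨆ (r : ℝ) (_ : 0 < r), ENNReal.ofReal (avg u x r)) = ∞
    · rw [ht]; exact le_top
    · rw [← ENNReal.ofReal_toReal ht]
      apply ENNReal.ofReal_le_ofReal
      have hne : ((avg u x) '' Ioi 0).Nonempty := ⟨_, 1, mem_Ioi.2 one_pos, rfl⟩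
      apply csSup_le hne
      rintro _ ⟨r, hr, rfl⟩
      have h3 : ENNReal.ofReal (avg u x r) ≤ ⨆ (r : ℝ) (_ : 0 < r), ENNReal.ofReal (avg u x r) :=
        le_iSup₂_of_le r hr le_rfl
      exact (ENNReal.ofReal_le_iff_le_toReal ht).1 h3

lemma Gm_nonneg {F φ : ℝ → ℝ} (h : Good n F φ) {ρ : ℝ} (hρ : 0 < ρ) : 0 ≤ Gm n F ρ :=
  (h.nonneg ρ).trans (le_Gm h hρ)

/-- The estimate in terms of profiles. -/
theorem profile_core {f : E (n + 2) → ℝ} {F φ : ℝ → ℝ} (hf : Integrable f) (hm : Measurable φ)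
    (hw : IntegrableOn (fun t => t ^ (n + 1) * φ t) (Ioi 0))
    (hs : ∀ a b : ℝ, 0 < a → a ≤ b → F b - F a = ∫ t in a..b, φ t)
    (hfF : ∀ᵐ x, f x = F ‖x‖) :
    ∃ H ψ : ℝ → ℝ, Measurable ψ ∧ (∀ᵐ x, centeredMax f x = ENNReal.ofReal (H ‖x‖)) ∧
      (∀ t, 0 < t → 0 ≤ H t) ∧
      (∀ a b : ℝ, 0 < a → a ≤ b → H b - H a = ∫ t in a..b, ψ t) ∧
      IntegrableOn (fun t => t ^ (n + 1) * ψ t) (Ioi 0) ∧
      ∫ t in Ioi (0:ℝ), t ^ (n + 1) * |ψ t| ≤
        2 ^ (n + 2) * C1 n * ∫ t in Ioi (0:ℝ), t ^ (n + 1) * |φ t| := by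
  have hu : Integrable (fun x : E (n + 2) => F ‖x‖) := hf.congr hfF
  have hg := abs_good hm hw hs hu
  have hF := isProfile_of hm hw hs
  set φ1 := deriv (fun t => |F t|) with hφ1
  set H := Gm n (fun t => |F t|) with hH
  have hnt : ∀ᵐ x : E (n + 2), x ≠ 0 := by simp [ae_iff, measure_singleton]
  have hC : 0 ≤ 2 ^ (n + 2) * C1 n := mul_nonneg (by positivity) (C1_nonneg n)
  -- integrals as lower integrals
  have key : ∀ χ : ℝ → ℝ, Measurable χ →
      ∫⁻ t in Ioi (0:ℝ), ‖t ^ (n + 1) * χ t‖ₑ = ∫⁻ t in Ioi (0:ℝ),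
        ENNReal.ofReal (t ^ (n + 1)) * ‖χ t‖ₑ := by
    intro χ _
    apply setLIntegral_congr_fun measurableSet_Ioi
    intro t ht
    have ht0 : (0:ℝ) < t := ht
    simp only
    rw [enorm_mul, Real.enorm_eq_ofReal (by (clear * - ht0; positivity))]
  have k1 : ∫⁻ t in Ioi (0:ℝ), ENNReal.ofReal (t ^ (n + 1)) * ‖φ1 t‖ₑ ≤
      ∫⁻ t in Ioi (0:ℝ), ENNReal.ofReal (t ^ (n + 1)) * ‖φ t‖ₑ := by
    apply lintegral_mono_ae
    rw [ae_restrict_iff' measurableSet_Ioi]
    filter_upwards [hF.abs_deriv_le] with t ht ht'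
    gcongr
    rw [enorm_le_iff_norm_le]
    exact ht ht'
  have k2 := weighted hg
  have k3 : ∫⁻ t in Ioi (0:ℝ), ENNReal.ofReal (t ^ (n + 1)) * ‖deriv H t‖ₑ ≤
      ENNReal.ofReal (2 ^ (n + 2) * C1 n) *
        ∫⁻ t in Ioi (0:ℝ), ENNReal.ofReal (t ^ (n + 1)) * ‖φ t‖ₑ := by
    rw [ENNReal.ofReal_mul (by (clear * -; positivity))]
    exact k2.trans (by (clear * - k1; gcongr))
  have k4 : ∫⁻ t in Ioi (0:ℝ), ENNReal.ofReal (t ^ (n + 1)) * ‖φ t‖ₑ < ∞ := by
    rw [← key φ hm]; exact hw.hasFiniteIntegral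
  have hwψ : IntegrableOn (fun t => t ^ (n + 1) * deriv H t) (Ioi 0) := by
    refine ⟨((measurable_id.pow_const (n + 1)).mul (measurable_deriv _)).aestronglyMeasurable, ?_⟩
    unfold HasFiniteIntegral
    rw [key _ (measurable_deriv _)]
    exact lt_of_le_of_lt k3 (ENNReal.mul_lt_top ENNReal.ofReal_lt_top k4)
  refine ⟨H, deriv H, measurable_deriv _, ?_, ?_, ?_, hwψ, ?_⟩
  · filter_upwards [hnt] with x hx
    rw [hH, ← Mfull_eq_Gm]
    apply centeredMax_eq (fun x => abs_nonneg _) hg.uint _ (hg.bdd hx)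
    filter_upwards [hfF] with y hy
    rw [hy]
  · intro t ht
    exact Gm_nonneg hg ht
  · intro a b ha hab
    exact (ftc_Gm hg ha hab).symm
  · have e1 : ∀ χ : ℝ → ℝ, ∫ t in Ioi (0:ℝ), t ^ (n + 1) * |χ t| =
        ∫ t in Ioi (0:ℝ), ‖t ^ (n + 1) * χ t‖ := by
      intro χ
      apply setIntegral_congr_fun measurableSet_Ioi
      intro t ht
      have ht0 : (0:ℝ) < t := ht
      simp only
      rw [norm_mul, Real.norm_of_nonneg (by (clear * - ht0; positivity)), Real.norm_eq_abs]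
    rw [e1, e1]
    have e2 : ENNReal.ofReal (∫ t in Ioi (0:ℝ), ‖t ^ (n + 1) * deriv H t‖) ≤
        ENNReal.ofReal (2 ^ (n + 2) * C1 n * ∫ t in Ioi (0:ℝ), ‖t ^ (n + 1) * φ t‖) := by
      rw [ENNReal.ofReal_mul hC, ofReal_integral_norm_eq_lintegral_enorm hwψ,
        ofReal_integral_norm_eq_lintegral_enorm hw, key _ (measurable_deriv _), key _ hm]
      exact k3
    exact (ENNReal.ofReal_le_ofReal_iff
      (mul_nonneg hC (integral_nonneg (fun _ => norm_nonneg _)))).1 e2

end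

end Vale.Agent.P137
end
end

section

section

open MeasureTheory Set Metric Filter
open scoped ENNReal NNReal Topology ContDiff

namespace Vale.Agent.P137

noncomputable section

variable {n : ℕ}

/-- Null sets of radii give null sets of points. -/
lemma ae_norm {p : ℝ → Prop} (hp : ∀ᵐ t : ℝ, t ∈ Ioi (0:ℝ) → p t) :
    ∀ᵐ x : E (n + 1), p ‖x‖ := by
  set A : Set ℝ := toMeasurable volume {t : ℝ | ¬ (t ∈ Ioi (0:ℝ) → p t)} with hA
  have hA0 : volume A = 0 := by rw [hA, measure_toMeasurable]; exact hp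
  have hAm : MeasurableSet A := measurableSet_toMeasurable _ _
  set f : ℝ → ℝ := A.indicator (fun _ => 1) with hf
  have hae : ∀ᵐ t : ℝ, t ∉ A := measure_eq_zero_iff_ae_notMem.1 hA0
  have h0 : (fun y : ℝ => y ^ (Module.finrank ℝ (E (n + 1)) - 1) • f y)
      =ᵐ[volume.restrict (Ioi 0)] fun _ => (0:ℝ) := by
    apply ae_restrict_of_ae
    filter_upwards [hae] with t ht
    rw [hf, indicator_of_notMem ht, smul_zero]
  have h1 : Integrable (fun x : E (n + 1) => f ‖x‖) := by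
    rw [integrable_fun_norm_addHaar]
    exact (integrable_zero _ _ _).congr h0.symm
  have h2 : ∫ x : E (n + 1), f ‖x‖ = 0 := by
    rw [integral_fun_norm_addHaar, integral_congr_ae h0]
    simp
  rw [integral_eq_zero_iff_of_nonneg (fun x => indicator_nonneg (fun _ _ => zero_le_one) _) h1] at h2
  have h3 : ∀ᵐ x : E (n + 1), x ≠ 0 := by simp [ae_iff, measure_singleton]
  filter_upwards [h2, h3] with x hx hx0
  by_contra hc
  have h4 : ‖x‖ ∈ A := by
    apply subset_toMeasurable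
    simp only [mem_ofPred_eq, Classical.not_imp]
    exact ⟨norm_pos_iff.2 hx0, hc⟩
  simp only [indicator_of_mem h4, Pi.zero_apply] at hx
  exact one_ne_zero hx

lemma map_norm_ac : (volume : Measure (E (n + 1))).map norm ≪ volume.restrict (Ioi (0:ℝ)) := by
  refine Measure.AbsolutelyContinuous.mk (fun s hs h => ?_)
  rw [Measure.map_apply measurable_norm hs]
  have h1 : ∀ᵐ t : ℝ, t ∈ Ioi (0:ℝ) → t ∉ s := by
    rw [← ae_restrict_iff' measurableSet_Ioi]
    exact measure_eq_zero_iff_ae_notMem.1 h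
  have h2 := ae_norm (n := n) h1
  exact measure_eq_zero_iff_ae_notMem.2 h2

lemma polar_pos {h : E (n + 1) → ℝ} (hh : Integrable h) : ∃ γ : ℝ → ℝ, Measurable γ ∧
    (∀ t, 0 ≤ γ t) ∧ IntegrableOn γ (Ioi 0) ∧
    ∀ η : ℝ → ℝ, Measurable η → Integrable (fun x => h x * η ‖x‖) →
      IntegrableOn (fun t => γ t * η t) (Ioi 0) ∧
      ∫ t in Ioi (0:ℝ), γ t * η t = ∫ x, max (h x) 0 * η ‖x‖ := by
  set μ : Measure (E (n + 1)) := volume.withDensity (fun x => ENNReal.ofReal (h x)) with hμ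
  have : IsFiniteMeasure μ := isFiniteMeasure_withDensity_ofReal hh.2
  set ν : Measure ℝ := μ.map norm with hν
  have hac : ν ≪ volume.restrict (Ioi (0:ℝ)) :=
    ((withDensity_absolutelyContinuous _ _).map measurable_norm).trans map_norm_ac
  refine ⟨fun t => (ν.rnDeriv (volume.restrict (Ioi (0:ℝ))) t).toReal,
    (Measure.measurable_rnDeriv _ _).ennreal_toReal, fun t => ENNReal.toReal_nonneg,
    Measure.integrable_toReal_rnDeriv, fun η hη hi => ?_⟩
  have hm : AEMeasurable (fun x => ENNReal.ofReal (h x)) := hh.1.aemeasurable.ennreal_ofReal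
  have hi' : Integrable (fun x => max (h x) 0 * η ‖x‖) := by
    refine Integrable.mono hi ?_ (Eventually.of_forall (fun x => ?_))
    · exact (hh.pos_part.1).mul ((hη.comp measurable_norm).aestronglyMeasurable)
    · rw [norm_mul, norm_mul]
      gcongr
      rw [Real.norm_eq_abs, Real.norm_eq_abs, abs_of_nonneg (le_max_right _ _)]
      exact max_le (le_abs_self _) (abs_nonneg _)
  have h1 : Integrable η ν := by
    rw [hν, integrable_map_measure hη.aestronglyMeasurable measurable_norm.aemeasurable, hμ,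
      integrable_withDensity_iff_integrable_smul₀' hm
        (Eventually.of_forall (fun _ => ENNReal.ofReal_lt_top))]
    refine hi'.congr (Eventually.of_forall (fun x => ?_))
    simp only [ENNReal.toReal_ofReal', smul_eq_mul, Function.comp]
  refine ⟨(integrable_toReal_rnDeriv_mul_iff hac).2 h1, ?_⟩
  simp only
  rw [integral_toReal_rnDeriv_mul hac, hν,
    integral_map measurable_norm.aemeasurable hη.aestronglyMeasurable, hμ,
    integral_withDensity_eq_integral_toReal_smul₀ hm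
      (Eventually.of_forall (fun _ => ENNReal.ofReal_lt_top))]
  refine integral_congr_ae (Eventually.of_forall (fun x => ?_))
  simp only [ENNReal.toReal_ofReal', smul_eq_mul]

/-- Radial disintegration of an integrable function. -/
lemma polar_density {h : E (n + 1) → ℝ} (hh : Integrable h) : ∃ γ : ℝ → ℝ, Measurable γ ∧
    IntegrableOn γ (Ioi 0) ∧ ∫ t in Ioi (0:ℝ), |γ t| ≤ ∫ x, |h x| ∧
    ∀ η : ℝ → ℝ, Measurable η → Integrable (fun x => h x * η ‖x‖) →
      IntegrableOn (fun t => γ t * η t) (Ioi 0) ∧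
      ∫ t in Ioi (0:ℝ), γ t * η t = ∫ x, h x * η ‖x‖ := by
  obtain ⟨γ₁, m₁, p₁, i₁, k₁⟩ := polar_pos hh
  obtain ⟨γ₂, m₂, p₂, i₂, k₂⟩ := polar_pos hh.neg
  simp only [Pi.neg_apply] at k₂
  have hi1 : ∀ η : ℝ → ℝ, Measurable η → Integrable (fun x => h x * η ‖x‖) →
      Integrable (fun x => max (h x) 0 * η ‖x‖) := by
    intro η hη hi
    refine Integrable.mono hi ?_ (Eventually.of_forall (fun x => ?_))
    · exact (hh.pos_part.1).mul ((hη.comp measurable_norm).aestronglyMeasurable)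
    · rw [norm_mul, norm_mul]
      gcongr
      rw [Real.norm_eq_abs, Real.norm_eq_abs, abs_of_nonneg (le_max_right _ _)]
      exact max_le (le_abs_self _) (abs_nonneg _)
  have hi2 : ∀ η : ℝ → ℝ, Measurable η → Integrable (fun x => h x * η ‖x‖) →
      Integrable (fun x => max (-h x) 0 * η ‖x‖) := by
    intro η hη hi
    refine Integrable.mono hi ?_ (Eventually.of_forall (fun x => ?_))
    · exact (hh.neg.pos_part.1).mul ((hη.comp measurable_norm).aestronglyMeasurable)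
    · rw [norm_mul, norm_mul]
      gcongr
      rw [Real.norm_eq_abs, Real.norm_eq_abs, abs_of_nonneg (le_max_right _ _)]
      exact max_le (neg_le_abs _) (abs_nonneg _)
  refine ⟨fun t => γ₁ t - γ₂ t, m₁.sub m₂, i₁.sub i₂, ?_, fun η hη hi => ?_⟩
  · have e1 := (k₁ (fun _ => 1) measurable_const (by simpa only [mul_one] using hh)).2
    have e2 := (k₂ (fun _ => 1) measurable_const (by simpa only [mul_one, integrable_fun_neg_iff, integrable_neg_iff] using hh.neg)).2
    simp only [mul_one] at e1 e2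
    calc ∫ t in Ioi (0:ℝ), |γ₁ t - γ₂ t| ≤ ∫ t in Ioi (0:ℝ), (γ₁ t + γ₂ t) := by
          apply integral_mono (i₁.sub i₂).abs (i₁.add i₂)
          intro t
          simp only [Pi.add_apply, Pi.sub_apply]
          rw [abs_le]
          constructor <;> linarith only [p₁ t, p₂ t]
      _ = (∫ x, max (h x) 0) + ∫ x, max (-h x) 0 := by
          rw [integral_add i₁ i₂, e1, e2]
      _ = ∫ x, |h x| := by
          have e4 : Integrable (fun x => max (-h x) 0) := hh.neg.pos_part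
          rw [← integral_add hh.pos_part e4]
          refine integral_congr_ae (Eventually.of_forall (fun x => ?_))
          simp only
          rcases le_total 0 (h x) with h0 | h0
          · rw [max_eq_left h0, max_eq_right (by linarith only [h0]), abs_of_nonneg h0, add_zero]
          · rw [max_eq_right h0, max_eq_left (by linarith only [h0]), abs_of_nonpos h0, zero_add]
  · have hin : Integrable (fun x => -h x * η ‖x‖) := by
      refine hi.neg.congr (Eventually.of_forall (fun x => ?_))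
      simp only [Pi.neg_apply]; ring
    obtain ⟨a1, a2⟩ := k₁ η hη hi
    obtain ⟨b1, b2⟩ := k₂ η hη hin
    have e3 : (fun t => (γ₁ t - γ₂ t) * η t) = fun t => γ₁ t * η t - γ₂ t * η t := by
      ext t; ring
    rw [e3]
    refine ⟨a1.sub b1, ?_⟩
    rw [integral_sub a1 b1, a2, b2, ← integral_sub (hi1 η hη hi) (hi2 η hη hi)]
    refine integral_congr_ae (Eventually.of_forall (fun x => ?_))
    simp only
    rw [← sub_mul]
    congr 1
    rcases le_total 0 (h x) with h0 | h0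
    · rw [max_eq_left h0, max_eq_right (by linarith only [h0])]; ring
    · rw [max_eq_right h0, max_eq_left (by linarith only [h0])]; ring

end

end Vale.Agent.P137
end
end

section

section

open MeasureTheory Set Metric Filter
open scoped ENNReal NNReal Topology ContDiff

namespace Vale.Agent.P137

noncomputable section

variable {n : ℕ}

lemma contDiff_radial {m : ℝ → ℝ} (hm : ContDiff ℝ ∞ m) {a : ℝ} (ha : 0 < a)
    (h0 : ∀ t, t ≤ a → m t = 0) : ContDiff ℝ ∞ (fun x : E (n + 1) => m ‖x‖) := by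
  rw [contDiff_iff_contDiffAt]
  intro x
  by_cases hx : x = 0
  · have h1 : (fun x : E (n + 1) => m ‖x‖) =ᶠ[𝓝 x] fun _ => 0 := by
      rw [hx]
      filter_upwards [ball_mem_nhds (0 : E (n + 1)) ha] with y hy
      rw [mem_ball, dist_zero_right] at hy
      exact h0 _ hy.le
    exact contDiffAt_const.congr_of_eventuallyEq h1
  · exact hm.contDiffAt.comp x (contDiffAt_norm ℝ hx)

lemma fderiv_norm_apply {x : E (n + 1)} (hx : x ≠ 0) (v : E (n + 1)) :
    fderiv ℝ (fun y : E (n + 1) => ‖y‖) x v = inner ℝ x v / ‖x‖ := by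
  have hd : DifferentiableAt ℝ (fun y : E (n + 1) => ‖y‖) x :=
    (contDiffAt_norm (n := 1) ℝ hx).differentiableAt (by norm_num)
  have h1 : HasFDerivAt (fun y : E (n + 1) => ‖y‖ ^ 2) (2 • (innerSL ℝ x)) x :=
    (hasStrictFDerivAt_norm_sq x).hasFDerivAt
  have h2 : HasFDerivAt (fun y : E (n + 1) => ‖y‖ ^ 2)
      ((2 * ‖x‖ ^ (2 - 1)) • fderiv ℝ (fun y : E (n + 1) => ‖y‖) x) x := by
    have := hd.hasFDerivAt.pow 2
    simpa only [Nat.add_one_sub_one, pow_one, nsmul_eq_mul, Nat.cast_ofNat] using this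
  have h3 := h1.unique h2
  have h4 := congrArg (fun L : E (n + 1) →L[ℝ] ℝ => L v) h3
  simp only [_root_.smul_apply, smul_eq_mul, innerSL_apply_apply] at h4
  have hx' : ‖x‖ ≠ 0 := norm_ne_zero_iff.2 hx
  field_simp
  simp only [nsmul_eq_mul, Nat.cast_ofNat, Nat.add_one_sub_one, pow_one] at h4
  linarith only [h4]

lemma fderiv_radial {m : ℝ → ℝ} (hm : ContDiff ℝ ∞ m) {x : E (n + 1)} (hx : x ≠ 0)
    (v : E (n + 1)) : fderiv ℝ (fun x : E (n + 1) => m ‖x‖) x v
      = deriv m ‖x‖ * (inner ℝ x v / ‖x‖) := by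
  have hd : DifferentiableAt ℝ (fun y : E (n + 1) => ‖y‖) x :=
    (contDiffAt_norm (n := 1) ℝ hx).differentiableAt (by norm_num)
  have hm' : DifferentiableAt ℝ m ‖x‖ := hm.differentiable (by norm_num) _
  have h1 : HasFDerivAt (fun x : E (n + 1) => m ‖x‖)
      (deriv m ‖x‖ • fderiv ℝ (fun y : E (n + 1) => ‖y‖) x) x :=
    hm'.hasDerivAt.comp_hasFDerivAt x hd.hasFDerivAt
  rw [h1.fderiv]
  simp only [_root_.smul_apply, smul_eq_mul, fderiv_norm_apply hx v]

lemma measurable_ind_ball : Measurable (fun p : E (n + 1) × ℝ =>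
    (ball (0 : E (n + 1)) p.2).indicator (fun _ => (1:ℝ)) p.1) := by
  have e1 : (fun p : E (n + 1) × ℝ => (ball (0 : E (n + 1)) p.2).indicator (fun _ => (1:ℝ)) p.1)
      = ({p : E (n + 1) × ℝ | ‖p.1‖ < p.2}).indicator (fun _ => (1:ℝ)) := by
    ext p
    simp only [indicator, mem_ball, dist_zero_right, mem_ofPred_eq]
  rw [e1]
  apply Measurable.indicator measurable_const
  exact measurableSet_lt (measurable_norm.comp measurable_fst) measurable_snd

/-- Layer cake formula for radial functions. -/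
lemma layer {h : E (n + 1) → ℝ} (hh : Integrable h) (h0 : ∫ x, h x = 0) {κ : ℝ → ℝ} {S : Set ℝ}
    (c : ℝ) (hint : Integrable (fun p : E (n + 1) × ℝ =>
      (ball (0 : E (n + 1)) p.2).indicator (fun _ => (1:ℝ)) p.1 * (κ p.2 * h p.1))
      (volume.prod (volume.restrict S))) :
    ∫ x, (c - ∫ s in S, (ball (0 : E (n + 1)) s).indicator (fun _ => κ s) x) * h x
      = - ∫ s in S, κ s * ∫ x in ball (0 : E (n + 1)) s, h x := by
  have e1 : ∀ x : E (n + 1), (∫ s in S, (ball (0 : E (n + 1)) s).indicator (fun _ => κ s) x) * h x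
      = ∫ s in S, (ball (0 : E (n + 1)) s).indicator (fun _ => (1:ℝ)) x * (κ s * h x) := by
    intro x
    rw [← integral_mul_const]
    congr 1
    ext s
    by_cases hx : x ∈ ball (0 : E (n + 1)) s
    · rw [indicator_of_mem hx, indicator_of_mem hx, one_mul]
    · rw [indicator_of_notMem hx, indicator_of_notMem hx]; ring
  have e2 : ∀ x : E (n + 1),
      (c - ∫ s in S, (ball (0 : E (n + 1)) s).indicator (fun _ => κ s) x) * h x
      = c * h x - ∫ s in S, (ball (0 : E (n + 1)) s).indicator (fun _ => (1:ℝ)) x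
        * (κ s * h x) := by
    intro x; rw [sub_mul, e1 x]
  simp only [e2]
  rw [integral_sub (hh.const_mul c) hint.integral_prod_left, integral_const_mul, h0, mul_zero,
    zero_sub, integral_integral_swap (f := fun x s =>
      (ball (0 : E (n + 1)) s).indicator (fun _ => (1:ℝ)) x * (κ s * h x)) hint]
  congr 2
  ext s
  rw [← integral_const_mul, ← integral_indicator measurableSet_ball]
  congr 1
  ext x
  by_cases hx : x ∈ ball (0 : E (n + 1)) s
  · rw [indicator_of_mem hx, indicator_of_mem hx, one_mul]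
  · rw [indicator_of_notMem hx, indicator_of_notMem hx, zero_mul]

lemma layer_int1 {h : E (n + 1) → ℝ} (hh : Integrable h) {κ : ℝ → ℝ} {S : Set ℝ}
    (hκ : IntegrableOn κ S) : Integrable (fun p : E (n + 1) × ℝ =>
      (ball (0 : E (n + 1)) p.2).indicator (fun _ => (1:ℝ)) p.1 * (κ p.2 * h p.1))
      (volume.prod (volume.restrict S)) := by
  have h1 : Integrable (fun p : E (n + 1) × ℝ => κ p.2 * h p.1)
      (volume.prod (volume.restrict S)) := by
    refine (hh.mul_prod hκ).congr (Eventually.of_forall (fun p => ?_))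
    simp only; ring
  refine Integrable.bdd_mul h1 (c := 1) measurable_ind_ball.aestronglyMeasurable
    (Eventually.of_forall (fun p => ?_))
  by_cases hp : p.1 ∈ ball (0 : E (n + 1)) p.2
  · rw [indicator_of_mem hp]; simp
  · rw [indicator_of_notMem hp]; simp only [norm_zero, zero_le_one]

lemma layer_int2 {h : E (n + 1) → ℝ} (hh : Integrable h) {M : ℝ} (hM : ∀ x, |h x| ≤ M)
    {κ : ℝ → ℝ} (hκm : Measurable κ)
    (hκ : IntegrableOn (fun t => t ^ n * κ t) (Ioi 0)) {R : ℝ} :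
    Integrable (fun p : E (n + 1) × ℝ =>
      (ball (0 : E (n + 1)) p.2).indicator (fun _ => (1:ℝ)) p.1 * (κ p.2 * h p.1))
      (volume.prod (volume.restrict (Ioc 0 R))) := by
  have hM0 : 0 ≤ M := (abs_nonneg _).trans (hM 0)
  have hm : AEStronglyMeasurable (fun p : E (n + 1) × ℝ =>
      (ball (0 : E (n + 1)) p.2).indicator (fun _ => (1:ℝ)) p.1 * (κ p.2 * h p.1))
      (volume.prod (volume.restrict (Ioc 0 R))) := by
    apply AEStronglyMeasurable.mul measurable_ind_ball.aestronglyMeasurable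
    apply AEStronglyMeasurable.mul (hκm.comp measurable_snd).aestronglyMeasurable
    exact hh.1.comp_fst
  have hom := om_pos (n + 1)
  rw [integrable_prod_iff' hm]
  have e1 : ∀ (x : E (n + 1)) (s : ℝ),
      (ball (0 : E (n + 1)) s).indicator (fun _ => (1:ℝ)) x * (κ s * h x)
      = κ s * (ball (0 : E (n + 1)) s).indicator h x := by
    intro x s
    by_cases hx : x ∈ ball (0 : E (n + 1)) s
    · rw [indicator_of_mem hx, indicator_of_mem hx, one_mul]
    · rw [indicator_of_notMem hx, indicator_of_notMem hx]; ring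
  constructor
  · refine Eventually.of_forall (fun s => ?_)
    simp only [e1]
    exact (hh.indicator measurableSet_ball).const_mul _
  · have e2 : IntegrableOn (fun s => (M * om (n + 1) * R) * |s ^ n * κ s|) (Ioc 0 R) :=
      ((hκ.mono_set Ioc_subset_Ioi_self).abs).const_mul _
    refine Integrable.mono' e2 hm.norm.prod_swap.integral_prod_right' ?_
    filter_upwards [ae_restrict_mem measurableSet_Ioc] with s hs
    rw [Real.norm_of_nonneg (integral_nonneg (fun _ => norm_nonneg _))]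
    simp only [e1]
    have e3 : ∀ x : E (n + 1), ‖κ s * (ball (0 : E (n + 1)) s).indicator h x‖
        = |κ s| * (ball (0 : E (n + 1)) s).indicator (fun y => |h y|) x := by
      intro x
      rw [norm_mul, Real.norm_eq_abs, Real.norm_eq_abs]
      by_cases hx : x ∈ ball (0 : E (n + 1)) s
      · rw [indicator_of_mem hx, indicator_of_mem hx]
      · rw [indicator_of_notMem hx, indicator_of_notMem hx, abs_zero]
    simp only [e3]
    rw [integral_const_mul, integral_indicator measurableSet_ball]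
    have e4 : ∫ x in ball (0 : E (n + 1)) s, |h x| ≤ M * (s ^ (n + 1) * om (n + 1)) := by
      calc ∫ x in ball (0 : E (n + 1)) s, |h x| ≤ ∫ x in ball (0 : E (n + 1)) s, M := by
            apply setIntegral_mono_on hh.abs.integrableOn _ measurableSet_ball (fun x _ => hM x)
            rw [integrableOn_const_iff]
            right
            exact measure_ball_lt_top
        _ = M * (s ^ (n + 1) * om (n + 1)) := by
            rw [setIntegral_const, smul_eq_mul, mul_comm, ← volume_ball_toReal 0 hs.1.le]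
            rfl
    calc |κ s| * ∫ x in ball (0 : E (n + 1)) s, |h x|
        ≤ |κ s| * (M * (s ^ (n + 1) * om (n + 1))) := by (clear * - e4; gcongr)
      _ = (M * om (n + 1) * s) * (s ^ n * |κ s|) := by ring
      _ ≤ (M * om (n + 1) * R) * (s ^ n * |κ s|) := by
          have := hs.1; have := hs.2; (clear hh hκm hκ hm e1 e2 e3 e4; gcongr)
      _ = _ := by rw [abs_mul, abs_of_nonneg (pow_nonneg hs.1.le n)]

lemma exists_lower_support {χ : ℝ → ℝ} (hc : HasCompactSupport χ) (hs : tsupport χ ⊆ Ioi 0) :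
    ∃ a, 0 < a ∧ ∀ t, t ≤ a → χ t = 0 := by
  by_cases hne : (tsupport χ).Nonempty
  · obtain ⟨b, hb⟩ := hc.isCompact.exists_isLeast hne
    have hb0 : (0:ℝ) < b := hs hb.1
    refine ⟨b / 2, by positivity, fun t ht => ?_⟩
    by_contra hcon
    have h1 : t ∈ tsupport χ := subset_tsupport _ hcon
    have h2 := hb.2 h1
    linarith only [hb0, ht, h2]
  · refine ⟨1, one_pos, fun t _ => ?_⟩
    by_contra hcon
    exact hne ⟨t, subset_tsupport _ hcon⟩

lemma contDiff_primitive {χ : ℝ → ℝ} (hχ : ContDiff ℝ ∞ χ) :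
    ContDiff ℝ ∞ (fun t => ∫ s in (0:ℝ)..t, χ s) ∧
    ∀ t, deriv (fun t => ∫ s in (0:ℝ)..t, χ s) t = χ t := by
  have hd : ∀ t, HasDerivAt (fun t => ∫ s in (0:ℝ)..t, χ s) (χ t) t := fun t =>
    intervalIntegral.integral_hasDerivAt_right (hχ.continuous.intervalIntegrable _ _)
      (hχ.continuous.stronglyMeasurableAtFilter _ _) hχ.continuous.continuousAt
  have hdd : deriv (fun t => ∫ s in (0:ℝ)..t, χ s) = χ := by
    ext t; exact (hd t).deriv
  refine ⟨?_, fun t => (hd t).deriv⟩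
  rw [contDiff_infty_iff_deriv]
  refine ⟨fun t => (hd t).differentiableAt, ?_⟩
  rw [hdd]; exact hχ

lemma integral_fderiv_zero {φ : E (n + 1) → ℝ} (hφ : ContDiff ℝ ∞ φ) (hc : HasCompactSupport φ)
    (v : E (n + 1)) : ∫ x, fderiv ℝ φ x v = 0 := by
  have hd : Continuous (fun x => fderiv ℝ φ x v) :=
    (hφ.continuous_fderiv (by norm_num)).clm_apply continuous_const
  have hdc : HasCompactSupport (fun x => fderiv ℝ φ x v) := hc.fderiv_apply ℝ v
  have h1 := integral_mul_fderiv_eq_neg_fderiv_mul_of_integrable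
    (μ := (volume : Measure (E (n + 1)))) (f := fun _ => (1:ℝ)) (g := φ) (v := v)
    (by simp only [fderiv_fun_const, Pi.zero_apply, zero_apply, zero_mul, integrable_fun_zero]) (by simpa only [one_mul] using hd.integrable_of_hasCompactSupport hdc)
    (by simpa only [one_mul] using hφ.continuous.integrable_of_hasCompactSupport hc)
    (fun x _ => differentiableAt_const _)
    (fun x _ => hφ.differentiable (by norm_num) x)
  simpa only [one_mul, fderiv_fun_const, Pi.zero_apply, zero_apply, zero_mul, integral_zero, neg_zero] using h1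

/-- The function `φ x * x i / |x|`. -/
def rad (φ : E (n + 1) → ℝ) (i : Fin (n + 1)) (x : E (n + 1)) : ℝ := φ x * (x i / ‖x‖)

lemma abs_coord_div_le (x : E (n + 1)) (i : Fin (n + 1)) : |x i / ‖x‖| ≤ 1 := by
  rw [abs_div, abs_norm]
  apply div_le_one_of_le₀ _ (norm_nonneg _)
  have := PiLp.norm_apply_le x i
  rwa [Real.norm_eq_abs] at this

lemma measurable_coord_div (i : Fin (n + 1)) : Measurable (fun x : E (n + 1) => x i / ‖x‖) := by
  have : Measurable (fun x : E (n + 1) => x i) := by fun_prop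
  exact this.div measurable_norm

lemma rad_integrable {φ : E (n + 1) → ℝ} (hφ : Integrable φ) (i : Fin (n + 1)) :
    Integrable (rad φ i) := by
  unfold rad
  have h1 := Integrable.bdd_mul hφ (c := 1) (measurable_coord_div i).aestronglyMeasurable
    (Eventually.of_forall (fun x => by rw [Real.norm_eq_abs]; exact abs_coord_div_le x i))
  refine h1.congr (Eventually.of_forall (fun x => ?_))
  simp only; ring

lemma rad_bound {φ : E (n + 1) → ℝ} {M : ℝ} (hM : ∀ x, |φ x| ≤ M) (i : Fin (n + 1))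
    (x : E (n + 1)) : |rad φ i x| ≤ M := by
  unfold rad
  rw [abs_mul]
  calc |φ x| * |x i / ‖x‖| ≤ |φ x| * 1 :=
        mul_le_mul_of_nonneg_left (abs_coord_div_le x i) (abs_nonneg _)
    _ ≤ M := by rw [mul_one]; exact hM x

/-- Integration by parts against radial functions. -/
lemma radial_ibp {φ : E (n + 1) → ℝ} (hφ : ContDiff ℝ ∞ φ) (hc : HasCompactSupport φ)
    (i : Fin (n + 1)) {χ : ℝ → ℝ} (hχ : ContDiff ℝ ∞ χ) (hχc : HasCompactSupport χ)
    (hχs : tsupport χ ⊆ Ioi 0) :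
    ∫ s in Ioi (0:ℝ), χ s * ∫ x in ball (0 : E (n + 1)) s,
      fderiv ℝ φ x (EuclideanSpace.single i 1) = ∫ x, rad φ i x * χ ‖x‖ := by
  obtain ⟨a, ha, ha0⟩ := exists_lower_support hχc hχs
  set v : E (n + 1) := EuclideanSpace.single i 1 with hv
  set m : ℝ → ℝ := fun t => ∫ s in (0:ℝ)..t, χ s with hm
  obtain ⟨hmc, hmd⟩ := contDiff_primitive hχ
  rw [← hm] at hmc hmd
  have hm0 : ∀ t, t ≤ a → m t = 0 := by
    intro t ht
    simp only [hm]
    have : ∀ s ∈ uIcc 0 t, χ s = 0 := by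
      intro s hs
      apply ha0
      rw [mem_uIcc] at hs
      rcases hs with h | h <;> linarith only [ha, h, ht]
    rw [intervalIntegral.integral_congr this]
    simp
  have hdiff : Continuous (fun x => fderiv ℝ φ x v) :=
    (hφ.continuous_fderiv (by norm_num)).clm_apply continuous_const
  have hdc : HasCompactSupport (fun x => fderiv ℝ φ x v) := hc.fderiv_apply ℝ v
  have hdi : Integrable (fun x => fderiv ℝ φ x v) := hdiff.integrable_of_hasCompactSupport hdc
  have hχi : Integrable χ := hχ.continuous.integrable_of_hasCompactSupport hχc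
  have hZ : ContDiff ℝ ∞ (fun x : E (n + 1) => m ‖x‖) := contDiff_radial hmc ha hm0
  -- layer cake
  have h1 := layer hdi (integral_fderiv_zero hφ hc v) (κ := χ) (S := Ioi (0:ℝ))
    (∫ s in Ioi (0:ℝ), χ s) (layer_int1 hdi hχi.integrableOn)
  have h2 : ∀ x : E (n + 1), (∫ s in Ioi (0:ℝ), χ s) -
      ∫ s in Ioi (0:ℝ), (ball (0 : E (n + 1)) s).indicator (fun _ => χ s) x = m ‖x‖ := by
    intro x
    simp only [hm]
    rw [intervalIntegral.integral_of_le (norm_nonneg x)]
    have e1 : (fun s : ℝ => (ball (0 : E (n + 1)) s).indicator (fun _ => χ s) x)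
        = (Ioi ‖x‖).indicator χ := by
      ext s
      simp only [indicator, mem_ball, dist_zero_right, mem_Ioi]
    rw [e1, setIntegral_indicator measurableSet_Ioi]
    have e2 : Ioi (0:ℝ) ∩ Ioi ‖x‖ = Ioi ‖x‖ :=
      inter_eq_right.2 (Ioi_subset_Ioi (norm_nonneg x))
    rw [e2, ← Ioc_union_Ioi_eq_Ioi (norm_nonneg x),
      setIntegral_union (Ioc_disjoint_Ioi le_rfl) measurableSet_Ioi hχi.integrableOn
        hχi.integrableOn]
    ring
  simp only [h2] at h1
  -- integration by parts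
  have h3 := integral_mul_fderiv_eq_neg_fderiv_mul_of_integrable
    (μ := (volume : Measure (E (n + 1)))) (f := fun x : E (n + 1) => m ‖x‖) (g := φ) (v := v)
    (by
      apply Continuous.integrable_of_hasCompactSupport
      · exact ((hZ.continuous_fderiv (by norm_num)).clm_apply continuous_const).mul hφ.continuous
      · exact hc.mul_left)
    (by
      apply Continuous.integrable_of_hasCompactSupport
      · exact hZ.continuous.mul hdiff
      · exact hdc.mul_left)
    (by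
      apply Continuous.integrable_of_hasCompactSupport
      · exact hZ.continuous.mul hφ.continuous
      · exact hc.mul_left)
    (fun x _ => hZ.differentiable (by norm_num) x)
    (fun x _ => hφ.differentiable (by norm_num) x)
  rw [h3] at h1
  have h4 := neg_injective h1
  rw [← h4]
  have hnt : ∀ᵐ x : E (n + 1), x ≠ 0 := by simp [ae_iff, measure_singleton]
  apply integral_congr_ae
  filter_upwards [hnt] with x hx
  rw [fderiv_radial hmc hx, hmd]
  have e3 : inner ℝ x v = x i := by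
    rw [hv, EuclideanSpace.inner_single_right]
    simp
  rw [e3]
  unfold rad
  ring

/-- The integral of the derivative over balls centered at the origin. -/
def bb (φ : E (n + 1) → ℝ) (i : Fin (n + 1)) (s : ℝ) : ℝ :=
  ∫ x in ball (0 : E (n + 1)) s, fderiv ℝ φ x (EuclideanSpace.single i 1)

lemma meas_ball_integral {d : E (n + 1) → ℝ} (hd : Measurable d) :
    Measurable (fun s => ∫ x in ball (0 : E (n + 1)) s, d x) := by
  have e1 : (fun s => ∫ x in ball (0 : E (n + 1)) s, d x) = fun s =>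
      ∫ x, (ball (0 : E (n + 1)) s).indicator (fun _ => (1:ℝ)) x * d x := by
    ext s
    rw [← integral_indicator measurableSet_ball]
    congr 1
    ext x
    by_cases hx : x ∈ ball (0 : E (n + 1)) s
    · rw [indicator_of_mem hx, indicator_of_mem hx, one_mul]
    · rw [indicator_of_notMem hx, indicator_of_notMem hx, zero_mul]
  rw [e1]
  have h0 : Measurable (fun p : E (n + 1) × ℝ =>
      (ball (0 : E (n + 1)) p.2).indicator (fun _ => (1:ℝ)) p.1 * d p.1) :=
    measurable_ind_ball.mul (hd.comp measurable_fst)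
  exact (h0.stronglyMeasurable.integral_prod_left (μ := volume)).measurable

lemma bb_meas {φ : E (n + 1) → ℝ} (hφ : ContDiff ℝ ∞ φ) (i : Fin (n + 1)) :
    Measurable (bb φ i) := by
  have hdiff : Continuous (fun x => fderiv ℝ φ x (EuclideanSpace.single i 1)) :=
    (hφ.continuous_fderiv (by norm_num)).clm_apply continuous_const
  exact meas_ball_integral hdiff.measurable

lemma bb_ae {φ : E (n + 1) → ℝ} (hφ : ContDiff ℝ ∞ φ) (hc : HasCompactSupport φ)
    (i : Fin (n + 1)) {γ : ℝ → ℝ} (hγi : IntegrableOn γ (Ioi 0))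
    (hγ : ∀ η : ℝ → ℝ, Measurable η → Integrable (fun x => rad φ i x * η ‖x‖) →
      IntegrableOn (fun t => γ t * η t) (Ioi 0) ∧
      ∫ t in Ioi (0:ℝ), γ t * η t = ∫ x, rad φ i x * η ‖x‖) :
    ∀ᵐ s : ℝ, s ∈ Ioi (0:ℝ) → bb φ i s = γ s := by
  have hdiff : Continuous (fun x => fderiv ℝ φ x (EuclideanSpace.single i 1)) :=
    (hφ.continuous_fderiv (by norm_num)).clm_apply continuous_const
  have hdc : HasCompactSupport (fun x => fderiv ℝ φ x (EuclideanSpace.single i 1)) :=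
    hc.fderiv_apply ℝ _
  have hdi := hdiff.integrable_of_hasCompactSupport hdc (μ := (volume : Measure (E (n + 1))))
  have hbd : ∀ s, |bb φ i s| ≤ ∫ x, |fderiv ℝ φ x (EuclideanSpace.single i 1)| := by
    intro s
    unfold bb
    refine abs_integral_le_integral_abs.trans ?_
    exact setIntegral_le_integral hdi.abs (Eventually.of_forall (fun _ => abs_nonneg _))
  have hloc : LocallyIntegrableOn (fun s => bb φ i s - γ s) (Ioi 0) := by
    apply LocallyIntegrableOn.sub
    · have : LocallyIntegrable (bb φ i) := by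
        rw [locallyIntegrable_iff]
        intro k hk
        exact Measure.integrableOn_of_bounded hk.measure_lt_top.ne
          (bb_meas hφ i).aestronglyMeasurable
          (Eventually.of_forall (fun s => by rw [Real.norm_eq_abs]; exact hbd s))
      exact this.locallyIntegrableOn _
    · exact hγi.locallyIntegrableOn
  have h1 := IsOpen.ae_eq_zero_of_integral_contDiff_smul_eq_zero isOpen_Ioi hloc
    (fun χ hχ hχc hχs => ?_)
  · filter_upwards [h1] with s hs hs'
    have := hs hs'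
    linarith only [this]
  · have h2 := radial_ibp hφ hc i hχ hχc hχs
    have hri : Integrable (fun x => rad φ i x * χ ‖x‖) := by
      obtain ⟨C, hC⟩ := hχc.exists_bound_of_continuous hχ.continuous
      have := Integrable.bdd_mul (rad_integrable
        (hφ.continuous.integrable_of_hasCompactSupport hc) i) (c := C)
        (hχ.continuous.comp continuous_norm).aestronglyMeasurable
        (Eventually.of_forall (fun x => hC ‖x‖))
      refine this.congr (Eventually.of_forall (fun x => ?_))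
      simp only [Function.comp]; ring
    obtain ⟨h3, h4⟩ := hγ χ hχ.continuous.measurable hri
    have h5 : ∫ x, χ x • (bb φ i x - γ x) = ∫ x in Ioi (0:ℝ), χ x • (bb φ i x - γ x) := by
      rw [← integral_indicator measurableSet_Ioi]
      congr 1
      ext s
      by_cases hs : s ∈ Ioi (0:ℝ)
      · rw [indicator_of_mem hs]
      · rw [indicator_of_notMem hs]
        have : χ s = 0 := by
          by_contra hcon
          exact hs (hχs (subset_tsupport _ hcon))
        rw [this, zero_smul]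
    rw [h5]
    have h6 : IntegrableOn (fun s => χ s * bb φ i s) (Ioi 0) := by
      have hχi : Integrable χ := hχ.continuous.integrable_of_hasCompactSupport hχc
      have := Integrable.bdd_mul (hχi.integrableOn (s := Ioi 0))
        (bb_meas hφ i).aestronglyMeasurable
        (Eventually.of_forall (fun s => by rw [Real.norm_eq_abs]; exact hbd s))
      refine this.congr (Eventually.of_forall (fun x => ?_))
      simp only; ring
    have h7 : (fun x => χ x • (bb φ i x - γ x)) = fun x => χ x * bb φ i x - γ x * χ x := by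
      ext x; rw [smul_eq_mul]; ring
    rw [h7, integral_sub h6 h3, h4, ← h2]
    unfold bb
    ring

lemma IsProfile.contOn {F φ : ℝ → ℝ} (hF : IsProfile F φ) : ContinuousOn F (Ioi 0) := by
  intro t ht
  have ht0 : (0:ℝ) < t := ht
  have h1 := hF.cont (half_pos ht0) (by linarith only [ht0] : t / 2 ≤ t + 1)
  exact ((h1 t ⟨by linarith, by linarith⟩).continuousAt
    (Icc_mem_nhds (by linarith) (by linarith))).continuousWithinAt

lemma G_locInt {G ψ : ℝ → ℝ} (hG : IsProfile G ψ)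
    (hψ : IntegrableOn (fun t => t ^ n * ψ t) (Ioi 0)) :
    LocallyIntegrable (fun x : E (n + 1) => G ‖x‖) := by
  rw [locallyIntegrable_iff]
  intro k hk
  obtain ⟨R, hR⟩ := hk.isBounded.subset_ball (0 : E (n + 1))
  refine IntegrableOn.mono_set ?_ (hR.trans (ball_subset_ball (le_max_left R 1)))
  set S := max R 1 with hS
  have hS0 : 0 < S := lt_of_lt_of_le one_pos (le_max_right _ _)
  rw [integrableOn_fun_norm_addHaar]
  have hd : Module.finrank ℝ (E (n + 1)) - 1 = n := by simp only [finrank_euclideanSpace, Fintype.card_fin, add_tsub_cancel_right]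
  rw [hd]
  have hcont : ContinuousOn (fun y : ℝ => y ^ n • G y) (Ioo 0 S) := by
    have h1 : ContinuousOn (fun y : ℝ => y ^ n) (Ioo 0 S) := by fun_prop
    exact h1.fun_smul (hG.contOn.mono Ioo_subset_Ioi_self)
  set K := ∫ t in Ioi (0:ℝ), |t ^ n * ψ t| with hK
  have hbd : ∀ y ∈ Ioo 0 S, ‖y ^ n • G y‖ ≤ S ^ n * |G S| + K := by
    intro y hy
    have e1 := hG.sub y S hy.1 hy.2.le
    have e2 : y ^ n * |G S - G y| ≤ K := by
      rw [e1]
      calc y ^ n * |∫ t in y..S, ψ t| ≤ y ^ n * ∫ t in y..S, |ψ t| := by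
            have := hy.1
            gcongr
            exact intervalIntegral.abs_integral_le_integral_abs hy.2.le
        _ = ∫ t in Ioc y S, y ^ n * |ψ t| := by
            rw [intervalIntegral.integral_of_le hy.2.le, integral_const_mul]
        _ ≤ ∫ t in Ioc y S, |t ^ n * ψ t| := by
            apply setIntegral_mono_on
            · have := (hG.int y S hy.1 hy.2.le).1
              exact this.abs.const_mul _
            · exact (hψ.mono_set (fun t ht => hy.1.trans ht.1)).abs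
            · exact measurableSet_Ioc
            · intro t ht
              rw [abs_mul, abs_of_nonneg (pow_nonneg (hy.1.trans ht.1).le n)]
              have := hy.1
              have := ht.1.le
              (clear G hG hψ k hk hR hS hS0 hd hcont K hK e1; gcongr)
        _ ≤ K := by
            apply setIntegral_mono_set hψ.abs (Eventually.of_forall (fun _ => abs_nonneg _))
            exact Eventually.of_forall (fun t ht => hy.1.trans ht.1)
    rw [norm_smul, Real.norm_eq_abs, Real.norm_eq_abs, abs_of_nonneg (pow_nonneg hy.1.le n)]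
    have e3 : |G y| ≤ |G S| + |G S - G y| := by
      have := abs_sub_abs_le_abs_sub (G y) (G S)
      rw [abs_sub_comm] at this
      linarith only [this]
    have e4 : y ^ n ≤ S ^ n := pow_le_pow_left₀ hy.1.le hy.2.le n
    calc y ^ n * |G y| ≤ y ^ n * (|G S| + |G S - G y|) :=
          mul_le_mul_of_nonneg_left e3 (pow_nonneg hy.1.le n)
      _ = y ^ n * |G S| + y ^ n * |G S - G y| := by ring
      _ ≤ S ^ n * |G S| + K := add_le_add (mul_le_mul_of_nonneg_right e4 (abs_nonneg _)) e2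
  refine ⟨hcont.aestronglyMeasurable measurableSet_Ioo, ?_⟩
  exact .restrict_of_bounded (C := S ^ n * |G S| + K) measure_Ioo_lt_top
    ((ae_restrict_iff' measurableSet_Ioo).2 (Eventually.of_forall hbd))

end

end Vale.Agent.P137
end
end

section

section

open MeasureTheory Set Metric Filter
open scoped ENNReal NNReal Topology ContDiff

namespace Vale.Agent.P137

noncomputable section

variable {n : ℕ}

lemma finrank_E : Module.finrank ℝ (E (n + 1)) = n + 1 := by simp

lemma norm_rad_grad (ψ : ℝ → ℝ) {x : E (n + 1)} (hx : x ≠ 0) :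
    ‖(ψ ‖x‖ / ‖x‖) • x‖ = |ψ ‖x‖| := by
  have : ‖x‖ ≠ 0 := norm_ne_zero_iff.2 hx
  rw [norm_smul, norm_div, norm_norm, Real.norm_eq_abs]
  field_simp

lemma radial_integrable {ψ : ℝ → ℝ} (hψ : IntegrableOn (fun t => t ^ n * ψ t) (Ioi 0)) :
    Integrable (fun x : E (n + 1) => ψ ‖x‖) := by
  rw [integrable_fun_norm_addHaar, finrank_E]
  simpa only [add_tsub_cancel_right, smul_eq_mul] using hψ

lemma integral_radial (ψ : ℝ → ℝ) :
    ∫ x : E (n + 1), ψ ‖x‖ = ((n + 1 : ℕ) : ℝ) * om (n + 1) * ∫ t in Ioi (0:ℝ), t ^ n * ψ t := by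
  rw [integral_fun_norm_addHaar, finrank_E]
  simp only [nsmul_eq_mul, smul_eq_mul, Nat.add_sub_cancel]
  rw [mul_assoc]
  rfl

lemma grad_integrable {ψ : ℝ → ℝ} (hm : Measurable ψ)
    (hψ : IntegrableOn (fun t => t ^ n * ψ t) (Ioi 0)) :
    Integrable (fun x : E (n + 1) => (ψ ‖x‖ / ‖x‖) • x) := by
  have hnt : ∀ᵐ x : E (n + 1), x ≠ 0 := by simp [ae_iff, measure_singleton]
  have hme : Measurable (fun x : E (n + 1) => (ψ ‖x‖ / ‖x‖) • x) := by
    have : Measurable (fun x : E (n + 1) => ψ ‖x‖ / ‖x‖) :=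
      (hm.comp measurable_norm).div measurable_norm
    exact this.smul measurable_id
  refine Integrable.mono' (radial_integrable hψ).abs hme.aestronglyMeasurable ?_
  filter_upwards [hnt] with x hx
  rw [norm_rad_grad ψ hx]

/-- Radial functions with absolutely continuous profile have the expected weak gradient. -/
theorem weakGradient_radial {G ψ : ℝ → ℝ} (hm : Measurable ψ)
    (hψ : IntegrableOn (fun t => t ^ n * ψ t) (Ioi 0)) (hG : IsProfile G ψ) :
    IsWeakGradient (fun x : E (n + 1) => G ‖x‖) (fun x => (ψ ‖x‖ / ‖x‖) • x) ∧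
    Integrable (fun x : E (n + 1) => (ψ ‖x‖ / ‖x‖) • x) ∧
    ∫ x : E (n + 1), ‖(ψ ‖x‖ / ‖x‖) • x‖ =
      ((n + 1 : ℕ) : ℝ) * om (n + 1) * ∫ t in Ioi (0:ℝ), t ^ n * |ψ t| := by
  have hnt : ∀ᵐ x : E (n + 1), x ≠ 0 := by simp [ae_iff, measure_singleton]
  have hgi := grad_integrable hm hψ
  refine ⟨⟨G_locInt hG hψ, hgi.locallyIntegrable, ?_⟩, hgi, ?_⟩
  · intro φ hφ hc i
    set v : E (n + 1) := EuclideanSpace.single i 1 with hv
    have hφi : Integrable φ := hφ.continuous.integrable_of_hasCompactSupport hc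
    have hdiff : Continuous (fun x => fderiv ℝ φ x v) :=
      (hφ.continuous_fderiv (by norm_num)).clm_apply continuous_const
    have hdc : HasCompactSupport (fun x => fderiv ℝ φ x v) := hc.fderiv_apply ℝ v
    have hdi : Integrable (fun x => fderiv ℝ φ x v) := hdiff.integrable_of_hasCompactSupport hdc
    obtain ⟨M, hM⟩ := hdc.exists_bound_of_continuous hdiff
    obtain ⟨M', hM'⟩ := hc.exists_bound_of_continuous hφ.continuous
    -- radius of the support
    obtain ⟨R, hR0, hR⟩ : ∃ R : ℝ, 0 < R ∧ ∀ x : E (n + 1), R ≤ ‖x‖ → fderiv ℝ φ x v = 0 := by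
      obtain ⟨R, hR⟩ := hdc.isCompact.isBounded.subset_ball (0 : E (n + 1))
      refine ⟨max R 1, lt_of_lt_of_le one_pos (le_max_right _ _), fun x hx => ?_⟩
      by_contra hcon
      have h1 := hR (subset_tsupport _ hcon)
      rw [mem_ball, dist_zero_right] at h1
      exact absurd (lt_of_lt_of_le h1 (le_max_left R 1)) (not_lt.2 hx)
    -- layer cake
    have h1 := layer hdi (integral_fderiv_zero hφ hc v) (κ := ψ) (S := Ioc 0 R) (G R)
      (layer_int2 hdi (fun x => by rw [← Real.norm_eq_abs]; exact hM x) hm hψ)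
    have h2 : ∫ x : E (n + 1), G ‖x‖ * fderiv ℝ φ x v =
        ∫ x, (G R - ∫ s in Ioc 0 R, (ball (0 : E (n + 1)) s).indicator (fun _ => ψ s) x) *
          fderiv ℝ φ x v := by
      apply integral_congr_ae
      filter_upwards [hnt] with x hx
      have hx0 : 0 < ‖x‖ := norm_pos_iff.2 hx
      rcases lt_or_ge ‖x‖ R with h3 | h3
      · congr 1
        have e1 : (fun s : ℝ => (ball (0 : E (n + 1)) s).indicator (fun _ => ψ s) x)
            = (Ioi ‖x‖).indicator ψ := by
          ext s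
          simp only [indicator, mem_ball, dist_zero_right, mem_Ioi]
        rw [e1, setIntegral_indicator measurableSet_Ioi]
        have e2 : Ioc 0 R ∩ Ioi ‖x‖ = Ioc ‖x‖ R := by
          ext s
          simp only [mem_inter_iff, mem_Ioc, mem_Ioi]
          constructor
          · rintro ⟨⟨_, h5⟩, h6⟩; exact ⟨h6, h5⟩
          · rintro ⟨h5, h6⟩; exact ⟨⟨hx0.trans h5, h6⟩, h5⟩
        rw [e2, ← intervalIntegral.integral_of_le h3.le, ← hG.sub ‖x‖ R hx0 h3.le]
        ring
      · rw [hR x h3, mul_zero, mul_zero]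
    rw [h2, h1]
    congr 1
    -- disintegration of the right hand side
    obtain ⟨γ, hγm, hγi, -, hγ⟩ := polar_density (rad_integrable hφi i)
    have h4 := bb_ae hφ hc i hγi hγ
    have hri : Integrable (fun x => rad φ i x * ψ ‖x‖) := by
      have h5 := Integrable.bdd_mul (radial_integrable hψ) (c := M')
        (rad_integrable hφi i).1
        (Eventually.of_forall (fun x => by
          rw [Real.norm_eq_abs]
          exact rad_bound (fun x => by rw [← Real.norm_eq_abs]; exact hM' x) i x))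
      exact h5
    obtain ⟨h6, h7⟩ := hγ ψ hm hri
    have h8 : ∫ s in Ioc 0 R, ψ s * ∫ x in ball (0 : E (n + 1)) s, fderiv ℝ φ x v
        = ∫ s in Ioi (0:ℝ), γ s * ψ s := by
      have e3 : ∀ s, R < s → bb φ i s = 0 := by
        intro s hs
        have e4 := integral_fderiv_zero hφ hc v
        rw [← integral_add_compl (measurableSet_ball (x := (0 : E (n + 1))) (ε := s)) hdi] at e4
        have e5 : ∫ x in (ball (0 : E (n + 1)) s)ᶜ, fderiv ℝ φ x v = 0 := by
          apply setIntegral_eq_zero_of_forall_eq_zero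
          intro x hx
          apply hR
          simp only [mem_compl_iff, mem_ball, dist_zero_right, not_lt] at hx
          linarith only [hs, hx]
        rw [e5, add_zero] at e4
        exact e4
      calc ∫ s in Ioc 0 R, ψ s * ∫ x in ball (0 : E (n + 1)) s, fderiv ℝ φ x v
          = ∫ s in Ioc 0 R, ψ s * bb φ i s := rfl
        _ = ∫ s in Ioi (0:ℝ), ψ s * bb φ i s := by
            symm
            apply setIntegral_eq_of_subset_of_forall_sdiff_eq_zero measurableSet_Ioi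
              Ioc_subset_Ioi_self
            intro s hs
            have : R < s := by
              by_contra hcon
              exact hs.2 ⟨hs.1, not_lt.1 hcon⟩
            rw [e3 s this, mul_zero]
        _ = ∫ s in Ioi (0:ℝ), γ s * ψ s := by
            apply setIntegral_congr_ae measurableSet_Ioi
            filter_upwards [h4] with s hs hs'
            rw [hs hs', mul_comm]
    rw [h8, h7]
    refine integral_congr_ae (Eventually.of_forall (fun x => ?_))
    simp only [rad, PiLp.smul_apply, smul_eq_mul]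
    ring
  · rw [← integral_radial]
    apply integral_congr_ae
    filter_upwards [hnt] with x hx
    exact norm_rad_grad ψ hx

end

end Vale.Agent.P137
end
end

section

section

open MeasureTheory Set Metric Filter
open scoped ENNReal NNReal Topology ContDiff

namespace Vale.Agent.P137

noncomputable section

variable {n : ℕ}

/-- The lemma of du Bois-Reymond on the half line. -/
lemma dubois {u : ℝ → ℝ} (hu : LocallyIntegrableOn u (Ioi 0))
    (h : ∀ ζ : ℝ → ℝ, ContDiff ℝ ∞ ζ → HasCompactSupport ζ → tsupport ζ ⊆ Ioi 0 →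
      ∫ t, u t * deriv ζ t = 0) : ∃ c, ∀ᵐ t : ℝ, t ∈ Ioi (0:ℝ) → u t = c := by
  -- bump function
  let B : ContDiffBump (1:ℝ) := ⟨1/4, 1/2, by norm_num, by norm_num⟩
  set χ₀ : ℝ → ℝ := B.normed volume with hχ₀
  have hB1 : ContDiff ℝ ∞ χ₀ := B.contDiff_normed
  have hB2 : HasCompactSupport χ₀ := B.hasCompactSupport_normed
  have hB3 : tsupport χ₀ ⊆ Ioi 0 := by
    rw [hχ₀, B.tsupport_normed_eq]
    intro t ht
    rw [mem_closedBall, Real.dist_eq] at ht
    have := (abs_le.1 ht).1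
    have e : B.rOut = 1/2 := rfl
    rw [e] at this
    simp only [mem_Ioi]
    linarith only [this]
  have hB4 : ∫ t, χ₀ t = 1 := B.integral_normed
  have hint : ∀ χ : ℝ → ℝ, ContDiff ℝ ∞ χ → HasCompactSupport χ → tsupport χ ⊆ Ioi 0 →
      Integrable (fun t => u t * χ t) := by
    intro χ hχ hχc hχs
    have h1 := (locallyIntegrableOn_iff isOpen_Ioi.isLocallyClosed).1 hu _ hχs hχc.isCompact
    have h2 : IntegrableOn (fun t => u t * χ t) (tsupport χ) :=
      h1.mul_continuousOn hχ.continuous.continuousOn hχc.isCompact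
    rw [← integrableOn_iff_integrable_of_support_subset (s := tsupport χ)]
    · exact h2
    · intro t ht
      apply subset_tsupport
      intro hcon
      apply ht
      simp only [hcon, mul_zero]
  refine ⟨∫ t, u t * χ₀ t, ?_⟩
  set c := ∫ t, u t * χ₀ t with hc
  have hloc : LocallyIntegrableOn (fun t => u t - c) (Ioi 0) :=
    hu.sub ((locallyIntegrable_const c).locallyIntegrableOn _)
  have key := IsOpen.ae_eq_zero_of_integral_contDiff_smul_eq_zero isOpen_Ioi hloc
    (fun χ hχ hχc hχs => ?_)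
  · filter_upwards [key] with t ht ht'
    have := ht ht'
    linarith only [this]
  · set I := ∫ t, χ t with hI
    set κ : ℝ → ℝ := fun t => χ t - I * χ₀ t with hκ
    have hκd : ContDiff ℝ ∞ κ := hχ.sub (contDiff_const.mul hB1)
    have hχi : Integrable χ := hχ.continuous.integrable_of_hasCompactSupport hχc
    have hχ₀i : Integrable χ₀ := hB1.continuous.integrable_of_hasCompactSupport hB2
    have hκc : HasCompactSupport κ := hχc.sub (hB2.mul_left)
    have hκs : tsupport κ ⊆ Ioi 0 := by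
      have h1 : tsupport κ ⊆ tsupport χ ∪ tsupport χ₀ := by
        apply closure_minimal _ ((isClosed_tsupport _).union (isClosed_tsupport _))
        intro t ht
        by_contra hcon
        simp only [mem_union, not_or] at hcon
        apply ht
        simp only [hκ]
        rw [image_eq_zero_of_notMem_tsupport hcon.1, image_eq_zero_of_notMem_tsupport hcon.2]
        ring
      exact h1.trans (union_subset hχs hB3)
    have hκi : Integrable κ := hκd.continuous.integrable_of_hasCompactSupport hκc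
    have hκ0 : ∫ t, κ t = 0 := by
      simp only [hκ]
      rw [integral_sub hχi (hχ₀i.const_mul _), integral_const_mul, hB4]
      ring
    obtain ⟨a, ha, ha0⟩ := exists_lower_support hκc hκs
    obtain ⟨hζd, hζd'⟩ := contDiff_primitive hκd
    set ζ : ℝ → ℝ := fun t => ∫ s in (0:ℝ)..t, κ s with hζ
    obtain ⟨b, hb⟩ : ∃ b : ℝ, ∀ t, b ≤ t → κ t = 0 := by
      obtain ⟨b, hb⟩ := hκc.isCompact.bddAbove
      refine ⟨b + 1, fun t ht => ?_⟩
      by_contra hcon
      have := hb (subset_tsupport _ hcon)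
      linarith only [ht, this]
    have hζ0 : ∀ t, t ≤ a → ζ t = 0 := by
      intro t ht
      simp only [hζ]
      have : ∀ s ∈ uIcc 0 t, κ s = 0 := by
        intro s hs
        apply ha0
        rw [mem_uIcc] at hs
        rcases hs with h | h <;> linarith [h.1, h.2]
      rw [intervalIntegral.integral_congr this]
      simp
    have hζ1 : ∀ t, max b 0 ≤ t → ζ t = 0 := by
      intro t ht
      have ht0 : 0 ≤ t := (le_max_right _ _).trans ht
      have htb : b ≤ t := (le_max_left _ _).trans ht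
      simp only [hζ]
      rw [intervalIntegral.integral_of_le ht0]
      refine (setIntegral_eq_integral_of_forall_compl_eq_zero (fun s hs => ?_)).trans hκ0
      rcases le_or_gt s 0 with h1 | h1
      · exact ha0 s (by linarith)
      · have : t < s := by
          by_contra hcon
          exact hs ⟨h1, not_lt.1 hcon⟩
        exact hb s (by linarith)
    have hζsub : Function.support ζ ⊆ Icc a (max b 0) := by
      intro t ht
      constructor
      · by_contra hcon
        exact ht (hζ0 t (not_le.1 hcon).le)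
      · by_contra hcon
        exact ht (hζ1 t (not_le.1 hcon).le)
    have hζt : tsupport ζ ⊆ Icc a (max b 0) := closure_minimal hζsub isClosed_Icc
    have hζc : HasCompactSupport ζ := isCompact_Icc.of_isClosed_subset (isClosed_tsupport _) hζt
    have hζs : tsupport ζ ⊆ Ioi 0 := hζt.trans (fun t ht => lt_of_lt_of_le ha ht.1)
    have h1 := h ζ hζd hζc hζs
    simp only [hζd'] at h1
    have h2 : (fun t => u t * κ t) = fun t => u t * χ t - I * (u t * χ₀ t) := by
      ext t; simp only [hκ]; ring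
    rw [h2, integral_sub (hint χ hχ hχc hχs) ((hint χ₀ hB1 hB2 hB3).const_mul _),
      integral_const_mul, ← hc] at h1
    have h3 : (fun t => χ t • (u t - c)) = fun t => u t * χ t - c * χ t := by
      ext t; rw [smul_eq_mul]; ring
    rw [h3, integral_sub (hint χ hχ hχc hχs) (hχi.const_mul _), integral_const_mul, ← hI]
    linarith

/-- Radial component of a vector field. -/
def radComp (g : E (n + 1) → E (n + 1)) (x : E (n + 1)) : ℝ := inner ℝ x (g x) / ‖x‖

lemma radComp_le (g : E (n + 1) → E (n + 1)) (x : E (n + 1)) : |radComp g x| ≤ ‖g x‖ := by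
  unfold radComp
  rw [abs_div, abs_norm]
  by_cases hx : x = 0
  · rw [hx]; simp only [inner_zero_left, abs_zero, norm_zero, div_zero, norm_nonneg]
  · have hx0 : 0 < ‖x‖ := norm_pos_iff.2 hx
    rw [div_le_iff₀ hx0, mul_comm]
    exact abs_real_inner_le_norm _ _

lemma radComp_integrable {g : E (n + 1) → E (n + 1)} (hg : Integrable g) :
    Integrable (radComp g) := by
  refine Integrable.mono' hg.norm ?_ (Eventually.of_forall (fun x => by
    rw [Real.norm_eq_abs]; exact radComp_le g x))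
  unfold radComp
  have h1 : AEStronglyMeasurable (fun x : E (n + 1) => inner ℝ x (g x)) :=
    aestronglyMeasurable_id.inner hg.1
  have h2 : Measurable (fun x : E (n + 1) => ‖x‖⁻¹) := measurable_norm.inv
  have h3 := h1.mul h2.aestronglyMeasurable
  exact h3

lemma inner_eq_sum (x y : E (n + 1)) : inner ℝ x y = ∑ i, x i * y i := by
  rw [PiLp.inner_apply]
  refine Finset.sum_congr rfl (fun i _ => ?_)
  simp [mul_comm]

/-- Testing the weak gradient against radial vector fields. -/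
lemma weak_radial {f : E (n + 1) → ℝ} {g : E (n + 1) → E (n + 1)} (hf : Integrable f)
    (hg : Integrable g) (hw : IsWeakGradient f g) {m : ℝ → ℝ} (hm : ContDiff ℝ ∞ m)
    (hmc : HasCompactSupport m) {a : ℝ} (ha : 0 < a) (h0 : ∀ t, t ≤ a → m t = 0) :
    ∫ x, f x * (deriv m ‖x‖ * ‖x‖ + (n + 1 : ℝ) * m ‖x‖)
      = - ∫ x, radComp g x * (‖x‖ * m ‖x‖) := by
  have hZ : ContDiff ℝ ∞ (fun x : E (n + 1) => m ‖x‖) := contDiff_radial hm ha h0
  -- compact support of the radial function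
  have hZc : HasCompactSupport (fun x : E (n + 1) => m ‖x‖) := by
    obtain ⟨R, hR⟩ := hmc.isCompact.bddAbove
    apply HasCompactSupport.intro (isCompact_closedBall (0 : E (n + 1)) R)
    intro x hx
    by_contra hcon
    apply hx
    rw [mem_closedBall, dist_zero_right]
    exact hR (subset_tsupport _ hcon)
  have hcoord : ∀ i : Fin (n + 1), ContDiff ℝ ∞ (fun x : E (n + 1) => x i) := by
    intro i; fun_prop
  have hnt : ∀ᵐ x : E (n + 1), x ≠ 0 := by simp [ae_iff, measure_singleton]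
  have hφ : ∀ i : Fin (n + 1), ContDiff ℝ ∞ (fun x : E (n + 1) => m ‖x‖ * x i) :=
    fun i => hZ.mul (hcoord i)
  have hφc : ∀ i : Fin (n + 1), HasCompactSupport (fun x : E (n + 1) => m ‖x‖ * x i) :=
    fun i => hZc.mul_right
  have hder : ∀ i : Fin (n + 1), ∀ x : E (n + 1), x ≠ 0 →
      fderiv ℝ (fun x : E (n + 1) => m ‖x‖ * x i) x (EuclideanSpace.single i 1)
        = deriv m ‖x‖ * (x i * x i / ‖x‖) + m ‖x‖ := by
    intro i x hx
    have e1 : DifferentiableAt ℝ (fun x : E (n + 1) => m ‖x‖) x :=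
      hZ.differentiable (by norm_num) x
    have e2 : DifferentiableAt ℝ (fun x : E (n + 1) => x i) x :=
      (hcoord i).differentiable (by norm_num) x
    rw [fderiv_fun_mul e1 e2]
    have e3 : fderiv ℝ (fun x : E (n + 1) => x i) x (EuclideanSpace.single i 1) = 1 := by
      have : fderiv ℝ (fun x : E (n + 1) => x i) x = EuclideanSpace.proj i := by
        exact (EuclideanSpace.proj (𝕜 := ℝ) i).hasFDerivAt.fderiv
      rw [this]
      simp
    have e4 := fderiv_radial hm hx (EuclideanSpace.single i 1)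
    have e5 : inner ℝ x (EuclideanSpace.single i 1) = x i := by
      rw [EuclideanSpace.inner_single_right]
      simp
    rw [e5] at e4
    simp only [_root_.add_apply, _root_.smul_apply, smul_eq_mul, e3, e4]
    ring
  have hi1 : ∀ i : Fin (n + 1), Integrable (fun x => f x *
      fderiv ℝ (fun x : E (n + 1) => m ‖x‖ * x i) x (EuclideanSpace.single i 1)) := by
    intro i
    have hc : Continuous (fun x => fderiv ℝ (fun x : E (n + 1) => m ‖x‖ * x i) x
        (EuclideanSpace.single i 1)) :=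
      ((hφ i).continuous_fderiv (by norm_num)).clm_apply continuous_const
    obtain ⟨C, hC⟩ := ((hφc i).fderiv_apply ℝ
      (EuclideanSpace.single i 1)).exists_bound_of_continuous hc
    have := Integrable.bdd_mul hf hc.aestronglyMeasurable (Eventually.of_forall hC)
    refine this.congr (Eventually.of_forall (fun x => ?_))
    simp only; ring
  have hi2 : ∀ i : Fin (n + 1), Integrable (fun x => g x i * (m ‖x‖ * x i)) := by
    intro i
    obtain ⟨C, hC⟩ := (hφc i).exists_bound_of_continuous (hφ i).continuous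
    have hgi : Integrable (fun x => g x i) := by
      exact (EuclideanSpace.proj (𝕜 := ℝ) i).integrable_comp hg
    have := Integrable.bdd_mul hgi (hφ i).continuous.aestronglyMeasurable
      (Eventually.of_forall hC)
    refine this.congr (Eventually.of_forall (fun x => ?_))
    simp only; ring
  have hsum : ∑ i, ∫ x, f x *
      fderiv ℝ (fun x : E (n + 1) => m ‖x‖ * x i) x (EuclideanSpace.single i 1)
      = ∑ i, - ∫ x, g x i * (m ‖x‖ * x i) :=
    Finset.sum_congr rfl (fun i _ => hw.2.2 _ (hφ i) (hφc i) i)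
  rw [← integral_finsetSum _ (fun i _ => hi1 i), Finset.sum_neg_distrib,
    ← integral_finsetSum _ (fun i _ => hi2 i)] at hsum
  have hl : ∫ x, f x * (deriv m ‖x‖ * ‖x‖ + (n + 1 : ℝ) * m ‖x‖) = ∫ x, ∑ i, f x *
      fderiv ℝ (fun x : E (n + 1) => m ‖x‖ * x i) x (EuclideanSpace.single i 1) := by
    apply integral_congr_ae
    filter_upwards [hnt] with x hx
    rw [← Finset.mul_sum]
    congr 1
    simp only [hder _ x hx]
    rw [Finset.sum_add_distrib, ← Finset.mul_sum, ← Finset.sum_div, ← inner_eq_sum,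
      real_inner_self_eq_norm_sq]
    have hx' : ‖x‖ ≠ 0 := norm_ne_zero_iff.2 hx
    simp only [Finset.sum_const, Finset.card_univ, Fintype.card_fin, nsmul_eq_mul, Nat.cast_add,
      Nat.cast_one]
    (clear * -; field_simp)
  have hr : ∫ x, radComp g x * (‖x‖ * m ‖x‖) = ∫ x, ∑ i, g x i * (m ‖x‖ * x i) := by
    apply integral_congr_ae
    filter_upwards [hnt] with x hx
    have hx' : ‖x‖ ≠ 0 := norm_ne_zero_iff.2 hx
    have e6 : ∑ i, g x i * (m ‖x‖ * x i) = m ‖x‖ * inner ℝ x (g x) := by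
      rw [inner_eq_sum, Finset.mul_sum]
      refine Finset.sum_congr rfl (fun i _ => by ring)
    rw [e6]
    unfold radComp
    (clear * - hx'; field_simp)
  rw [hl, hr]
  exact hsum

end

end Vale.Agent.P137
end
end

section

section

open MeasureTheory Set Metric Filter
open scoped ENNReal NNReal Topology ContDiff

namespace Vale.Agent.P137

noncomputable section

variable {n : ℕ}

lemma support_bounds {ζ : ℝ → ℝ} (hc : HasCompactSupport ζ) (hs : tsupport ζ ⊆ Ioi 0) :
    ∃ a b : ℝ, 0 < a ∧ a ≤ b ∧ (∀ t, t ≤ a → ζ t = 0 ∧ deriv ζ t = 0) ∧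
      (∀ t, b ≤ t → ζ t = 0 ∧ deriv ζ t = 0) := by
  obtain ⟨a, ha, ha0⟩ := exists_lower_support hc hs
  obtain ⟨b, hb⟩ := hc.isCompact.bddAbove
  have hb' : ∀ t, b < t → ζ t = 0 := by
    intro t ht
    by_contra hcon
    have := hb (subset_tsupport _ hcon)
    linarith
  refine ⟨a / 2, max (b + 1) (a / 2), half_pos ha, le_max_right _ _, fun t ht => ⟨ha0 t (by linarith only [ha, ht]),
    ?_⟩, fun t ht => ?_⟩
  · have : ζ =ᶠ[𝓝 t] fun _ => 0 := by
      filter_upwards [Iio_mem_nhds (by linarith : t < a)] with s hs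
      exact ha0 s (le_of_lt hs)
    rw [this.deriv_eq]; simp
  · have h1 : b < t := by have := (le_max_left (b + 1) (a / 2)).trans ht; linarith only [this]
    refine ⟨hb' t h1, ?_⟩
    have : ζ =ᶠ[𝓝 t] fun _ => 0 := by
      filter_upwards [Ioi_mem_nhds h1] with s hs
      exact hb' s hs
    rw [this.deriv_eq]; simp

lemma integral_eq_interval {w : ℝ → ℝ} {a b : ℝ} (hab : a ≤ b) (h1 : ∀ t, t ≤ a → w t = 0)
    (h2 : ∀ t, b ≤ t → w t = 0) : ∫ t, w t = ∫ t in a..b, w t := by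
  rw [intervalIntegral.integral_of_le hab]
  symm
  apply setIntegral_eq_integral_of_forall_compl_eq_zero
  intro t ht
  rcases le_or_gt t a with h | h
  · exact h1 t h
  · apply h2
    by_contra hcon
    exact ht ⟨h, (not_le.1 hcon).le⟩

lemma integral_eq_Ioi {w : ℝ → ℝ} (h1 : ∀ t, t ≤ 0 → w t = 0) :
    ∫ t, w t = ∫ t in Ioi (0:ℝ), w t := by
  symm
  apply setIntegral_eq_integral_of_forall_compl_eq_zero
  intro t ht
  exact h1 t (not_lt.1 ht)

lemma profile_ibp {Θ φ : ℝ → ℝ} (hΘ : IsProfile Θ φ) {ζ : ℝ → ℝ} (hζ : ContDiff ℝ ∞ ζ)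
    (hc : HasCompactSupport ζ) (hs : tsupport ζ ⊆ Ioi 0) :
    ∫ t, Θ t * deriv ζ t = - ∫ t, φ t * ζ t := by
  obtain ⟨a, b, ha, hab, h1, h2⟩ := support_bounds hc hs
  rw [integral_eq_interval hab (fun t ht => by rw [(h1 t ht).2, mul_zero])
    (fun t ht => by rw [(h2 t ht).2, mul_zero]),
    integral_eq_interval hab (fun t ht => by rw [(h1 t ht).1, mul_zero])
    (fun t ht => by rw [(h2 t ht).1, mul_zero])]
  have hζac : AbsolutelyContinuousOnInterval ζ a b :=
    (hζ.of_le (by norm_num)).contDiffOn.absolutelyContinuousOnInterval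
  rw [(hΘ.ac ha hab).integral_mul_deriv_eq_deriv_mul hζac, (h1 a le_rfl).1, (h2 b le_rfl).1,
    mul_zero, mul_zero, sub_zero, zero_sub]
  congr 1
  apply intervalIntegral.integral_congr_ae
  have hne : ∀ᵐ x : ℝ, x ≠ b := by simp [ae_iff, measure_singleton]
  filter_upwards [hΘ.ae_hasDerivAt ha hab, hne] with t ht htb ht'
  rw [uIoc_of_le hab] at ht'
  rw [(ht ⟨ht'.1, lt_of_le_of_ne ht'.2 htb⟩).deriv]

/-- Radial Sobolev functions have absolutely continuous profiles. -/
theorem radial_profile {f : E (n + 1) → ℝ} {g : E (n + 1) → E (n + 1)}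
    (hf : Integrable f) (hg : Integrable g) (hw : IsWeakGradient f g) {F0 : ℝ → ℝ}
    (hrad : ∀ᵐ x, f x = F0 ‖x‖) :
    ∃ F φ : ℝ → ℝ, Measurable φ ∧
      IntegrableOn (fun t => t ^ n * φ t) (Ioi 0) ∧ IsProfile F φ ∧
      (∀ᵐ x, f x = F ‖x‖) ∧
      ((n + 1 : ℕ) : ℝ) * om (n + 1) * (∫ t in Ioi (0:ℝ), t ^ n * |φ t|) ≤ ∫ x, ‖g x‖ := by
  set N : ℝ := ((n + 1 : ℕ) : ℝ) * om (n + 1) with hN
  have hN0 : 0 < N := mul_pos (by positivity) (om_pos _)
  obtain ⟨γ, hγm, hγi, hγ1, hγ⟩ := polar_density (radComp_integrable hg)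
  set φ : ℝ → ℝ := fun t => γ t * (N * t ^ n)⁻¹ with hφ
  have hφm : Measurable φ := by
    have : Measurable (fun t : ℝ => (N * t ^ n)⁻¹) := by fun_prop
    exact hγm.mul this
  have hφ1 : ∀ t ∈ Ioi (0:ℝ), t ^ n * φ t = N⁻¹ * γ t := by
    intro t ht
    have ht0 : (0:ℝ) < t := ht
    simp only [hφ]
    (clear * - ht0 hN0; field_simp)
  have hφi : IntegrableOn (fun t => t ^ n * φ t) (Ioi 0) := by
    refine (hγi.const_mul N⁻¹).congr ?_
    filter_upwards [ae_restrict_mem measurableSet_Ioi] with t ht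
    exact (hφ1 t ht).symm
  have hφIcc : ∀ a b : ℝ, 0 < a → IntegrableOn φ (Icc a b) := by
    intro a b ha
    have h1 : IntegrableOn γ (Icc a b) := hγi.mono_set (fun t ht => lt_of_lt_of_le ha ht.1)
    apply h1.mul_continuousOn _ isCompact_Icc
    apply ContinuousOn.inv₀ (by fun_prop)
    intro t ht
    have : 0 < t := lt_of_lt_of_le ha ht.1
    (clear * - hN0 this; positivity)
  have hφii : ∀ a b : ℝ, 0 < a → a ≤ b → IntervalIntegrable φ volume a b := by
    intro a b ha hab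
    rw [intervalIntegrable_iff_integrableOn_Icc_of_le hab]
    exact hφIcc a b ha
  have hφi1 : ∀ t : ℝ, 0 < t → IntervalIntegrable φ volume 1 t := by
    intro t ht
    rcases le_total 1 t with h | h
    · exact hφii 1 t one_pos h
    · exact (hφii t 1 ht h).symm
  set Θ : ℝ → ℝ := fun t => ∫ s in (1:ℝ)..t, φ s with hΘ
  have hΘp : IsProfile Θ φ := by
    refine ⟨hφii, fun a b ha hab => ?_⟩
    simp only [hΘ]
    exact intervalIntegral.integral_interval_sub_left (hφi1 b (ha.trans_le hab)) (hφi1 a ha)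
  -- integrability of the profile
  have hF0i : IntegrableOn (fun t => t ^ n * F0 t) (Ioi 0) := by
    have h1 : Integrable (fun x : E (n + 1) => F0 ‖x‖) := hf.congr hrad
    rw [integrable_fun_norm_addHaar, finrank_E] at h1
    simpa only [add_tsub_cancel_right, smul_eq_mul] using h1
  have hF0loc : LocallyIntegrableOn F0 (Ioi 0) := by
    rw [locallyIntegrableOn_iff isOpen_Ioi.isLocallyClosed]
    intro k hk hkc
    have h1 : IntegrableOn (fun t => (t ^ n)⁻¹ * (t ^ n * F0 t)) k := by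
      apply IntegrableOn.continuousOn_mul _ (hF0i.mono_set hk) hkc
      apply ContinuousOn.inv₀ (by fun_prop)
      intro t ht
      have : (0:ℝ) < t := hk ht
      (clear * - this; positivity)
    refine h1.congr_fun (fun t ht => ?_) hkc.measurableSet
    have : (0:ℝ) < t := hk ht
    simp only
    (clear * - this; field_simp)
  have hΘloc : LocallyIntegrableOn Θ (Ioi 0) :=
    hΘp.contOn.locallyIntegrableOn measurableSet_Ioi
  -- the distributional derivative
  have key : ∀ ζ : ℝ → ℝ, ContDiff ℝ ∞ ζ → HasCompactSupport ζ → tsupport ζ ⊆ Ioi 0 →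
      ∫ t, (F0 t - Θ t) * deriv ζ t = 0 := by
    intro ζ hζ hζc hζs
    obtain ⟨a, b, ha, hab, h1, h2⟩ := support_bounds hζc hζs
    set m : ℝ → ℝ := fun t => ζ t * (t ^ (n + 1))⁻¹ with hm
    have hm0 : ∀ t, t ≤ a → m t = 0 := by
      intro t ht; simp only [hm, (h1 t ht).1, zero_mul]
    have hmd : ContDiff ℝ ∞ m := by
      rw [contDiff_iff_contDiffAt]
      intro t
      rcases lt_or_ge t a with ht | ht
      · have : m =ᶠ[𝓝 t] fun _ => 0 := by
          filter_upwards [Iio_mem_nhds ht] with s hs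
          exact hm0 s (le_of_lt hs)
        exact contDiffAt_const.congr_of_eventuallyEq this
      · have ht0 : 0 < t := lt_of_lt_of_le ha ht
        apply hζ.contDiffAt.mul
        apply ContDiffAt.inv (by fun_prop)
        (clear * - ht0; positivity)
    have hmc : HasCompactSupport m := hζc.mul_right
    have hmder : ∀ t ∈ Ioi (0:ℝ), t ^ n * (deriv m t * t + (n + 1 : ℝ) * m t) = deriv ζ t := by
      intro t ht
      have ht0 : (0:ℝ) < t := ht
      have e1 : HasDerivAt (fun s : ℝ => s ^ (n + 1) * m s)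
          (((n + 1 : ℕ) : ℝ) * t ^ n * m t + t ^ (n + 1) * deriv m t) t := by
        have e2 := (hasDerivAt_pow (n + 1) t).fun_mul
          ((hmd.differentiable (by norm_num)) t).hasDerivAt
        simpa only [Nat.cast_add, Nat.cast_one, add_tsub_cancel_right] using e2
      have e3 : ζ =ᶠ[𝓝 t] fun s : ℝ => s ^ (n + 1) * m s := by
        filter_upwards [Ioi_mem_nhds ht0] with s hs
        have hs0 : (0:ℝ) < s := hs
        simp only [hm]
        (clear * - hs0; field_simp)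
      rw [e3.deriv_eq, e1.deriv]
      push_cast
      ring
    have hwr := weak_radial hf hg hw hmd hmc ha hm0
    have hl : ∫ x, f x * (deriv m ‖x‖ * ‖x‖ + (n + 1 : ℝ) * m ‖x‖)
        = N * ∫ t, F0 t * deriv ζ t := by
      have e4 : ∫ x, f x * (deriv m ‖x‖ * ‖x‖ + (n + 1 : ℝ) * m ‖x‖)
          = ∫ x : E (n + 1), (fun t => F0 t * (deriv m t * t + (n + 1 : ℝ) * m t)) ‖x‖ := by
        apply integral_congr_ae
        filter_upwards [hrad] with x hx
        rw [hx]
      rw [e4, integral_radial (n := n) (fun t => F0 t * (deriv m t * t + (n + 1 : ℝ) * m t)),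
        integral_eq_Ioi (w := fun t => F0 t * deriv ζ t) (fun t ht => by
        rw [(h1 t (by linarith only [ha, ht])).2, mul_zero])]
      congr 1
      apply setIntegral_congr_fun measurableSet_Ioi
      intro t ht
      simp only
      rw [← hmder t ht]
      ring
    have hr : ∫ x, radComp g x * (‖x‖ * m ‖x‖) = N * ∫ t, φ t * ζ t := by
      have hηm : Measurable (fun t : ℝ => t * m t) := measurable_id.mul hmd.continuous.measurable
      have hηc : Continuous (fun t : ℝ => t * m t) := continuous_id.mul hmd.continuous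
      obtain ⟨C, hC⟩ := (hmc.mul_left (f := fun t : ℝ => t)).exists_bound_of_continuous hηc
      have hint : Integrable (fun x => radComp g x * (fun t : ℝ => t * m t) ‖x‖) := by
        have := Integrable.bdd_mul (radComp_integrable hg) (c := C)
          (hηc.comp continuous_norm).aestronglyMeasurable
          (Eventually.of_forall (fun x => hC ‖x‖))
        refine this.congr (Eventually.of_forall (fun x => ?_))
        simp only [Function.comp]; ring
      have e5 := (hγ (fun t : ℝ => t * m t) hηm hint).2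
      rw [← e5, integral_eq_Ioi (w := fun t => φ t * ζ t) (fun t ht => by
        rw [(h1 t (by linarith only [ha, ht])).1, mul_zero]), ← integral_const_mul]
      apply setIntegral_congr_fun measurableSet_Ioi
      intro t ht
      have ht0 : (0:ℝ) < t := ht
      simp only [hφ, hm]
      field_simp
      ring
    rw [hl, hr] at hwr
    have e6 : ∫ t, F0 t * deriv ζ t = - ∫ t, φ t * ζ t := by
      have : N * (∫ t, F0 t * deriv ζ t) = N * (- ∫ t, φ t * ζ t) := by rw [hwr]; ring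
      exact mul_left_cancel₀ hN0.ne' this
    have e7 := profile_ibp hΘp hζ hζc hζs
    have hdc : HasCompactSupport (deriv ζ) := hζc.deriv
    have hdcont : Continuous (deriv ζ) := hζ.continuous_deriv (by norm_num)
    have hds : tsupport (deriv ζ) ⊆ Ioi 0 := (tsupport_deriv_subset).trans hζs
    have hii : ∀ w : ℝ → ℝ, LocallyIntegrableOn w (Ioi 0) →
        Integrable (fun t => w t * deriv ζ t) := by
      intro w hw
      have h3 := (locallyIntegrableOn_iff isOpen_Ioi.isLocallyClosed).1 hw _ hds hdc.isCompact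
      have h4 : IntegrableOn (fun t => w t * deriv ζ t) (tsupport (deriv ζ)) :=
        h3.mul_continuousOn hdcont.continuousOn hdc.isCompact
      rw [← integrableOn_iff_integrable_of_support_subset (s := tsupport (deriv ζ))]
      · exact h4
      · intro t ht
        apply subset_tsupport
        intro hcon
        apply ht
        simp only [hcon, mul_zero]
    have e8 : (fun t => (F0 t - Θ t) * deriv ζ t) = fun t => F0 t * deriv ζ t - Θ t * deriv ζ t := by
      ext t; ring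
    rw [e8, integral_sub (hii F0 hF0loc) (hii Θ hΘloc), e6, e7, sub_self]
  obtain ⟨c, hc⟩ := dubois (hF0loc.sub hΘloc) key
  refine ⟨fun t => c + Θ t, φ, hφm, hφi, ?_, ?_, ?_⟩
  · refine ⟨hφii, fun a b ha hab => ?_⟩
    rw [← hΘp.sub a b ha hab]
    ring
  · have h3 : ∀ᵐ x : E (n + 1), F0 ‖x‖ = c + Θ ‖x‖ := by
      apply ae_norm (p := fun t => F0 t = c + Θ t)
      filter_upwards [hc] with t ht ht'
      have := ht ht'
      simp only [Pi.sub_apply] at this
      linarith only [this]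
    filter_upwards [hrad, h3] with x hx hx'
    rw [hx, hx']
  · have h4 : N * (∫ t in Ioi (0:ℝ), t ^ n * |φ t|) = ∫ t in Ioi (0:ℝ), |γ t| := by
      rw [← integral_const_mul]
      apply setIntegral_congr_fun measurableSet_Ioi
      intro t ht
      have ht0 : (0:ℝ) < t := ht
      have e9 := hφ1 t ht
      have e10 : t ^ n * |φ t| = |t ^ n * φ t| := by
        rw [abs_mul (t ^ n) (φ t), abs_of_pos (by (clear * - ht0; positivity) : (0:ℝ) < t ^ n)]
      simp only
      rw [e10, e9, abs_mul, abs_of_pos (inv_pos.2 hN0)]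
      (clear * - hN0; field_simp)
    rw [h4]
    refine hγ1.trans ?_
    exact integral_mono (radComp_integrable hg).abs hg.norm (fun x => radComp_le g x)

end

end Vale.Agent.P137
end
end

section

section

/-!
# Track U (uncentered maximal function, all of `W^{1,1}`): definitions

Lattice cubes, cells, blocks, the refinement defect and the error functional, averages over
balls, truncated uncentered maximal functions with a variable lower bound on the radius.
-/

open MeasureTheory Set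
open scoped ENNReal NNReal

namespace Vale.Agent.P137.U

open Vale.Agent.P137

variable {d : ℕ}

/-- The integer lattice. -/
abbrev Lat (d : ℕ) := Fin d → ℤ

/-- The point of `ℝ^d` with given integer coordinates. -/
noncomputable def pt (a : Lat d) : E d := WithLp.toLp 2 (fun i => (a i : ℝ))

/-- The half-open cube with corner `a` and side `2^k`. -/
def cube (k : ℕ) (a : Lat d) : Set (E d) := {x | ∀ i, (a i : ℝ) ≤ x i ∧ x i < a i + 2 ^ k}

/-- The offsets `{0,1}^d`. -/
def offs (d : ℕ) : Finset (Lat d) := Fintype.piFinset fun _ => {0, 1}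

/-- `vv v0 k a`: the sum of the lattice field `v0` over the `2^(kd)` unit cubes of `cube k a`. -/
noncomputable def vv (v0 : Lat d → E d) : ℕ → Lat d → E d
  | 0, a => v0 a
  | k + 1, a => ∑ b ∈ offs d, vv v0 k (a + (2 : ℤ) ^ k • b)

/-- Refinement defect of the cube `cube (k+1) a`. -/
noncomputable def dl (v0 : Lat d → E d) (k : ℕ) (a : Lat d) : ℝ :=
  (∑ b ∈ offs d, ‖vv v0 k (a + (2 : ℤ) ^ k • b)‖) - ‖vv v0 (k + 1) a‖

/-- Error functional of the cube `cube k a`: the refinement defects of all dyadic sub-cubes, with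
a factor `2^(-1/2)` per generation, plus the mass `m0` at the bottom. -/
noncomputable def ee (v0 : Lat d → E d) (m0 : Lat d → ℝ) : ℕ → Lat d → ℝ
  | 0, a => m0 a
  | k + 1, a => dl v0 k a + (√2)⁻¹ * ∑ b ∈ offs d, ee v0 m0 k (a + (2 : ℤ) ^ k • b)

/-- The corner of the cell with index `n` at level `k`; the cell is `cube k (co k n)`. -/
def co (k : ℕ) (n : Lat d) : Lat d := fun i => 2 ^ k * n i

/-- The corner of the block of the cell `(k, n)`; the block is `cube (k + 6) (bc k n)`. -/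
def bc (k : ℕ) (n : Lat d) : Lat d := fun i => 2 ^ k * n i - 2 ^ (k + 5)

/-- Vector of the block of the cell `(k, n)`. -/
noncomputable def vJ (v0 : Lat d → E d) (k : ℕ) (n : Lat d) : E d := vv v0 (k + 6) (bc k n)

/-- Error functional of the block of the cell `(k, n)`. -/
noncomputable def eJ (v0 : Lat d → E d) (m0 : Lat d → ℝ) (k : ℕ) (n : Lat d) : ℝ :=
  ee v0 m0 (k + 6) (bc k n)

/-- Index of the ancestor `j` levels above. -/
def anc (j : ℕ) (n : Lat d) : Lat d := fun i => n i / 2 ^ j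

/-- A stopping tree with top cell `(kT, nT)` and direction `e`: a finite family `W` of cells
below the top, closed under parents, on whose blocks the field is nearly parallel to `e`. -/
structure IsTree (v0 : Lat d → E d) (kT : ℕ) (nT : Lat d) (e : E d)
    (W : Finset (ℕ × Lat d)) : Prop where
  norm_e : ‖e‖ = 1
  top_mem : (kT, nT) ∈ W
  le_top : ∀ Q ∈ W, Q.1 ≤ kT
  anc_top : ∀ Q ∈ W, anc (kT - Q.1) Q.2 = nT
  parent : ∀ Q ∈ W, Q.1 < kT → (Q.1 + 1, anc 1 Q.2) ∈ W
  cone : ∀ Q ∈ W, 15 / 16 * ‖vJ v0 Q.1 Q.2‖ ≤ inner ℝ e (vJ v0 Q.1 Q.2)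

/-- The aperture `κ`. -/
noncomputable def kap (d : ℕ) : ℝ := 1 / (101 * √d + 2)

/-- The average of `f` over the closed ball of centre `y` and radius `r`. -/
noncomputable def avg (f : E d → ℝ) (y : E d) (r : ℝ) : ℝ :=
  ⨍ w in Metric.closedBall (0 : E d) 1, f (y + r • w)

/-- Truncated uncentered maximal function: supremum over closed balls containing `x`, with
centre `y` and radius `r` satisfying `D y ≤ r ≤ R`. -/
noncomputable def uu (f : E d → ℝ) (D : E d → ℝ) (R : ℝ) (x : E d) : ℝ :=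
  sSup {t | ∃ y r, D y ≤ r ∧ r ≤ R ∧ dist x y ≤ r ∧ avg f y r = t}

/-- Distance-like function of a finite nonempty family of cells. -/
noncomputable def dW (W : Finset (ℕ × Lat d)) (y : E d) : ℝ :=
  ⨅ Q : W, ((2 : ℝ) ^ Q.1.1 + ‖y - pt (co Q.1.1 Q.1.2)‖)

/-- Lower bound on the radius used for the tree `W` with top level `kT`. -/
noncomputable def DW (W : Finset (ℕ × Lat d)) (kT : ℕ) (y : E d) : ℝ :=
  max 1 (min (kap d * dW W y) (2 ^ kT))

/-- The maximal function of the tree. -/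
noncomputable def uT (f : E d → ℝ) (W : Finset (ℕ × Lat d)) (kT : ℕ) : E d → ℝ :=
  uu f (DW W kT) (2 * 2 ^ kT)

/-- Integral of `g` over the unit cubes. -/
noncomputable def v0f (g : E d → E d) (a : Lat d) : E d := ∫ x in cube 0 a, g x

/-- Mass of `g` on the unit cubes. -/
noncomputable def m0f (g : E d → E d) (a : Lat d) : ℝ := ∫ x in cube 0 a, ‖g x‖

end Vale.Agent.P137.U
end
end

section

section

/-!
# Track U, module M1: lattice cubes, additivity, refinement, shifts.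
-/

open MeasureTheory Set
open scoped ENNReal NNReal

namespace Vale.Agent.P137.U

open Vale.Agent.P137

variable {d : ℕ}

theorem pt_apply (a : Lat d) (i : Fin d) : pt a i = (a i : ℝ) := rfl

theorem abs_apply_le_norm (x : E d) (i : Fin d) : |x i| ≤ ‖x‖ := by
  have := PiLp.norm_apply_le x i
  simpa only [ge_iff_le, Real.norm_eq_abs] using this

theorem norm_le_of_abs_apply_le {x : E d} {c : ℝ} (hc : 0 ≤ c) (h : ∀ i, |x i| ≤ c) :
    ‖x‖ ≤ √d * c := by
  rw [EuclideanSpace.norm_eq]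
  have h1 : ∑ i, ‖x i‖ ^ 2 ≤ d * c ^ 2 := by
    calc ∑ i, ‖x i‖ ^ 2 ≤ ∑ _i : Fin d, c ^ 2 := by
          apply Finset.sum_le_sum
          intro i _
          rw [Real.norm_eq_abs]
          gcongr
          exact h i
      _ = d * c ^ 2 := by simp only [Finset.sum_const, Finset.card_univ, Fintype.card_fin, nsmul_eq_mul]
  refine (Real.sqrt_le_sqrt h1).trans (le_of_eq ?_)
  rw [Real.sqrt_mul (by positivity), Real.sqrt_sq hc]

theorem measurableSet_cube (k : ℕ) (a : Lat d) : MeasurableSet (cube k a) := by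
  have h : cube k a = ⋂ i, {x : E d | (a i : ℝ) ≤ x i ∧ x i < a i + 2 ^ k} := by
    ext x; simp only [cube, mem_ofPred_eq, mem_iInter]
  rw [h]
  refine MeasurableSet.iInter fun i => ?_
  have hm : Measurable fun x : E d => x i := by fun_prop
  exact (measurableSet_le measurable_const hm).inter (measurableSet_lt hm measurable_const)

theorem convex_cube (k : ℕ) (a : Lat d) : Convex ℝ (cube k a) := by
  intro x hx y hy s t hs ht hst i
  have h1 := hx i
  have h2 := hy i
  simp only [PiLp.add_apply, PiLp.smul_apply, smul_eq_mul]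
  have e1 : (a i : ℝ) = s * a i + t * a i := by rw [← add_mul, hst, one_mul]
  have e2 : (a i : ℝ) + 2 ^ k = s * (a i + 2 ^ k) + t * (a i + 2 ^ k) := by
    rw [← add_mul, hst, one_mul]
  constructor
  · rw [e1]
    gcongr
    · exact h1.1
    · exact h2.1
  · rw [e2]
    rcases hs.eq_or_lt with h | h
    · have ht1 : t = 1 := by linarith only [hst, h]
      rw [← h, ht1]
      linarith only [h2.2]
    · have h3 : s * x i < s * (a i + 2 ^ k) := mul_lt_mul_of_pos_left h1.2 h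
      have h4 : t * y i ≤ t * (a i + 2 ^ k) := mul_le_mul_of_nonneg_left h2.2.le ht
      linarith only [h3, h4]

theorem pt_mem_cube (k : ℕ) (a : Lat d) : pt a ∈ cube k a := by
  intro i
  rw [pt_apply]
  have : (0 : ℝ) < 2 ^ k := by positivity
  constructor <;> linarith

theorem norm_sub_le_of_mem_cube {k : ℕ} {a : Lat d} {x y : E d} (hx : x ∈ cube k a)
    (hy : y ∈ cube k a) : ‖x - y‖ ≤ √d * 2 ^ k := by
  apply norm_le_of_abs_apply_le (by positivity)
  intro i
  have h1 := hx i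
  have h2 := hy i
  simp only [PiLp.sub_apply]
  rw [abs_le]
  constructor <;> linarith [h1.1, h1.2, h2.1, h2.2]

/-- A closed ball lies in a cube when its centre has coordinates far enough inside. -/
theorem closedBall_subset_cube {k : ℕ} {a : Lat d} {y : E d} {r : ℝ}
    (h : ∀ i, (a i : ℝ) + r ≤ y i ∧ y i + r < a i + 2 ^ k) :
    Metric.closedBall y r ⊆ cube k a := by
  intro z hz i
  have h1 : |(z - y) i| ≤ r := by
    refine (abs_apply_le_norm (z - y) i).trans ?_
    rw [← dist_eq_norm]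
    exact hz
  simp only [PiLp.sub_apply] at h1
  have h2 := abs_le.mp h1
  have h3 := h i
  constructor <;> linarith only [h2, h3]

theorem card_offs (d : ℕ) : (offs d).card = 2 ^ d := by
  simp only [offs, Fintype.card_piFinset, Finset.mem_singleton, zero_ne_one, not_false_eq_true, Finset.card_insert_of_notMem, Finset.card_singleton, Nat.reduceAdd, Finset.prod_const, Finset.card_univ, Fintype.card_fin]

theorem mem_offs {b : Lat d} : b ∈ offs d ↔ ∀ i, b i = 0 ∨ b i = 1 := by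
  simp only [offs, Fintype.mem_piFinset, Finset.mem_insert, Finset.mem_singleton]

theorem cube_succ (k : ℕ) (a : Lat d) :
    cube (k + 1) a = ⋃ b ∈ offs d, cube k (a + (2 : ℤ) ^ k • b) := by
  ext x
  simp only [mem_iUnion, exists_prop]
  constructor
  · intro hx
    refine ⟨fun i => if x i < a i + 2 ^ k then 0 else 1, ?_, ?_⟩
    · rw [mem_offs]
      intro i
      by_cases h : x i < a i + 2 ^ k <;> simp [h]
    · intro i
      have h1 := hx i
      rw [pow_succ] at h1
      simp only [Pi.add_apply, Pi.smul_apply, smul_eq_mul]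
      push_cast
      by_cases h : x i < a i + 2 ^ k
      · simp only [h, if_true]
        constructor <;> linarith [h1.1]
      · simp only [h, if_false]
        push Not at h
        constructor <;> linarith [h1.2]
  · rintro ⟨b, hb, hx⟩ i
    have h1 := hx i
    simp only [Pi.add_apply, Pi.smul_apply, smul_eq_mul] at h1
    push_cast at h1
    have hp : (0 : ℝ) < 2 ^ k := by positivity
    rw [pow_succ]
    rcases (mem_offs.mp hb) i with h | h
    · rw [h] at h1
      push_cast at h1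
      constructor <;> linarith [h1.1, h1.2]
    · rw [h] at h1
      push_cast at h1
      constructor <;> linarith [h1.1, h1.2]

theorem disjoint_cube (k : ℕ) (a : Lat d) {b b' : Lat d} (h : b ≠ b') :
    Disjoint (cube k (a + (2 : ℤ) ^ k • b)) (cube k (a + (2 : ℤ) ^ k • b')) := by
  rw [Set.disjoint_left]
  intro x hx hx'
  apply h
  funext i
  have h1 := hx i
  have h2 := hx' i
  simp only [Pi.add_apply, Pi.smul_apply, smul_eq_mul] at h1 h2
  push_cast at h1 h2
  have hp : (0 : ℝ) < 2 ^ k := by positivity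
  have h3 : (b i : ℝ) < b' i + 1 := by
    have : (2 : ℝ) ^ k * b i < 2 ^ k * (b' i + 1) := by linarith [h1.1, h2.2]
    exact lt_of_mul_lt_mul_left this hp.le
  have h4 : (b' i : ℝ) < b i + 1 := by
    have : (2 : ℝ) ^ k * b' i < 2 ^ k * (b i + 1) := by linarith only [h1, h2]
    exact lt_of_mul_lt_mul_left this hp.le
  have h5 : b i < b' i + 1 := by exact_mod_cast h3
  have h6 : b' i < b i + 1 := by exact_mod_cast h4
  omega

theorem setIntegral_cube_succ {F : Type*} [NormedAddCommGroup F] [NormedSpace ℝ F]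
    {G : E d → F} (k : ℕ) (a : Lat d) (hG : IntegrableOn G (cube (k + 1) a)) :
    ∫ x in cube (k + 1) a, G x = ∑ b ∈ offs d, ∫ x in cube k (a + (2 : ℤ) ^ k • b), G x := by
  rw [cube_succ]
  apply integral_biUnion_finset
  · intro b _
    exact measurableSet_cube _ _
  · intro b _ b' _ hbb
    exact disjoint_cube k a hbb
  · intro b hb
    apply hG.mono_set
    rw [cube_succ]
    exact subset_biUnion_of_mem (u := fun b => cube k (a + (2 : ℤ) ^ k • b)) hb

theorem mem_cell_iff (k : ℕ) (x : E d) (n : Lat d) :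
    x ∈ cube k (co k n) ↔ ∀ i, ⌊x i / 2 ^ k⌋ = n i := by
  have hp : (0 : ℝ) < 2 ^ k := by positivity
  constructor
  · intro h i
    have h1 := h i
    simp only [co] at h1
    push_cast at h1
    rw [Int.floor_eq_iff, le_div_iff₀ hp, div_lt_iff₀ hp]
    constructor <;> linarith only [h1]
  · intro h i
    have h1 := h i
    rw [Int.floor_eq_iff, le_div_iff₀ hp, div_lt_iff₀ hp] at h1
    simp only [co]
    push_cast
    constructor <;> linarith [h1.1, h1.2]

/-- Every point lies in exactly one cell of each level. -/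
theorem existsUnique_cell (k : ℕ) (x : E d) : ∃! n : Lat d, x ∈ cube k (co k n) := by
  refine ⟨fun i => ⌊x i / 2 ^ k⌋, (mem_cell_iff k x _).mpr fun i => rfl, ?_⟩
  intro n hn
  funext i
  exact ((mem_cell_iff k x n).mp hn i).symm

theorem mem_cell_anc {k j : ℕ} {x : E d} {n : Lat d} (h : x ∈ cube k (co k n)) :
    x ∈ cube (k + j) (co (k + j) (anc j n)) := by
  rw [mem_cell_iff] at h ⊢
  intro i
  have h1 : x i / 2 ^ (k + j) = (x i / 2 ^ k) / ((2 ^ j : ℕ) : ℝ) := by
    push_cast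
    rw [pow_add, div_div]
  rw [h1, Int.floor_div_natCast, h i]
  simp [anc]

theorem norm_v0f_le (g : E d → E d) (a : Lat d) : ‖v0f g a‖ ≤ m0f g a := by
  exact norm_integral_le_integral_norm _

theorem m0f_nonneg (g : E d → E d) (a : Lat d) : 0 ≤ m0f g a := by
  exact integral_nonneg fun x => norm_nonneg _

theorem tsum_m0f {g : E d → E d} (hg : Integrable g) :
    ∑' a, ENNReal.ofReal (m0f g a) = ∫⁻ x, ‖g x‖ₑ := by
  have h1 : ∀ a : Lat d, ENNReal.ofReal (m0f g a) = ∫⁻ x in cube 0 a, ‖g x‖ₑ := by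
    intro a
    rw [m0f, ofReal_integral_norm_eq_lintegral_enorm hg.integrableOn]
  have hco : ∀ n : Lat d, co 0 n = n := by
    intro n; funext i; simp [co]
  have hU : (⋃ a : Lat d, cube 0 a) = univ := by
    rw [eq_univ_iff_forall]
    intro x
    obtain ⟨n, hn, -⟩ := existsUnique_cell 0 x
    rw [mem_iUnion]
    exact ⟨co 0 n, hn⟩
  have hD : Pairwise (Function.onFun Disjoint fun a : Lat d => cube 0 a) := by
    intro a b hab
    simp only [Function.onFun]
    rw [Set.disjoint_left]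
    intro x hx hx'
    obtain ⟨n, -, hu⟩ := existsUnique_cell 0 x
    apply hab
    have e1 : x ∈ cube 0 (co 0 a) := by rw [hco]; exact hx
    have e2 : x ∈ cube 0 (co 0 b) := by rw [hco]; exact hx'
    rw [hu a e1, hu b e2]
  simp_rw [h1]
  rw [← lintegral_iUnion (fun a => measurableSet_cube 0 a) hD, hU, Measure.restrict_univ]

theorem summable_m0f {g : E d → E d} (hg : Integrable g) : Summable (m0f g) := by
  have h1 : ∑' a, ENNReal.ofReal (m0f g a) ≠ ∞ := by
    rw [tsum_m0f hg]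
    exact hg.hasFiniteIntegral.ne
  have h2 := ENNReal.summable_toReal h1
  refine h2.congr fun a => ?_
  exact ENNReal.toReal_ofReal (m0f_nonneg g a)

theorem norm_vv_succ_le (v0 : Lat d → E d) (k : ℕ) (a : Lat d) :
    ‖vv v0 (k + 1) a‖ ≤ ∑ b ∈ offs d, ‖vv v0 k (a + (2 : ℤ) ^ k • b)‖ := by
  rw [vv]
  exact norm_sum_le _ _

theorem dl_nonneg (v0 : Lat d → E d) (k : ℕ) (a : Lat d) : 0 ≤ dl v0 k a := by
  rw [dl, sub_nonneg]
  exact norm_vv_succ_le v0 k a

theorem ee_nonneg {v0 : Lat d → E d} {m0 : Lat d → ℝ} (h : ∀ a, 0 ≤ m0 a) (k : ℕ) (a : Lat d) :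
    0 ≤ ee v0 m0 k a := by
  induction k generalizing a with
  | zero => exact h a
  | succ k ih =>
    rw [ee]
    have h1 := dl_nonneg v0 k a
    have h2 : 0 ≤ ∑ b ∈ offs d, ee v0 m0 k (a + (2 : ℤ) ^ k • b) :=
      Finset.sum_nonneg fun b _ => ih _
    (clear * - h1 h2; positivity)

theorem eJ_nonneg {v0 : Lat d → E d} {m0 : Lat d → ℝ} (h : ∀ a, 0 ≤ m0 a) (k : ℕ) (n : Lat d) :
    0 ≤ eJ v0 m0 k n := ee_nonneg h _ _

theorem vv_shift (v0 : Lat d → E d) (ω : Lat d) (k : ℕ) (a : Lat d) :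
    vv (fun c => v0 (c + ω)) k a = vv v0 k (a + ω) := by
  induction k generalizing a with
  | zero => rfl
  | succ k ih =>
    simp only [vv]
    refine Finset.sum_congr rfl fun b _ => ?_
    rw [ih, add_right_comm]

theorem dl_shift (v0 : Lat d → E d) (ω : Lat d) (k : ℕ) (a : Lat d) :
    dl (fun c => v0 (c + ω)) k a = dl v0 k (a + ω) := by
  simp only [dl, vv_shift]
  congr 1
  refine Finset.sum_congr rfl fun b _ => ?_
  rw [add_right_comm]

theorem ee_shift (v0 : Lat d → E d) (m0 : Lat d → ℝ) (ω : Lat d) (k : ℕ) (a : Lat d) :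
    ee (fun c => v0 (c + ω)) (fun c => m0 (c + ω)) k a = ee v0 m0 k (a + ω) := by
  induction k generalizing a with
  | zero => rfl
  | succ k ih =>
    simp only [ee, dl_shift]
    congr 2
    refine Finset.sum_congr rfl fun b _ => ?_
    rw [ih, add_right_comm]

theorem preimage_add_pt (ω a : Lat d) :
    (fun x : E d => x + pt ω) ⁻¹' cube 0 (a + ω) = cube 0 a := by
  ext x
  simp only [cube, mem_preimage, mem_ofPred_eq, PiLp.add_apply, pt_apply, Pi.add_apply]
  push_cast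
  refine forall_congr' fun i => ?_
  constructor
  · rintro ⟨h1, h2⟩
    constructor <;> linarith
  · rintro ⟨h1, h2⟩
    constructor <;> linarith

theorem v0f_shift (g : E d → E d) (ω a : Lat d) :
    v0f (fun x => g (x + pt ω)) a = v0f g (a + ω) := by
  simp only [v0f]
  rw [← preimage_add_pt ω a]
  exact (measurePreserving_add_right volume (pt ω)).setIntegral_preimage_emb
    (measurableEmbedding_addRight (pt ω)) g (cube 0 (a + ω))

theorem m0f_shift (g : E d → E d) (ω a : Lat d) :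
    m0f (fun x => g (x + pt ω)) a = m0f g (a + ω) := by
  simp only [m0f]
  rw [← preimage_add_pt ω a]
  exact (measurePreserving_add_right volume (pt ω)).setIntegral_preimage_emb
    (measurableEmbedding_addRight (pt ω)) (fun x => ‖g x‖) (cube 0 (a + ω))

theorem child_range {k : ℕ} {a b c : Lat d} (hb : b ∈ offs d)
    (hc : ∀ i, (a + (2 : ℤ) ^ k • b) i ≤ c i ∧ c i < (a + (2 : ℤ) ^ k • b) i + 2 ^ k) :
    ∀ i, a i ≤ c i ∧ c i < a i + 2 ^ (k + 1) := by
  intro i
  have h1 := hc i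
  simp only [Pi.add_apply, Pi.smul_apply, smul_eq_mul] at h1
  have hp : (0 : ℤ) < 2 ^ k := by positivity
  rw [pow_succ]
  rcases (mem_offs.mp hb) i with h | h
  · rw [h] at h1
    omega
  · rw [h] at h1
    omega

/-- `vv v0 k a` only depends on the values of `v0` in the cube. -/
theorem vv_congr {v0 v0' : Lat d → E d} {k : ℕ} {a : Lat d}
    (h : ∀ c : Lat d, (∀ i, a i ≤ c i ∧ c i < a i + 2 ^ k) → v0 c = v0' c) :
    vv v0 k a = vv v0' k a := by
  induction k generalizing a with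
  | zero => exact h a fun i => ⟨le_rfl, by simp only [pow_zero, lt_add_iff_pos_right, zero_lt_one]⟩
  | succ k ih =>
    simp only [vv]
    refine Finset.sum_congr rfl fun b hb => ih fun c hc => h c ?_
    exact child_range hb hc

theorem ee_congr {v0 v0' : Lat d → E d} {m0 m0' : Lat d → ℝ} {k : ℕ} {a : Lat d}
    (h : ∀ c : Lat d, (∀ i, a i ≤ c i ∧ c i < a i + 2 ^ k) → v0 c = v0' c)
    (h' : ∀ c : Lat d, (∀ i, a i ≤ c i ∧ c i < a i + 2 ^ k) → m0 c = m0' c) :
    ee v0 m0 k a = ee v0' m0' k a := by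
  induction k generalizing a with
  | zero => exact h' a fun i => ⟨le_rfl, by simp only [pow_zero, lt_add_iff_pos_right, zero_lt_one]⟩
  | succ k ih =>
    have hv : ∀ b ∈ offs d, vv v0 k (a + (2 : ℤ) ^ k • b) = vv v0' k (a + (2 : ℤ) ^ k • b) :=
      fun b hb => vv_congr fun c hc => h c (child_range hb hc)
    have hd' : dl v0 k a = dl v0' k a := by
      simp only [dl]
      congr 1
      · exact Finset.sum_congr rfl fun b hb => by rw [hv b hb]
      · rw [vv_congr (k := k + 1) h]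
    simp only [ee, hd']
    congr 2
    refine Finset.sum_congr rfl fun b hb => ih (fun c hc => h c (child_range hb hc))
      (fun c hc => h' c (child_range hb hc))

/-- The children of the cell `(k+1, n)` are the cells `(k, 2n+b)`. -/
theorem co_child (k : ℕ) (n b : Lat d) :
    co (k + 1) n + (2 : ℤ) ^ k • b = co k ((2 : ℤ) • n + b) := by
  funext i
  simp only [co, Pi.add_apply, Pi.smul_apply, smul_eq_mul]
  ring

/-- The indices of the `64^d` cells of level `k` in the block of the cell `(k, n)`. -/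
noncomputable def blk (n : Lat d) : Finset (Lat d) := Fintype.piFinset fun i => Finset.Ico (n i - 32) (n i + 32)

theorem card_blk (n : Lat d) : (blk n).card = 64 ^ d := by
  simp only [blk, Fintype.card_piFinset, Int.card_Ico, add_sub_sub_cancel, Int.reduceAdd, Int.reduceToNat, Finset.prod_const, Finset.card_univ, Fintype.card_fin]

/-- The indices of the `2^(jd)` cells of level `k` in the cell `(k + j, m')`, when `m = 2^j m'`. -/
noncomputable def blkJ (j : ℕ) (m : Lat d) : Finset (Lat d) :=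
  Fintype.piFinset fun i => Finset.Ico (m i) (m i + 2 ^ j)

theorem mem_blkJ {j : ℕ} {m c : Lat d} : c ∈ blkJ j m ↔ ∀ i, m i ≤ c i ∧ c i < m i + 2 ^ j := by
  simp only [blkJ, Fintype.mem_piFinset, Finset.mem_Ico]

theorem blkJ_zero (m : Lat d) : blkJ 0 m = {m} := by
  ext c
  simp only [mem_blkJ, Finset.mem_singleton, pow_zero]
  constructor
  · intro h
    funext i
    have := h i
    omega
  · rintro rfl i
    omega

theorem blkJ_six (n : Lat d) : blkJ 6 (fun i => n i - 32) = blk n := by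
  ext c
  simp only [mem_blkJ, blk, Fintype.mem_piFinset, Finset.mem_Ico]
  refine forall_congr' fun i => ?_
  norm_num
  intro _
  constructor <;> intro h <;> linarith

theorem bc_eq_co (k : ℕ) (n : Lat d) : bc k n = co k (fun i => n i - 32) := by
  funext i
  simp only [bc, co]
  ring

theorem co_add (k j : ℕ) (m b : Lat d) :
    co k m + (2 : ℤ) ^ (k + j) • b = co k (m + (2 : ℤ) ^ j • b) := by
  funext i
  simp only [co, Pi.add_apply, Pi.smul_apply, smul_eq_mul]
  ring

theorem sum_blkJ_succ {M : Type*} [AddCommMonoid M] (F : Lat d → M) (j : ℕ) (m : Lat d) :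
    ∑ c ∈ blkJ (j + 1) m, F c = ∑ b ∈ offs d, ∑ c ∈ blkJ j (m + (2 : ℤ) ^ j • b), F c := by
  classical
  have h : blkJ (j + 1) m = (offs d).biUnion fun b => blkJ j (m + (2 : ℤ) ^ j • b) := by
    ext c
    simp only [Finset.mem_biUnion, mem_blkJ]
    have hp : (0 : ℤ) < 2 ^ j := by positivity
    constructor
    · intro hc
      refine ⟨fun i => if c i < m i + 2 ^ j then 0 else 1, ?_, ?_⟩
      · rw [mem_offs]
        intro i
        by_cases h : c i < m i + 2 ^ j <;> simp [h]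
      · intro i
        have h1 := hc i
        rw [pow_succ] at h1
        simp only [Pi.add_apply, Pi.smul_apply, smul_eq_mul]
        by_cases h : c i < m i + 2 ^ j
        · simp only [h, if_true]
          omega
        · simp only [h, if_false]
          omega
    · rintro ⟨b, hb, hc⟩
      exact child_range hb hc
  rw [h, Finset.sum_biUnion]
  intro b _ b' _ hbb
  simp only [Function.onFun]
  rw [Finset.disjoint_left]
  intro c hc hc'
  rw [mem_blkJ] at hc hc'
  apply hbb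
  funext i
  have h1 := hc i
  have h2 := hc' i
  simp only [Pi.add_apply, Pi.smul_apply, smul_eq_mul] at h1 h2
  have hp : (0 : ℤ) < 2 ^ j := by positivity
  have h3 : b i < b' i + 1 := by
    have : (2 : ℤ) ^ j * b i < 2 ^ j * (b' i + 1) := by linarith only [h2, h1.1]
    exact lt_of_mul_lt_mul_left this hp.le
  have h4 : b' i < b i + 1 := by
    have : (2 : ℤ) ^ j * b' i < 2 ^ j * (b i + 1) := by linarith only [h1, h2]
    exact lt_of_mul_lt_mul_left this hp.le
  omega

theorem vv_eq_sum_blkJ (v0 : Lat d → E d) (k j : ℕ) (m : Lat d) :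
    vv v0 (k + j) (co k m) = ∑ c ∈ blkJ j m, vv v0 k (co k c) := by
  induction j generalizing m with
  | zero => simp [blkJ_zero]
  | succ j ih =>
    rw [← add_assoc, vv, sum_blkJ_succ]
    refine Finset.sum_congr rfl fun b _ => ?_
    rw [co_add, ih]

theorem sqrt_two_pow_six : (√2 : ℝ) ^ 6 = 8 := by
  have h1 : (√2 : ℝ) ^ 6 = ((√2) ^ 2) ^ 3 := by ring
  rw [h1, Real.sq_sqrt (by norm_num)]
  norm_num

theorem sum_blkJ_sub_le {v0 : Lat d → E d} {m0 : Lat d → ℝ} (h : ∀ a, 0 ≤ m0 a) (k j : ℕ)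
    (m : Lat d) :
    (∑ c ∈ blkJ j m, ‖vv v0 k (co k c)‖) - ‖vv v0 (k + j) (co k m)‖ ≤
      √2 ^ j * ee v0 m0 (k + j) (co k m) := by
  induction j generalizing m with
  | zero =>
    simp only [blkJ_zero, Finset.sum_singleton, add_zero, sub_self, pow_zero, one_mul]
    exact ee_nonneg h _ _
  | succ j ih =>
    rw [sum_blkJ_succ, ← add_assoc, ee]
    have h1 : ∑ b ∈ offs d, ((∑ c ∈ blkJ j (m + (2 : ℤ) ^ j • b), ‖vv v0 k (co k c)‖) -
        ‖vv v0 (k + j) (co k m + (2 : ℤ) ^ (k + j) • b)‖) ≤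
        ∑ b ∈ offs d, √2 ^ j * ee v0 m0 (k + j) (co k m + (2 : ℤ) ^ (k + j) • b) := by
      apply Finset.sum_le_sum
      intro b _
      rw [co_add]
      exact ih _
    rw [Finset.sum_sub_distrib, ← Finset.mul_sum] at h1
    have h2 : dl v0 (k + j) (co k m) = (∑ b ∈ offs d,
        ‖vv v0 (k + j) (co k m + (2 : ℤ) ^ (k + j) • b)‖) - ‖vv v0 (k + j + 1) (co k m)‖ := rfl
    have h3 := dl_nonneg v0 (k + j) (co k m)
    have h4 : (1 : ℝ) ≤ √2 := by
      rw [Real.one_le_sqrt]; norm_num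
    have h5 : (1 : ℝ) ≤ √2 ^ (j + 1) := one_le_pow₀ h4
    have h6 : √2 ^ (j + 1) * ((√2)⁻¹ * ∑ b ∈ offs d,
        ee v0 m0 (k + j) (co k m + (2 : ℤ) ^ (k + j) • b)) = √2 ^ j *
        ∑ b ∈ offs d, ee v0 m0 (k + j) (co k m + (2 : ℤ) ^ (k + j) • b) := by
      rw [pow_succ, ← mul_assoc, mul_assoc (√2 ^ j), mul_inv_cancel₀ (by positivity), mul_one]
    rw [mul_add, h6]
    linarith only [h1, h2, mul_le_mul_of_nonneg_right h5 h3]

theorem ee_ge_sum_blkJ {v0 : Lat d → E d} {m0 : Lat d → ℝ} (h : ∀ a, 0 ≤ m0 a) (k j : ℕ)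
    (m : Lat d) :
    ∑ c ∈ blkJ j m, ee v0 m0 k (co k c) ≤ √2 ^ j * ee v0 m0 (k + j) (co k m) := by
  induction j generalizing m with
  | zero => simp [blkJ_zero]
  | succ j ih =>
    rw [sum_blkJ_succ, ← add_assoc, ee]
    have h1 : ∑ b ∈ offs d, ∑ c ∈ blkJ j (m + (2 : ℤ) ^ j • b), ee v0 m0 k (co k c) ≤
        ∑ b ∈ offs d, √2 ^ j * ee v0 m0 (k + j) (co k m + (2 : ℤ) ^ (k + j) • b) := by
      apply Finset.sum_le_sum
      intro b _
      rw [co_add]
      exact ih _
    rw [← Finset.mul_sum] at h1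
    have h3 := dl_nonneg v0 (k + j) (co k m)
    have h5 : (0 : ℝ) ≤ √2 ^ (j + 1) := by positivity
    have h6 : √2 ^ (j + 1) * ((√2)⁻¹ * ∑ b ∈ offs d,
        ee v0 m0 (k + j) (co k m + (2 : ℤ) ^ (k + j) • b)) = √2 ^ j *
        ∑ b ∈ offs d, ee v0 m0 (k + j) (co k m + (2 : ℤ) ^ (k + j) • b) := by
      rw [pow_succ, ← mul_assoc, mul_assoc (√2 ^ j), mul_inv_cancel₀ (by positivity), mul_one]
    rw [mul_add, h6]
    linarith only [h1, mul_nonneg h5 h3]

theorem vJ_eq_sum (v0 : Lat d → E d) (k : ℕ) (n : Lat d) :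
    vJ v0 k n = ∑ c ∈ blk n, vv v0 k (co k c) := by
  rw [vJ, bc_eq_co, vv_eq_sum_blkJ v0 k 6, blkJ_six]

/-- The first six generations of refinement defects of the block are controlled by `eJ`. -/
theorem sum_blk_sub_le {v0 : Lat d → E d} {m0 : Lat d → ℝ} (h : ∀ a, 0 ≤ m0 a) (k : ℕ)
    (n : Lat d) :
    (∑ c ∈ blk n, ‖vv v0 k (co k c)‖) - ‖vJ v0 k n‖ ≤ 8 * eJ v0 m0 k n := by
  have h1 := sum_blkJ_sub_le (v0 := v0) h k 6 (fun i => n i - 32)
  rw [blkJ_six, ← bc_eq_co] at h1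
  have h2 : (√2 : ℝ) ^ 6 = 8 := sqrt_two_pow_six
  rw [h2] at h1
  exact h1

/-- The defect of a cell is controlled by `eJ` of its block. -/
theorem dl_le_eJ {v0 : Lat d → E d} {m0 : Lat d → ℝ} (h : ∀ a, 0 ≤ m0 a) (k : ℕ) (n : Lat d) :
    dl v0 k (co (k + 1) n) ≤ 8 * eJ v0 m0 (k + 1) n := by
  have h1 := ee_ge_sum_blkJ (v0 := v0) h (k + 1) 6 (fun i => n i - 32)
  rw [blkJ_six, ← bc_eq_co] at h1
  have h2 : (√2 : ℝ) ^ 6 = 8 := sqrt_two_pow_six
  rw [h2] at h1
  have h3 : ee v0 m0 (k + 1) (co (k + 1) n) ≤ ∑ c ∈ blk n, ee v0 m0 (k + 1) (co (k + 1) c) := by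
    apply Finset.single_le_sum (f := fun c => ee v0 m0 (k + 1) (co (k + 1) c))
      (fun c _ => ee_nonneg h _ _)
    simp only [blk, Fintype.mem_piFinset, Finset.mem_Ico]
    intro i
    constructor <;> omega
  have h4 : dl v0 k (co (k + 1) n) ≤ ee v0 m0 (k + 1) (co (k + 1) n) := by
    rw [ee]
    have : 0 ≤ ∑ b ∈ offs d, ee v0 m0 k (co (k + 1) n + (2 : ℤ) ^ k • b) :=
      Finset.sum_nonneg fun b _ => ee_nonneg h _ _
    have h5 : 0 ≤ (√2 : ℝ)⁻¹ := by positivity
    linarith only [mul_nonneg h5 this]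
  exact h4.trans (h3.trans h1)

/-- The lattice as the disjoint union of the sets of children. -/
noncomputable def childEquiv (d : ℕ) : (Lat d × {b : Lat d // b ∈ offs d}) ≃ Lat d where
  toFun p := (2 : ℤ) • p.1 + p.2.1
  invFun c := (fun i => c i / 2, ⟨fun i => c i % 2, by
    rw [mem_offs]
    intro i
    exact Int.emod_two_eq_zero_or_one (c i)⟩)
  left_inv := by
    rintro ⟨n, b, hb⟩
    rw [mem_offs] at hb
    ext i
    · simp only [Pi.add_apply, Pi.smul_apply, smul_eq_mul]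
      have := hb i
      omega
    · simp only [Pi.add_apply, Pi.smul_apply, smul_eq_mul]
      have := hb i
      omega
  right_inv := by
    intro c
    funext i
    simp only [Pi.add_apply, Pi.smul_apply, smul_eq_mul]
    omega

/-- Regrouping a sum over the lattice into children. -/
theorem tsum_lat_children (F : Lat d → ℝ≥0∞) :
    ∑' n, F n = ∑' n, ∑ b ∈ offs d, F ((2 : ℤ) • n + b) := by
  have h1 : ∀ n : Lat d, ∑ b ∈ offs d, F ((2 : ℤ) • n + b) =
      ∑' b : {b // b ∈ offs d}, F ((2 : ℤ) • n + b.1) := by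
    intro n
    rw [tsum_fintype, Finset.sum_coe_sort (offs d) (fun b => F ((2 : ℤ) • n + b))]
  simp_rw [h1]
  rw [← ENNReal.tsum_prod]
  exact ((childEquiv d).tsum_eq F).symm

end Vale.Agent.P137.U
end
end

section

section

/-!
# Track U: the averaging over origins

The sum over all scales of the error functionals of all blocks, averaged over the position of
the dyadic grid, is at most a constant times the total mass.
-/

open MeasureTheory Set Filter Topology
open scoped ENNReal NNReal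

namespace Vale.Agent.P137.U

open Vale.Agent.P137

variable {d : ℕ}

/-- The sum of the masses of all blocks of level `k`, over all lattice corners. -/
private noncomputable def sV (v0 : Lat d → E d) (k : ℕ) : ℝ≥0∞ :=
  ∑' a : Lat d, ENNReal.ofReal ‖vv v0 k a‖

/-- The sum of the refinement defects over all lattice corners. -/
private noncomputable def sD (v0 : Lat d → E d) (k : ℕ) : ℝ≥0∞ :=
  ∑' a : Lat d, ENNReal.ofReal (dl v0 k a)

/-- The sum of the error functionals over all lattice corners. -/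
private noncomputable def sE (v0 : Lat d → E d) (m0 : Lat d → ℝ) (k : ℕ) : ℝ≥0∞ :=
  ∑' a : Lat d, ENNReal.ofReal (ee v0 m0 k a)

private theorem tsum_shift (F : Lat d → ℝ≥0∞) (c : Lat d) : ∑' a, F (a + c) = ∑' a, F a :=
  (Equiv.addRight c).tsum_eq F

private theorem tsum_offs (F : Lat d → ℝ≥0∞) (m : ℤ) :
    ∑' a : Lat d, ∑ b ∈ offs d, F (a + m • b) = 2 ^ d * ∑' a, F a := by
  rw [Summable.tsum_finsetSum (fun _ _ => ENNReal.summable)]
  simp only [tsum_shift]
  rw [Finset.sum_const, card_offs, nsmul_eq_mul]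
  norm_cast

private theorem sD_add_sV (v0 : Lat d → E d) (k : ℕ) :
    sD v0 k + sV v0 (k + 1) = 2 ^ d * sV v0 k := by
  rw [sD, sV, sV, ← tsum_offs (fun a => ENNReal.ofReal ‖vv v0 k a‖) ((2 : ℤ) ^ k),
    ← ENNReal.tsum_add]
  refine tsum_congr fun a => ?_
  rw [← ENNReal.ofReal_add (dl_nonneg v0 k a) (norm_nonneg _),
    ← ENNReal.ofReal_sum_of_nonneg (fun _ _ => norm_nonneg _)]
  congr 1
  rw [dl]
  ring

private theorem sE_succ (v0 : Lat d → E d) {m0 : Lat d → ℝ} (h : ∀ a, 0 ≤ m0 a) (k : ℕ) :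
    sE v0 m0 (k + 1) = sD v0 k + ENNReal.ofReal (√2)⁻¹ * (2 ^ d * sE v0 m0 k) := by
  rw [sE, sD, sE, ← tsum_offs (fun a => ENNReal.ofReal (ee v0 m0 k a)) ((2 : ℤ) ^ k),
    ← ENNReal.tsum_mul_left, ← ENNReal.tsum_add]
  refine tsum_congr fun a => ?_
  have h1 : 0 ≤ ∑ b ∈ offs d, ee v0 m0 k (a + (2 : ℤ) ^ k • b) :=
    Finset.sum_nonneg fun _ _ => ee_nonneg h _ _
  rw [← ENNReal.ofReal_sum_of_nonneg (fun _ _ => ee_nonneg h _ _),
    ← ENNReal.ofReal_mul (by positivity), ← ENNReal.ofReal_add (dl_nonneg v0 k a)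
      (mul_nonneg (by positivity) h1)]
  rfl

private theorem one_add_q : 1 + 4 * ENNReal.ofReal (√2)⁻¹ ≤ 4 := by
  have h0 : (√2)⁻¹ ≤ 3 / 4 := by
    rw [inv_le_comm₀ (by positivity) (by norm_num)]
    apply Real.le_sqrt_of_sq_le
    norm_num
  calc 1 + 4 * ENNReal.ofReal (√2)⁻¹ ≤ 1 + 4 * ENNReal.ofReal (3 / 4) := by
        (clear * - h0; gcongr)
    _ = ENNReal.ofReal 1 + ENNReal.ofReal 4 * ENNReal.ofReal (3 / 4) := by
        norm_num
    _ = ENNReal.ofReal (1 + 4 * (3 / 4)) := by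
        rw [ENNReal.ofReal_add (by norm_num) (by norm_num), ENNReal.ofReal_mul (by norm_num)]
    _ = 4 := by norm_num

/-- The potential argument. -/
private theorem potential (v0 : Lat d → E d) {m0 : Lat d → ℝ} (h : ∀ a, 0 ≤ m0 a) (N : ℕ) :
    (∑ k ∈ Finset.range N, (2 ^ d) ^ (N - k) * sE v0 m0 k) + 4 * sE v0 m0 N + 4 * sV v0 N
      ≤ (2 ^ d) ^ N * (4 * sE v0 m0 0 + 4 * sV v0 0) := by
  induction N with
  | zero => simp only [Finset.range_zero, zero_tsub, pow_zero, one_mul, Finset.sum_empty, zero_add, Std.le_refl]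
  | succ N ih =>
    have h1 : ∑ k ∈ Finset.range (N + 1), ((2 : ℝ≥0∞) ^ d) ^ (N + 1 - k) * sE v0 m0 k
        = 2 ^ d * (∑ k ∈ Finset.range N, (2 ^ d) ^ (N - k) * sE v0 m0 k)
          + 2 ^ d * sE v0 m0 N := by
      rw [Finset.sum_range_succ, Finset.mul_sum]
      congr 1
      · refine Finset.sum_congr rfl fun k hk => ?_
        have : N + 1 - k = (N - k) + 1 := by
          have := Finset.mem_range.1 hk
          omega
        rw [this, pow_succ, mul_comm (((2 : ℝ≥0∞) ^ d) ^ (N - k)), mul_assoc]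
      · simp only [add_tsub_cancel_left, pow_one]
    rw [h1, sE_succ v0 h]
    calc (2 : ℝ≥0∞) ^ d * (∑ k ∈ Finset.range N, (2 ^ d) ^ (N - k) * sE v0 m0 k)
          + 2 ^ d * sE v0 m0 N
          + 4 * (sD v0 N + ENNReal.ofReal (√2)⁻¹ * (2 ^ d * sE v0 m0 N)) + 4 * sV v0 (N + 1)
        = 2 ^ d * (∑ k ∈ Finset.range N, (2 ^ d) ^ (N - k) * sE v0 m0 k)
          + (1 + 4 * ENNReal.ofReal (√2)⁻¹) * (2 ^ d * sE v0 m0 N)
          + 4 * (sD v0 N + sV v0 (N + 1)) := by ring
      _ ≤ 2 ^ d * (∑ k ∈ Finset.range N, (2 ^ d) ^ (N - k) * sE v0 m0 k)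
          + 4 * (2 ^ d * sE v0 m0 N) + 4 * (sD v0 N + sV v0 (N + 1)) := by
          gcongr
          exact one_add_q
      _ = 2 ^ d * ((∑ k ∈ Finset.range N, (2 ^ d) ^ (N - k) * sE v0 m0 k)
          + 4 * sE v0 m0 N + 4 * sV v0 N) := by
          rw [sD_add_sV]
          ring
      _ ≤ 2 ^ d * ((2 ^ d) ^ N * (4 * sE v0 m0 0 + 4 * sV v0 0)) := by gcongr
      _ = (2 ^ d) ^ (N + 1) * (4 * sE v0 m0 0 + 4 * sV v0 0) := by
          rw [pow_succ]
          ring

private theorem potential' (v0 : Lat d → E d) {m0 : Lat d → ℝ} (h : ∀ a, ‖v0 a‖ ≤ m0 a) (K : ℕ) :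
    ∑ k ∈ Finset.range (K + 1), (2 ^ d) ^ (K - k) * sE v0 m0 (k + 6)
      ≤ (2 ^ d) ^ (K + 7) * (8 * ∑' a, ENNReal.ofReal (m0 a)) := by
  have h0 : ∀ a, 0 ≤ m0 a := fun a => (norm_nonneg _).trans (h a)
  have hS : sV v0 0 ≤ ∑' a, ENNReal.ofReal (m0 a) :=
    ENNReal.tsum_le_tsum fun a => ENNReal.ofReal_le_ofReal (h a)
  have hE : sE v0 m0 0 = ∑' a, ENNReal.ofReal (m0 a) := rfl
  have h1 : (1 : ℝ≥0∞) ≤ 2 ^ d := one_le_pow₀ (by norm_num)
  calc ∑ k ∈ Finset.range (K + 1), ((2 : ℝ≥0∞) ^ d) ^ (K - k) * sE v0 m0 (k + 6)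
      ≤ ∑ k ∈ Finset.range (K + 1), ((2 : ℝ≥0∞) ^ d) ^ (K + 7 - (k + 6)) * sE v0 m0 (k + 6) := by
        refine Finset.sum_le_sum fun k _ => mul_le_mul_left (pow_le_pow_right₀ h1 ?_) _
        omega
    _ ≤ ∑ k ∈ Finset.range (K + 7), ((2 : ℝ≥0∞) ^ d) ^ (K + 7 - k) * sE v0 m0 k := by
        have h2 := Finset.sum_range_add
          (fun k => ((2 : ℝ≥0∞) ^ d) ^ (K + 7 - k) * sE v0 m0 k) 6 (K + 1)
        rw [show 6 + (K + 1) = K + 7 by ring] at h2
        rw [h2]
        refine le_add_left (le_of_eq (Finset.sum_congr rfl fun k _ => ?_))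
        rw [add_comm 6 k]
    _ ≤ (∑ k ∈ Finset.range (K + 7), ((2 : ℝ≥0∞) ^ d) ^ (K + 7 - k) * sE v0 m0 k)
          + 4 * sE v0 m0 (K + 7) + 4 * sV v0 (K + 7) := by
        rw [add_assoc]
        exact le_self_add
    _ ≤ _ := potential v0 h0 (K + 7)
    _ ≤ (2 ^ d) ^ (K + 7) * (8 * ∑' a, ENNReal.ofReal (m0 a)) := by
        gcongr
        rw [hE]
        calc 4 * ∑' a, ENNReal.ofReal (m0 a) + 4 * sV v0 0
            ≤ 4 * ∑' a, ENNReal.ofReal (m0 a) + 4 * ∑' a, ENNReal.ofReal (m0 a) := by gcongr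
          _ = 8 * ∑' a, ENNReal.ofReal (m0 a) := by ring

/-- Averaging over origins at one scale. -/
private theorem shift_sum (G : Lat d → ℝ≥0∞) {k K : ℕ} (hk : k ≤ K) :
    ∑ ω ∈ Fintype.piFinset (fun _ : Fin d => Finset.Ico (0 : ℤ) (2 ^ K)),
      ∑' n : Lat d, G (bc k n + ω) ≤ (2 ^ d) ^ (K - k) * ∑' a, G a := by
  classical
  set A : Finset (Lat d) := Fintype.piFinset (fun _ : Fin d => Finset.Ico (0 : ℤ) (2 ^ K)) with hA
  set B : Finset (Lat d) :=
    Fintype.piFinset (fun _ : Fin d => Finset.Ico (0 : ℤ) (2 ^ (K - k))) with hB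
  have hcard : B.card = (2 ^ d) ^ (K - k) := by
    rw [hB, Fintype.card_piFinset]
    simp only [Int.card_Ico, sub_zero, Finset.prod_const, Finset.card_univ, Fintype.card_fin]
    rw [← pow_mul, mul_comm d, pow_mul]
    congr 1
  have hmem : ∀ ω ∈ A, (fun i => ω i / 2 ^ k) ∈ B := by
    intro ω hω
    rw [hB, Fintype.mem_piFinset]
    rw [hA, Fintype.mem_piFinset] at hω
    intro i
    have := Finset.mem_Ico.1 (hω i)
    refine Finset.mem_Ico.2 ⟨Int.ediv_nonneg this.1 (by positivity), ?_⟩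
    refine Int.ediv_lt_of_lt_mul (by positivity) ?_
    rw [← pow_add, Nat.sub_add_cancel hk]
    exact this.2
  let φ : ↥A × Lat d → ↥B × Lat d := fun p =>
    (⟨fun i => p.1.1 i / 2 ^ k, hmem p.1.1 p.1.2⟩, bc k p.2 + p.1.1)
  have hφ : Function.Injective φ := by
    rintro ⟨⟨ω, hω⟩, n⟩ ⟨⟨ω', hω'⟩, n'⟩ h
    have h1 : ∀ i, ω i / 2 ^ k = ω' i / 2 ^ k := fun i =>
      congrFun (congrArg Subtype.val (congrArg Prod.fst h)) i
    have h2 : ∀ i, (2 : ℤ) ^ k * n i - 2 ^ (k + 5) + ω i = 2 ^ k * n' i - 2 ^ (k + 5) + ω' i :=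
      fun i => congrFun (congrArg Prod.snd h) i
    have h3 : ∀ i, ω i = ω' i := by
      intro i
      have e1 : (2 : ℤ) ^ k * n i + ω i = 2 ^ k * n' i + ω' i := by linarith only [h2 i]
      have e2 : ω i % 2 ^ k = ω' i % 2 ^ k := by
        have := congrArg (fun t : ℤ => t % 2 ^ k) e1
        simpa only [Int.add_emod, Int.mul_emod_right, zero_add, dvd_refl, Int.emod_emod_of_dvd] using this
      have e3 := Int.mul_ediv_add_emod (ω i) (2 ^ k)
      have e4 := Int.mul_ediv_add_emod (ω' i) (2 ^ k)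
      rw [← e3, ← e4, h1 i, e2]
    have h4 : ω = ω' := funext h3
    have h5 : n = n' := by
      funext i
      have e1 : (2 : ℤ) ^ k * n i = 2 ^ k * n' i := by linarith only [h2 i, h3 i]
      exact mul_left_cancel₀ (by positivity) e1
    subst h4
    subst h5
    rfl
  calc ∑ ω ∈ A, ∑' n : Lat d, G (bc k n + ω)
      = ∑' ω : ↥A, ∑' n : Lat d, G (bc k n + ω) := by
        rw [tsum_fintype, Finset.sum_coe_sort A (fun ω => ∑' n : Lat d, G (bc k n + ω))]
    _ = ∑' p : ↥A × Lat d, G (bc k p.2 + p.1) := ENNReal.tsum_prod.symm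
    _ = ∑' p : ↥A × Lat d, G (φ p).2 := rfl
    _ ≤ ∑' p : ↥B × Lat d, G p.2 := ENNReal.tsum_comp_le_tsum_of_injective hφ (fun p => G p.2)
    _ = ∑' c : ↥B, ∑' a : Lat d, G a := ENNReal.tsum_prod (f := fun _ a => G a)
    _ = (2 ^ d) ^ (K - k) * ∑' a, G a := by
        rw [tsum_fintype, Finset.sum_const, Finset.card_univ, Fintype.card_coe, hcard,
          nsmul_eq_mul]
        norm_cast

theorem good_origin (d : ℕ) : ∃ C : ℝ≥0, ∀ (K : ℕ) (v0 : Lat d → E d) (m0 : Lat d → ℝ),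
    (∀ a, ‖v0 a‖ ≤ m0 a) → Summable m0 →
    ∑ ω ∈ Fintype.piFinset (fun _ : Fin d => Finset.Ico (0 : ℤ) (2 ^ K)),
      ∑ k ∈ Finset.range (K + 1), ∑' n : Lat d,
        ENNReal.ofReal (eJ (fun a => v0 (a + ω)) (fun a => m0 (a + ω)) k n)
      ≤ C * 2 ^ (K * d) * ∑' a, ENNReal.ofReal (m0 a) := by
  refine ⟨(2 ^ d) ^ 7 * 8, fun K v0 m0 h _ => ?_⟩
  rw [Finset.sum_comm]
  calc ∑ k ∈ Finset.range (K + 1),
        ∑ ω ∈ Fintype.piFinset (fun _ : Fin d => Finset.Ico (0 : ℤ) (2 ^ K)), ∑' n : Lat d,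
          ENNReal.ofReal (eJ (fun a => v0 (a + ω)) (fun a => m0 (a + ω)) k n)
      ≤ ∑ k ∈ Finset.range (K + 1), (2 ^ d) ^ (K - k) * sE v0 m0 (k + 6) := by
        refine Finset.sum_le_sum fun k hk => ?_
        have hk' : k ≤ K := Nat.lt_succ_iff.1 (Finset.mem_range.1 hk)
        refine le_trans (le_of_eq ?_)
          (shift_sum (fun a => ENNReal.ofReal (ee v0 m0 (k + 6) a)) hk')
        refine Finset.sum_congr rfl fun ω _ => tsum_congr fun n => ?_
        rw [eJ, ee_shift]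
    _ ≤ (2 ^ d) ^ (K + 7) * (8 * ∑' a, ENNReal.ofReal (m0 a)) := potential' v0 h K
    _ = ((2 ^ d) ^ 7 * 8 : ℝ≥0) * 2 ^ (K * d) * ∑' a, ENNReal.ofReal (m0 a) := by
        push_cast
        rw [pow_add, mul_comm K d, pow_mul]
        ring

end Vale.Agent.P137.U
end
end

section

section

open MeasureTheory Set Filter Topology
open scoped ENNReal NNReal

namespace Vale.Agent.P137.U

open Vale.Agent.P137

variable {d : ℕ}

/-- The defect of alignment of `v` with the direction `e`. -/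
noncomputable def we (e v : E d) : ℝ := ‖v‖ - inner ℝ e v

/-- The cell `R` is a strict ancestor of one of the cells of level `k` in the block of `(k, n)`,
for some member `(k, n)` of the family `𝒬`, and `R` has level at most `kZ`. -/
def Charged (kZ : ℕ) (𝒬 : Set (ℕ × Lat d)) (R : ℕ × Lat d) : Prop :=
  R.1 ≤ kZ ∧ ∃ Q ∈ 𝒬, Q.1 < R.1 ∧ ∃ c ∈ blk Q.2, anc (R.1 - Q.1) c = R.2

theorem we_nonneg {e : E d} (he : ‖e‖ ≤ 1) (v : E d) : 0 ≤ we e v := by
  have h1 := real_inner_le_norm e v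
  have h2 : ‖e‖ * ‖v‖ ≤ 1 * ‖v‖ := mul_le_mul_of_nonneg_right he (norm_nonneg v)
  unfold we
  linarith only [h1, h2]

theorem sum_we_child (v0 : Lat d → E d) (e : E d) (k : ℕ) (m : Lat d) :
    ∑ b ∈ offs d, we e (vv v0 k (co k ((2 : ℤ) • m + b))) =
      we e (vv v0 (k + 1) (co (k + 1) m)) + dl v0 k (co (k + 1) m) := by
  have h : vv v0 (k + 1) (co (k + 1) m) =
      ∑ b ∈ offs d, vv v0 k (co (k + 1) m + (2 : ℤ) ^ k • b) := rfl
  unfold we dl
  rw [Finset.sum_sub_distrib, h, inner_sum]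
  simp_rw [co_child]
  ring

theorem anc_child (m : Lat d) {b : Lat d} (hb : b ∈ offs d) : anc 1 ((2 : ℤ) • m + b) = m := by
  funext i
  have hb' := (Fintype.mem_piFinset.1 hb) i
  simp only [anc, Pi.add_apply, Pi.smul_apply, smul_eq_mul, pow_one]
  simp only [Finset.mem_insert, Finset.mem_singleton] at hb'
  rcases hb' with h | h <;> omega

theorem pf_anc_anc (i j : ℕ) (n : Lat d) : anc i (anc j n) = anc (j + i) n := by
  funext l
  simp only [anc]
  rw [Int.ediv_ediv_of_nonneg (by positivity), pow_add]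

theorem anc_mem_blk {j : ℕ} {n c : Lat d} (h : c ∈ blk n) : anc j c ∈ blk (anc j n) := by
  unfold blk at *
  rw [Fintype.mem_piFinset] at *
  intro i
  have hi := h i
  rw [Finset.mem_Ico] at *
  have hp : (0 : ℤ) < 2 ^ j := by positivity
  have hp1 : (1 : ℤ) ≤ 2 ^ j := hp
  simp only [anc]
  constructor
  · rw [Int.le_ediv_iff_mul_le hp]
    have := Int.ediv_mul_le (n i) hp.ne'
    linarith only [hp1, this, hi.1]
  · rw [Int.ediv_lt_iff_lt_mul hp]
    have := Int.lt_ediv_add_one_mul_self (n i) hp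
    linarith only [hp1, this, hi.2]

/-- Cells of level `j` in the blocks of the members of the family of level `j`. -/
def PP (𝒬 : Set (ℕ × Lat d)) (j : ℕ) : Set (Lat d) := {c | ∃ n, (j, n) ∈ 𝒬 ∧ c ∈ blk n}

/-- Strict ancestors at level `j` of the cells of the blocks of the members of the family. -/
def AA (𝒬 : Set (ℕ × Lat d)) (j : ℕ) : Set (Lat d) :=
  {m | ∃ Q ∈ 𝒬, Q.1 < j ∧ ∃ c ∈ blk Q.2, anc (j - Q.1) c = m}

theorem anc_mem_AA {𝒬 : Set (ℕ × Lat d)} {j : ℕ} {n : Lat d} (h : n ∈ PP 𝒬 j ∪ AA 𝒬 j) :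
    anc 1 n ∈ AA 𝒬 (j + 1) := by
  rcases h with ⟨n', h1, h2⟩ | ⟨Q, hQ, h1, c, hc, h2⟩
  · exact ⟨(j, n'), h1, Nat.lt_succ_self j, n, h2, by simp only [add_tsub_cancel_left]⟩
  · refine ⟨Q, hQ, by omega, c, hc, ?_⟩
    rw [← h2, pf_anc_anc]
    congr 1
    omega

open Classical in
theorem level_step {v0 : Lat d → E d} {e : E d} (he : ‖e‖ ≤ 1) {𝒬 : Set (ℕ × Lat d)}
    (hdisj : ∀ j, Disjoint (PP 𝒬 j) (AA 𝒬 j)) (j : ℕ) :
    ∑' c, (PP 𝒬 j).indicator (fun c => ENNReal.ofReal (we e (vv v0 j (co j c)))) c +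
      ∑' c, (AA 𝒬 j).indicator (fun c => ENNReal.ofReal (we e (vv v0 j (co j c)))) c ≤
    ∑' c, (AA 𝒬 (j + 1)).indicator
        (fun c => ENNReal.ofReal (we e (vv v0 (j + 1) (co (j + 1) c)))) c +
      ∑' c, (AA 𝒬 (j + 1)).indicator
        (fun c => ENNReal.ofReal (dl v0 j (co (j + 1) c))) c := by
  rw [← ENNReal.tsum_add, ← ENNReal.tsum_add, tsum_lat_children]
  refine ENNReal.tsum_le_tsum fun m => ?_
  by_cases hm : m ∈ AA 𝒬 (j + 1)
  · rw [indicator_of_mem hm, indicator_of_mem hm, ← ENNReal.ofReal_add (we_nonneg he _)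
      (dl_nonneg _ _ _), ← sum_we_child, ENNReal.ofReal_sum_of_nonneg
      (fun b _ => we_nonneg he _)]
    refine Finset.sum_le_sum fun b _ => ?_
    by_cases h1 : (2 : ℤ) • m + b ∈ PP 𝒬 j
    · have h2 : (2 : ℤ) • m + b ∉ AA 𝒬 j := fun h => (Set.disjoint_left.1 (hdisj j)) h1 h
      rw [indicator_of_mem h1, indicator_of_notMem h2, add_zero]
    · rw [indicator_of_notMem h1, zero_add]
      exact indicator_le_self _ _ _
  · rw [indicator_of_notMem hm, indicator_of_notMem hm, add_zero]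
    refine le_of_eq (Finset.sum_eq_zero fun b hb => ?_)
    have h0 : (2 : ℤ) • m + b ∉ PP 𝒬 j ∪ AA 𝒬 j := fun h => by
      have := anc_mem_AA h
      rw [anc_child m hb] at this
      exact hm this
    rw [indicator_of_notMem (fun h => h0 (Or.inl h)),
      indicator_of_notMem (fun h => h0 (Or.inr h)), add_zero]

theorem telescope {v0 : Lat d → E d} {e : E d} (he : ‖e‖ ≤ 1) {𝒬 : Set (ℕ × Lat d)}
    (hdisj : ∀ j, Disjoint (PP 𝒬 j) (AA 𝒬 j)) (k : ℕ) :
    ∑ j ∈ Finset.range k,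
        ∑' c, (PP 𝒬 j).indicator (fun c => ENNReal.ofReal (we e (vv v0 j (co j c)))) c ≤
      ∑' c, (AA 𝒬 k).indicator (fun c => ENNReal.ofReal (we e (vv v0 k (co k c)))) c +
      ∑ j ∈ Finset.range k, ∑' c, (AA 𝒬 (j + 1)).indicator
        (fun c => ENNReal.ofReal (dl v0 j (co (j + 1) c))) c := by
  induction k with
  | zero => simp only [Finset.range_zero, Finset.sum_empty, add_zero, zero_le]
  | succ k ih =>
    rw [Finset.sum_range_succ, Finset.sum_range_succ]
    calc _ ≤ (∑' c, (AA 𝒬 k).indicator (fun c => ENNReal.ofReal (we e (vv v0 k (co k c)))) c +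
          ∑ j ∈ Finset.range k, ∑' c, (AA 𝒬 (j + 1)).indicator
            (fun c => ENNReal.ofReal (dl v0 j (co (j + 1) c))) c) +
          ∑' c, (PP 𝒬 k).indicator (fun c => ENNReal.ofReal (we e (vv v0 k (co k c)))) c :=
          add_le_add_left ih _
      _ = (∑' c, (PP 𝒬 k).indicator (fun c => ENNReal.ofReal (we e (vv v0 k (co k c)))) c +
          ∑' c, (AA 𝒬 k).indicator (fun c => ENNReal.ofReal (we e (vv v0 k (co k c)))) c) +
          ∑ j ∈ Finset.range k, ∑' c, (AA 𝒬 (j + 1)).indicator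
            (fun c => ENNReal.ofReal (dl v0 j (co (j + 1) c))) c := by ring
      _ ≤ _ := add_le_add_left (level_step he hdisj k) _
      _ = _ := by ring

open Classical in
/-- The cells whose block contains the cell `c`. -/
theorem pf_tsum_blk_le (c : Lat d) (s : Set (Lat d)) (x : ℝ≥0∞) :
    ∑' n, (if c ∈ blk n ∧ n ∈ s then x else 0) ≤ 64 ^ d * (if ∃ n ∈ s, c ∈ blk n then x else 0) := by
  classical
  by_cases h : ∃ n ∈ s, c ∈ blk n
  · rw [if_pos h]
    have hS : ∀ n : Lat d, c ∈ blk n →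
        n ∈ (Fintype.piFinset fun i => Finset.Ioc (c i - 32) (c i + 32)) := by
      intro n hn
      unfold blk at hn
      rw [Fintype.mem_piFinset] at hn ⊢
      intro i
      have := hn i
      rw [Finset.mem_Ico] at this
      rw [Finset.mem_Ioc]
      omega
    calc ∑' n, (if c ∈ blk n ∧ n ∈ s then x else 0)
        ≤ ∑' n, (if n ∈ (Fintype.piFinset fun i => Finset.Ioc (c i - 32) (c i + 32))
            then x else 0) := by
          refine ENNReal.tsum_le_tsum fun n => ?_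
          by_cases h1 : c ∈ blk n ∧ n ∈ s
          · rw [if_pos h1, if_pos (hS n h1.1)]
          · rw [if_neg h1]
            exact zero_le
      _ = ∑ n ∈ (Fintype.piFinset fun i => Finset.Ioc (c i - 32) (c i + 32)), x := by
          rw [tsum_eq_sum (s := Fintype.piFinset fun i => Finset.Ioc (c i - 32) (c i + 32))]
          · exact Finset.sum_congr rfl fun n hn => if_pos hn
          · intro n hn
            exact if_neg hn
      _ = 64 ^ d * x := by
          rw [Finset.sum_const, Fintype.card_piFinset]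
          simp only [Int.card_Ioc, nsmul_eq_mul]
          congr 1
          have : ∀ i : Fin d, (c i + 32 - (c i - 32)).toNat = 64 := fun i => by omega
          simp only [add_sub_sub_cancel, Int.reduceAdd, Int.reduceToNat, Finset.prod_const, Finset.card_univ, Fintype.card_fin, Nat.cast_pow, Nat.cast_ofNat]
  · rw [if_neg h, mul_zero]
    refine le_of_eq ?_
    rw [ENNReal.tsum_eq_zero]
    intro n
    refine if_neg fun h1 => h ⟨n, h1.2, h1.1⟩

theorem pack_parity {v0 : Lat d → E d} {m0 : Lat d → ℝ}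
    (hm0 : ∀ a, 0 ≤ m0 a) {kZ : ℕ} {nZ : Lat d} {e : E d} (he : ‖e‖ ≤ 1)
    (heZ : inner ℝ e (vJ v0 kZ nZ) = ‖vJ v0 kZ nZ‖) {𝒬 : Set (ℕ × Lat d)}
    (h1 : ∀ Q ∈ 𝒬, Q.1 ≤ kZ ∧ anc (kZ - Q.1) Q.2 = nZ)
    (h2 : ∀ Q ∈ 𝒬, ∀ Q' ∈ 𝒬, Q.1 < Q'.1 → ∀ c ∈ blk Q.2, anc (Q'.1 - Q.1) c ∉ blk Q'.2) :
    ∑' Q : 𝒬, ∑ c ∈ blk Q.1.2, ENNReal.ofReal (we e (vv v0 Q.1.1 (co Q.1.1 c))) ≤
      64 ^ d * (ENNReal.ofReal (8 * eJ v0 m0 kZ nZ) +
        ∑' R : {R : ℕ × Lat d // Charged kZ 𝒬 R},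
          ENNReal.ofReal (dl v0 (R.1.1 - 1) (co R.1.1 R.1.2))) := by
  classical
  have hdisj : ∀ j, Disjoint (PP 𝒬 j) (AA 𝒬 j) := by
    intro j
    rw [Set.disjoint_left]
    rintro m ⟨n, hn, hmn⟩ ⟨Q, hQ, hj, c, hc, hcm⟩
    have := h2 Q hQ (j, n) hn hj c hc
    exact this (by rw [hcm]; exact hmn)
  -- the left-hand side level by level
  have hL : ∑' Q : 𝒬, ∑ c ∈ blk Q.1.2, ENNReal.ofReal (we e (vv v0 Q.1.1 (co Q.1.1 c))) ≤
      64 ^ d * ∑ j ∈ Finset.range (kZ + 1),
        ∑' c, (PP 𝒬 j).indicator (fun c => ENNReal.ofReal (we e (vv v0 j (co j c)))) c := by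
    rw [tsum_subtype 𝒬 (fun Q : ℕ × Lat d => ∑ c ∈ blk Q.2,
      ENNReal.ofReal (we e (vv v0 Q.1 (co Q.1 c)))), ENNReal.tsum_prod', Finset.mul_sum]
    rw [tsum_eq_sum (s := Finset.range (kZ + 1))]
    · refine Finset.sum_le_sum fun j _ => ?_
      calc ∑' n : Lat d, 𝒬.indicator (fun Q : ℕ × Lat d => ∑ c ∈ blk Q.2,
            ENNReal.ofReal (we e (vv v0 Q.1 (co Q.1 c)))) (j, n)
          = ∑' n : Lat d, ∑' c : Lat d, (if c ∈ blk n ∧ n ∈ {n | (j, n) ∈ 𝒬} then
            ENNReal.ofReal (we e (vv v0 j (co j c))) else 0) := by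
            refine tsum_congr fun n => ?_
            by_cases hn : (j, n) ∈ 𝒬
            · rw [indicator_of_mem hn, tsum_eq_sum (s := blk n)]
              · refine Finset.sum_congr rfl fun c hc => ?_
                rw [if_pos ⟨hc, hn⟩]
              · intro c hc
                exact if_neg fun h => hc h.1
            · rw [indicator_of_notMem hn]
              symm
              rw [ENNReal.tsum_eq_zero]
              intro c
              exact if_neg fun h => hn h.2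
        _ = ∑' c : Lat d, ∑' n : Lat d, (if c ∈ blk n ∧ n ∈ {n | (j, n) ∈ 𝒬} then
            ENNReal.ofReal (we e (vv v0 j (co j c))) else 0) := ENNReal.tsum_comm
        _ ≤ ∑' c : Lat d, 64 ^ d * (if ∃ n ∈ {n | (j, n) ∈ 𝒬}, c ∈ blk n then
            ENNReal.ofReal (we e (vv v0 j (co j c))) else 0) :=
            ENNReal.tsum_le_tsum fun c => pf_tsum_blk_le c _ _
        _ = 64 ^ d * ∑' c, (PP 𝒬 j).indicator
            (fun c => ENNReal.ofReal (we e (vv v0 j (co j c)))) c := by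
            rw [ENNReal.tsum_mul_left]
            rfl
    · intro j hj
      rw [ENNReal.tsum_eq_zero]
      intro n
      refine indicator_of_notMem (fun h => hj ?_) _
      have := (h1 _ h).1
      simp only [Finset.mem_range]
      omega
  -- top level
  have hT : ∑' c, (PP 𝒬 kZ).indicator (fun c => ENNReal.ofReal (we e (vv v0 kZ (co kZ c)))) c +
      ∑' c, (AA 𝒬 kZ).indicator (fun c => ENNReal.ofReal (we e (vv v0 kZ (co kZ c)))) c ≤
      ENNReal.ofReal (8 * eJ v0 m0 kZ nZ) := by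
    rw [← ENNReal.tsum_add]
    have hsum : ∑ c ∈ blk nZ, we e (vv v0 kZ (co kZ c)) ≤ 8 * eJ v0 m0 kZ nZ := by
      have := sum_blk_sub_le (v0 := v0) hm0 kZ nZ
      unfold we
      rw [Finset.sum_sub_distrib, ← inner_sum, ← vJ_eq_sum, heZ]
      exact this
    refine le_trans ?_ (ENNReal.ofReal_le_ofReal hsum)
    rw [ENNReal.ofReal_sum_of_nonneg (fun b _ => we_nonneg he _), tsum_eq_sum (s := blk nZ)]
    · refine Finset.sum_le_sum fun c _ => ?_
      by_cases h1 : c ∈ PP 𝒬 kZ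
      · have h2 : c ∉ AA 𝒬 kZ := fun h => (Set.disjoint_left.1 (hdisj kZ)) h1 h
        rw [indicator_of_mem h1, indicator_of_notMem h2, add_zero]
      · rw [indicator_of_notMem h1, zero_add]
        exact indicator_le_self _ _ _
    · intro c hc
      have hP : c ∉ PP 𝒬 kZ := by
        rintro ⟨n, hn, hcn⟩
        have := (h1 _ hn).2
        simp only [Nat.sub_self] at this
        have h0 : anc 0 n = n := by funext i; simp [anc]
        rw [h0] at this
        exact hc (this ▸ hcn)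
      have hA : c ∉ AA 𝒬 kZ := by
        rintro ⟨Q, hQ, _, c', hc', hcc⟩
        have := anc_mem_blk (j := kZ - Q.1) hc'
        rw [(h1 _ hQ).2, hcc] at this
        exact hc this
      rw [indicator_of_notMem hP, indicator_of_notMem hA, add_zero]
  -- the defects
  have hD : ∑ j ∈ Finset.range kZ, ∑' c, (AA 𝒬 (j + 1)).indicator
        (fun c => ENNReal.ofReal (dl v0 j (co (j + 1) c))) c ≤
      ∑' R : {R : ℕ × Lat d // Charged kZ 𝒬 R},
          ENNReal.ofReal (dl v0 (R.1.1 - 1) (co R.1.1 R.1.2)) := by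
    have h3 := tsum_subtype {R : ℕ × Lat d | Charged kZ 𝒬 R}
      (fun R : ℕ × Lat d => ENNReal.ofReal (dl v0 (R.1 - 1) (co R.1 R.2)))
    change _ ≤ ∑' R : ↥{R : ℕ × Lat d | Charged kZ 𝒬 R},
      (fun R : ℕ × Lat d => ENNReal.ofReal (dl v0 (R.1 - 1) (co R.1 R.2))) R
    rw [h3, ENNReal.tsum_prod']
    calc _ = ∑ j ∈ (Finset.range kZ).map ⟨Nat.succ, Nat.succ_injective⟩,
          ∑' n, (AA 𝒬 j).indicator (fun c => ENNReal.ofReal (dl v0 (j - 1) (co j c))) n := by
          rw [Finset.sum_map]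
          rfl
      _ ≤ ∑ j ∈ (Finset.range kZ).map ⟨Nat.succ, Nat.succ_injective⟩,
          ∑' n : Lat d, {R : ℕ × Lat d | Charged kZ 𝒬 R}.indicator
            (fun R : ℕ × Lat d => ENNReal.ofReal (dl v0 (R.1 - 1) (co R.1 R.2))) (j, n) := by
          refine Finset.sum_le_sum fun j hj => ENNReal.tsum_le_tsum fun n => ?_
          rw [Finset.mem_map] at hj
          obtain ⟨i, hi, rfl⟩ := hj
          rw [Finset.mem_range] at hi
          by_cases hn : n ∈ AA 𝒬 (i + 1)
          · have : ((i + 1, n) : ℕ × Lat d) ∈ {R : ℕ × Lat d | Charged kZ 𝒬 R} := ⟨hi, hn⟩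
            simp only [Function.Embedding.coeFn_mk, Nat.succ_eq_add_one]
            rw [indicator_of_mem hn, indicator_of_mem this]
          · simp only [Function.Embedding.coeFn_mk, Nat.succ_eq_add_one]
            rw [indicator_of_notMem hn]
            exact zero_le
      _ ≤ _ := ENNReal.sum_le_tsum _
  refine hL.trans ?_
  gcongr
  rw [Finset.sum_range_succ]
  calc _ ≤ (∑' c, (AA 𝒬 kZ).indicator (fun c => ENNReal.ofReal (we e (vv v0 kZ (co kZ c)))) c +
      ∑ j ∈ Finset.range kZ, ∑' c, (AA 𝒬 (j + 1)).indicator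
        (fun c => ENNReal.ofReal (dl v0 j (co (j + 1) c))) c) +
      ∑' c, (PP 𝒬 kZ).indicator (fun c => ENNReal.ofReal (we e (vv v0 kZ (co kZ c)))) c :=
        add_le_add_left (telescope he hdisj kZ) _
    _ = (∑' c, (PP 𝒬 kZ).indicator (fun c => ENNReal.ofReal (we e (vv v0 kZ (co kZ c)))) c +
      ∑' c, (AA 𝒬 kZ).indicator (fun c => ENNReal.ofReal (we e (vv v0 kZ (co kZ c)))) c) +
      ∑ j ∈ Finset.range kZ, ∑' c, (AA 𝒬 (j + 1)).indicator
        (fun c => ENNReal.ofReal (dl v0 j (co (j + 1) c))) c := by ring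
    _ ≤ _ := add_le_add hT hD

theorem pack_family (d : ℕ) : ∃ C : ℝ≥0, ∀ (v0 : Lat d → E d) (m0 : Lat d → ℝ),
    (∀ a, 0 ≤ m0 a) → ∀ (kZ : ℕ) (nZ : Lat d) (e : E d), ‖e‖ ≤ 1 →
    inner ℝ e (vJ v0 kZ nZ) = ‖vJ v0 kZ nZ‖ → ∀ (𝒬 : Set (ℕ × Lat d)),
    (∀ Q ∈ 𝒬, Q.1 ≤ kZ ∧ anc (kZ - Q.1) Q.2 = nZ) →
    (∀ Q ∈ 𝒬, ∀ Q' ∈ 𝒬, Q.1 + 2 ≤ Q'.1 → ∀ c ∈ blk Q.2, anc (Q'.1 - Q.1) c ∉ blk Q'.2) →
    ∑' Q : 𝒬, ∑ c ∈ blk Q.1.2, ENNReal.ofReal (we e (vv v0 Q.1.1 (co Q.1.1 c))) ≤
      C * (ENNReal.ofReal (eJ v0 m0 kZ nZ) +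
        ∑' R : {R : ℕ × Lat d // Charged kZ 𝒬 R},
          ENNReal.ofReal (dl v0 (R.1.1 - 1) (co R.1.1 R.1.2))) := by
  refine ⟨16 * 64 ^ d, fun v0 m0 hm0 kZ nZ e he heZ 𝒬 h1 h2 => ?_⟩
  classical
  -- one parity class
  have key : ∀ p : ℕ, ∑' Q : ↥{Q ∈ 𝒬 | Q.1 % 2 = p}, ∑ c ∈ blk Q.1.2,
      ENNReal.ofReal (we e (vv v0 Q.1.1 (co Q.1.1 c))) ≤
      8 * 64 ^ d * (ENNReal.ofReal (eJ v0 m0 kZ nZ) +
        ∑' R : {R : ℕ × Lat d // Charged kZ 𝒬 R},
          ENNReal.ofReal (dl v0 (R.1.1 - 1) (co R.1.1 R.1.2))) := by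
    intro p
    have hp := pack_parity (v0 := v0) hm0 he heZ (𝒬 := {Q ∈ 𝒬 | Q.1 % 2 = p})
      (fun Q hQ => h1 Q hQ.1) (fun Q hQ Q' hQ' hlt c hc => h2 Q hQ.1 Q' hQ'.1
        (by have := hQ.2; have := hQ'.2; omega) c hc)
    refine hp.trans ?_
    have hsub : ∑' R : {R : ℕ × Lat d // Charged kZ {Q ∈ 𝒬 | Q.1 % 2 = p} R},
          ENNReal.ofReal (dl v0 (R.1.1 - 1) (co R.1.1 R.1.2)) ≤
        ∑' R : {R : ℕ × Lat d // Charged kZ 𝒬 R},
          ENNReal.ofReal (dl v0 (R.1.1 - 1) (co R.1.1 R.1.2)) := by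
      refine ENNReal.tsum_mono_subtype
        (fun R : ℕ × Lat d => ENNReal.ofReal (dl v0 (R.1 - 1) (co R.1 R.2)))
        (s := {R : ℕ × Lat d | Charged kZ {Q ∈ 𝒬 | Q.1 % 2 = p} R})
        (t := {R : ℕ × Lat d | Charged kZ 𝒬 R}) ?_
      rintro R ⟨hR, Q, hQ, h⟩
      exact ⟨hR, Q, hQ.1, h⟩
    calc _ ≤ 64 ^ d * (ENNReal.ofReal (8 * eJ v0 m0 kZ nZ) +
        ∑' R : {R : ℕ × Lat d // Charged kZ 𝒬 R},
          ENNReal.ofReal (dl v0 (R.1.1 - 1) (co R.1.1 R.1.2))) := by (clear * - hsub; gcongr)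
      _ ≤ 64 ^ d * (8 * ENNReal.ofReal (eJ v0 m0 kZ nZ) +
        8 * ∑' R : {R : ℕ × Lat d // Charged kZ 𝒬 R},
          ENNReal.ofReal (dl v0 (R.1.1 - 1) (co R.1.1 R.1.2))) := by
          gcongr
          · rw [ENNReal.ofReal_mul (by norm_num)]
            simp
          · exact le_mul_of_one_le_left (zero_le) (by norm_num)
      _ = _ := by ring
  have hsplit : ∑' Q : 𝒬, ∑ c ∈ blk Q.1.2, ENNReal.ofReal (we e (vv v0 Q.1.1 (co Q.1.1 c))) ≤
      ∑' Q : ↥{Q ∈ 𝒬 | Q.1 % 2 = 0}, ∑ c ∈ blk Q.1.2,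
        ENNReal.ofReal (we e (vv v0 Q.1.1 (co Q.1.1 c))) +
      ∑' Q : ↥{Q ∈ 𝒬 | Q.1 % 2 = 1}, ∑ c ∈ blk Q.1.2,
        ENNReal.ofReal (we e (vv v0 Q.1.1 (co Q.1.1 c))) := by
    have hu : 𝒬 = {Q ∈ 𝒬 | Q.1 % 2 = 0} ∪ {Q ∈ 𝒬 | Q.1 % 2 = 1} := by
      ext Q
      simp only [mem_union, Set.mem_ofPred_eq]
      constructor
      · intro h
        rcases Nat.mod_two_eq_zero_or_one Q.1 with h' | h'
        · exact Or.inl ⟨h, h'⟩
        · exact Or.inr ⟨h, h'⟩
      · rintro (h | h) <;> exact h.1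
    have := ENNReal.tsum_union_le (fun Q : ℕ × Lat d => ∑ c ∈ blk Q.2,
      ENNReal.ofReal (we e (vv v0 Q.1 (co Q.1 c)))) {Q ∈ 𝒬 | Q.1 % 2 = 0} {Q ∈ 𝒬 | Q.1 % 2 = 1}
    rw [← hu] at this
    exact this
  refine hsplit.trans ((add_le_add (key 0) (key 1)).trans (le_of_eq ?_))
  push_cast
  ring

end Vale.Agent.P137.U
end
end

section

section

/-!
# Track U: arithmetic of ancestors
-/

open Set

namespace Vale.Agent.P137.U

open Vale.Agent.P137

variable {d : ℕ}

theorem anc_zero (n : Lat d) : anc 0 n = n := by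
  funext i; simp [anc]

theorem anc_anc (i j : ℕ) (n : Lat d) : anc j (anc i n) = anc (i + j) n := by
  funext t
  simp only [anc]
  rw [Int.ediv_ediv_of_nonneg (by positivity), pow_add]

theorem anc_mono_dist {j : ℕ} {n m : Lat d} {c c' : ℤ} (h : ∀ i, |n i - m i| ≤ c)
    (hc : c + 2 ^ j - 1 ≤ 2 ^ j * c') (i : Fin d) : |anc j n i - anc j m i| ≤ c' := by
  have h2 : (0 : ℤ) < 2 ^ j := by positivity
  have h1 := abs_le.1 (h i)
  simp only [anc]
  have e1 := Int.mul_ediv_add_emod (n i) (2 ^ j)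
  have e2 := Int.mul_ediv_add_emod (m i) (2 ^ j)
  have f1 := Int.emod_nonneg (n i) h2.ne'
  have f2 := Int.emod_nonneg (m i) h2.ne'
  have g1 := Int.emod_lt_of_pos (n i) h2
  have g2 := Int.emod_lt_of_pos (m i) h2
  set q1 := n i / 2 ^ j
  set q2 := m i / 2 ^ j
  set r1 := n i % 2 ^ j
  set r2 := m i % 2 ^ j
  rw [abs_le]
  constructor
  · by_contra hcon
    push Not at hcon
    have : q1 - q2 ≤ -c' - 1 := by omega
    have : 2 ^ j * (q1 - q2) ≤ 2 ^ j * (-c' - 1) := mul_le_mul_of_nonneg_left this h2.le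
    linarith only [hc, h1, g1, e1, f2, g2, e2, this]
  · by_contra hcon
    push Not at hcon
    have : c' + 1 ≤ q1 - q2 := by omega
    have : 2 ^ j * (c' + 1) ≤ 2 ^ j * (q1 - q2) := mul_le_mul_of_nonneg_left this h2.le
    linarith only [hc, h1, f1, e1, f2, g2, e2, this]

/-- Points with the same ancestor. -/
theorem finite_anc (j : ℕ) (m : Lat d) : {n : Lat d | anc j n = m}.Finite := by
  apply (Set.finite_Icc (fun i => 2 ^ j * m i) (fun i => 2 ^ j * m i + 2 ^ j)).subset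
  intro n hn
  have h2 : (0 : ℤ) < 2 ^ j := by positivity
  have hn' : ∀ i, n i / 2 ^ j = m i := fun i => congrFun hn i
  constructor
  · intro i
    have := Int.mul_ediv_add_emod (n i) (2 ^ j)
    have f1 := Int.emod_nonneg (n i) h2.ne'
    rw [hn'] at this
    simp only
    linarith
  · intro i
    have := Int.mul_ediv_add_emod (n i) (2 ^ j)
    have f1 := Int.emod_lt_of_pos (n i) h2
    rw [hn'] at this
    simp only
    linarith only [this, f1]

end Vale.Agent.P137.U
end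
end

section

section

/-!
# Track U: summation of the packing lemma over a family of outer cells
-/

open MeasureTheory Set
open scoped ENNReal NNReal

namespace Vale.Agent.P137.U

open Vale.Agent.P137

variable {d : ℕ}

open Classical in
theorem cellSum_eq (K : ℕ) (F : ℕ → Lat d → ℝ≥0∞) :
    ∑ k ∈ Finset.range (K + 1), ∑' n, F k n =
      ∑' Q : ℕ × Lat d, if Q.1 ≤ K then F Q.1 Q.2 else 0 := by
  rw [ENNReal.tsum_prod (f := fun k n => if k ≤ K then F k n else 0)]
  rw [tsum_eq_sum (s := Finset.range (K + 1))]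
  · refine Finset.sum_congr rfl fun k hk => ?_
    have : k ≤ K := by simpa [Nat.lt_succ_iff] using hk
    simp [this]
  · intro k hk
    have : ¬ k ≤ K := by simpa only [not_le, Finset.mem_range, Order.lt_add_one_iff] using hk
    simp [this]

/-- The box of radius `17` around a lattice point. -/
noncomputable def box17 (n : Lat d) : Finset (Lat d) :=
  Fintype.piFinset fun i => Finset.Icc (n i - 17) (n i + 17)

theorem card_box17 (n : Lat d) : (box17 n).card = 35 ^ d := by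
  unfold box17
  rw [Fintype.card_piFinset]
  have : ∀ i : Fin d, (Finset.Icc (n i - 17) (n i + 17)).card = 35 := by
    intro i
    rw [Int.card_Icc]
    have : n i + 17 + 1 - (n i - 17) = 35 := by ring
    rw [this]; rfl
  simp only [this, Finset.prod_const, Finset.card_univ, Fintype.card_fin]

theorem mem_blk {n c : Lat d} : c ∈ blk n ↔ ∀ i, n i - 32 ≤ c i ∧ c i < n i + 32 := by
  simp only [blk, Fintype.mem_piFinset, Finset.mem_Ico, tsub_le_iff_right]

theorem anc_mem_box17 {n c : Lat d} (hc : c ∈ blk n) {j : ℕ} (hj : 0 < j) :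
    anc j n ∈ box17 (anc j c) := by
  unfold box17
  rw [Fintype.mem_piFinset]
  intro i
  rw [Finset.mem_Icc]
  have h1 : ∀ i, |n i - c i| ≤ 32 := by
    intro i
    have := (mem_blk.1 hc) i
    rw [abs_le]
    constructor <;> linarith only [this.2, this.1]
  have h2 := anc_mono_dist (j := j) (c' := 17) h1 (by
    have : (2 : ℤ) ^ 1 ≤ 2 ^ j := pow_le_pow_right₀ (by norm_num) hj
    linarith only [this]) i
  rw [abs_le] at h2
  constructor <;> linarith only [h2]

open Classical in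
theorem fiber_sum (d : ℕ) : ∃ C : ℝ≥0, ∀ (v0 : Lat d → E d) (m0 : Lat d → ℝ), (∀ a, 0 ≤ m0 a) →
    ∀ (K : ℕ) (CT : Set (ℕ × Lat d)) (z ζ : ℕ × Lat d → ℕ × Lat d) (e : ℕ × Lat d → E d),
    (∀ Z, ‖e Z‖ ≤ 1) → (∀ Z, inner ℝ (e Z) (vJ v0 Z.1 Z.2) = ‖vJ v0 Z.1 Z.2‖) →
    (∀ Q ∈ CT, (z Q).1 ≤ K ∧ Q.1 ≤ (z Q).1 ∧ anc ((z Q).1 - Q.1) Q.2 = (z Q).2) →
    (∀ Q ∈ CT, ∀ Q' ∈ CT, z Q = z Q' → Q.1 + 2 ≤ Q'.1 →
      ∀ c ∈ blk Q.2, anc (Q'.1 - Q.1) c ∉ blk Q'.2) →
    (∀ Q ∈ CT, ∀ j, Q.1 < j → j ≤ (z Q).1 → ζ (j, anc (j - Q.1) Q.2) = z Q) →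
    ∑' Q : ℕ × Lat d, (if Q ∈ CT then
      ∑ c ∈ blk Q.2, ENNReal.ofReal (we (e (z Q)) (vv v0 Q.1 (co Q.1 c))) else 0) ≤
      C * ∑ k ∈ Finset.range (K + 1), ∑' n, ENNReal.ofReal (eJ v0 m0 k n) := by
  obtain ⟨C, hC⟩ := pack_family d
  refine ⟨C * (1 + 35 ^ d * 8), ?_⟩
  intro v0 m0 hm K CT z ζ e he hJ h1 h2 h3
  set dl' : ℕ × Lat d → ℝ≥0∞ := fun R => ENNReal.ofReal (dl v0 (R.1 - 1) (co R.1 R.2)) with hdl
  set G : ℕ × Lat d → ℕ × Lat d → ℝ≥0∞ := fun Z Q =>
    ∑ c ∈ blk Q.2, ENNReal.ofReal (we (e Z) (vv v0 Q.1 (co Q.1 c))) with hG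
  -- fibres
  have step1 : ∑' Q : ℕ × Lat d, (if Q ∈ CT then G (z Q) Q else 0) =
      ∑' Z : ℕ × Lat d, ∑' Q : ℕ × Lat d, (if Q ∈ CT ∧ z Q = Z then G Z Q else 0) := by
    rw [ENNReal.tsum_comm]
    refine tsum_congr fun Q => ?_
    rw [tsum_eq_single (z Q)]
    · simp
    · intro Z hZ
      have : ¬ (Q ∈ CT ∧ z Q = Z) := fun h => hZ h.2.symm
      simp [this]
  have step2 : ∀ Z : ℕ × Lat d, ∑' Q : ℕ × Lat d, (if Q ∈ CT ∧ z Q = Z then G Z Q else 0) ≤
      C * ((if Z.1 ≤ K then ENNReal.ofReal (eJ v0 m0 Z.1 Z.2) else 0) +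
        ∑' R : ℕ × Lat d, if Z.1 ≤ K ∧ Charged Z.1 {Q | Q ∈ CT ∧ z Q = Z} R then
          dl' R else 0) := by
    intro Z
    by_cases hZ : Z.1 ≤ K
    · have hp := hC v0 m0 hm Z.1 Z.2 (e Z) (he Z) (hJ Z) {Q | Q ∈ CT ∧ z Q = Z} (by
          rintro Q ⟨hQ, rfl⟩
          exact ⟨(h1 Q hQ).2.1, (h1 Q hQ).2.2⟩) (by
          rintro Q ⟨hQ, hQz⟩ Q' ⟨hQ', hQz'⟩ hlt
          exact h2 Q hQ Q' hQ' (hQz.trans hQz'.symm) hlt)
      rw [tsum_subtype {Q | Q ∈ CT ∧ z Q = Z} (fun Q => G Z Q)] at hp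
      have hs := tsum_subtype {R | Charged Z.1 {Q | Q ∈ CT ∧ z Q = Z} R} dl'
      simp only [hZ, if_true, true_and]
      refine le_trans (le_of_eq ?_) (hp.trans (le_of_eq ?_))
      · refine tsum_congr fun Q => ?_
        simp [Set.indicator]
      · congr 2
    · have : ∀ Q, ¬ (Q ∈ CT ∧ z Q = Z) := by
        rintro Q ⟨hQ, rfl⟩
        exact hZ (h1 Q hQ).1
      simp only [this, ↓reduceIte, tsum_zero, hZ, ofPred_false, false_and, add_zero, mul_zero, Std.le_refl]
  rw [show (∑' Q : ℕ × Lat d, (if Q ∈ CT then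
      ∑ c ∈ blk Q.2, ENNReal.ofReal (we (e (z Q)) (vv v0 Q.1 (co Q.1 c))) else 0)) =
      ∑' Q : ℕ × Lat d, (if Q ∈ CT then G (z Q) Q else 0) from rfl, step1]
  refine (ENNReal.tsum_le_tsum step2).trans ?_
  rw [ENNReal.tsum_mul_left, ENNReal.tsum_add, ← cellSum_eq K (fun k n =>
    ENNReal.ofReal (eJ v0 m0 k n))]
  set T0 := ∑ k ∈ Finset.range (K + 1), ∑' n, ENNReal.ofReal (eJ v0 m0 k n) with hT0
  have step3 : ∑' Z : ℕ × Lat d, ∑' R : ℕ × Lat d,
      (if Z.1 ≤ K ∧ Charged Z.1 {Q | Q ∈ CT ∧ z Q = Z} R then dl' R else 0) ≤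
      35 ^ d * 8 * T0 := by
    rw [ENNReal.tsum_comm]
    rw [hT0, cellSum_eq K (fun k n => ENNReal.ofReal (eJ v0 m0 k n)), ← ENNReal.tsum_mul_left]
    refine ENNReal.tsum_le_tsum fun R => ?_
    by_cases hR : 0 < R.1 ∧ R.1 ≤ K
    · have hsub : ∀ Z, (Z.1 ≤ K ∧ Charged Z.1 {Q | Q ∈ CT ∧ z Q = Z} R) →
          Z ∈ (box17 R.2).image (fun m => ζ (R.1, m)) := by
        rintro Z ⟨hZ, hRZ, Q, ⟨hQ, rfl⟩, hlt, c, hc, hcR⟩
        rw [Finset.mem_image]
        refine ⟨anc (R.1 - Q.1) Q.2, ?_, h3 Q hQ R.1 hlt hRZ⟩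
        rw [← hcR]
        exact anc_mem_box17 hc (by omega)
      calc ∑' Z : ℕ × Lat d, (if Z.1 ≤ K ∧ Charged Z.1 {Q | Q ∈ CT ∧ z Q = Z} R then
              dl' R else 0)
          ≤ ∑' Z : ℕ × Lat d, (if Z ∈ (box17 R.2).image (fun m => ζ (R.1, m)) then
              dl' R else 0) := by
            refine ENNReal.tsum_le_tsum fun Z => ?_
            by_cases hZ : Z.1 ≤ K ∧ Charged Z.1 {Q | Q ∈ CT ∧ z Q = Z} R
            · rw [if_pos hZ, if_pos (hsub Z hZ)]
            · rw [if_neg hZ]; exact zero_le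
        _ = ∑ Z ∈ (box17 R.2).image (fun m => ζ (R.1, m)), dl' R := by
            rw [tsum_eq_sum (s := (box17 R.2).image (fun m => ζ (R.1, m)))]
            · refine Finset.sum_congr rfl fun Z hZ => ?_
              rw [if_pos hZ]
            · intro Z hZ
              rw [if_neg hZ]
        _ = ((box17 R.2).image (fun m => ζ (R.1, m))).card * dl' R := by
            rw [Finset.sum_const, nsmul_eq_mul]
        _ ≤ 35 ^ d * dl' R := by
            gcongr
            have : ((box17 R.2).image (fun m => ζ (R.1, m))).card ≤ 35 ^ d :=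
              Finset.card_image_le.trans (card_box17 R.2).le
            exact_mod_cast this
        _ ≤ 35 ^ d * (8 * ENNReal.ofReal (eJ v0 m0 R.1 R.2)) := by
            gcongr
            obtain ⟨k, hk⟩ : ∃ k, R.1 = k + 1 := ⟨R.1 - 1, by omega⟩
            have hle := dl_le_eJ (v0 := v0) hm k R.2
            rw [hdl]
            simp only [hk, Nat.add_sub_cancel]
            calc ENNReal.ofReal (dl v0 k (co (k + 1) R.2))
                ≤ ENNReal.ofReal (8 * eJ v0 m0 (k + 1) R.2) := ENNReal.ofReal_le_ofReal hle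
              _ = 8 * ENNReal.ofReal (eJ v0 m0 (k + 1) R.2) := by
                  rw [ENNReal.ofReal_mul (by norm_num)]
                  congr 1
                  simp
        _ = 35 ^ d * 8 * (if R.1 ≤ K then ENNReal.ofReal (eJ v0 m0 R.1 R.2) else 0) := by
            rw [if_pos hR.2, mul_assoc]
    · have : ∀ Z : ℕ × Lat d, ¬ (Z.1 ≤ K ∧ Charged Z.1 {Q | Q ∈ CT ∧ z Q = Z} R) := by
        rintro Z ⟨hZ, hRZ, Q, ⟨hQ, rfl⟩, hlt, -⟩
        exact hR ⟨by omega, hRZ.trans hZ⟩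
      simp only [this, ↓reduceIte, tsum_zero, mul_ite, mul_zero, zero_le]
  calc (C : ℝ≥0∞) * (T0 + ∑' Z : ℕ × Lat d, ∑' R : ℕ × Lat d,
      (if Z.1 ≤ K ∧ Charged Z.1 {Q | Q ∈ CT ∧ z Q = Z} R then dl' R else 0))
      ≤ C * (T0 + 35 ^ d * 8 * T0) := by (clear * - step3; gcongr)
    _ = ((C * (1 + 35 ^ d * 8) : ℝ≥0) : ℝ≥0∞) * T0 := by
        push_cast
        ring

end Vale.Agent.P137.U
end
end

section

section

/-!
# Track U: stopping trees, roots and tops
-/

open Set

namespace Vale.Agent.P137.U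

open Vale.Agent.P137

variable {d : ℕ}

/-- Direction of the block vector, with a default value. -/
noncomputable def dirv (hd : 0 < d) (v : E d) : E d :=
  if v = 0 then EuclideanSpace.single ⟨0, hd⟩ 1 else ‖v‖⁻¹ • v

theorem norm_dirv (hd : 0 < d) (v : E d) : ‖dirv hd v‖ = 1 := by
  unfold dirv
  split_ifs with h
  · simp
  · rw [norm_smul, norm_inv, norm_norm, inv_mul_cancel₀ (norm_ne_zero_iff.2 h)]

theorem inner_dirv (hd : 0 < d) (v : E d) : inner ℝ (dirv hd v) v = ‖v‖ := by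
  unfold dirv
  split_ifs with h
  · simp [h]
  · rw [real_inner_smul_left, real_inner_self_eq_norm_sq, sq, ← mul_assoc,
      inv_mul_cancel₀ (norm_ne_zero_iff.2 h), one_mul]

/-- Nearly parallel to `e`. -/
def Good (v0 : Lat d → E d) (e : E d) (k : ℕ) (n : Lat d) : Prop :=
  15 / 16 * ‖vJ v0 k n‖ ≤ inner ℝ e (vJ v0 k n)

/-- Direction of the top cell `T`. -/
noncomputable def dirT (hd : 0 < d) (v0 : Lat d → E d) (T : ℕ × Lat d) : E d :=
  dirv hd (vJ v0 T.1 T.2)

/-- Member of the tree of `T`: all cells between the cell and `T` are good. -/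
def InW (hd : 0 < d) (v0 : Lat d → E d) (T : ℕ × Lat d) (k : ℕ) (n : Lat d) : Prop :=
  k ≤ T.1 ∧ anc (T.1 - k) n = T.2 ∧
    ∀ j, k ≤ j → j ≤ T.1 → Good v0 (dirT hd v0 T) j (anc (j - k) n)

/-- Covered by the tree of `T`. -/
def Cov (hd : 0 < d) (v0 : Lat d → E d) (T : ℕ × Lat d) (k : ℕ) (n : Lat d) : Prop :=
  k ≤ T.1 ∧ anc (T.1 - k) n = T.2 ∧ ∃ n', InW hd v0 T k n' ∧ ∀ i, |n i - n' i| ≤ 100

theorem inW_self (hd : 0 < d) (v0 : Lat d → E d) (T : ℕ × Lat d) : InW hd v0 T T.1 T.2 := by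
  refine ⟨le_rfl, by simp [anc_zero], fun j h1 h2 => ?_⟩
  have : j = T.1 := le_antisymm h2 h1
  subst this
  simp only [tsub_self, anc_zero, Good, dirT, inner_dirv]
  linarith only [norm_nonneg (vJ v0 T.1 T.2)]

theorem InW.cov {hd : 0 < d} {v0 : Lat d → E d} {T : ℕ × Lat d} {k : ℕ} {n : Lat d}
    (h : InW hd v0 T k n) : Cov hd v0 T k n :=
  ⟨h.1, h.2.1, n, h, fun i => by simp only [sub_self, abs_zero, Nat.ofNat_nonneg]⟩

theorem InW.up {hd : 0 < d} {v0 : Lat d → E d} {T : ℕ × Lat d} {k : ℕ} {n : Lat d}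
    (h : InW hd v0 T k n) {j : ℕ} (hj : k ≤ j) (hjT : j ≤ T.1) :
    InW hd v0 T j (anc (j - k) n) := by
  refine ⟨hjT, ?_, fun i hi hiT => ?_⟩
  · rw [anc_anc, ← h.2.1]
    congr 1
    omega
  · rw [anc_anc]
    have : j - k + (i - j) = i - k := by omega
    rw [this]
    exact h.2.2 i (hj.trans hi) hiT

theorem Cov.up {hd : 0 < d} {v0 : Lat d → E d} {T : ℕ × Lat d} {k : ℕ} {n : Lat d}
    (h : Cov hd v0 T k n) {j : ℕ} (hj : k ≤ j) (hjT : j ≤ T.1) :
    Cov hd v0 T j (anc (j - k) n) := by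
  obtain ⟨h1, h2, n', h3, h4⟩ := h
  refine ⟨hjT, ?_, anc (j - k) n', h3.up hj hjT, ?_⟩
  · rw [anc_anc, ← h2]
    congr 1
    omega
  · rcases Nat.eq_zero_or_pos (j - k) with h0 | h0
    · simpa only [h0, anc_zero] using h4
    · apply anc_mono_dist h4
      have : (2 : ℤ) ^ 1 ≤ 2 ^ (j - k) := pow_le_pow_right₀ (by norm_num) h0
      linarith only [this]

open Classical in
/-- Root of the cell `(K - j, n)`. -/
noncomputable def rootAux (hd : 0 < d) (v0 : Lat d → E d) (K : ℕ) : ℕ → Lat d → ℕ × Lat d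
  | 0, n => (K, n)
  | j + 1, n =>
    if Cov hd v0 (rootAux hd v0 K j (anc 1 n)) (K - (j + 1)) n then
      rootAux hd v0 K j (anc 1 n)
    else (K - (j + 1), n)

/-- Root of the cell `(k, n)`. -/
noncomputable def root (hd : 0 < d) (v0 : Lat d → E d) (K : ℕ) (k : ℕ) (n : Lat d) : ℕ × Lat d :=
  rootAux hd v0 K (K - k) n

theorem root_top (hd : 0 < d) (v0 : Lat d → E d) (K : ℕ) (n : Lat d) :
    root hd v0 K K n = (K, n) := by
  simp only [root, tsub_self, rootAux]

open Classical in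
theorem root_of_lt (hd : 0 < d) (v0 : Lat d → E d) {K k : ℕ} (hk : k < K) (n : Lat d) :
    root hd v0 K k n = if Cov hd v0 (root hd v0 K (k + 1) (anc 1 n)) k n then
      root hd v0 K (k + 1) (anc 1 n) else (k, n) := by
  unfold root
  have h1 : K - k = (K - (k + 1)) + 1 := by omega
  have h2 : K - ((K - (k + 1)) + 1) = k := by omega
  rw [h1, rootAux, h2]

theorem root_spec (hd : 0 < d) (v0 : Lat d → E d) {K : ℕ} (j : ℕ) : ∀ (k : ℕ) (n : Lat d),
    k + j = K → Cov hd v0 (root hd v0 K k n) k n ∧ (root hd v0 K k n).1 ≤ K ∧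
      root hd v0 K (root hd v0 K k n).1 (root hd v0 K k n).2 = root hd v0 K k n := by
  induction j with
  | zero =>
    intro k n h
    have : k = K := by omega
    subst this
    rw [root_top]
    exact ⟨(inW_self hd v0 (k, n)).cov, le_rfl, root_top hd v0 k n⟩
  | succ j ih =>
    intro k n h
    have hk : k < K := by omega
    obtain ⟨i1, i2, i3⟩ := ih (k + 1) (anc 1 n) (by omega)
    by_cases hc : Cov hd v0 (root hd v0 K (k + 1) (anc 1 n)) k n
    · have e : root hd v0 K k n = root hd v0 K (k + 1) (anc 1 n) := by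
        rw [root_of_lt hd v0 hk, if_pos hc]
      rw [e]
      exact ⟨hc, i2, i3⟩
    · have e : root hd v0 K k n = (k, n) := by
        rw [root_of_lt hd v0 hk, if_neg hc]
      rw [e]
      exact ⟨(inW_self hd v0 (k, n)).cov, hk.le, e⟩

theorem root_cov (hd : 0 < d) (v0 : Lat d → E d) {K k : ℕ} (hk : k ≤ K) (n : Lat d) :
    Cov hd v0 (root hd v0 K k n) k n := (root_spec hd v0 (K - k) k n (by omega)).1

theorem root_le (hd : 0 < d) (v0 : Lat d → E d) {K k : ℕ} (hk : k ≤ K) (n : Lat d) :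
    (root hd v0 K k n).1 ≤ K := (root_spec hd v0 (K - k) k n (by omega)).2.1

theorem root_root (hd : 0 < d) (v0 : Lat d → E d) {K k : ℕ} (hk : k ≤ K) (n : Lat d) :
    root hd v0 K (root hd v0 K k n).1 (root hd v0 K k n).2 = root hd v0 K k n :=
  (root_spec hd v0 (K - k) k n (by omega)).2.2

/-- Tops are the fixed points of the root function. -/
def IsTop (hd : 0 < d) (v0 : Lat d → E d) (K : ℕ) (T : ℕ × Lat d) : Prop :=
  T.1 ≤ K ∧ root hd v0 K T.1 T.2 = T

theorem isTop_root (hd : 0 < d) (v0 : Lat d → E d) {K k : ℕ} (hk : k ≤ K) (n : Lat d) :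
    IsTop hd v0 K (root hd v0 K k n) := ⟨root_le hd v0 hk n, root_root hd v0 hk n⟩

theorem root_of_cov (hd : 0 < d) (v0 : Lat d → E d) {K : ℕ} {T : ℕ × Lat d}
    (hT : IsTop hd v0 K T) (j : ℕ) : ∀ (k : ℕ) (n : Lat d), k + j = T.1 →
    Cov hd v0 T k n → root hd v0 K k n = T := by
  induction j with
  | zero =>
    intro k n h hc
    have h0 : k = T.1 := by omega
    subst h0
    have := hc.2.1
    simp only [tsub_self, anc_zero] at this
    rw [this]
    exact hT.2
  | succ j ih =>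
    intro k n h hc
    have hk : k < K := by have := hT.1; omega
    have h1 : Cov hd v0 T (k + 1) (anc (k + 1 - k) n) := hc.up (by omega) (by omega)
    have h2 : k + 1 - k = 1 := by omega
    rw [h2] at h1
    have h3 := ih (k + 1) (anc 1 n) (by omega) h1
    rw [root_of_lt hd v0 hk, h3, if_pos hc]

theorem root_eq_of_cov (hd : 0 < d) (v0 : Lat d → E d) {K : ℕ} {T : ℕ × Lat d}
    (hT : IsTop hd v0 K T) {k : ℕ} {n : Lat d} (hc : Cov hd v0 T k n) :
    root hd v0 K k n = T :=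
  root_of_cov hd v0 hT (T.1 - k) k n (by have := hc.1; omega) hc

theorem finite_inW (hd : 0 < d) (v0 : Lat d → E d) (T : ℕ × Lat d) :
    {Q : ℕ × Lat d | InW hd v0 T Q.1 Q.2}.Finite := by
  have : {Q : ℕ × Lat d | InW hd v0 T Q.1 Q.2} ⊆
      ⋃ k ∈ Finset.range (T.1 + 1), (Prod.mk k) '' {n : Lat d | anc (T.1 - k) n = T.2} := by
    rintro ⟨k, n⟩ h
    simp only [mem_iUnion, Finset.mem_range]
    exact ⟨k, by have := h.1; simp at this; omega, n, h.2.1, rfl⟩
  refine Set.Finite.subset ?_ this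
  exact Set.Finite.biUnion (Finset.finite_toSet _) fun k _ => (finite_anc _ _).image _

/-- The tree of `T` as a finite set. -/
noncomputable def treeW (hd : 0 < d) (v0 : Lat d → E d) (T : ℕ × Lat d) : Finset (ℕ × Lat d) :=
  (finite_inW hd v0 T).toFinset

theorem mem_treeW {hd : 0 < d} {v0 : Lat d → E d} {T Q : ℕ × Lat d} :
    Q ∈ treeW hd v0 T ↔ InW hd v0 T Q.1 Q.2 := by
  simp only [treeW, Finite.mem_toFinset, mem_ofPred_eq]

theorem isTree_treeW (hd : 0 < d) (v0 : Lat d → E d) (T : ℕ × Lat d) :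
    IsTree v0 T.1 T.2 (dirT hd v0 T) (treeW hd v0 T) where
  norm_e := norm_dirv hd _
  top_mem := mem_treeW.2 (inW_self hd v0 T)
  le_top Q hQ := (mem_treeW.1 hQ).1
  anc_top Q hQ := (mem_treeW.1 hQ).2.1
  parent Q hQ hlt := by
    refine mem_treeW.2 ?_
    have := (mem_treeW.1 hQ).up (j := Q.1 + 1) (by omega) (by omega)
    have h2 : Q.1 + 1 - Q.1 = 1 := by omega
    rw [h2] at this
    exact this
  cone Q hQ := by
    have := (mem_treeW.1 hQ).2.2 Q.1 le_rfl (mem_treeW.1 hQ).1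
    simpa only [ge_iff_le, Good, tsub_self, anc_zero] using this

end Vale.Agent.P137.U
end
end

section

section

/-!
# Track U: the forest of stopping trees
-/

open MeasureTheory Set
open scoped ENNReal NNReal

namespace Vale.Agent.P137.U

open Vale.Agent.P137

variable {d : ℕ}

open Classical in
/-- Level of the largest cell above `(k, n)` which is not in the tree of `T`. -/
noncomputable def stopL (hd : 0 < d) (v0 : Lat d → E d) (T : ℕ × Lat d) (k : ℕ) (n : Lat d) : ℕ :=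
  Nat.findGreatest (fun j => k ≤ j ∧ ¬ InW hd v0 T j (anc (j - k) n)) T.1

/-- The largest cell above `(k, n)` which is not in the tree of `T`. -/
noncomputable def stopC (hd : 0 < d) (v0 : Lat d → E d) (T : ℕ × Lat d) (k : ℕ) (n : Lat d) :
    ℕ × Lat d := (stopL hd v0 T k n, anc (stopL hd v0 T k n - k) n)

theorem stopL_spec (hd : 0 < d) (v0 : Lat d → E d) {T : ℕ × Lat d} {k : ℕ} {n : Lat d}
    (hk : k ≤ T.1) (ha : anc (T.1 - k) n = T.2) (hn : ¬ InW hd v0 T k n) :
    k ≤ stopL hd v0 T k n ∧ stopL hd v0 T k n < T.1 ∧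
      ¬ InW hd v0 T (stopL hd v0 T k n) (anc (stopL hd v0 T k n - k) n) ∧
      ∀ j, stopL hd v0 T k n < j → j ≤ T.1 → InW hd v0 T j (anc (j - k) n) := by
  classical
  have hP : (fun j => k ≤ j ∧ ¬ InW hd v0 T j (anc (j - k) n)) k := by
    refine ⟨le_rfl, ?_⟩
    simpa [anc_zero] using hn
  have h1 := Nat.findGreatest_spec (P := fun j => k ≤ j ∧ ¬ InW hd v0 T j (anc (j - k) n)) hk hP
  have h1' : k ≤ stopL hd v0 T k n ∧
      ¬ InW hd v0 T (stopL hd v0 T k n) (anc (stopL hd v0 T k n - k) n) := h1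
  have h2 : stopL hd v0 T k n ≤ T.1 := Nat.findGreatest_le _
  refine ⟨h1'.1, ?_, h1'.2, fun j hj hjT => ?_⟩
  · rcases lt_or_eq_of_le h2 with h | h
    · exact h
    · exfalso
      apply h1'.2
      rw [h, ha]
      exact inW_self hd v0 T
  · have h3 := Nat.findGreatest_is_greatest
      (P := fun j => k ≤ j ∧ ¬ InW hd v0 T j (anc (j - k) n)) hj hjT
    by_contra hcon
    exact h3 ⟨h1'.1.trans hj.le, hcon⟩

theorem stopL_up (hd : 0 < d) (v0 : Lat d → E d) {T : ℕ × Lat d} {k : ℕ} {n : Lat d}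
    (hk : k ≤ T.1) (ha : anc (T.1 - k) n = T.2) (hn : ¬ InW hd v0 T k n) {i : ℕ} (hi : k ≤ i)
    (his : i ≤ stopL hd v0 T k n) :
    stopL hd v0 T i (anc (i - k) n) = stopL hd v0 T k n := by
  classical
  obtain ⟨s1, s2, s3, s4⟩ := stopL_spec hd v0 hk ha hn
  apply le_antisymm
  · by_contra hcon
    push Not at hcon
    have hle : stopL hd v0 T i (anc (i - k) n) ≤ T.1 := Nat.findGreatest_le _
    have hne : stopL hd v0 T i (anc (i - k) n) ≠ 0 := by omega
    have h1 := Nat.findGreatest_of_ne_zero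
      (P := fun j => i ≤ j ∧ ¬ InW hd v0 T j (anc (j - i) (anc (i - k) n))) (n := T.1)
      (m := stopL hd v0 T i (anc (i - k) n)) rfl hne
    have h2 := s4 _ hcon hle
    rw [anc_anc] at h1
    have h3 : i - k + (stopL hd v0 T i (anc (i - k) n) - i) =
      stopL hd v0 T i (anc (i - k) n) - k := by omega
    rw [h3] at h1
    exact h1.2 h2
  · apply Nat.le_findGreatest s2.le
    refine ⟨his, ?_⟩
    rw [anc_anc]
    have h3 : i - k + (stopL hd v0 T k n - i) = stopL hd v0 T k n - k := by omega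
    rw [h3]
    exact s3

/-- At the stopped cell the block vector makes a large angle with the direction of the tree. -/
theorem not_good_stopC (hd : 0 < d) (v0 : Lat d → E d) {T : ℕ × Lat d} {k : ℕ} {n : Lat d}
    (hk : k ≤ T.1) (ha : anc (T.1 - k) n = T.2) (hn : ¬ InW hd v0 T k n) :
    ¬ Good v0 (dirT hd v0 T) (stopC hd v0 T k n).1 (stopC hd v0 T k n).2 := by
  obtain ⟨s1, s2, s3, s4⟩ := stopL_spec hd v0 hk ha hn
  intro hg
  apply s3
  have h5 := s4 (stopL hd v0 T k n + 1) (by omega) (by omega)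
  refine ⟨s2.le, ?_, fun j hj hjT => ?_⟩
  · rw [anc_anc, ← ha]
    congr 1
    omega
  · rcases eq_or_lt_of_le hj with h | h
    · rw [← h, tsub_self, anc_zero]
      exact hg
    · have := h5.2.2 j h hjT
      rw [anc_anc] at this ⊢
      have e1 : stopL hd v0 T k n + 1 - k + (j - (stopL hd v0 T k n + 1)) = j - k := by omega
      have e2 : stopL hd v0 T k n - k + (j - stopL hd v0 T k n) = j - k := by omega
      rw [e1] at this
      rw [e2]
      exact this

theorem norm_le_we (e e' v : E d) (he : ‖e‖ = 1) (he' : ‖e'‖ = 1)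
    (hee : inner ℝ e e' ≤ 15 / 16) : ‖v‖ ≤ 32 * (we e v + we e' v) := by
  have h1 : ‖e + e'‖ ^ 2 ≤ (63 / 32) ^ 2 := by
    rw [@norm_add_sq_real, he, he']
    linarith only [hee]
  have h2 : ‖e + e'‖ ≤ 63 / 32 := by
    apply le_of_sq_le_sq h1 (by norm_num)
  have h3 : inner ℝ (e + e') v ≤ ‖e + e'‖ * ‖v‖ := real_inner_le_norm _ _
  rw [inner_add_left] at h3
  unfold we
  linarith only [h3, mul_le_mul_of_nonneg_right h2 (norm_nonneg v)]

/-- Root of the parent. -/
noncomputable def parT (hd : 0 < d) (v0 : Lat d → E d) (K : ℕ) (Q : ℕ × Lat d) : ℕ × Lat d :=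
  root hd v0 K (Q.1 + 1) (anc 1 Q.2)

theorem parT_spec (hd : 0 < d) (v0 : Lat d → E d) {K : ℕ} {Q : ℕ × Lat d} (hQ : Q.1 < K)
    (hT : IsTop hd v0 K Q) :
    IsTop hd v0 K (parT hd v0 K Q) ∧ Q.1 < (parT hd v0 K Q).1 ∧
      anc ((parT hd v0 K Q).1 - Q.1) Q.2 = (parT hd v0 K Q).2 ∧
      ¬ Cov hd v0 (parT hd v0 K Q) Q.1 Q.2 ∧
      Cov hd v0 (parT hd v0 K Q) (Q.1 + 1) (anc 1 Q.2) := by
  have hc : Cov hd v0 (parT hd v0 K Q) (Q.1 + 1) (anc 1 Q.2) := root_cov hd v0 hQ _
  have h1 := hc.1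
  refine ⟨isTop_root hd v0 hQ _, h1, ?_, ?_, hc⟩
  · have := hc.2.1
    rw [anc_anc] at this
    rw [← this]
    congr 1
    omega
  · intro hcon
    have h2 := root_eq_of_cov hd v0 (isTop_root hd v0 hQ _) hcon
    have h3 : root hd v0 K Q.1 Q.2 = Q := hT.2
    have h4 : parT hd v0 K Q = Q := h2.symm.trans h3
    rw [h4] at h1
    omega

/-- Whitney separation of the child tops of a tree. -/
theorem whitney (hd : 0 < d) (v0 : Lat d → E d) {T : ℕ × Lat d} {Q Q' : ℕ × Lat d}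
    (hc : Cov hd v0 T (Q.1 + 1) (anc 1 Q.2)) (hc' : ¬ Cov hd v0 T Q'.1 Q'.2)
    (hQ' : Q'.1 ≤ T.1) (ha : anc (T.1 - Q'.1) Q'.2 = T.2) (hlt : Q.1 + 2 ≤ Q'.1) :
    ∀ c ∈ blk Q.2, anc (Q'.1 - Q.1) c ∉ blk Q'.2 := by
  intro c hcb hcon
  apply hc'
  obtain ⟨h1, h2, n', h3, h4⟩ := hc
  refine ⟨hQ', ha, anc (Q'.1 - (Q.1 + 1)) n', h3.up (by omega) hQ', ?_⟩
  intro i
  have e1 : ∀ i, |anc (Q'.1 - (Q.1 + 1)) (anc 1 Q.2) i - anc (Q'.1 - (Q.1 + 1)) n' i| ≤ 51 := by
    apply anc_mono_dist h4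
    have : (2 : ℤ) ^ 1 ≤ 2 ^ (Q'.1 - (Q.1 + 1)) := pow_le_pow_right₀ (by norm_num) (by omega)
    linarith only [this]
  have e2 : ∀ i, |Q.2 i - c i| ≤ 32 := by
    intro i
    have := (mem_blk.1 hcb) i
    rw [abs_le]
    constructor <;> linarith only [this.2, this.1]
  have e3 : ∀ i, |anc (Q'.1 - Q.1) Q.2 i - anc (Q'.1 - Q.1) c i| ≤ 9 := by
    apply anc_mono_dist e2
    have : (2 : ℤ) ^ 2 ≤ 2 ^ (Q'.1 - Q.1) := pow_le_pow_right₀ (by norm_num) (by omega)
    linarith only [this]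
  have e4 := (mem_blk.1 hcon) i
  have e5 : anc (Q'.1 - (Q.1 + 1)) (anc 1 Q.2) = anc (Q'.1 - Q.1) Q.2 := by
    rw [anc_anc]
    congr 1
    omega
  have e6 := abs_le.1 (e1 i)
  rw [e5] at e6
  have e7 := abs_le.1 (e3 i)
  rw [abs_le]
  constructor <;> linarith only [e6.2, e7.1, e4.1, e7, e6.1, e4.2]

/-- The family of tops below the top level. -/
def childTops (hd : 0 < d) (v0 : Lat d → E d) (K : ℕ) : Set (ℕ × Lat d) :=
  {Q | Q.1 < K ∧ IsTop hd v0 K Q}

/-- The stopped cell of a child top. -/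
noncomputable def stT (hd : 0 < d) (v0 : Lat d → E d) (K : ℕ) (Q : ℕ × Lat d) : ℕ × Lat d :=
  stopC hd v0 (parT hd v0 K Q) Q.1 Q.2

theorem not_inW_of_childTop (hd : 0 < d) (v0 : Lat d → E d) {K : ℕ} {Q : ℕ × Lat d}
    (hQ : Q ∈ childTops hd v0 K) : ¬ InW hd v0 (parT hd v0 K Q) Q.1 Q.2 :=
  fun h => (parT_spec hd v0 hQ.1 hQ.2).2.2.2.1 h.cov

open Classical in
theorem sum_par (hd : 0 < d) : ∃ C : ℝ≥0, ∀ (v0 : Lat d → E d) (m0 : Lat d → ℝ),
    (∀ a, 0 ≤ m0 a) → ∀ K : ℕ,
    ∑' Q : ℕ × Lat d, (if Q ∈ childTops hd v0 K then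
      ∑ c ∈ blk Q.2, ENNReal.ofReal (we (dirT hd v0 (parT hd v0 K Q)) (vv v0 Q.1 (co Q.1 c)))
        else 0) ≤
      C * ∑ k ∈ Finset.range (K + 1), ∑' n, ENNReal.ofReal (eJ v0 m0 k n) := by
  obtain ⟨C, hC⟩ := fiber_sum d
  refine ⟨C, fun v0 m0 hm K => ?_⟩
  refine hC v0 m0 hm K (childTops hd v0 K) (parT hd v0 K) (fun P => root hd v0 K P.1 P.2)
    (dirT hd v0) (fun Z => (norm_dirv hd _).le) (fun Z => inner_dirv hd _) ?_ ?_ ?_
  · intro Q hQ
    obtain ⟨h1, h2, h3, h4, h5⟩ := parT_spec hd v0 hQ.1 hQ.2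
    exact ⟨h1.1, h2.le, h3⟩
  · intro Q hQ Q' hQ' hz hlt
    obtain ⟨h1, h2, h3, h4, h5⟩ := parT_spec hd v0 hQ.1 hQ.2
    obtain ⟨h1', h2', h3', h4', h5'⟩ := parT_spec hd v0 hQ'.1 hQ'.2
    rw [hz] at h5
    exact whitney hd v0 h5 h4' h2'.le h3' hlt
  · intro Q hQ j hj hjT
    obtain ⟨h1, h2, h3, h4, h5⟩ := parT_spec hd v0 hQ.1 hQ.2
    have h6 := h5.up (j := j) (by omega) hjT
    rw [anc_anc] at h6
    have e1 : 1 + (j - (Q.1 + 1)) = j - Q.1 := by omega
    rw [e1] at h6
    exact root_eq_of_cov hd v0 h1 h6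

open Classical in
theorem sum_st (hd : 0 < d) : ∃ C : ℝ≥0, ∀ (v0 : Lat d → E d) (m0 : Lat d → ℝ),
    (∀ a, 0 ≤ m0 a) → ∀ K : ℕ,
    ∑' Q : ℕ × Lat d, (if Q ∈ childTops hd v0 K then
      ∑ c ∈ blk Q.2, ENNReal.ofReal (we (dirT hd v0 (stT hd v0 K Q)) (vv v0 Q.1 (co Q.1 c)))
        else 0) ≤
      C * ∑ k ∈ Finset.range (K + 1), ∑' n, ENNReal.ofReal (eJ v0 m0 k n) := by
  obtain ⟨C, hC⟩ := fiber_sum d
  refine ⟨C, fun v0 m0 hm K => ?_⟩
  refine hC v0 m0 hm K (childTops hd v0 K) (stT hd v0 K)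
    (fun P => stopC hd v0 (root hd v0 K P.1 P.2) P.1 P.2)
    (dirT hd v0) (fun Z => (norm_dirv hd _).le) (fun Z => inner_dirv hd _) ?_ ?_ ?_
  · intro Q hQ
    obtain ⟨h1, h2, h3, h4, h5⟩ := parT_spec hd v0 hQ.1 hQ.2
    obtain ⟨s1, s2, s3, s4⟩ := stopL_spec hd v0 h2.le h3 (not_inW_of_childTop hd v0 hQ)
    exact ⟨s2.le.trans h1.1, s1, rfl⟩
  · intro Q hQ Q' hQ' hz hlt
    obtain ⟨h1, h2, h3, h4, h5⟩ := parT_spec hd v0 hQ.1 hQ.2
    obtain ⟨h1', h2', h3', h4', h5'⟩ := parT_spec hd v0 hQ'.1 hQ'.2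
    obtain ⟨s1, s2, s3, s4⟩ := stopL_spec hd v0 h2.le h3 (not_inW_of_childTop hd v0 hQ)
    obtain ⟨s1', s2', s3', s4'⟩ := stopL_spec hd v0 h2'.le h3' (not_inW_of_childTop hd v0 hQ')
    have key : ∀ {P : ℕ × Lat d}, P ∈ childTops hd v0 K →
        parT hd v0 K P = root hd v0 K ((stT hd v0 K P).1 + 1) (anc 1 (stT hd v0 K P).2) := by
      intro P hP
      obtain ⟨t1, t2, t3, t4, t5⟩ := parT_spec hd v0 hP.1 hP.2
      obtain ⟨u1, u2, u3, u4⟩ := stopL_spec hd v0 t2.le t3 (not_inW_of_childTop hd v0 hP)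
      have h7 := u4 (stopL hd v0 (parT hd v0 K P) P.1 P.2 + 1) (by omega) (by omega)
      have h8 := root_eq_of_cov hd v0 t1 h7.cov
      have h9 : anc (stopL hd v0 (parT hd v0 K P) P.1 P.2 + 1 - P.1) P.2 =
          anc 1 (anc (stopL hd v0 (parT hd v0 K P) P.1 P.2 - P.1) P.2) := by
        rw [anc_anc]
        congr 1
        omega
      rw [h9] at h8
      exact h8.symm
    have hpar : parT hd v0 K Q = parT hd v0 K Q' := by rw [key hQ, key hQ', hz]
    rw [hpar] at h5
    exact whitney hd v0 h5 h4' h2'.le h3' hlt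
  · intro Q hQ j hj hjS
    obtain ⟨h1, h2, h3, h4, h5⟩ := parT_spec hd v0 hQ.1 hQ.2
    have hn := not_inW_of_childTop hd v0 hQ
    obtain ⟨s1, s2, s3, s4⟩ := stopL_spec hd v0 h2.le h3 hn
    have hjS' : j ≤ stopL hd v0 (parT hd v0 K Q) Q.1 Q.2 := hjS
    have h6 := h5.up (j := j) (by omega) (hjS'.trans s2.le)
    rw [anc_anc] at h6
    have e1 : 1 + (j - (Q.1 + 1)) = j - Q.1 := by omega
    rw [e1] at h6
    have h7 := root_eq_of_cov hd v0 h1 h6
    simp only
    rw [h7]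
    have h8 := stopL_up hd v0 h2.le h3 hn hj.le hjS'
    unfold stT stopC
    rw [h8, anc_anc]
    congr 2
    omega

/-- The mass of the cells of the block. -/
noncomputable def mB (v0 : Lat d → E d) (k : ℕ) (n : Lat d) : ℝ≥0∞ :=
  ∑ c ∈ blk n, ENNReal.ofReal ‖vv v0 k (co k c)‖

theorem vJ_le_mB (v0 : Lat d → E d) (k : ℕ) (n : Lat d) :
    ENNReal.ofReal ‖vJ v0 k n‖ ≤ mB v0 k n := by
  rw [vJ_eq_sum, mB, ← ENNReal.ofReal_sum_of_nonneg (fun _ _ => norm_nonneg _)]
  exact ENNReal.ofReal_le_ofReal (norm_sum_le _ _)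

theorem mB_le_we (hd : 0 < d) (v0 : Lat d → E d) {K : ℕ} {Q : ℕ × Lat d}
    (hQ : Q ∈ childTops hd v0 K) :
    mB v0 Q.1 Q.2 ≤ 32 * (
      ∑ c ∈ blk Q.2, ENNReal.ofReal (we (dirT hd v0 (parT hd v0 K Q)) (vv v0 Q.1 (co Q.1 c))) +
      ∑ c ∈ blk Q.2, ENNReal.ofReal (we (dirT hd v0 (stT hd v0 K Q)) (vv v0 Q.1 (co Q.1 c)))) := by
  obtain ⟨h1, h2, h3, h4, h5⟩ := parT_spec hd v0 hQ.1 hQ.2
  have hg := not_good_stopC hd v0 h2.le h3 (not_inW_of_childTop hd v0 hQ)
  have hee : inner ℝ (dirT hd v0 (parT hd v0 K Q)) (dirT hd v0 (stT hd v0 K Q)) ≤ 15 / 16 := by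
    set S := stT hd v0 K Q with hS
    have hg' : ¬ Good v0 (dirT hd v0 (parT hd v0 K Q)) S.1 S.2 := hg
    unfold Good at hg'
    push Not at hg'
    have hne : vJ v0 S.1 S.2 ≠ 0 := by
      intro h0
      rw [h0] at hg'
      simp at hg'
    have hpos : 0 < ‖vJ v0 S.1 S.2‖ := norm_pos_iff.2 hne
    have : dirT hd v0 S = ‖vJ v0 S.1 S.2‖⁻¹ • vJ v0 S.1 S.2 := by
      unfold dirT dirv
      rw [if_neg hne]
    rw [this, inner_smul_right]
    rw [inv_mul_le_iff₀ hpos]
    linarith only [hg']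
  rw [mB, ← Finset.sum_add_distrib, Finset.mul_sum]
  refine Finset.sum_le_sum fun c _ => ?_
  have hw := norm_le_we (dirT hd v0 (parT hd v0 K Q)) (dirT hd v0 (stT hd v0 K Q))
    (vv v0 Q.1 (co Q.1 c)) (norm_dirv hd _) (norm_dirv hd _) hee
  have p1 : 0 ≤ we (dirT hd v0 (parT hd v0 K Q)) (vv v0 Q.1 (co Q.1 c)) := by
    have := real_inner_le_norm (dirT hd v0 (parT hd v0 K Q)) (vv v0 Q.1 (co Q.1 c))
    rw [dirT, norm_dirv, one_mul] at this
    unfold we
    exact sub_nonneg.2 this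
  have p2 : 0 ≤ we (dirT hd v0 (stT hd v0 K Q)) (vv v0 Q.1 (co Q.1 c)) := by
    have := real_inner_le_norm (dirT hd v0 (stT hd v0 K Q)) (vv v0 Q.1 (co Q.1 c))
    rw [dirT, norm_dirv, one_mul] at this
    unfold we
    exact sub_nonneg.2 this
  rw [← ENNReal.ofReal_add p1 p2]
  refine (ENNReal.ofReal_le_ofReal hw).trans (le_of_eq ?_)
  rw [ENNReal.ofReal_mul (by norm_num)]
  congr 1
  simp

theorem sum_blk_eq (F : Lat d → ℝ≥0∞) (n : Lat d) :
    ∑ c ∈ blk n, F c = ∑ c ∈ blk (0 : Lat d), F (n + c) := by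
  refine Finset.sum_nbij' (fun c => c - n) (fun c => n + c) ?_ ?_ ?_ ?_ ?_
  · intro c hc
    rw [mem_blk] at hc ⊢
    intro i
    have := hc i
    simp only [Pi.zero_apply, Pi.sub_apply]
    constructor <;> linarith [this.1, this.2]
  · intro c hc
    rw [mem_blk] at hc ⊢
    intro i
    have := hc i
    simp only [Pi.zero_apply, Pi.add_apply] at this ⊢
    constructor <;> linarith [this.1, this.2]
  · intro c _
    simp
  · intro c _
    simp
  · intro c _
    simp

theorem tsum_blk_le (F : Lat d → ℝ≥0∞) :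
    ∑' n, ∑ c ∈ blk n, F c = 64 ^ d * ∑' n, F n := by
  have h1 : ∀ n, ∑ c ∈ blk n, F c = ∑ c ∈ blk (0 : Lat d), F (n + c) := sum_blk_eq F
  simp_rw [h1]
  rw [Summable.tsum_finsetSum (fun _ _ => ENNReal.summable)]
  have h2 : ∀ c : Lat d, ∑' n, F (n + c) = ∑' n, F n := fun c =>
    (Equiv.addRight c).tsum_eq F
  simp_rw [h2]
  rw [Finset.sum_const, card_blk, nsmul_eq_mul]
  push_cast
  rfl

theorem tsum_cells_le (v0 : Lat d → E d) (m0 : Lat d → ℝ) (h : ∀ a, ‖v0 a‖ ≤ m0 a) (k : ℕ) :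
    ∑' n, ENNReal.ofReal ‖vv v0 k (co k n)‖ ≤ ∑' a, ENNReal.ofReal (m0 a) := by
  induction k with
  | zero =>
    refine ENNReal.tsum_le_tsum fun n => ENNReal.ofReal_le_ofReal ?_
    have : co 0 n = n := by funext i; simp [co]
    rw [this]
    exact h n
  | succ k ih =>
    refine le_trans ?_ ih
    rw [tsum_lat_children (fun n => ENNReal.ofReal ‖vv v0 k (co k n)‖)]
    refine ENNReal.tsum_le_tsum fun n => ?_
    rw [← ENNReal.ofReal_sum_of_nonneg (fun _ _ => norm_nonneg _)]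
    refine ENNReal.ofReal_le_ofReal ((norm_vv_succ_le v0 k _).trans (le_of_eq ?_))
    refine Finset.sum_congr rfl fun b _ => ?_
    rw [co_child]

open Classical in
theorem forest (hd : 0 < d) : ∃ C : ℝ≥0, ∀ (K : ℕ) (v0 : Lat d → E d) (m0 : Lat d → ℝ),
    (∀ a, ‖v0 a‖ ≤ m0 a) →
    ∃ (tops : Set (ℕ × Lat d)) (e : ℕ × Lat d → E d) (W : ℕ × Lat d → Finset (ℕ × Lat d)),
      (∀ T ∈ tops, T.1 ≤ K ∧ IsTree v0 T.1 T.2 (e T) (W T)) ∧
      (∀ k ≤ K, ∀ n : Lat d, ∃ T ∈ tops, k ≤ T.1 ∧ anc (T.1 - k) n = T.2 ∧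
        ∃ n', (k, n') ∈ W T ∧ ∀ i, |n i - n' i| ≤ 100) ∧
      ∑' T : tops, (ENNReal.ofReal ‖vJ v0 T.1.1 T.1.2‖ +
          ∑ Q ∈ W T.1, ENNReal.ofReal (eJ v0 m0 Q.1 Q.2)) ≤
        C * (∑' a, ENNReal.ofReal (m0 a) +
          ∑ k ∈ Finset.range (K + 1), ∑' n, ENNReal.ofReal (eJ v0 m0 k n)) := by
  obtain ⟨C₁, hC₁⟩ := sum_par (d := d) hd
  obtain ⟨C₂, hC₂⟩ := sum_st (d := d) hd
  refine ⟨64 ^ d + 32 * (C₁ + C₂) + 1, fun K v0 m0 hm => ?_⟩
  have hm0 : ∀ a, 0 ≤ m0 a := fun a => (norm_nonneg _).trans (hm a)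
  refine ⟨{T | IsTop hd v0 K T}, dirT hd v0, treeW hd v0, ?_, ?_, ?_⟩
  · intro T hT
    exact ⟨hT.1, isTree_treeW hd v0 T⟩
  · intro k hk n
    obtain ⟨h1, h2, n', h3, h4⟩ := root_cov hd v0 hk n
    exact ⟨root hd v0 K k n, isTop_root hd v0 hk n, h1, h2, n', mem_treeW.2 h3, h4⟩
  · set M := ∑' a, ENNReal.ofReal (m0 a) with hM
    set T0 := ∑ k ∈ Finset.range (K + 1), ∑' n, ENNReal.ofReal (eJ v0 m0 k n) with hT0
    rw [ENNReal.tsum_add]
    -- first sum
    have hA : ∑' T : {T | IsTop hd v0 K T}, ENNReal.ofReal ‖vJ v0 T.1.1 T.1.2‖ ≤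
        64 ^ d * M + 32 * (C₁ * T0 + C₂ * T0) := by
      rw [tsum_subtype {T | IsTop hd v0 K T} (fun T => ENNReal.ofReal ‖vJ v0 T.1 T.2‖)]
      have h1 : ∀ T : ℕ × Lat d, {T | IsTop hd v0 K T}.indicator
          (fun T => ENNReal.ofReal ‖vJ v0 T.1 T.2‖) T ≤
          (if T.1 = K then mB v0 T.1 T.2 else 0) +
          32 * ((if T ∈ childTops hd v0 K then
            ∑ c ∈ blk T.2, ENNReal.ofReal (we (dirT hd v0 (parT hd v0 K T))
              (vv v0 T.1 (co T.1 c))) else 0) +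
          (if T ∈ childTops hd v0 K then
            ∑ c ∈ blk T.2, ENNReal.ofReal (we (dirT hd v0 (stT hd v0 K T))
              (vv v0 T.1 (co T.1 c))) else 0)) := by
        intro T
        by_cases hT : IsTop hd v0 K T
        · rw [Set.indicator_of_mem (show T ∈ {T | IsTop hd v0 K T} from hT)]
          refine (vJ_le_mB v0 T.1 T.2).trans ?_
          rcases eq_or_lt_of_le hT.1 with h | h
          · rw [if_pos h]
            exact le_self_add
          · have hc : T ∈ childTops hd v0 K := ⟨h, hT⟩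
            rw [if_pos hc, if_pos hc]
            exact (mB_le_we hd v0 hc).trans le_add_self
        · rw [Set.indicator_of_notMem (show T ∉ {T | IsTop hd v0 K T} from hT)]
          exact zero_le
      refine (ENNReal.tsum_le_tsum h1).trans ?_
      rw [ENNReal.tsum_add, ENNReal.tsum_mul_left, ENNReal.tsum_add]
      gcongr
      · rw [ENNReal.tsum_prod (f := fun k n => if k = K then mB v0 k n else 0)]
        rw [tsum_eq_single K]
        · simp only [if_true]
          unfold mB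
          rw [tsum_blk_le (fun c => ENNReal.ofReal ‖vv v0 K (co K c)‖)]
          gcongr
          exact tsum_cells_le v0 m0 hm K
        · intro k hk
          simp [hk]
      · exact hC₁ v0 m0 hm0 K
      · exact hC₂ v0 m0 hm0 K
    have hB : ∑' T : {T | IsTop hd v0 K T}, ∑ Q ∈ treeW hd v0 T.1,
        ENNReal.ofReal (eJ v0 m0 Q.1 Q.2) ≤ T0 := by
      rw [hT0, cellSum_eq K (fun k n => ENNReal.ofReal (eJ v0 m0 k n))]
      have h1 : ∀ T : {T | IsTop hd v0 K T}, ∑ Q ∈ treeW hd v0 T.1,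
          ENNReal.ofReal (eJ v0 m0 Q.1 Q.2) = ∑' Q : ℕ × Lat d,
          if Q ∈ treeW hd v0 T.1 then ENNReal.ofReal (eJ v0 m0 Q.1 Q.2) else 0 := by
        intro T
        rw [tsum_eq_sum (s := treeW hd v0 T.1)]
        · refine Finset.sum_congr rfl fun Q hQ => ?_
          rw [if_pos hQ]
        · intro Q hQ
          rw [if_neg hQ]
      simp_rw [h1]
      rw [ENNReal.tsum_comm]
      refine ENNReal.tsum_le_tsum fun Q => ?_
      by_cases hQ : Q.1 ≤ K
      · have hrt := isTop_root hd v0 hQ Q.2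
        rw [if_pos hQ]
        rw [tsum_eq_single (⟨root hd v0 K Q.1 Q.2, hrt⟩ : {T | IsTop hd v0 K T})]
        · split_ifs
          · exact le_rfl
          · exact zero_le
        · intro T hT
          rw [if_neg]
          intro hQT
          apply hT
          have := root_eq_of_cov hd v0 T.2 (mem_treeW.1 hQT).cov
          exact Subtype.ext this.symm
      · have : ∀ T : {T | IsTop hd v0 K T}, Q ∉ treeW hd v0 T.1 := by
          intro T hT
          exact hQ ((mem_treeW.1 hT).1.trans T.2.1)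
        simp only [mem_ofPred_eq, this, ↓reduceIte, tsum_zero, zero_le]
    calc _ ≤ (64 ^ d * M + 32 * (C₁ * T0 + C₂ * T0)) + T0 := add_le_add hA hB
      _ ≤ ((64 ^ d + 32 * (C₁ + C₂) + 1 : ℝ≥0) : ℝ≥0∞) * (M + T0) := by
        push_cast
        have e1 : (64 ^ d * M + 32 * ((C₁ : ℝ≥0∞) * T0 + C₂ * T0)) + T0 ≤
            (64 ^ d * M + 32 * ((C₁ : ℝ≥0∞) * T0 + C₂ * T0)) + T0 +
              (64 ^ d * T0 + 32 * (C₁ + C₂) * M + M) := le_self_add
        refine e1.trans (le_of_eq ?_)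
        ring

end Vale.Agent.P137.U
end
end

section

section

open MeasureTheory Set Filter Topology
open scoped ENNReal NNReal

namespace Vale.Agent.P137.U

open Vale.Agent.P137

variable {d : ℕ}

/-- Oscillation of a Hölder field on a cube of level `k`. -/
noncomputable def om (d : ℕ) (h : ℝ) (k : ℕ) : ℝ := h * √(√d * 2 ^ k)

theorem om_nonneg {h : ℝ} (hh : 0 ≤ h) (k : ℕ) : 0 ≤ om d h k := by
  unfold om
  positivity

theorem om_succ (h : ℝ) (k : ℕ) : om d h (k + 1) = √2 * om d h k := by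
  unfold om
  have : √(d : ℝ) * 2 ^ (k + 1) = 2 * (√(d : ℝ) * 2 ^ k) := by ring
  rw [this, Real.sqrt_mul (by norm_num)]
  ring

theorem child_subset (k : ℕ) (a : Lat d) {b : Lat d} (hb : b ∈ offs d) :
    cube k (a + (2 : ℤ) ^ k • b) ⊆ cube (k + 1) a := by
  rw [cube_succ]
  exact Set.subset_biUnion_of_mem (u := fun b => cube k (a + (2 : ℤ) ^ k • b)) hb

theorem osc_le {k : ℕ} {a : Lat d} {Ψ : E d → E d} {h : ℝ} (hh : 0 ≤ h)
    (hΨ : ∀ x ∈ cube k a, ∀ y ∈ cube k a, ‖Ψ x - Ψ y‖ ≤ h * √‖x - y‖)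
    {x y : E d} (hx : x ∈ cube k a) (hy : y ∈ cube k a) : ‖Ψ x - Ψ y‖ ≤ om d h k := by
  refine (hΨ x hx y hy).trans ?_
  unfold om
  exact mul_le_mul_of_nonneg_left (Real.sqrt_le_sqrt (norm_sub_le_of_mem_cube hx hy)) hh

theorem integrableOn_inner {g : E d → E d} (hg : Integrable g) {k : ℕ} {a : Lat d}
    {Ψ : E d → E d} {h : ℝ} (hh : 0 ≤ h)
    (hΨ : ∀ x ∈ cube k a, ∀ y ∈ cube k a, ‖Ψ x - Ψ y‖ ≤ h * √‖x - y‖) :
    IntegrableOn (fun x => inner ℝ (Ψ x) (g x)) (cube k a) := by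
  have hc : ContinuousOn Ψ (cube k a) := by
    intro x hx
    unfold ContinuousWithinAt
    rw [tendsto_iff_norm_sub_tendsto_zero]
    have h1 : Tendsto (fun y => h * √‖y - x‖) (𝓝[cube k a] x) (𝓝 0) := by
      have h2 : Continuous fun y : E d => h * √‖y - x‖ := by (clear * -; fun_prop)
      have h3 := h2.tendsto x
      simp only [sub_self, norm_zero, Real.sqrt_zero, mul_zero] at h3
      exact h3.mono_left nhdsWithin_le_nhds
    refine squeeze_zero' (Eventually.of_forall fun y => norm_nonneg _) ?_ h1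
    filter_upwards [self_mem_nhdsWithin] with y hy
    exact hΨ y hy x hx
  have hm : AEStronglyMeasurable Ψ (volume.restrict (cube k a)) :=
    hc.aestronglyMeasurable (measurableSet_cube k a)
  have hgi : IntegrableOn g (cube k a) := hg.integrableOn
  refine Integrable.mono' (hgi.norm.const_mul (‖Ψ (pt a)‖ + om d h k))
    (hm.inner hgi.aestronglyMeasurable) ?_
  rw [ae_restrict_iff' (measurableSet_cube k a)]
  refine Eventually.of_forall fun x hx => ?_
  refine (norm_inner_le_norm _ _).trans ?_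
  refine mul_le_mul_of_nonneg_right ?_ (norm_nonneg _)
  have h1 := osc_le hh hΨ hx (pt_mem_cube k a)
  calc ‖Ψ x‖ = ‖Ψ (pt a) + (Ψ x - Ψ (pt a))‖ := by congr 1; abel
    _ ≤ _ := norm_add_le _ _
    _ ≤ _ := by linarith

theorem sum_norm_child (v0 : Lat d → E d) (k : ℕ) (a : Lat d) :
    ∑ b ∈ offs d, ‖vv v0 k (a + (2 : ℤ) ^ k • b)‖ = ‖vv v0 (k + 1) a‖ + dl v0 k a := by
  unfold dl
  ring

theorem sum_ee_child (v0 : Lat d → E d) (m0 : Lat d → ℝ) (k : ℕ) (a : Lat d) :
    ∑ b ∈ offs d, ee v0 m0 k (a + (2 : ℤ) ^ k • b) = √2 * (ee v0 m0 (k + 1) a - dl v0 k a) := by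
  have h : ee v0 m0 (k + 1) a = dl v0 k a +
    (√2)⁻¹ * ∑ b ∈ offs d, ee v0 m0 k (a + (2 : ℤ) ^ k • b) := rfl
  rw [h]
  have h2 : √2 * (√2)⁻¹ = 1 := mul_inv_cancel₀ (by positivity)
  rw [add_sub_cancel_left, ← mul_assoc, h2, one_mul]

theorem main_osc {g : E d → E d} (hg : Integrable g) {Ψ : E d → E d} {h : ℝ} (hh : 0 ≤ h)
    (k : ℕ) : ∀ (a : Lat d),
    (∀ x ∈ cube k a, ∀ y ∈ cube k a, ‖Ψ x - Ψ y‖ ≤ h * √‖x - y‖) →
    |(∫ x in cube k a, inner ℝ (Ψ x) (g x)) - inner ℝ (Ψ (pt a)) (vv (v0f g) k a)| ≤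
      4 * om d h k * (‖vv (v0f g) k a‖ + ee (v0f g) (m0f g) k a) := by
  induction k with
  | zero =>
    intro a hΨ
    have hgi : IntegrableOn g (cube 0 a) := hg.integrableOn
    have e1 : inner ℝ (Ψ (pt a)) (vv (v0f g) 0 a) = ∫ x in cube 0 a, inner ℝ (Ψ (pt a)) (g x) := by
      rw [integral_inner hgi]
      rfl
    rw [e1, ← integral_sub (integrableOn_inner hg hh hΨ) (hgi.const_inner _)]
    have e2 : |∫ x in cube 0 a, (inner ℝ (Ψ x) (g x) - inner ℝ (Ψ (pt a)) (g x))| ≤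
        ∫ x in cube 0 a, om d h 0 * ‖g x‖ := by
      rw [← Real.norm_eq_abs]
      refine norm_integral_le_of_norm_le (hgi.norm.const_mul _) ?_
      rw [ae_restrict_iff' (measurableSet_cube 0 a)]
      refine Eventually.of_forall fun x hx => ?_
      rw [← inner_sub_left]
      refine (norm_inner_le_norm _ _).trans ?_
      exact mul_le_mul_of_nonneg_right (osc_le hh hΨ hx (pt_mem_cube 0 a)) (norm_nonneg _)
    refine e2.trans ?_
    rw [integral_const_mul]
    have h1 : ee (v0f g) (m0f g) 0 a = ∫ x in cube 0 a, ‖g x‖ := rfl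
    have h2 := om_nonneg (d := d) hh 0
    have h3 : 0 ≤ ∫ x in cube 0 a, ‖g x‖ := integral_nonneg fun _ => norm_nonneg _
    have h4 := norm_nonneg (vv (v0f g) 0 a)
    rw [h1]
    linarith only [mul_nonneg h2 h3, mul_nonneg h2 h4]
  | succ k ih =>
    intro a hΨ
    have hch : ∀ b ∈ offs d, ∀ x ∈ cube k (a + (2 : ℤ) ^ k • b), ∀ y ∈ cube k (a + (2 : ℤ) ^ k • b),
        ‖Ψ x - Ψ y‖ ≤ h * √‖x - y‖ := fun b hb x hx y hy =>
      hΨ x (child_subset k a hb hx) y (child_subset k a hb hy)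
    rw [setIntegral_cube_succ k a (integrableOn_inner hg hh hΨ)]
    have e1 : inner ℝ (Ψ (pt a)) (vv (v0f g) (k + 1) a) =
        ∑ b ∈ offs d, inner ℝ (Ψ (pt a)) (vv (v0f g) k (a + (2 : ℤ) ^ k • b)) := by
      rw [← inner_sum]
      rfl
    rw [e1, ← Finset.sum_sub_distrib]
    refine (Finset.abs_sum_le_sum_abs _ _).trans ?_
    have e2 : ∀ b ∈ offs d,
        |(∫ x in cube k (a + (2 : ℤ) ^ k • b), inner ℝ (Ψ x) (g x)) -
          inner ℝ (Ψ (pt a)) (vv (v0f g) k (a + (2 : ℤ) ^ k • b))| ≤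
        4 * om d h k * (‖vv (v0f g) k (a + (2 : ℤ) ^ k • b)‖ +
          ee (v0f g) (m0f g) k (a + (2 : ℤ) ^ k • b)) +
        om d h (k + 1) * ‖vv (v0f g) k (a + (2 : ℤ) ^ k • b)‖ := by
      intro b hb
      have h1 := ih (a + (2 : ℤ) ^ k • b) (hch b hb)
      have h2 : |inner ℝ (Ψ (pt (a + (2 : ℤ) ^ k • b)) - Ψ (pt a))
          (vv (v0f g) k (a + (2 : ℤ) ^ k • b))| ≤
          om d h (k + 1) * ‖vv (v0f g) k (a + (2 : ℤ) ^ k • b)‖ := by
        rw [← Real.norm_eq_abs]
        refine (norm_inner_le_norm _ _).trans ?_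
        refine mul_le_mul_of_nonneg_right ?_ (norm_nonneg _)
        exact osc_le hh hΨ (child_subset k a hb (pt_mem_cube k _)) (pt_mem_cube (k + 1) a)
      rw [inner_sub_left] at h2
      rw [abs_le] at h1 h2 ⊢
      constructor <;> linarith only [h1.1, h2.1, h1.2, h2.2]
    refine (Finset.sum_le_sum e2).trans ?_
    rw [Finset.sum_add_distrib, ← Finset.mul_sum, ← Finset.mul_sum, Finset.sum_add_distrib,
      sum_norm_child, sum_ee_child, om_succ]
    have h0 := om_nonneg (d := d) hh k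
    have h1 := dl_nonneg (v0f g) k a
    have h2 := ee_nonneg (v0 := v0f g) (m0f_nonneg g) (k + 1) a
    have h3 := norm_nonneg (vv (v0f g) (k + 1) a)
    have s2 : √2 * √2 = (2 : ℝ) := Real.mul_self_sqrt (by norm_num)
    have s1 : (4 : ℝ) + √2 ≤ 4 * √2 := by nlinarith only [s2, Real.sqrt_nonneg 2]
    have s3 : (4 : ℝ) + √2 ≤ 4 * √2 + 0 := by linarith
    have key : (4 : ℝ) * √2 ≤ 4 * √2 := le_refl _
    linarith only [mul_nonneg (mul_nonneg h0 h1) (sub_nonneg.mpr s1), mul_nonneg (mul_nonneg h0 h3) (sub_nonneg.mpr s1)]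

theorem om_eq (d : ℕ) (h : ℝ) (k : ℕ) : om d h k = √(√d) * h * √(2 ^ k) := by
  unfold om
  rw [Real.sqrt_mul (Real.sqrt_nonneg _)]
  ring

theorem two_sided (d : ℕ) : ∃ C : ℝ, 0 < C ∧ ∀ (g : E d → E d), Integrable g →
    ∀ (k : ℕ) (a : Lat d) (Ψ : E d → E d) (A h : ℝ), 0 ≤ A → 0 ≤ h →
    (∀ x ∈ cube k a, ‖Ψ x‖ ≤ A) →
    (∀ x ∈ cube k a, ∀ y ∈ cube k a, ‖Ψ x - Ψ y‖ ≤ h * √‖x - y‖) →
    |∫ x in cube k a, inner ℝ (Ψ x) (g x)| ≤
      (A + C * h * √(2 ^ k)) * ‖vv (v0f g) k a‖ +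
        C * h * √(2 ^ k) * ee (v0f g) (m0f g) k a := by
  refine ⟨4 * √(√d) + 1, by positivity, ?_⟩
  intro g hg k a Ψ A h hA hh hΨA hΨ
  have h1 := main_osc hg hh k a hΨ
  have h2 : |inner ℝ (Ψ (pt a)) (vv (v0f g) k a)| ≤ A * ‖vv (v0f g) k a‖ := by
    rw [← Real.norm_eq_abs]
    refine (norm_inner_le_norm _ _).trans ?_
    exact mul_le_mul_of_nonneg_right (hΨA _ (pt_mem_cube k a)) (norm_nonneg _)
  have h3 : 4 * om d h k ≤ (4 * √(√d) + 1) * h * √(2 ^ k) := by
    rw [om_eq]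
    have : 0 ≤ h * √(2 ^ k) := by positivity
    linarith only [this]
  have h4 := norm_nonneg (vv (v0f g) k a)
  have h5 := ee_nonneg (v0 := v0f g) (m0f_nonneg g) k a
  have h6 := mul_le_mul_of_nonneg_right h3 (add_nonneg h4 h5)
  rw [abs_le] at h1 h2 ⊢
  constructor <;> linarith only [h6, h1.1, h2.1, h1.2, h2.2]

/-- Lower bound for `⟪p, v⟫` in terms of the defect of `v` with respect to `e'`. -/
theorem inner_lower {p v e' : E d} (he' : ‖e'‖ = 1) (hp : 13 / 16 * ‖p‖ ≤ inner ℝ e' p) :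
    1 / 2 * ‖p‖ * ‖v‖ - 2 * ‖p‖ * (‖v‖ - inner ℝ e' v) ≤ inner ℝ p v := by
  rcases eq_or_ne p 0 with rfl | hp0
  · simp
  rcases eq_or_ne v 0 with rfl | hv0
  · simp only [one_div, norm_zero, mul_zero, inner_zero_right, sub_self, Std.le_refl]
  have hpn : 0 < ‖p‖ := norm_pos_iff.mpr hp0
  have hvn : 0 < ‖v‖ := norm_pos_iff.mpr hv0
  -- test vector `‖v‖ p - ‖p‖ v`
  have h1 : ‖‖v‖ • p - ‖p‖ • v‖ ≤ ‖‖v‖ • p - (‖v‖ * ‖p‖) • e'‖ + ‖(‖v‖ * ‖p‖) • e' - ‖p‖ • v‖ := by
    have : ‖v‖ • p - ‖p‖ • v =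
        (‖v‖ • p - (‖v‖ * ‖p‖) • e') + ((‖v‖ * ‖p‖) • e' - ‖p‖ • v) := by abel
    rw [this]
    exact norm_add_le _ _
  have q1 : ‖‖v‖ • p - ‖p‖ • v‖ ^ 2 = 2 * (‖v‖ * ‖p‖) ^ 2 - 2 * (‖v‖ * ‖p‖) * inner ℝ p v := by
    rw [norm_sub_sq_real, norm_smul, norm_smul, norm_norm, norm_norm, inner_smul_left,
      inner_smul_right]
    simp only [conj_trivial]
    ring
  have q2 : ‖‖v‖ • p - (‖v‖ * ‖p‖) • e'‖ ^ 2 =
      2 * (‖v‖ * ‖p‖) ^ 2 - 2 * (‖v‖ * ‖p‖) * (‖v‖ * inner ℝ e' p) := by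
    rw [norm_sub_sq_real, norm_smul, norm_smul, norm_norm, inner_smul_left,
      inner_smul_right, he', Real.norm_of_nonneg (by positivity), real_inner_comm]
    simp only [conj_trivial]
    ring
  have q3 : ‖(‖v‖ * ‖p‖) • e' - ‖p‖ • v‖ ^ 2 =
      2 * (‖v‖ * ‖p‖) ^ 2 - 2 * (‖v‖ * ‖p‖) * (‖p‖ * inner ℝ e' v) := by
    rw [norm_sub_sq_real, norm_smul, norm_smul, norm_norm, inner_smul_left,
      inner_smul_right, he', Real.norm_of_nonneg (by positivity)]
    simp only [conj_trivial]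
    ring
  have n1 := norm_nonneg (‖v‖ • p - ‖p‖ • v)
  have n2 := norm_nonneg (‖v‖ • p - (‖v‖ * ‖p‖) • e')
  have n3 := norm_nonneg ((‖v‖ * ‖p‖) • e' - ‖p‖ • v)
  have h2 : ‖‖v‖ • p - ‖p‖ • v‖ ^ 2 ≤ 2 * ‖‖v‖ • p - (‖v‖ * ‖p‖) • e'‖ ^ 2 +
      2 * ‖(‖v‖ * ‖p‖) • e' - ‖p‖ • v‖ ^ 2 := by
    nlinarith only [h1, n1, sq_nonneg (‖‖v‖ • p - (‖v‖ * ‖p‖) • e'‖ - ‖(‖v‖ * ‖p‖) • e' - ‖p‖ • v‖)]
  rw [q1, q2, q3] at h2
  have hvp : 0 < ‖v‖ * ‖p‖ := mul_pos hvn hpn
  have h3 : (‖v‖ * ‖p‖) - inner ℝ p v ≤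
      2 * (‖v‖ * ‖p‖ - ‖v‖ * inner ℝ e' p) + 2 * (‖v‖ * ‖p‖ - ‖p‖ * inner ℝ e' v) := by
    have h4 : 2 * (‖v‖ * ‖p‖) * ((‖v‖ * ‖p‖) - inner ℝ p v) ≤ 2 * (‖v‖ * ‖p‖) *
      (2 * (‖v‖ * ‖p‖ - ‖v‖ * inner ℝ e' p) + 2 * (‖v‖ * ‖p‖ - ‖p‖ * inner ℝ e' v)) := by
      linarith only [h2]
    exact le_of_mul_le_mul_left h4 (by positivity)
  linarith only [hvp, h3, mul_le_mul_of_nonneg_left hp hvn.le]

/-- A cone condition around `e` gives a cone condition around a nearby unit vector `e'`. -/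
theorem cone_trans {p e e' : E d} (he : ‖e‖ = 1) (he' : ‖e'‖ = 1)
    (h1 : 31 / 32 * ‖p‖ ≤ inner ℝ e p) (h2 : 15 / 16 ≤ inner ℝ e e') :
    13 / 16 * ‖p‖ ≤ inner ℝ e' p := by
  rcases eq_or_ne p 0 with rfl | hp0
  · simp
  have hpn : 0 < ‖p‖ := norm_pos_iff.mpr hp0
  have t1 : ‖p - ‖p‖ • e'‖ ≤ ‖p - ‖p‖ • e‖ + ‖‖p‖ • e - ‖p‖ • e'‖ := by
    have : p - ‖p‖ • e' = (p - ‖p‖ • e) + (‖p‖ • e - ‖p‖ • e') := by abel
    rw [this]
    exact norm_add_le _ _
  have q1 : ‖p - ‖p‖ • e'‖ ^ 2 = 2 * ‖p‖ ^ 2 - 2 * ‖p‖ * inner ℝ e' p := by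
    rw [norm_sub_sq_real, norm_smul, norm_norm, inner_smul_right, he', real_inner_comm]
    ring
  have q2 : ‖p - ‖p‖ • e‖ ^ 2 = 2 * ‖p‖ ^ 2 - 2 * ‖p‖ * inner ℝ e p := by
    rw [norm_sub_sq_real, norm_smul, norm_norm, inner_smul_right, he, real_inner_comm]
    ring
  have q3 : ‖‖p‖ • e - ‖p‖ • e'‖ ^ 2 = 2 * ‖p‖ ^ 2 - 2 * ‖p‖ ^ 2 * inner ℝ e e' := by
    rw [norm_sub_sq_real, norm_smul, norm_smul, norm_norm, inner_smul_right, inner_smul_left,
      he, he']
    simp only [conj_trivial]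
    ring
  have n1 := norm_nonneg (p - ‖p‖ • e')
  have n2 := norm_nonneg (p - ‖p‖ • e)
  have n3 := norm_nonneg (‖p‖ • e - ‖p‖ • e')
  have h3 : ‖p - ‖p‖ • e'‖ ^ 2 ≤ 2 * ‖p - ‖p‖ • e‖ ^ 2 + 2 * ‖‖p‖ • e - ‖p‖ • e'‖ ^ 2 := by
    nlinarith only [t1, n1, sq_nonneg (‖p - ‖p‖ • e‖ - ‖‖p‖ • e - ‖p‖ • e'‖)]
  rw [q1, q2, q3] at h3
  have h4 : 2 * ‖p‖ * (13 / 16 * ‖p‖) ≤ 2 * ‖p‖ * inner ℝ e' p := by
    linarith only [h3, mul_le_mul_of_nonneg_left h1 hpn.le, mul_le_mul_of_nonneg_left h2 (sq_nonneg ‖p‖)]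
  exact le_of_mul_le_mul_left h4 (by positivity)

/-- The induction for small values of the field. -/
theorem small_regime {g : E d → E d} (hg : Integrable g) {Ψ : E d → E d} {h : ℝ} (hh : 0 ≤ h)
    {e' : E d} (he' : ‖e'‖ = 1) (k : ℕ) : ∀ (a : Lat d),
    (∀ x ∈ cube k a, ∀ y ∈ cube k a, ‖Ψ x - Ψ y‖ ≤ h * √‖x - y‖) →
    (∀ x ∈ cube k a, 13 / 16 * ‖Ψ x‖ ≤ inner ℝ e' (Ψ x)) →
    ‖Ψ (pt a)‖ ≤ 8 * om d h k →
    -(18 * om d h k * (‖vv (v0f g) k a‖ - inner ℝ e' (vv (v0f g) k a))) -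
      18 * om d h k * ee (v0f g) (m0f g) k a ≤ ∫ x in cube k a, inner ℝ (Ψ x) (g x) := by
  induction k with
  | zero =>
    intro a hΨ _ hs
    have h1 := main_osc hg hh 0 a hΨ
    have h2 : |inner ℝ (Ψ (pt a)) (vv (v0f g) 0 a)| ≤ 8 * om d h 0 * ‖vv (v0f g) 0 a‖ := by
      rw [← Real.norm_eq_abs]
      refine (norm_inner_le_norm _ _).trans ?_
      exact mul_le_mul_of_nonneg_right hs (norm_nonneg _)
    have h3 : ‖vv (v0f g) 0 a‖ ≤ ee (v0f g) (m0f g) 0 a := norm_v0f_le g a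
    have h0 := om_nonneg (d := d) hh 0
    have h4 : 0 ≤ ‖vv (v0f g) 0 a‖ - inner ℝ e' (vv (v0f g) 0 a) := by
      have := real_inner_le_norm e' (vv (v0f g) 0 a)
      rw [he', one_mul] at this
      linarith only [this]
    rw [abs_le] at h1 h2
    linarith only [h1, h2.1, mul_nonneg h0 h4, mul_le_mul_of_nonneg_left h3 h0]
  | succ k ih =>
    intro a hΨ hcone hs
    rw [setIntegral_cube_succ k a (integrableOn_inner hg hh hΨ)]
    have h0 := om_nonneg (d := d) hh k
    have h0' := om_nonneg (d := d) hh (k + 1)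
    have e2 : ∀ b ∈ offs d,
        -(18 * om d h (k + 1) * (‖vv (v0f g) k (a + (2 : ℤ) ^ k • b)‖ -
          inner ℝ e' (vv (v0f g) k (a + (2 : ℤ) ^ k • b)))) -
        18 * om d h k * ee (v0f g) (m0f g) k (a + (2 : ℤ) ^ k • b) ≤
        ∫ x in cube k (a + (2 : ℤ) ^ k • b), inner ℝ (Ψ x) (g x) := by
      intro b hb
      have hch : ∀ x ∈ cube k (a + (2 : ℤ) ^ k • b), ∀ y ∈ cube k (a + (2 : ℤ) ^ k • b),
          ‖Ψ x - Ψ y‖ ≤ h * √‖x - y‖ := fun x hx y hy =>
        hΨ x (child_subset k a hb hx) y (child_subset k a hb hy)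
      have hcc : ∀ x ∈ cube k (a + (2 : ℤ) ^ k • b), 13 / 16 * ‖Ψ x‖ ≤ inner ℝ e' (Ψ x) :=
        fun x hx => hcone x (child_subset k a hb hx)
      have hw : 0 ≤ ‖vv (v0f g) k (a + (2 : ℤ) ^ k • b)‖ -
          inner ℝ e' (vv (v0f g) k (a + (2 : ℤ) ^ k • b)) := by
        have := real_inner_le_norm e' (vv (v0f g) k (a + (2 : ℤ) ^ k • b))
        rw [he', one_mul] at this
        linarith
      have hom : om d h k ≤ om d h (k + 1) := by
        rw [om_succ]
        have : (1 : ℝ) ≤ √2 := Real.one_le_sqrt.mpr (by norm_num)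
        nlinarith only [h0, this]
      rcases le_total ‖Ψ (pt (a + (2 : ℤ) ^ k • b))‖ (8 * om d h k) with hr | hr
      · have := ih _ hch hcc hr
        linarith only [this, mul_le_mul_of_nonneg_right hom hw]
      · have h1 := main_osc hg hh k _ hch
        have h2 := inner_lower (v := vv (v0f g) k (a + (2 : ℤ) ^ k • b)) he'
          (hcc _ (pt_mem_cube k _))
        have h3 : ‖Ψ (pt (a + (2 : ℤ) ^ k • b))‖ ≤ 9 * om d h (k + 1) := by
          have h4 := osc_le hh hΨ (child_subset k a hb (pt_mem_cube k _)) (pt_mem_cube (k + 1) a)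
          calc ‖Ψ (pt (a + (2 : ℤ) ^ k • b))‖ =
              ‖Ψ (pt a) + (Ψ (pt (a + (2 : ℤ) ^ k • b)) - Ψ (pt a))‖ := by congr 1; abel
            _ ≤ _ := norm_add_le _ _
            _ ≤ _ := by linarith only [hs, h4]
        have h5 := norm_nonneg (vv (v0f g) k (a + (2 : ℤ) ^ k • b))
        have h6 := ee_nonneg (v0 := v0f g) (m0f_nonneg g) k (a + (2 : ℤ) ^ k • b)
        rw [abs_le] at h1
        have h7 := mul_le_mul_of_nonneg_right hr h5
        have h8 := mul_le_mul_of_nonneg_right h3 hw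
        linarith only [h7, h8, h1.1, h2, mul_nonneg h0 h6]
    refine le_trans ?_ (Finset.sum_le_sum e2)
    rw [Finset.sum_sub_distrib, Finset.sum_neg_distrib, ← Finset.mul_sum, ← Finset.mul_sum,
      Finset.sum_sub_distrib, sum_norm_child, sum_ee_child]
    have e3 : ∑ b ∈ offs d, inner ℝ e' (vv (v0f g) k (a + (2 : ℤ) ^ k • b)) =
        inner ℝ e' (vv (v0f g) (k + 1) a) := by
      rw [← inner_sum]
      rfl
    rw [e3]
    have e4 : om d h k * √2 = om d h (k + 1) := by rw [om_succ]; ring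
    have h1 := dl_nonneg (v0f g) k a
    have e5 : 18 * om d h k * (√2 * (ee (v0f g) (m0f g) (k + 1) a - dl (v0f g) k a)) =
        18 * om d h (k + 1) * (ee (v0f g) (m0f g) (k + 1) a - dl (v0f g) k a) := by
      rw [← e4]; ring
    rw [e5]
    linarith only []

theorem positivity (d : ℕ) : ∃ C : ℝ, 0 < C ∧ ∀ (g : E d → E d), Integrable g →
    ∀ (k : ℕ) (a : Lat d) (Ψ : E d → E d) (h : ℝ) (e : E d), 0 ≤ h →
    (∀ x ∈ cube k a, ∀ y ∈ cube k a, ‖Ψ x - Ψ y‖ ≤ h * √‖x - y‖) → ‖e‖ = 1 →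
    (∀ x ∈ cube k a, 31 / 32 * ‖Ψ x‖ ≤ inner ℝ e (Ψ x)) →
    15 / 16 * ‖vv (v0f g) k a‖ ≤ inner ℝ e (vv (v0f g) k a) →
    -(C * h * √(2 ^ k) * ee (v0f g) (m0f g) k a) ≤
      ∫ x in cube k a, inner ℝ (Ψ x) (g x) := by
  refine ⟨18 * √(√d) + 1, by positivity, ?_⟩
  intro g hg k a Ψ h e hh hΨ he hcone hv
  have h5 := ee_nonneg (v0 := v0f g) (m0f_nonneg g) k a
  have h0 := om_nonneg (d := d) hh k
  suffices H : -(18 * om d h k * ee (v0f g) (m0f g) k a) ≤
      ∫ x in cube k a, inner ℝ (Ψ x) (g x) by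
    have h3 : 18 * om d h k ≤ (18 * √(√d) + 1) * h * √(2 ^ k) := by
      rw [om_eq]
      have : 0 ≤ h * √(2 ^ k) := by positivity
      linarith only [this]
    have h6 := mul_le_mul_of_nonneg_right h3 h5
    linarith only [H, h6]
  obtain ⟨e', he', hve', hc'⟩ : ∃ e' : E d, ‖e'‖ = 1 ∧
      inner ℝ e' (vv (v0f g) k a) = ‖vv (v0f g) k a‖ ∧
      ∀ x ∈ cube k a, 13 / 16 * ‖Ψ x‖ ≤ inner ℝ e' (Ψ x) := by
    rcases eq_or_ne (vv (v0f g) k a) 0 with h1 | h1
    · refine ⟨e, he, by rw [h1]; simp, fun x hx => ?_⟩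
      have := hcone x hx
      have := norm_nonneg (Ψ x)
      (clear g hg h hh hΨ he hv h5 h0 h1; linarith)
    · have hn : 0 < ‖vv (v0f g) k a‖ := norm_pos_iff.mpr h1
      have he1 : ‖(‖vv (v0f g) k a‖)⁻¹ • vv (v0f g) k a‖ = 1 := by
        rw [norm_smul, norm_inv, norm_norm, inv_mul_cancel₀ hn.ne']
      refine ⟨(‖vv (v0f g) k a‖)⁻¹ • vv (v0f g) k a, he1, ?_, fun x hx => ?_⟩
      · rw [inner_smul_left, real_inner_self_eq_norm_sq]
        simp only [conj_trivial]
        (clear * - h1; field_simp)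
      · refine cone_trans he he1 (hcone x hx) ?_
        rw [inner_smul_right]
        rw [inv_mul_eq_div, le_div_iff₀ hn]
        exact hv
  rcases le_total ‖Ψ (pt a)‖ (8 * om d h k) with hr | hr
  · have := small_regime hg hh he' k a hΨ hc' hr
    rw [hve', sub_self, mul_zero, neg_zero, zero_sub] at this
    linarith only [this]
  · have h1 := main_osc hg hh k a hΨ
    have h2 := inner_lower (v := vv (v0f g) k a) he' (hc' _ (pt_mem_cube k a))
    rw [hve', sub_self, mul_zero, sub_zero] at h2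
    have h6 := norm_nonneg (vv (v0f g) k a)
    rw [abs_le] at h1
    linarith only [h2, h1.1, mul_le_mul_of_nonneg_right hr h6, mul_nonneg h0 h5]

end Vale.Agent.P137.U
end
end

section

section

open MeasureTheory Set Filter Topology
open scoped ENNReal NNReal

namespace Vale.Agent.P137.U

open Vale.Agent.P137

variable {d : ℕ}

/-- Integrand of the transport kernel: velocity of the point `z` of the moving ball
`B(y₀ + t (y₁ - y₀), r₀ + t (r₁ - r₀))`, divided by the volume of the ball. -/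
noncomputable def psi (y₀ y₁ : E d) (r₀ r₁ : ℝ) (t : ℝ) (z : E d) : E d :=
  (Metric.closedBall (y₀ + t • (y₁ - y₀)) (r₀ + t * (r₁ - r₀))).indicator
    (fun z => (volume.real (Metric.closedBall (0 : E d) (r₀ + t * (r₁ - r₀))))⁻¹ •
      ((y₁ - y₀) + ((r₁ - r₀) / (r₀ + t * (r₁ - r₀))) • (z - (y₀ + t • (y₁ - y₀))))) z

/-- The transport kernel. -/
noncomputable def Psi (y₀ y₁ : E d) (r₀ r₁ : ℝ) (z : E d) : E d :=
  ∫ t in (0 : ℝ)..1, psi y₀ y₁ r₀ r₁ t z

/-- Change of variables from the unit ball. -/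
lemma avg_change (H : E d → ℝ) (y : E d) {r : ℝ} (hr : 0 < r) :
    ⨍ w in Metric.closedBall (0 : E d) 1, H (y + r • w)
      = (volume.real (Metric.closedBall (0 : E d) r))⁻¹ *
        ∫ z in Metric.closedBall y r, H z := by
  have h1 : ∀ w : E d, (Metric.closedBall (0 : E d) 1).indicator (fun w => H (y + r • w)) w
      = (Metric.closedBall y r).indicator H (y + r • w) := by
    intro w
    have hiff : w ∈ Metric.closedBall (0 : E d) 1 ↔ y + r • w ∈ Metric.closedBall y r := by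
      rw [mem_closedBall_zero_iff, Metric.mem_closedBall, dist_eq_norm, add_sub_cancel_left,
        norm_smul, Real.norm_of_nonneg hr.le]
      constructor
      · intro h; nlinarith only [hr, h]
      · intro h; by_contra hc; push Not at hc; nlinarith only [hr, h, hc]
    by_cases hw : w ∈ Metric.closedBall (0 : E d) 1
    · rw [indicator_of_mem hw, indicator_of_mem (hiff.1 hw)]
    · rw [indicator_of_notMem hw, indicator_of_notMem (fun h => hw (hiff.2 h))]
  rw [setAverage_eq, ← integral_indicator Metric.isClosed_closedBall.measurableSet]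
  simp_rw [h1]
  rw [Measure.integral_comp_smul volume (fun u => (Metric.closedBall y r).indicator H (y + u)) r,
    integral_add_left_eq_self (μ := volume) ((Metric.closedBall y r).indicator H) y,
    integral_indicator Metric.isClosed_closedBall.measurableSet,
    Measure.addHaar_real_closedBall' volume (0 : E d) hr.le, smul_eq_mul, smul_eq_mul,
    abs_of_nonneg (by positivity), mul_inv]
  ring

lemma radius_pos {r₀ r₁ t : ℝ} (ht : t ∈ Icc (0 : ℝ) 1) :
    min r₀ r₁ ≤ r₀ + t * (r₁ - r₀) := by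
  rcases le_total r₀ r₁ with h | h
  · rw [min_eq_left h]; linarith only [mul_nonneg ht.1 (sub_nonneg.2 h)]
  · rw [min_eq_right h]; linarith only [mul_nonneg (sub_nonneg.2 ht.2) (sub_nonneg.2 h)]

lemma psi_bound (y₀ y₁ : E d) (r₀ r₁ : ℝ) (h₀ : 0 < r₀) (h₁ : 0 < r₁) {t : ℝ}
    (ht : t ∈ Icc (0 : ℝ) 1) (z : E d) :
    ‖psi y₀ y₁ r₀ r₁ t z‖ ≤
      (volume.real (Metric.closedBall (0 : E d) (min r₀ r₁)))⁻¹ * (‖y₁ - y₀‖ + |r₁ - r₀|) := by
  have hm : 0 < min r₀ r₁ := lt_min h₀ h₁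
  have hrt := radius_pos (r₀ := r₀) (r₁ := r₁) ht
  have hr : 0 < r₀ + t * (r₁ - r₀) := hm.trans_le hrt
  have hv : 0 < volume.real (Metric.closedBall (0 : E d) (min r₀ r₁)) :=
    ENNReal.toReal_pos (Metric.measure_closedBall_pos volume _ hm).ne'
      (isCompact_closedBall _ _).measure_lt_top.ne
  unfold psi
  by_cases hz : z ∈ Metric.closedBall (y₀ + t • (y₁ - y₀)) (r₀ + t * (r₁ - r₀))
  · rw [indicator_of_mem hz, norm_smul, norm_inv, Real.norm_of_nonneg measureReal_nonneg]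
    have h2 : volume.real (Metric.closedBall (0 : E d) (min r₀ r₁)) ≤
        volume.real (Metric.closedBall (0 : E d) (r₀ + t * (r₁ - r₀))) :=
      measureReal_mono (Metric.closedBall_subset_closedBall hrt)
        (isCompact_closedBall _ _).measure_lt_top.ne
    have h3 : ‖(y₁ - y₀) + ((r₁ - r₀) / (r₀ + t * (r₁ - r₀))) • (z - (y₀ + t • (y₁ - y₀)))‖
        ≤ ‖y₁ - y₀‖ + |r₁ - r₀| := by
      refine (norm_add_le _ _).trans ?_
      gcongr
      rw [norm_smul, Real.norm_eq_abs, abs_div, abs_of_pos hr, div_mul_eq_mul_div,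
        div_le_iff₀ hr]
      rw [Metric.mem_closedBall, dist_eq_norm] at hz
      (clear * - hz; gcongr)
    (clear * - hv h2 h3; gcongr)
  · rw [indicator_of_notMem hz, norm_zero]; (clear * - hv; positivity)

lemma measurable_psi (y₀ y₁ : E d) (r₀ r₁ : ℝ) :
    Measurable fun p : ℝ × E d => psi y₀ y₁ r₀ r₁ p.1 p.2 := by
  have hmono : Monotone fun r : ℝ => volume.real (Metric.closedBall (0 : E d) r) := fun a b hab =>
    measureReal_mono (Metric.closedBall_subset_closedBall hab)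
      (isCompact_closedBall _ _).measure_lt_top.ne
  have hS : MeasurableSet {p : ℝ × E d | dist p.2 (y₀ + p.1 • (y₁ - y₀))
      ≤ r₀ + p.1 * (r₁ - r₀)} :=
    (isClosed_le (by fun_prop) (by (clear * -; fun_prop))).measurableSet
  have hm1 : Measurable fun p : ℝ × E d =>
      (volume.real (Metric.closedBall (0 : E d) (r₀ + p.1 * (r₁ - r₀))))⁻¹ := by
    refine Measurable.inv ?_
    exact hmono.measurable.comp (by fun_prop : Measurable fun p : ℝ × E d => r₀ + p.1 * (r₁ - r₀))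
  have hm2 : Measurable fun p : ℝ × E d =>
      ((y₁ - y₀) + ((r₁ - r₀) / (r₀ + p.1 * (r₁ - r₀))) • (p.2 - (y₀ + p.1 • (y₁ - y₀)))) := by
    (clear * -; fun_prop)
  exact (hm1.smul hm2).indicator hS

lemma inner_psi (f : E d → ℝ) (y₀ y₁ : E d) (r₀ r₁ t : ℝ) (z : E d) :
    inner ℝ (psi y₀ y₁ r₀ r₁ t z) (gradient f z) =
      (Metric.closedBall (y₀ + t • (y₁ - y₀)) (r₀ + t * (r₁ - r₀))).indicator
    (fun z => (volume.real (Metric.closedBall (0 : E d) (r₀ + t * (r₁ - r₀))))⁻¹ *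
      fderiv ℝ f z ((y₁ - y₀) + ((r₁ - r₀) / (r₀ + t * (r₁ - r₀))) •
        (z - (y₀ + t • (y₁ - y₀))))) z := by
  unfold psi
  by_cases hz : z ∈ Metric.closedBall (y₀ + t • (y₁ - y₀)) (r₀ + t * (r₁ - r₀))
  · rw [indicator_of_mem hz, indicator_of_mem hz, inner_smul_left, real_inner_comm]
    unfold gradient
    rw [InnerProductSpace.toDual_symm_apply]
    simp
  · rw [indicator_of_notMem hz, indicator_of_notMem hz, inner_zero_left]

theorem psf_slice (G : ℝ → E d → ℝ) (h : Continuous fun p : ℝ × E d => G p.1 p.2) (w : E d) :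
    Continuous fun t => G t w :=
  h.comp (by fun_prop : Continuous fun t : ℝ => (t, w))

theorem psf_swap (G : ℝ → E d → ℝ) (h : Continuous fun p : ℝ × E d => G p.1 p.2) :
    Continuous fun p : E d × ℝ => G p.2 p.1 :=
  h.comp continuous_swap

/-- Transport formula. -/
theorem Psi_formula (f : E d → ℝ) (hf : ContDiff ℝ 1 f) (hfc : HasCompactSupport f)
    (y₀ y₁ : E d) (r₀ r₁ : ℝ) (h₀ : 0 < r₀) (h₁ : 0 < r₁) :
    avg f y₁ r₁ - avg f y₀ r₀ = ∫ z, inner ℝ (Psi y₀ y₁ r₀ r₁ z) (gradient f z) := by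
  have hm : 0 < min r₀ r₁ := lt_min h₀ h₁
  set B : Set (E d) := Metric.closedBall (0 : E d) 1 with hB
  set I : Set ℝ := Ioc (0 : ℝ) 1 with hI
  set G : ℝ → E d → ℝ := fun t w => fderiv ℝ f (y₀ + t • (y₁ - y₀) + (r₀ + t * (r₁ - r₀)) • w)
    ((y₁ - y₀) + (r₁ - r₀) • w) with hG
  have hfd : Continuous (fderiv ℝ f) := hf.continuous_fderiv (by norm_num)
  have hGc : Continuous fun p : ℝ × E d => G p.1 p.2 := by
    simp only [hG]
    exact (hfd.comp (by (clear * -; fun_prop) : Continuous fun p : ℝ × E d =>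
      y₀ + p.1 • (y₁ - y₀) + (r₀ + p.1 * (r₁ - r₀)) • p.2)).clm_apply (by fun_prop)
  have hfcont : Continuous f := hf.continuous
  -- fundamental theorem of calculus along the moving ball
  have hftc : ∀ w : E d, f (y₁ + r₁ • w) - f (y₀ + r₀ • w) = ∫ t in I, G t w := by
    intro w
    have hder : ∀ t : ℝ, HasDerivAt
        (fun t : ℝ => f (y₀ + t • (y₁ - y₀) + (r₀ + t * (r₁ - r₀)) • w)) (G t w) t := by
      intro t
      have h1 : HasDerivAt (fun t : ℝ => y₀ + t • (y₁ - y₀) + (r₀ + t * (r₁ - r₀)) • w)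
          ((y₁ - y₀) + (r₁ - r₀) • w) t := by
        have h2 : HasDerivAt (fun t : ℝ => y₀ + t • (y₁ - y₀)) (y₁ - y₀) t := by
          simpa using ((hasDerivAt_id t).smul_const (y₁ - y₀)).const_add y₀
        have h3 : HasDerivAt (fun t : ℝ => (r₀ + t * (r₁ - r₀)) • w) ((r₁ - r₀) • w) t := by
          have h4 : HasDerivAt (fun t : ℝ => r₀ + t * (r₁ - r₀)) (r₁ - r₀) t := by
            simpa using ((hasDerivAt_id t).mul_const (r₁ - r₀)).const_add r₀
          exact h4.smul_const w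
        exact h2.add h3
      have h5 : HasFDerivAt f (fderiv ℝ f (y₀ + t • (y₁ - y₀) + (r₀ + t * (r₁ - r₀)) • w))
          (y₀ + t • (y₁ - y₀) + (r₀ + t * (r₁ - r₀)) • w) :=
        (hf.differentiable (by norm_num) _).hasFDerivAt
      exact h5.comp_hasDerivAt t h1
    have hci : Continuous fun t => G t w := psf_slice G hGc w
    have h6 := intervalIntegral.integral_eq_sub_of_hasDerivAt (fun t _ => hder t)
      (hci.intervalIntegrable 0 1)
    rw [hI, ← intervalIntegral.integral_of_le zero_le_one, h6]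
    simp
  have hBc : IsCompact B := isCompact_closedBall _ _
  have hint : ∀ (y : E d) (r : ℝ), IntegrableOn (fun w => f (y + r • w)) B := fun y r =>
    (hfcont.comp (by fun_prop : Continuous fun w : E d => y + r • w)).continuousOn.integrableOn_compact hBc
  have hA : avg f y₁ r₁ - avg f y₀ r₀ = (volume.real B)⁻¹ * ∫ w in B, ∫ t in I, G t w := by
    unfold avg
    rw [setAverage_eq, setAverage_eq, smul_eq_mul, smul_eq_mul, ← mul_sub,
      ← integral_sub (hint y₁ r₁) (hint y₀ r₀)]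
    congr 1
    refine integral_congr_ae (Eventually.of_forall fun w => ?_)
    exact hftc w
  have hswap1 : ∫ w in B, ∫ t in I, G t w = ∫ t in I, ∫ w in B, G t w := by
    refine integral_integral_swap ?_
    have h1 : IntegrableOn (fun p : E d × ℝ => G p.2 p.1) (B ×ˢ Icc (0:ℝ) 1)
        ((volume : Measure (E d)).prod (volume : Measure ℝ)) := by
      have hc : Continuous fun p : E d × ℝ => G p.2 p.1 := psf_swap G hGc
      exact hc.continuousOn.integrableOn_compact (hBc.prod isCompact_Icc)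
    have h2 := h1.mono_set (prod_mono_right (s := B) Ioc_subset_Icc_self)
    rw [IntegrableOn, ← Measure.prod_restrict] at h2
    exact h2
  have hslice : ∀ t ∈ I, (volume.real B)⁻¹ * ∫ w in B, G t w
      = ∫ z, inner ℝ (psi y₀ y₁ r₀ r₁ t z) (gradient f z) := by
    intro t ht
    have hrt : 0 < r₀ + t * (r₁ - r₀) := hm.trans_le (radius_pos (Ioc_subset_Icc_self ht))
    have h1 := avg_change (fun z => fderiv ℝ f z ((y₁ - y₀) + ((r₁ - r₀) / (r₀ + t * (r₁ - r₀))) •
        (z - (y₀ + t • (y₁ - y₀))))) (y₀ + t • (y₁ - y₀)) hrt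
    rw [setAverage_eq, smul_eq_mul] at h1
    have h2 : ∀ w : E d, fderiv ℝ f (y₀ + t • (y₁ - y₀) + (r₀ + t * (r₁ - r₀)) • w)
        ((y₁ - y₀) + ((r₁ - r₀) / (r₀ + t * (r₁ - r₀))) •
        (y₀ + t • (y₁ - y₀) + (r₀ + t * (r₁ - r₀)) • w - (y₀ + t • (y₁ - y₀)))) = G t w := by
      intro w
      simp only [hG]
      congr 2
      rw [add_sub_cancel_left, smul_smul, div_mul_cancel₀ _ hrt.ne']
    simp_rw [h2] at h1
    rw [h1]
    simp_rw [inner_psi]
    rw [integral_indicator Metric.isClosed_closedBall.measurableSet, integral_const_mul]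
  -- integrability of the kernel
  have hgrad : Continuous (gradient f) :=
    ((InnerProductSpace.toDual ℝ (E d)).symm.continuous).comp hfd
  have hgradc : HasCompactSupport (gradient f) := by
    refine (hfc.fderiv (𝕜 := ℝ)).comp_left (g := (InnerProductSpace.toDual ℝ (E d)).symm) ?_
    exact map_zero _
  have hgi : Integrable (fun z => ‖gradient f z‖) := (hgrad.integrable_of_hasCompactSupport hgradc).norm
  set C : ℝ := (volume.real (Metric.closedBall (0 : E d) (min r₀ r₁)))⁻¹ *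
    (‖y₁ - y₀‖ + |r₁ - r₀|) with hC
  have hswap2 : ∫ t in I, ∫ z, inner ℝ (psi y₀ y₁ r₀ r₁ t z) (gradient f z)
      = ∫ z, ∫ t in I, inner ℝ (psi y₀ y₁ r₀ r₁ t z) (gradient f z) := by
    refine integral_integral_swap ?_
    have h1 : Integrable (fun p : ℝ × E d => C * ‖gradient f p.2‖)
        ((volume.restrict I).prod (volume : Measure (E d))) :=
      Integrable.mul_prod (integrable_const C) hgi
    refine h1.mono' ?_ ?_
    · exact ((measurable_psi y₀ y₁ r₀ r₁).inner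
        (hgrad.measurable.comp measurable_snd)).aestronglyMeasurable
    · have h2 : ∀ᵐ p ∂((volume.restrict I).prod (volume : Measure (E d))), p.1 ∈ I := by
        have h3 : ∀ᵐ t ∂(volume.restrict I), t ∈ I := ae_restrict_mem measurableSet_Ioc
        exact (Measure.quasiMeasurePreserving_fst).ae h3
      filter_upwards [h2] with p hp
      refine (norm_inner_le_norm _ _).trans ?_
      gcongr
      exact psi_bound y₀ y₁ r₀ r₁ h₀ h₁ (Ioc_subset_Icc_self hp) p.2
  rw [hA, hswap1, ← integral_const_mul, setIntegral_congr_fun measurableSet_Ioc hslice, hswap2]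
  refine integral_congr_ae (Eventually.of_forall fun z => ?_)
  have hpi : IntegrableOn (fun t => psi y₀ y₁ r₀ r₁ t z) I := by
    refine (integrable_const C).mono' ?_ ?_
    · exact ((measurable_psi y₀ y₁ r₀ r₁).comp
        (by fun_prop : Measurable fun t : ℝ => (t, z))).aestronglyMeasurable
    · filter_upwards [ae_restrict_mem measurableSet_Ioc] with t ht
      exact psi_bound y₀ y₁ r₀ r₁ h₀ h₁ (Ioc_subset_Icc_self ht) z
  simp only
  unfold Psi
  rw [intervalIntegral.integral_of_le zero_le_one, real_inner_comm, ← integral_inner hpi]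
  refine integral_congr_ae (Eventually.of_forall fun t => ?_)
  exact real_inner_comm _ _

end Vale.Agent.P137.U
end
end

section

section

open MeasureTheory Set Filter Topology
open scoped ENNReal NNReal

namespace Vale.Agent.P137.U

open Vale.Agent.P137

variable {d : ℕ}

/-- The set of times at which a quadratic with positive leading coefficient has a value in an
interval of length `η` below zero is short. -/
theorem quad_measure (A c η t0 : ℝ) (hA : 0 < A) (hη : 0 ≤ η) :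
    volume {t : ℝ | -η ≤ A * (t - t0) ^ 2 + c ∧ A * (t - t0) ^ 2 + c ≤ 0} ≤
      ENNReal.ofReal (2 * √(η / A)) := by
  rcases lt_or_ge 0 c with hc | hc
  · have : {t : ℝ | -η ≤ A * (t - t0) ^ 2 + c ∧ A * (t - t0) ^ 2 + c ≤ 0} = ∅ := by
      ext t
      simp only [mem_ofPred_eq, mem_empty_iff_false, iff_false, not_and, not_le]
      intro _
      (clear * - hA hc; positivity)
    rw [this]; simp only [measure_empty, Nat.ofNat_nonneg, ENNReal.ofReal_mul, ENNReal.ofReal_ofNat, zero_le]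
  · set b := -c / A with hb
    set a := max ((-c - η) / A) 0 with ha
    have hb0 : 0 ≤ b := div_nonneg (by linarith only [hc]) hA.le
    have ha0 : 0 ≤ a := le_max_right _ _
    have hab : b ≤ a + η / A := by
      have : (-c - η) / A ≤ a := le_max_left _ _
      rw [sub_div] at this
      linarith only [this]
    have hηA : 0 ≤ η / A := div_nonneg hη hA.le
    have hsq : √b ≤ √a + √(η / A) := by
      rw [Real.sqrt_le_left (by (clear * -; positivity))]
      linarith only [hab, Real.sq_sqrt ha0, Real.sq_sqrt hηA, mul_nonneg (Real.sqrt_nonneg a) (Real.sqrt_nonneg (η / A))]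
    have hsub : {t : ℝ | -η ≤ A * (t - t0) ^ 2 + c ∧ A * (t - t0) ^ 2 + c ≤ 0} ⊆
        Icc (t0 - √b) (t0 - √a) ∪ Icc (t0 + √a) (t0 + √b) := by
      rintro t ⟨h1, h2⟩
      have h3 : (t - t0) ^ 2 ≤ b := by rw [hb, le_div_iff₀ hA]; linarith only [h2]
      have h4 : a ≤ (t - t0) ^ 2 :=
        max_le (by rw [div_le_iff₀ hA]; linarith only [h1]) (sq_nonneg _)
      have h5 : |t - t0| ≤ √b := Real.abs_le_sqrt h3
      have h6 : √a ≤ |t - t0| := by
        rw [Real.sqrt_le_left (abs_nonneg _), sq_abs]; exact h4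
      rcases le_or_gt 0 (t - t0) with h | h
      · rw [abs_of_nonneg h] at h5 h6
        right; constructor <;> linarith only [h6, h5]
      · rw [abs_of_neg h] at h5 h6
        left; constructor <;> linarith only [h5, h6]
    refine (measure_mono hsub).trans ((measure_union_le _ _).trans ?_)
    rw [Real.volume_Icc, Real.volume_Icc, two_mul,
      ENNReal.ofReal_add (Real.sqrt_nonneg _) (Real.sqrt_nonneg _)]
    exact add_le_add (ENNReal.ofReal_le_ofReal (by linarith only [hsq]))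
      (ENNReal.ofReal_le_ofReal (by linarith only [hsq]))

/-- Times at which `z` is in the moving ball. -/
def inB (y₀ y₁ : E d) (r₀ r₁ : ℝ) (z : E d) : Set ℝ :=
  {t | z ∈ Metric.closedBall (y₀ + t • (y₁ - y₀)) (r₀ + t * (r₁ - r₀))}

/-- Velocity divided by the volume. -/
noncomputable def vel (y₀ y₁ : E d) (r₀ r₁ : ℝ) (t : ℝ) (z : E d) : E d :=
  (volume.real (Metric.closedBall (0 : E d) (r₀ + t * (r₁ - r₀))))⁻¹ •
      ((y₁ - y₀) + ((r₁ - r₀) / (r₀ + t * (r₁ - r₀))) • (z - (y₀ + t • (y₁ - y₀))))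

theorem psi_of_mem {y₀ y₁ : E d} {r₀ r₁ t : ℝ} {z : E d} (h : t ∈ inB y₀ y₁ r₀ r₁ z) :
    psi y₀ y₁ r₀ r₁ t z = vel y₀ y₁ r₀ r₁ t z :=
  indicator_of_mem (show z ∈ _ from h) _

theorem psi_of_notMem {y₀ y₁ : E d} {r₀ r₁ t : ℝ} {z : E d} (h : t ∉ inB y₀ y₁ r₀ r₁ z) :
    psi y₀ y₁ r₀ r₁ t z = 0 :=
  indicator_of_notMem (show z ∉ _ from h) _

theorem measurableSet_inB (y₀ y₁ : E d) (r₀ r₁ : ℝ) (z : E d) :
    MeasurableSet (inB y₀ y₁ r₀ r₁ z) := by
  have : IsClosed (inB y₀ y₁ r₀ r₁ z) := by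
    unfold inB
    simp only [Metric.mem_closedBall]
    exact isClosed_le (by fun_prop) (by fun_prop)
  exact this.measurableSet

theorem measurable_vel (y₀ y₁ : E d) (r₀ r₁ : ℝ) (z : E d) :
    Measurable (fun t => vel y₀ y₁ r₀ r₁ t z) := by
  have hV : Monotone (fun r : ℝ => volume.real (Metric.closedBall (0 : E d) r)) := by
    intro r s hrs
    exact measureReal_mono (Metric.closedBall_subset_closedBall hrs)
      measure_closedBall_lt_top.ne
  have hVm : Measurable (fun t : ℝ =>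
      volume.real (Metric.closedBall (0 : E d) (r₀ + t * (r₁ - r₀)))) :=
    hV.measurable.comp (by fun_prop)
  have h1 : Measurable fun t : ℝ => (r₁ - r₀) / (r₀ + t * (r₁ - r₀)) :=
    measurable_const.div (by fun_prop)
  have h2 : Measurable fun t : ℝ => z - (y₀ + t • (y₁ - y₀)) := by
    have : Continuous fun t : ℝ => z - (y₀ + t • (y₁ - y₀)) := by (clear * -; fun_prop)
    exact this.measurable
  have h3 : Measurable fun t : ℝ => (y₁ - y₀) +
      ((r₁ - r₀) / (r₀ + t * (r₁ - r₀))) • (z - (y₀ + t • (y₁ - y₀))) :=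
    (h1.smul h2).const_add _
  exact hVm.inv.smul h3

theorem measurable_psi_t (y₀ y₁ : E d) (r₀ r₁ : ℝ) (z : E d) :
    Measurable (fun t => psi y₀ y₁ r₀ r₁ t z) := by
  have : (fun t => psi y₀ y₁ r₀ r₁ t z) =
      (inB y₀ y₁ r₀ r₁ z).indicator (fun t => vel y₀ y₁ r₀ r₁ t z) := by
    ext1 t
    by_cases h : t ∈ inB y₀ y₁ r₀ r₁ z
    · rw [indicator_of_mem h, psi_of_mem h]
    · rw [indicator_of_notMem h, psi_of_notMem h]
  rw [this]
  exact (measurable_vel y₀ y₁ r₀ r₁ z).indicator (measurableSet_inB y₀ y₁ r₀ r₁ z)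

/-- Volume of the unit ball. -/
noncomputable def omV (d : ℕ) : ℝ := volume.real (Metric.ball (0 : E d) 1)

theorem omV_pos (d : ℕ) : 0 < omV d := by
  unfold omV
  rw [measureReal_def]
  exact ENNReal.toReal_pos (Metric.measure_ball_pos _ _ one_pos).ne' measure_ball_lt_top.ne

theorem vol_ball {r : ℝ} (hr : 0 ≤ r) :
    volume.real (Metric.closedBall (0 : E d) r) = r ^ d * omV d := by
  rw [Measure.addHaar_real_closedBall _ _ hr]
  simp only [finrank_euclideanSpace, Fintype.card_fin, omV]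

/-- Radius bounds. -/
theorem rt_bounds {a b r₀ r₁ t : ℝ} (h1 : a ≤ r₀) (h2 : r₀ ≤ b) (h3 : a ≤ r₁) (h4 : r₁ ≤ b)
    (ht : t ∈ Icc (0 : ℝ) 1) : a ≤ r₀ + t * (r₁ - r₀) ∧ r₀ + t * (r₁ - r₀) ≤ b := by
  obtain ⟨t0, t1⟩ := ht
  constructor <;> nlinarith only [h1, h3, t0, t1, h2, h4]

theorem inv_vol_le {c ρ r : ℝ} (hc : 0 < c) (hρ : 0 < ρ) (h : c * ρ ≤ r) :
    (volume.real (Metric.closedBall (0 : E d) r))⁻¹ ≤ (omV d)⁻¹ * (c ^ d)⁻¹ * (ρ ^ d)⁻¹ := by
  have hcρ : 0 < c * ρ := mul_pos hc hρ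
  have hr : 0 < r := hcρ.trans_le h
  rw [vol_ball hr.le, ← mul_inv, ← mul_inv]
  apply inv_anti₀
  · have := omV_pos d
    positivity
  · have : (c * ρ) ^ d ≤ r ^ d := pow_le_pow_left₀ hcρ.le h d
    rw [mul_pow] at this
    have := omV_pos d
    (clear hc hρ h hcρ hr; nlinarith)

/-- Hypotheses on the two balls. -/
structure Hyp (c : ℝ) (y₀ y₁ : E d) (r₀ r₁ ρ : ℝ) : Prop where
  hc : 0 < c
  hρ : 0 < ρ
  h1 : c * ρ ≤ r₀
  h2 : r₀ ≤ ρ
  h3 : c * ρ ≤ r₁
  h4 : r₁ ≤ ρ
  h5 : c * ρ ≤ ‖y₁ - y₀‖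
  h6 : ‖y₁ - y₀‖ ≤ ρ / c
  h7 : 2 * |r₁ - r₀| ≤ ‖y₁ - y₀‖

variable {c : ℝ} {y₀ y₁ : E d} {r₀ r₁ ρ : ℝ}

/-- Constant in the size bound. -/
noncomputable def K1 (d : ℕ) (c : ℝ) : ℝ := (omV d)⁻¹ * (c ^ d)⁻¹ * (2 / c)

theorem K1_pos (d : ℕ) {c : ℝ} (hc : 0 < c) : 0 < K1 d c := by
  have := omV_pos d
  unfold K1
  positivity

/-- The factor in front of the distance vector has norm at most one in the ball. -/
theorem w_norm_le {t : ℝ} {z : E d} (hr : 0 < r₀ + t * (r₁ - r₀))
    (h : t ∈ inB y₀ y₁ r₀ r₁ z) :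
    ‖(r₀ + t * (r₁ - r₀))⁻¹ • (z - (y₀ + t • (y₁ - y₀)))‖ ≤ 1 := by
  have h' : ‖z - (y₀ + t • (y₁ - y₀))‖ ≤ r₀ + t * (r₁ - r₀) := by
    have : z ∈ Metric.closedBall (y₀ + t • (y₁ - y₀)) (r₀ + t * (r₁ - r₀)) := h
    rwa [Metric.mem_closedBall, dist_eq_norm] at this
  rw [norm_smul, norm_inv, Real.norm_of_nonneg hr.le, inv_mul_le_iff₀ hr, mul_one]
  exact h'

theorem psi_norm_le (H : Hyp c y₀ y₁ r₀ r₁ ρ) {t : ℝ} (ht : t ∈ Icc (0 : ℝ) 1) (z : E d) :
    ‖psi y₀ y₁ r₀ r₁ t z‖ ≤ K1 d c * (ρ / ρ ^ d) := by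
  have hK := K1_pos d H.hc
  have hρ := H.hρ
  have hc := H.hc
  by_cases h : t ∈ inB y₀ y₁ r₀ r₁ z
  · rw [psi_of_mem h]
    obtain ⟨hr1, hr2⟩ := rt_bounds H.h1 H.h2 H.h3 H.h4 ht
    have hr : 0 < r₀ + t * (r₁ - r₀) := (mul_pos H.hc H.hρ).trans_le hr1
    unfold vel
    rw [norm_smul]
    have e1 : ‖(volume.real (Metric.closedBall (0 : E d) (r₀ + t * (r₁ - r₀))))⁻¹‖ ≤
        (omV d)⁻¹ * (c ^ d)⁻¹ * (ρ ^ d)⁻¹ := by
      rw [norm_inv, Real.norm_of_nonneg measureReal_nonneg]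
      exact inv_vol_le H.hc H.hρ hr1
    have e2 : ‖(y₁ - y₀) + ((r₁ - r₀) / (r₀ + t * (r₁ - r₀))) •
        (z - (y₀ + t • (y₁ - y₀)))‖ ≤ 2 / c * ρ := by
      refine (norm_add_le _ _).trans ?_
      rw [div_eq_mul_inv, mul_smul, norm_smul]
      have := w_norm_le hr h
      have h6 := H.h6
      have h7 := H.h7
      rw [Real.norm_eq_abs]
      have h8 : |r₁ - r₀| * ‖(r₀ + t * (r₁ - r₀))⁻¹ • (z - (y₀ + t • (y₁ - y₀)))‖ ≤
          |r₁ - r₀| * 1 := mul_le_mul_of_nonneg_left this (abs_nonneg _)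
      have h9 : 2 / c * ρ = 2 * (ρ / c) := by ring
      rw [h9]
      linarith only [h6, h7, h8, abs_nonneg (r₁ - r₀)]
    calc _ ≤ ((omV d)⁻¹ * (c ^ d)⁻¹ * (ρ ^ d)⁻¹) * (2 / c * ρ) :=
          mul_le_mul e1 e2 (norm_nonneg _) (by have := omV_pos d; (clear * - this hc hρ; positivity))
      _ = K1 d c * (ρ / ρ ^ d) := by unfold K1; ring
  · rw [psi_of_notMem h, norm_zero]
    positivity

theorem psi_intervalIntegrable (H : Hyp c y₀ y₁ r₀ r₁ ρ) (z : E d) :
    IntervalIntegrable (fun t => psi y₀ y₁ r₀ r₁ t z) volume 0 1 := by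
  rw [intervalIntegrable_iff_integrableOn_Ioc_of_le zero_le_one]
  refine Measure.integrableOn_of_bounded (M := K1 d c * (ρ / ρ ^ d)) (by simp only [Real.volume_Ioc, sub_zero, ENNReal.ofReal_one, ne_eq, ENNReal.one_ne_top, not_false_eq_true])
    (measurable_psi_t y₀ y₁ r₀ r₁ z).aestronglyMeasurable ?_
  refine (ae_restrict_iff' measurableSet_Ioc).2 (ae_of_all _ fun t ht => ?_)
  exact psi_norm_le H ⟨ht.1.le, ht.2⟩ z

theorem Psi_norm_le (H : Hyp c y₀ y₁ r₀ r₁ ρ) (z : E d) :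
    ‖Psi y₀ y₁ r₀ r₁ z‖ ≤ K1 d c * (ρ / ρ ^ d) := by
  have := intervalIntegral.norm_integral_le_of_norm_le_const (a := (0 : ℝ)) (b := 1)
    (f := fun t => psi y₀ y₁ r₀ r₁ t z) (C := K1 d c * (ρ / ρ ^ d)) (by
      intro t ht
      rw [uIoc_of_le zero_le_one] at ht
      exact psi_norm_le H ⟨ht.1.le, ht.2⟩ z)
  unfold Psi
  simpa only [ge_iff_le, sub_zero, abs_one, mul_one] using this

theorem Psi_support (z : E d) (h : Psi y₀ y₁ r₀ r₁ z ≠ 0) : ∃ t ∈ Icc (0 : ℝ) 1,
    ‖z - (y₀ + t • (y₁ - y₀))‖ ≤ r₀ + t * (r₁ - r₀) := by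
  by_contra hcon
  push Not at hcon
  apply h
  unfold Psi
  have : ∀ t ∈ uIcc (0 : ℝ) 1, psi y₀ y₁ r₀ r₁ t z = (fun _ => (0 : E d)) t := by
    intro t ht
    rw [uIcc_of_le zero_le_one] at ht
    apply psi_of_notMem
    intro hmem
    have hmem' : z ∈ Metric.closedBall (y₀ + t • (y₁ - y₀)) (r₀ + t * (r₁ - r₀)) := hmem
    rw [Metric.mem_closedBall, dist_eq_norm] at hmem'
    exact absurd hmem' (not_le.2 (hcon t ht))
  rw [intervalIntegral.integral_congr this]
  simp

theorem psi_cone (H : Hyp c y₀ y₁ r₀ r₁ ρ) (e : E d) (κ : ℝ) (he : ‖e‖ = 1) (hκ : 0 ≤ κ)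
    (hκ' : κ ≤ 1 / 2) (hy : y₁ - y₀ = ‖y₁ - y₀‖ • e) (hr : r₁ - r₀ = κ * ‖y₁ - y₀‖)
    {t : ℝ} (ht : t ∈ Icc (0 : ℝ) 1) (z : E d) :
    (1 - 2 * κ) * ‖psi y₀ y₁ r₀ r₁ t z‖ ≤ inner ℝ e (psi y₀ y₁ r₀ r₁ t z) := by
  by_cases h : t ∈ inB y₀ y₁ r₀ r₁ z
  · rw [psi_of_mem h]
    obtain ⟨hr1, hr2⟩ := rt_bounds H.h1 H.h2 H.h3 H.h4 ht
    have hr0 : 0 < r₀ + t * (r₁ - r₀) := (mul_pos H.hc H.hρ).trans_le hr1
    have hw := w_norm_le hr0 h
    set w := (r₀ + t * (r₁ - r₀))⁻¹ • (z - (y₀ + t • (y₁ - y₀))) with hwdef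
    set V := (volume.real (Metric.closedBall (0 : E d) (r₀ + t * (r₁ - r₀))))⁻¹ with hV
    have hV0 : 0 ≤ V := inv_nonneg.2 measureReal_nonneg
    set L := ‖y₁ - y₀‖ with hL
    have hL0 : 0 ≤ L := norm_nonneg _
    have hvel : vel y₀ y₁ r₀ r₁ t z = (V * L) • (e + κ • w) := by
      unfold vel
      rw [← hV, div_eq_mul_inv, mul_smul, ← hwdef, hr]
      conv_lhs => rw [hy]
      module
    rw [hvel, norm_smul, inner_smul_right, Real.norm_of_nonneg (mul_nonneg hV0 hL0)]
    have e1 : ‖e + κ • w‖ ≤ 1 + κ := by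
      refine (norm_add_le _ _).trans ?_
      rw [he, norm_smul, Real.norm_of_nonneg hκ]
      nlinarith only [hκ, hw]
    have e2 : 1 - κ ≤ inner ℝ e (e + κ • w) := by
      rw [inner_add_right, inner_smul_right, real_inner_self_eq_norm_sq, he]
      have : |inner ℝ e w| ≤ 1 := by
        refine (abs_real_inner_le_norm e w).trans ?_
        rw [he, one_mul]; exact hw
      have := (abs_le.1 this).1
      nlinarith only [hκ, this]
    have e3 : (1 - 2 * κ) * ‖e + κ • w‖ ≤ inner ℝ e (e + κ • w) := by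
      have : (1 - 2 * κ) * ‖e + κ • w‖ ≤ (1 - 2 * κ) * (1 + κ) :=
        mul_le_mul_of_nonneg_left e1 (by linarith only [hκ'])
      nlinarith only [hκ, e2, this]
    have := mul_le_mul_of_nonneg_left e3 (mul_nonneg hV0 hL0)
    calc _ = V * L * ((1 - 2 * κ) * ‖e + κ • w‖) := by ring
      _ ≤ _ := this
  · rw [psi_of_notMem h]
    simp

theorem Psi_cone (H : Hyp c y₀ y₁ r₀ r₁ ρ) (e : E d) (κ : ℝ) (he : ‖e‖ = 1) (hκ : 0 ≤ κ)
    (hκ' : κ ≤ 1 / 2) (hy : y₁ - y₀ = ‖y₁ - y₀‖ • e) (hr : r₁ - r₀ = κ * ‖y₁ - y₀‖)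
    (z : E d) :
    (1 - 2 * κ) * ‖Psi y₀ y₁ r₀ r₁ z‖ ≤ inner ℝ e (Psi y₀ y₁ r₀ r₁ z) := by
  have hint := psi_intervalIntegrable H z
  have h1 : ‖Psi y₀ y₁ r₀ r₁ z‖ ≤ ∫ t in (0 : ℝ)..1, ‖psi y₀ y₁ r₀ r₁ t z‖ :=
    intervalIntegral.norm_integral_le_integral_norm zero_le_one
  have h2 : inner ℝ e (Psi y₀ y₁ r₀ r₁ z) =
      ∫ t in (0 : ℝ)..1, inner ℝ e (psi y₀ y₁ r₀ r₁ t z) := by
    have := ContinuousLinearMap.intervalIntegral_comp_comm (innerSL ℝ e) hint
    simpa only [Psi, coe_innerSL_apply] using this.symm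
  rw [h2]
  have h3 : ∫ t in (0 : ℝ)..1, (1 - 2 * κ) * ‖psi y₀ y₁ r₀ r₁ t z‖ ≤
      ∫ t in (0 : ℝ)..1, inner ℝ e (psi y₀ y₁ r₀ r₁ t z) := by
    refine intervalIntegral.integral_mono_on zero_le_one (hint.norm.const_mul _) ?_ ?_
    · exact ⟨(innerSL ℝ e).integrable_comp hint.1, (innerSL ℝ e).integrable_comp hint.2⟩
    · intro t ht
      exact psi_cone H e κ he hκ hκ' hy hr ht z
  rw [intervalIntegral.integral_const_mul] at h3
  exact (mul_le_mul_of_nonneg_left h1 (by linarith only [hκ'])).trans h3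

end Vale.Agent.P137.U
end
end

section

section

open MeasureTheory Set Filter Topology
open scoped ENNReal NNReal

namespace Vale.Agent.P137.U

open Vale.Agent.P137

variable {d : ℕ}

/-- Times at which exactly the first point is in the moving ball. -/
def badT (y₀ y₁ : E d) (r₀ r₁ : ℝ) (z z' : E d) : Set ℝ :=
  {t | t ∈ Icc (0 : ℝ) 1 ∧ t ∈ inB y₀ y₁ r₀ r₁ z ∧ t ∉ inB y₀ y₁ r₀ r₁ z'}

theorem measurableSet_badT (y₀ y₁ : E d) (r₀ r₁ : ℝ) (z z' : E d) :
    MeasurableSet (badT y₀ y₁ r₀ r₁ z z') := by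
  have : badT y₀ y₁ r₀ r₁ z z' =
      Icc (0 : ℝ) 1 ∩ (inB y₀ y₁ r₀ r₁ z ∩ (inB y₀ y₁ r₀ r₁ z')ᶜ) := by
    ext t; rfl
  rw [this]
  exact measurableSet_Icc.inter ((measurableSet_inB _ _ _ _ _).inter
    (measurableSet_inB _ _ _ _ _).compl)

theorem bad_measure {c : ℝ} {y₀ y₁ : E d} {r₀ r₁ ρ : ℝ} (H : Hyp c y₀ y₁ r₀ r₁ ρ) (z z' : E d)
    (hz : ‖z - z'‖ ≤ ρ) :
    volume (badT y₀ y₁ r₀ r₁ z z') ≤ ENNReal.ofReal (4 / c * √(‖z - z'‖ / ρ)) := by
  have hρ := H.hρ
  have hc := H.hc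
  have h5 := H.h5
  have h7 := H.h7
  have hcρ : 0 < c * ρ := mul_pos hc hρ
  set L := ‖y₁ - y₀‖ with hL
  set δ := r₁ - r₀ with hδ
  set A := L ^ 2 - δ ^ 2 with hA
  set B := inner ℝ (z - y₀) (y₁ - y₀) + r₀ * δ with hB
  set η := 3 * ρ * ‖z - z'‖ with hη
  have hη0 : 0 ≤ η := by (clear * - hρ; positivity)
  have hA1 : 3 / 4 * (c * ρ) ^ 2 ≤ A := by
    have : δ ^ 2 ≤ L ^ 2 / 4 := by
      have : |δ| ^ 2 ≤ (L / 2) ^ 2 := pow_le_pow_left₀ (abs_nonneg _) (by linarith only [h7]) 2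
      rw [sq_abs] at this
      linarith only [this]
    nlinarith only [hcρ, h5, this]
  have hA0 : 0 < A := lt_of_lt_of_le (by positivity) hA1
  have hsub : badT y₀ y₁ r₀ r₁ z z' ⊆ {t : ℝ | -η ≤ A * (t - B / A) ^ 2 +
      (‖z - y₀‖ ^ 2 - r₀ ^ 2 - B ^ 2 / A) ∧
      A * (t - B / A) ^ 2 + (‖z - y₀‖ ^ 2 - r₀ ^ 2 - B ^ 2 / A) ≤ 0} := by
    rintro t ⟨ht, h1, h2⟩
    obtain ⟨hr1, hr2⟩ := rt_bounds H.h1 H.h2 H.h3 H.h4 ht
    have hm1 : z ∈ Metric.closedBall (y₀ + t • (y₁ - y₀)) (r₀ + t * (r₁ - r₀)) := h1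
    have hm2 : z' ∉ Metric.closedBall (y₀ + t • (y₁ - y₀)) (r₀ + t * (r₁ - r₀)) := h2
    rw [Metric.mem_closedBall, dist_eq_norm] at hm1 hm2
    rw [not_le] at hm2
    set r := r₀ + t * (r₁ - r₀) with hr
    have hq : A * (t - B / A) ^ 2 + (‖z - y₀‖ ^ 2 - r₀ ^ 2 - B ^ 2 / A) =
        ‖z - (y₀ + t • (y₁ - y₀))‖ ^ 2 - r ^ 2 := by
      have e1 : ‖z - (y₀ + t • (y₁ - y₀))‖ ^ 2 =
          ‖z - y₀‖ ^ 2 - 2 * (t * inner ℝ (z - y₀) (y₁ - y₀)) + t ^ 2 * L ^ 2 := by
        rw [← sub_sub, norm_sub_sq_real, inner_smul_right, norm_smul, mul_pow,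
          Real.norm_eq_abs, sq_abs]
      rw [e1]
      have e2 : A * (t - B / A) ^ 2 = A * t ^ 2 - 2 * t * B + B ^ 2 / A := by
        field_simp
        ring
      rw [e2, hr, hA, hB]
      ring
    rw [mem_ofPred_eq, hq]
    have hr0 : 0 < r := hcρ.trans_le hr1
    constructor
    · have e3 : ‖z' - (y₀ + t • (y₁ - y₀))‖ ≤ ‖z - (y₀ + t • (y₁ - y₀))‖ + ‖z - z'‖ := by
        have : z' - (y₀ + t • (y₁ - y₀)) = (z - (y₀ + t • (y₁ - y₀))) - (z - z') := by abel
        rw [this]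
        exact norm_sub_le _ _
      have n1 := norm_nonneg (z - (y₀ + t • (y₁ - y₀)))
      have n2 := norm_nonneg (z - z')
      have e4 : r ^ 2 ≤ (‖z - (y₀ + t • (y₁ - y₀))‖ + ‖z - z'‖) ^ 2 :=
        pow_le_pow_left₀ hr0.le (hm2.le.trans e3) 2
      have e5 : ‖z - (y₀ + t • (y₁ - y₀))‖ * ‖z - z'‖ ≤ ρ * ‖z - z'‖ :=
        mul_le_mul_of_nonneg_right (hm1.trans hr2) n2
      have e6 : ‖z - z'‖ * ‖z - z'‖ ≤ ρ * ‖z - z'‖ := mul_le_mul_of_nonneg_right hz n2
      rw [hη]
      linarith only [e4, e5, e6]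
    · have := pow_le_pow_left₀ (norm_nonneg _) hm1 2
      linarith only [this]
  refine (measure_mono hsub).trans ((quad_measure A _ η _ hA0 hη0).trans ?_)
  apply ENNReal.ofReal_le_ofReal
  have h8 : η / A ≤ (2 / c) ^ 2 * (‖z - z'‖ / ρ) := by
    rw [div_le_iff₀ hA0]
    have : (2 / c) ^ 2 * (‖z - z'‖ / ρ) * (3 / 4 * (c * ρ) ^ 2) = η := by
      rw [hη]; field_simp; ring
    rw [← this]
    exact mul_le_mul_of_nonneg_left hA1 (by (clear * - hc hρ; positivity))
  calc 2 * √(η / A) ≤ 2 * √((2 / c) ^ 2 * (‖z - z'‖ / ρ)) := by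
        (clear * - h8; gcongr)
    _ = 4 / c * √(‖z - z'‖ / ρ) := by
        rw [Real.sqrt_mul (by positivity), Real.sqrt_sq (by positivity)]
        ring

/-- Constant for the Lipschitz part. -/
noncomputable def K2 (d : ℕ) (c : ℝ) : ℝ := (omV d)⁻¹ * (c ^ d)⁻¹ * (1 / c ^ 2)

theorem K2_pos (d : ℕ) {c : ℝ} (hc : 0 < c) : 0 < K2 d c := by
  have := omV_pos d
  unfold K2
  positivity

theorem vel_sub_le {c : ℝ} {y₀ y₁ : E d} {r₀ r₁ ρ : ℝ} (H : Hyp c y₀ y₁ r₀ r₁ ρ) (z z' : E d)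
    (hz : ‖z - z'‖ ≤ ρ) {t : ℝ} (ht : t ∈ Icc (0 : ℝ) 1) :
    ‖vel y₀ y₁ r₀ r₁ t z - vel y₀ y₁ r₀ r₁ t z'‖ ≤
      K2 d c * (ρ / ρ ^ d) * √(‖z - z'‖ / ρ) := by
  have hρ := H.hρ
  have hc := H.hc
  have h6 := H.h6
  have h7 := H.h7
  have hcρ : 0 < c * ρ := mul_pos hc hρ
  obtain ⟨hr1, hr2⟩ := rt_bounds H.h1 H.h2 H.h3 H.h4 ht
  have hr0 : 0 < r₀ + t * (r₁ - r₀) := hcρ.trans_le hr1
  have e0 : vel y₀ y₁ r₀ r₁ t z - vel y₀ y₁ r₀ r₁ t z' =
      (volume.real (Metric.closedBall (0 : E d) (r₀ + t * (r₁ - r₀))))⁻¹ •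
        (((r₁ - r₀) / (r₀ + t * (r₁ - r₀))) • (z - z')) := by
    unfold vel
    module
  rw [e0, norm_smul, norm_smul, norm_inv, Real.norm_of_nonneg measureReal_nonneg, norm_div,
    Real.norm_of_nonneg hr0.le, Real.norm_eq_abs]
  have e1 := inv_vol_le (d := d) hc hρ hr1
  have e2 : |r₁ - r₀| / (r₀ + t * (r₁ - r₀)) ≤ 1 / c ^ 2 := by
    rw [div_le_div_iff₀ hr0 (by positivity)]
    have : |r₁ - r₀| ≤ ρ / c := by
      have := norm_nonneg (y₁ - y₀)
      linarith only [h6, h7, abs_nonneg (r₁ - r₀)]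
    have h8 : |r₁ - r₀| * c ^ 2 ≤ ρ / c * c ^ 2 := by (clear * - this hc; gcongr)
    have h9 : ρ / c * c ^ 2 = c * ρ := by field_simp
    linarith only [hr1, h8, h9]
  have hs0 : 0 ≤ ‖z - z'‖ / ρ := by (clear * - hρ; positivity)
  have hs1 : ‖z - z'‖ / ρ ≤ 1 := by rw [div_le_one hρ]; exact hz
  have e3 : ‖z - z'‖ ≤ ρ * √(‖z - z'‖ / ρ) := by
    have : ‖z - z'‖ / ρ ≤ √(‖z - z'‖ / ρ) := by
      apply Real.le_sqrt_of_sq_le
      nlinarith only [hs0, hs1]
    calc ‖z - z'‖ = ρ * (‖z - z'‖ / ρ) := by (clear * - hρ; field_simp)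
      _ ≤ _ := by (clear * - this hρ; gcongr)
  have hom := omV_pos d
  calc (volume.real (Metric.closedBall (0 : E d) (r₀ + t * (r₁ - r₀))))⁻¹ *
        (|r₁ - r₀| / (r₀ + t * (r₁ - r₀)) * ‖z - z'‖)
      ≤ ((omV d)⁻¹ * (c ^ d)⁻¹ * (ρ ^ d)⁻¹) * (1 / c ^ 2 * (ρ * √(‖z - z'‖ / ρ))) := by
        (clear * - e1 e2 e3 hc hr0 hom hρ; gcongr)
    _ = K2 d c * (ρ / ρ ^ d) * √(‖z - z'‖ / ρ) := by unfold K2; ring

theorem psi_sub_le {c : ℝ} {y₀ y₁ : E d} {r₀ r₁ ρ : ℝ} (H : Hyp c y₀ y₁ r₀ r₁ ρ) (z z' : E d)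
    (hz : ‖z - z'‖ ≤ ρ) {t : ℝ} (ht : t ∈ Icc (0 : ℝ) 1) :
    ‖psi y₀ y₁ r₀ r₁ t z - psi y₀ y₁ r₀ r₁ t z'‖ ≤
      K2 d c * (ρ / ρ ^ d) * √(‖z - z'‖ / ρ) +
      ((badT y₀ y₁ r₀ r₁ z z').indicator (fun _ => K1 d c * (ρ / ρ ^ d)) t +
      (badT y₀ y₁ r₀ r₁ z' z).indicator (fun _ => K1 d c * (ρ / ρ ^ d)) t) := by
  have hρ := H.hρ
  have hK1 := K1_pos d H.hc
  have hK2 := K2_pos d H.hc
  have hi : ∀ a b : E d, 0 ≤ (badT y₀ y₁ r₀ r₁ a b).indicator
      (fun _ => K1 d c * (ρ / ρ ^ d)) t := fun a b =>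
    indicator_nonneg (fun _ _ => by positivity) _
  have hk2 : 0 ≤ K2 d c * (ρ / ρ ^ d) * √(‖z - z'‖ / ρ) := by (clear * - hK2 hρ; positivity)
  by_cases h1 : t ∈ inB y₀ y₁ r₀ r₁ z <;> by_cases h2 : t ∈ inB y₀ y₁ r₀ r₁ z'
  · rw [psi_of_mem h1, psi_of_mem h2]
    have := vel_sub_le H z z' hz ht
    linarith only [this, hi z z', hi z' z]
  · rw [psi_of_notMem h2, sub_zero]
    have hb : t ∈ badT y₀ y₁ r₀ r₁ z z' := ⟨ht, h1, h2⟩
    rw [indicator_of_mem hb]
    linarith only [hk2, psi_norm_le H ht z, hi z' z]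
  · rw [psi_of_notMem h1, zero_sub, norm_neg]
    have hb : t ∈ badT y₀ y₁ r₀ r₁ z' z := ⟨ht, h2, h1⟩
    rw [indicator_of_mem hb]
    linarith only [hk2, psi_norm_le H ht z', hi z z']
  · rw [psi_of_notMem h1, psi_of_notMem h2, sub_zero, norm_zero]
    linarith only [hk2, hi z z', hi z' z]

theorem ind_integrable (s : Set ℝ) (hs : MeasurableSet s) (K : ℝ) :
    IntervalIntegrable (s.indicator (fun _ => K)) volume 0 1 := by
  rw [intervalIntegrable_iff_integrableOn_Ioc_of_le zero_le_one]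
  exact (integrableOn_const (by simp only [Real.volume_Ioc, sub_zero, ENNReal.ofReal_one, ne_eq, ENNReal.one_ne_top, not_false_eq_true])).indicator hs

theorem ind_integral_le {s : Set ℝ} (hs : MeasurableSet s) {K m : ℝ} (hK : 0 ≤ K) (hm : 0 ≤ m)
    (h : volume s ≤ ENNReal.ofReal m) :
    ∫ t in (0 : ℝ)..1, s.indicator (fun _ => K) t ≤ K * m := by
  rw [intervalIntegral.integral_of_le zero_le_one, setIntegral_indicator hs, setIntegral_const,
    smul_eq_mul, mul_comm]
  refine mul_le_mul_of_nonneg_left ?_ hK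
  rw [measureReal_def]
  refine ENNReal.toReal_le_of_le_ofReal hm ?_
  exact (measure_mono inter_subset_right).trans h

theorem Psi_holder {c : ℝ} {y₀ y₁ : E d} {r₀ r₁ ρ : ℝ} (H : Hyp c y₀ y₁ r₀ r₁ ρ) (z z' : E d) :
    ‖Psi y₀ y₁ r₀ r₁ z - Psi y₀ y₁ r₀ r₁ z'‖ ≤
      (K2 d c + K1 d c * (8 / c) + 2 * K1 d c) * (ρ / ρ ^ d) * √(‖z - z'‖ / ρ) := by
  have hρ := H.hρ
  have hc := H.hc
  have hK1 := K1_pos d H.hc
  have hK2 := K2_pos d H.hc
  have hi1 := psi_intervalIntegrable H z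
  have hi2 := psi_intervalIntegrable H z'
  rcases le_or_gt ‖z - z'‖ ρ with hz | hz
  · have hz' : ‖z' - z‖ ≤ ρ := by rwa [norm_sub_rev]
    have hb1 := bad_measure H z z' hz
    have hb2 := bad_measure H z' z hz'
    rw [norm_sub_rev z' z] at hb2
    set s := √(‖z - z'‖ / ρ) with hs
    have hs0 : 0 ≤ s := Real.sqrt_nonneg _
    set M := K1 d c * (ρ / ρ ^ d) with hM
    have hM0 : 0 ≤ M := by positivity
    have m1 := measurableSet_badT y₀ y₁ r₀ r₁ z z'
    have m2 := measurableSet_badT y₀ y₁ r₀ r₁ z' z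
    have e1 : Psi y₀ y₁ r₀ r₁ z - Psi y₀ y₁ r₀ r₁ z' =
        ∫ t in (0 : ℝ)..1, (psi y₀ y₁ r₀ r₁ t z - psi y₀ y₁ r₀ r₁ t z') := by
      rw [intervalIntegral.integral_sub hi1 hi2]
      rfl
    rw [e1]
    refine (intervalIntegral.norm_integral_le_integral_norm zero_le_one).trans ?_
    have j1 := ind_integrable _ m1 M
    have j2 := ind_integrable _ m2 M
    have e2 : ∫ t in (0 : ℝ)..1, ‖psi y₀ y₁ r₀ r₁ t z - psi y₀ y₁ r₀ r₁ t z'‖ ≤
        ∫ t in (0 : ℝ)..1, (K2 d c * (ρ / ρ ^ d) * s +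
          ((badT y₀ y₁ r₀ r₁ z z').indicator (fun _ => M) t +
          (badT y₀ y₁ r₀ r₁ z' z).indicator (fun _ => M) t)) := by
      refine intervalIntegral.integral_mono_on zero_le_one (hi1.sub hi2).norm
        (intervalIntegrable_const.add (j1.add j2)) ?_
      intro t ht
      exact psi_sub_le H z z' hz ht
    refine e2.trans ?_
    rw [intervalIntegral.integral_add intervalIntegrable_const (j1.add j2),
      intervalIntegral.integral_add j1 j2, intervalIntegral.integral_const]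
    have k1 := ind_integral_le m1 hM0 (by (clear * - hc; positivity)) hb1
    have k2 := ind_integral_le m2 hM0 (by (clear * - hc; positivity)) hb2
    have k3 : 0 ≤ 2 * K1 d c * (ρ / ρ ^ d) * s := by (clear * - hK1 hρ; positivity)
    have k4 : (K2 d c + K1 d c * (8 / c) + 2 * K1 d c) * (ρ / ρ ^ d) * s =
        K2 d c * (ρ / ρ ^ d) * s + (M * (4 / c * s) + M * (4 / c * s)) +
          2 * K1 d c * (ρ / ρ ^ d) * s := by rw [hM]; ring
    rw [k4, sub_zero, one_smul]
    linarith only [k1, k2, k3]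
  · have h1 := Psi_norm_le H z
    have h2 := Psi_norm_le H z'
    have h3 : (1 : ℝ) ≤ √(‖z - z'‖ / ρ) := by
      rw [Real.one_le_sqrt, one_le_div hρ]
      exact hz.le
    have h4 := norm_sub_le (Psi y₀ y₁ r₀ r₁ z) (Psi y₀ y₁ r₀ r₁ z')
    have h5 : 2 * (K1 d c * (ρ / ρ ^ d)) ≤
        (K2 d c + K1 d c * (8 / c) + 2 * K1 d c) * (ρ / ρ ^ d) := by
      have : 0 ≤ (K2 d c + K1 d c * (8 / c)) * (ρ / ρ ^ d) := by (clear * - hK2 hK1 hc hρ; positivity)
      linarith only [this]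
    have h6 : (K2 d c + K1 d c * (8 / c) + 2 * K1 d c) * (ρ / ρ ^ d) * 1 ≤
        (K2 d c + K1 d c * (8 / c) + 2 * K1 d c) * (ρ / ρ ^ d) * √(‖z - z'‖ / ρ) :=
      mul_le_mul_of_nonneg_left h3 (by positivity)
    linarith only [h1, h2, h4, h5, h6]

/-- Bounds for the transport kernel. -/
theorem Psi_bounds (hd : 0 < d) (c : ℝ) (hc : 0 < c) : ∃ C : ℝ, 0 < C ∧
    ∀ (y₀ y₁ : E d) (r₀ r₁ ρ : ℝ), 0 < ρ →
    c * ρ ≤ r₀ → r₀ ≤ ρ → c * ρ ≤ r₁ → r₁ ≤ ρ → c * ρ ≤ ‖y₁ - y₀‖ → ‖y₁ - y₀‖ ≤ ρ / c →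
    2 * |r₁ - r₀| ≤ ‖y₁ - y₀‖ →
      (∀ z, ‖Psi y₀ y₁ r₀ r₁ z‖ ≤ C * (ρ / ρ ^ d)) ∧
      (∀ z z', ‖Psi y₀ y₁ r₀ r₁ z - Psi y₀ y₁ r₀ r₁ z'‖ ≤
        C * (ρ / ρ ^ d) / √ρ * √‖z - z'‖) ∧
      (∀ z, Psi y₀ y₁ r₀ r₁ z ≠ 0 → ∃ t ∈ Icc (0 : ℝ) 1,
        ‖z - (y₀ + t • (y₁ - y₀))‖ ≤ r₀ + t * (r₁ - r₀)) ∧
      (∀ (e : E d) (κ : ℝ), ‖e‖ = 1 → 0 ≤ κ → κ ≤ 1 / 2 → y₁ - y₀ = ‖y₁ - y₀‖ • e →
        r₁ - r₀ = κ * ‖y₁ - y₀‖ →
        ∀ z, (1 - 2 * κ) * ‖Psi y₀ y₁ r₀ r₁ z‖ ≤ inner ℝ e (Psi y₀ y₁ r₀ r₁ z)) := by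
  have hK1 := K1_pos d hc
  have hK2 := K2_pos d hc
  refine ⟨K2 d c + K1 d c * (8 / c) + 2 * K1 d c, by positivity, ?_⟩
  intro y₀ y₁ r₀ r₁ ρ hρ h1 h2 h3 h4 h5 h6 h7
  have H : Hyp c y₀ y₁ r₀ r₁ ρ := ⟨hc, hρ, h1, h2, h3, h4, h5, h6, h7⟩
  refine ⟨fun z => ?_, fun z z' => ?_, fun z hz => Psi_support z hz,
    fun e κ he hκ hκ' hy hr z => Psi_cone H e κ he hκ hκ' hy hr z⟩
  · refine (Psi_norm_le H z).trans ?_
    have : 0 ≤ (K2 d c + K1 d c * (8 / c) + K1 d c) * (ρ / ρ ^ d) := by positivity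
    linarith only [this]
  · have := Psi_holder H z z'
    rw [Real.sqrt_div (norm_nonneg _)] at this
    calc _ ≤ _ := this
      _ = _ := by ring

/-- The transport kernel with all its properties. -/
theorem transport (hd : 0 < d) (c : ℝ) (hc : 0 < c) : ∃ C : ℝ, 0 < C ∧ ∀ (f : E d → ℝ),
    ContDiff ℝ 1 f → HasCompactSupport f → ∀ (y₀ y₁ : E d) (r₀ r₁ ρ : ℝ), 0 < ρ →
    c * ρ ≤ r₀ → r₀ ≤ ρ → c * ρ ≤ r₁ → r₁ ≤ ρ → c * ρ ≤ ‖y₁ - y₀‖ → ‖y₁ - y₀‖ ≤ ρ / c →
    2 * |r₁ - r₀| ≤ ‖y₁ - y₀‖ →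
    ∃ Ψ : E d → E d,
      (∀ z, ‖Ψ z‖ ≤ C * (ρ / ρ ^ d)) ∧
      (∀ z z', ‖Ψ z - Ψ z'‖ ≤ C * (ρ / ρ ^ d) / √ρ * √‖z - z'‖) ∧
      (∀ z, Ψ z ≠ 0 → ∃ t ∈ Icc (0 : ℝ) 1,
        ‖z - (y₀ + t • (y₁ - y₀))‖ ≤ r₀ + t * (r₁ - r₀)) ∧
      (∀ (e : E d) (κ : ℝ), ‖e‖ = 1 → 0 ≤ κ → κ ≤ 1 / 2 → y₁ - y₀ = ‖y₁ - y₀‖ • e →
        r₁ - r₀ = κ * ‖y₁ - y₀‖ → ∀ z, (1 - 2 * κ) * ‖Ψ z‖ ≤ inner ℝ e (Ψ z)) ∧
      avg f y₁ r₁ - avg f y₀ r₀ = ∫ z, inner ℝ (Ψ z) (gradient f z) := by
  obtain ⟨C, hC, h⟩ := Psi_bounds hd c hc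
  refine ⟨C, hC, fun f hf hfc y₀ y₁ r₀ r₁ ρ hρ h1 h2 h3 h4 h5 h6 h7 =>
    ⟨Psi y₀ y₁ r₀ r₁, ?_⟩⟩
  obtain ⟨a, b, c', e'⟩ := h y₀ y₁ r₀ r₁ ρ hρ h1 h2 h3 h4 h5 h6 h7
  exact ⟨a, b, c', e', Psi_formula f hf hfc y₀ y₁ r₀ r₁ (by linarith only [h1, mul_pos hc hρ])
    (by linarith only [h3, mul_pos hc hρ])⟩

end Vale.Agent.P137.U
end
end

section

section

open MeasureTheory Set Filter Topology
open scoped ENNReal NNReal

namespace Vale.Agent.P137.U

open Vale.Agent.P137

variable {d : ℕ}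

theorem kap_pos (d : ℕ) : 0 < kap d := by
  unfold kap
  positivity

theorem kap_le (hd : 0 < d) : kap d ≤ 1 / 103 := by
  unfold kap
  have h1 : (1 : ℝ) ≤ √d := by
    rw [Real.one_le_sqrt]
    exact_mod_cast hd
  apply one_div_le_one_div_of_le (by norm_num)
  linarith only [h1]

theorem integrable_gradient {f : E d → ℝ} (hf : ContDiff ℝ 1 f) (hfc : HasCompactSupport f) :
    Integrable (gradient f) := by
  have h1 : Continuous (fderiv ℝ f) := hf.continuous_fderiv (by norm_num)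
  have h2 : Integrable (fderiv ℝ f) := h1.integrable_of_hasCompactSupport (hfc.fderiv ℝ)
  have h3 : gradient f = fun x => (InnerProductSpace.toDual ℝ (E d)).symm (fderiv ℝ f x) := rfl
  rw [h3]
  exact (InnerProductSpace.toDual ℝ (E d)).symm.toContinuousLinearEquiv.toContinuousLinearMap.integrable_comp h2

/-- Balls interpolated between two balls in a convex set stay in the set. -/
theorem mem_of_interp {S : Set (E d)} (hS : Convex ℝ S) {y₀ y₁ : E d} {r₀ r₁ : ℝ} (h₀ : 0 < r₀)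
    (h₁ : 0 < r₁) (hy₀ : Metric.closedBall y₀ r₀ ⊆ S) (hy₁ : Metric.closedBall y₁ r₁ ⊆ S)
    {z : E d} {t : ℝ} (ht : t ∈ Icc (0 : ℝ) 1)
    (hz : ‖z - (y₀ + t • (y₁ - y₀))‖ ≤ r₀ + t * (r₁ - r₀)) : z ∈ S := by
  obtain ⟨ht0, ht1⟩ := ht
  set ρ := r₀ + t * (r₁ - r₀) with hρ
  have hρ' : ρ = (1 - t) * r₀ + t * r₁ := by rw [hρ]; ring
  have hρpos : 0 < ρ := by
    rw [hρ']
    rcases eq_or_lt_of_le ht0 with h | h
    · rw [← h]; linarith only [h₀]
    · linarith only [mul_pos h h₁, mul_nonneg (sub_nonneg.2 ht1) h₀.le]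
  set w := z - (y₀ + t • (y₁ - y₀)) with hw
  have hw' : ‖ρ⁻¹ • w‖ ≤ 1 := by
    rw [norm_smul, Real.norm_of_nonneg (inv_nonneg.2 hρpos.le), inv_mul_le_iff₀ hρpos]
    linarith only [hz]
  have ha : y₀ + r₀ • (ρ⁻¹ • w) ∈ S := by
    apply hy₀
    rw [mem_closedBall_iff_norm, add_sub_cancel_left, norm_smul, Real.norm_of_nonneg h₀.le]
    nlinarith only [h₀, hw']
  have hb : y₁ + r₁ • (ρ⁻¹ • w) ∈ S := by
    apply hy₁
    rw [mem_closedBall_iff_norm, add_sub_cancel_left, norm_smul, Real.norm_of_nonneg h₁.le]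
    nlinarith only [h₁, hw']
  have hc := hS ha hb (sub_nonneg.2 ht1) ht0 (by ring)
  have hzw : w = ρ • (ρ⁻¹ • w) := by
    rw [smul_smul, mul_inv_cancel₀ hρpos.ne', one_smul]
  have : z = (1 - t) • (y₀ + r₀ • (ρ⁻¹ • w)) + t • (y₁ + r₁ • (ρ⁻¹ • w)) := by
    have h1 : z = y₀ + t • (y₁ - y₀) + w := by rw [hw]; abel
    rw [h1]
    nth_rewrite 1 [hzw]
    rw [hρ']
    module
  rw [this]
  exact hc

/-- The integral of the transport kernel only sees a cube containing both balls. -/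
theorem integral_eq_setIntegral {S : Set (E d)} (hS : Convex ℝ S) {y₀ y₁ : E d}
    {r₀ r₁ : ℝ} (h₀ : 0 < r₀) (h₁ : 0 < r₁) (hy₀ : Metric.closedBall y₀ r₀ ⊆ S)
    (hy₁ : Metric.closedBall y₁ r₁ ⊆ S) {Ψ g : E d → E d}
    (hΨ : ∀ z, Ψ z ≠ 0 → ∃ t ∈ Icc (0 : ℝ) 1,
        ‖z - (y₀ + t • (y₁ - y₀))‖ ≤ r₀ + t * (r₁ - r₀)) :
    ∫ z, inner ℝ (Ψ z) (g z) = ∫ z in S, inner ℝ (Ψ z) (g z) := by
  symm
  apply setIntegral_eq_integral_of_forall_compl_eq_zero
  intro z hz
  by_cases h : Ψ z = 0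
  · rw [h, inner_zero_left]
  · obtain ⟨t, ht, htz⟩ := hΨ z h
    exact absurd (mem_of_interp hS h₀ h₁ hy₀ hy₁ ht htz) hz

theorem forward_step (hd : 0 < d) (c : ℝ) (hc : 0 < c) : ∃ C : ℝ, 0 < C ∧ ∀ (f : E d → ℝ),
    ContDiff ℝ 1 f → HasCompactSupport f → ∀ (k : ℕ) (a : Lat d) (e y : E d) (r s : ℝ),
    ‖e‖ = 1 → c * 2 ^ k ≤ r → r ≤ 2 ^ k → kap d * r / 2 ≤ s → s ≤ r / kap d →
    Metric.closedBall y r ⊆ cube k a →
    Metric.closedBall (y + s • e) (r + kap d * s) ⊆ cube k a →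
    15 / 16 * ‖vv (v0f (gradient f)) k a‖ ≤ inner ℝ e (vv (v0f (gradient f)) k a) →
    avg f y r - C * (r / r ^ d) * ee (v0f (gradient f)) (m0f (gradient f)) k a ≤
      avg f (y + s • e) (r + kap d * s) := by
  have hk := kap_pos d
  have hk' := kap_le hd
  obtain ⟨C₁, hC₁, htr⟩ := transport hd (kap d / 4) (by positivity)
  obtain ⟨C₂, hC₂, hpos⟩ := positivity d
  refine ⟨C₂ * C₁ / √c, by positivity, ?_⟩
  intro f hf hfc k a e y r s he h1 h2 h3 h4 hb1 hb2 hcone
  have h2k : (0 : ℝ) < 2 ^ k := by positivity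
  have hr : 0 < r := lt_of_lt_of_le (by positivity) h1
  have hs : 0 < s := lt_of_lt_of_le (by positivity) h3
  set ρ := r + kap d * s with hρ
  have hks : kap d * s ≤ r := by
    rw [le_div_iff₀ hk] at h4
    linarith only [h4]
  have hks0 : 0 < kap d * s := by positivity
  have hρpos : 0 < ρ := by (clear * - hr hk hs; positivity)
  have hρ2 : ρ ≤ 2 * r := by linarith only [hks]
  have hse : ‖(y + s • e) - y‖ = s := by
    rw [add_sub_cancel_left, norm_smul, he, Real.norm_of_nonneg hs.le, mul_one]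
  obtain ⟨Ψ, hΨ1, hΨ2, hΨ3, hΨ4, hΨ5⟩ := htr f hf hfc y (y + s • e) r ρ ρ hρpos
    (by nlinarith only [h3, hs, hks, hks0]) (by linarith only [hks0]) (by nlinarith only [h3, hs, hks, hks0]) le_rfl (by rw [hse]; nlinarith only [h3, hs, hks, hks0])
    (by
      rw [hse]
      rw [le_div_iff₀ (by positivity)]
      linarith only [hks, hks0])
    (by
      rw [hse, hρ]
      rw [show r + kap d * s - r = kap d * s by ring, abs_of_pos hks0]
      nlinarith only [hk, hk', hks0])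
  have hcube := convex_cube k a
  have hint := integral_eq_setIntegral hcube hr hρpos hb1 hb2 (g := gradient f) hΨ3
  have hcone' := hΨ4 e (kap d) he hk.le (by linarith only [hk']) (by rw [hse, add_sub_cancel_left])
    (by rw [hse, hρ]; ring)
  have hfin := hpos (gradient f) (integrable_gradient hf hfc) k a Ψ (C₁ * (ρ / ρ ^ d) / √ρ) e
    (by (clear * - hC₁ hr hk hs; positivity)) (fun x _ y _ => hΨ2 x y) he
    (fun x _ => le_trans (mul_le_mul_of_nonneg_right (by linarith only [hk']) (norm_nonneg _)) (hcone' x))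
    hcone
  rw [← hint, ← hΨ5] at hfin
  have hee : 0 ≤ ee (v0f (gradient f)) (m0f (gradient f)) k a := ee_nonneg (m0f_nonneg _) k a
  have hρr : ρ / ρ ^ d ≤ r / r ^ d := by
    obtain ⟨n, rfl⟩ : ∃ n, d = n + 1 := ⟨d - 1, by omega⟩
    rw [pow_succ, pow_succ, div_mul_cancel_right₀ hρpos.ne', div_mul_cancel_right₀ hr.ne']
    apply inv_anti₀ (by positivity)
    exact pow_le_pow_left₀ hr.le (by linarith only [hks0]) n
  have hsq : √(2 ^ k) / √ρ ≤ 1 / √c := by
    rw [div_le_div_iff₀ (by (clear * - hr hk hs; positivity)) (by positivity), one_mul, ← Real.sqrt_mul (by positivity)]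
    apply Real.sqrt_le_sqrt
    linarith only [h1, hks0]
  have hrr : 0 ≤ ρ / ρ ^ d := by (clear * - hr hk hs; positivity)
  have key : C₂ * (C₁ * (ρ / ρ ^ d) / √ρ) * √(2 ^ k) ≤ C₂ * C₁ / √c * (r / r ^ d) := by
    calc C₂ * (C₁ * (ρ / ρ ^ d) / √ρ) * √(2 ^ k)
        = C₂ * C₁ * (ρ / ρ ^ d) * (√(2 ^ k) / √ρ) := by ring
      _ ≤ C₂ * C₁ * (r / r ^ d) * (1 / √c) := by
          apply mul_le_mul _ hsq (by (clear * - hr hk hs; positivity)) (by (clear * - hC₂ hC₁ hr; positivity))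
          exact mul_le_mul_of_nonneg_left hρr (by positivity)
      _ = C₂ * C₁ / √c * (r / r ^ d) := by ring
  have := mul_le_mul_of_nonneg_right key hee
  linarith only [hfin, this]

theorem top_compare (hd : 0 < d) (c : ℝ) (hc : 0 < c) : ∃ C : ℝ, 0 < C ∧ ∀ (f : E d → ℝ),
    ContDiff ℝ 1 f → HasCompactSupport f → ∀ (k : ℕ) (a : Lat d) (y₀ y₁ : E d) (r₀ r₁ : ℝ),
    c * 2 ^ k ≤ r₀ → r₀ ≤ 2 ^ k → c * 2 ^ k ≤ r₁ → r₁ ≤ 2 ^ k →
    c * 2 ^ k ≤ ‖y₁ - y₀‖ → 2 * |r₁ - r₀| ≤ ‖y₁ - y₀‖ →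
    Metric.closedBall y₀ r₀ ⊆ cube k a → Metric.closedBall y₁ r₁ ⊆ cube k a →
    |avg f y₁ r₁ - avg f y₀ r₀| ≤ C * (2 ^ k / (2 ^ k) ^ d) *
      (‖vv (v0f (gradient f)) k a‖ + ee (v0f (gradient f)) (m0f (gradient f)) k a) := by
  set c' := min c (1 / (√d + 1)) with hc'
  have hc'pos : 0 < c' := lt_min hc (by positivity)
  obtain ⟨C₁, hC₁, htr⟩ := transport hd c' hc'pos
  obtain ⟨C₂, hC₂, htwo⟩ := two_sided d
  refine ⟨C₁ * (1 + C₂), by positivity, ?_⟩
  intro f hf hfc k a y₀ y₁ r₀ r₁ h1 h2 h3 h4 h5 h6 hb0 hb1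
  have h2k : (0 : ℝ) < 2 ^ k := by positivity
  have hr₀ : 0 < r₀ := lt_of_lt_of_le (by positivity) h1
  have hr₁ : 0 < r₁ := lt_of_lt_of_le (by positivity) h3
  have hcc : c' * 2 ^ k ≤ c * 2 ^ k := mul_le_mul_of_nonneg_right (min_le_left _ _) h2k.le
  have hdist : ‖y₁ - y₀‖ ≤ √d * 2 ^ k := norm_sub_le_of_mem_cube
    (hb1 (Metric.mem_closedBall_self hr₁.le)) (hb0 (Metric.mem_closedBall_self hr₀.le))
  obtain ⟨Ψ, hΨ1, hΨ2, hΨ3, hΨ4, hΨ5⟩ := htr f hf hfc y₀ y₁ r₀ r₁ (2 ^ k) h2k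
    (by linarith only [h1, hcc]) h2 (by linarith only [h3, hcc]) h4 (by linarith only [h5, hcc])
    (by
      rw [le_div_iff₀ hc'pos]
      have : c' ≤ 1 / (√d + 1) := min_le_right _ _
      have h7 : √d * c' ≤ 1 := by
        rw [le_div_iff₀ (by positivity)] at this
        have := hc'pos
        have := Real.sqrt_nonneg d
        (clear hc' C₁ hC₁ htr C₂ hC₂ htwo f hf hfc k a y₀ y₁ r₀ r₁ h1 h2 h3 h4 h5 h6 hb0 hb1 h2k hr₀ hr₁ hcc hdist this; nlinarith)
      calc ‖y₁ - y₀‖ * c' ≤ √d * 2 ^ k * c' := mul_le_mul_of_nonneg_right hdist hc'pos.le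
        _ = (√d * c') * 2 ^ k := by ring
        _ ≤ 1 * 2 ^ k := mul_le_mul_of_nonneg_right h7 h2k.le
        _ = 2 ^ k := one_mul _)
    h6
  have hcube := convex_cube k a
  have hint := integral_eq_setIntegral hcube hr₀ hr₁ hb0 hb1 (g := gradient f) hΨ3
  have hfin := htwo (gradient f) (integrable_gradient hf hfc) k a Ψ (C₁ * (2 ^ k / (2 ^ k) ^ d))
    (C₁ * (2 ^ k / (2 ^ k) ^ d) / √(2 ^ k)) (by positivity) (by positivity)
    (fun x _ => hΨ1 x) (fun x _ y _ => hΨ2 x y)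
  rw [← hint, ← hΨ5] at hfin
  have hee : 0 ≤ ee (v0f (gradient f)) (m0f (gradient f)) k a := ee_nonneg (m0f_nonneg _) k a
  refine hfin.trans ?_
  have hs : C₂ * (C₁ * (2 ^ k / (2 ^ k) ^ d) / √(2 ^ k)) * √(2 ^ k) =
      C₂ * (C₁ * (2 ^ k / (2 ^ k) ^ d)) := by
    field_simp
  rw [hs]
  have hB : 0 ≤ C₁ * ((2 : ℝ) ^ k / (2 ^ k) ^ d) := by positivity
  have hn := norm_nonneg (vv (v0f (gradient f)) k a)
  have : 0 ≤ C₁ * ((2 : ℝ) ^ k / (2 ^ k) ^ d) * ee (v0f (gradient f)) (m0f (gradient f)) k a :=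
    mul_nonneg hB hee
  linarith only [this]

end Vale.Agent.P137.U
end
end

section

section

/-!
# Track U: the distance-like function of a tree and the forward step inside a tree.
-/

open MeasureTheory Set Filter Topology
open scoped ENNReal NNReal

namespace Vale.Agent.P137.U

open Vale.Agent.P137

variable {d : ℕ}

theorem dW_le {W : Finset (ℕ × Lat d)} {Q : ℕ × Lat d} (hQ : Q ∈ W) (y : E d) :
    dW W y ≤ 2 ^ Q.1 + ‖y - pt (co Q.1 Q.2)‖ := by
  unfold dW
  exact ciInf_le (Set.finite_range _).bddBelow (⟨Q, hQ⟩ : W)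

theorem exists_dW {W : Finset (ℕ × Lat d)} (hW : W.Nonempty) (y : E d) :
    ∃ Q ∈ W, dW W y = 2 ^ Q.1 + ‖y - pt (co Q.1 Q.2)‖ := by
  have : Nonempty W := hW.coe_sort
  obtain ⟨⟨Q, hQ⟩, h⟩ := exists_eq_ciInf_of_finite
    (f := fun Q : W => ((2 : ℝ) ^ Q.1.1 + ‖y - pt (co Q.1.1 Q.1.2)‖))
  exact ⟨Q, hQ, h.symm⟩

theorem dW_le_add {W : Finset (ℕ × Lat d)} (hW : W.Nonempty) (y y' : E d) :
    dW W y' ≤ dW W y + ‖y' - y‖ := by
  obtain ⟨Q, hQ, h⟩ := exists_dW hW y
  have h1 := dW_le hQ y'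
  have h2 : ‖y' - pt (co Q.1 Q.2)‖ ≤ ‖y' - y‖ + ‖y - pt (co Q.1 Q.2)‖ := norm_sub_le_norm_sub_add_norm_sub _ _ _
  linarith

theorem one_le_DW (W : Finset (ℕ × Lat d)) (kT : ℕ) (y : E d) : 1 ≤ DW W kT y := le_max_left _ _

theorem DW_le (W : Finset (ℕ × Lat d)) (kT : ℕ) (y : E d) : DW W kT y ≤ 2 ^ kT :=
  max_le (one_le_pow₀ (by norm_num)) (min_le_right _ _)

theorem DW_le_add {W : Finset (ℕ × Lat d)} (hW : W.Nonempty) (kT : ℕ) (y y' : E d) :
    DW W kT y' ≤ DW W kT y + kap d * ‖y' - y‖ := by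
  have hk := (kap_pos d).le
  have h1 := dW_le_add hW y y'
  have h2 : kap d * dW W y' ≤ kap d * dW W y + kap d * ‖y' - y‖ := by
    rw [← mul_add]
    exact mul_le_mul_of_nonneg_left h1 hk
  have h3 : 0 ≤ kap d * ‖y' - y‖ := by positivity
  unfold DW
  refine max_le ?_ ?_
  · linarith only [h3, le_max_left (1 : ℝ) (min (kap d * dW W y) (2 ^ kT))]
  · have h4 : min (kap d * dW W y') (2 ^ kT) ≤ min (kap d * dW W y) (2 ^ kT) + kap d * ‖y' - y‖ := by
      rcases min_cases (kap d * dW W y) ((2 : ℝ) ^ kT) with h | h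
      · rw [h.1]
        exact (min_le_left _ _).trans h2
      · rw [h.1]
        exact (min_le_right _ _).trans (by linarith only [h3])
    linarith only [h4, le_max_right (1 : ℝ) (min (kap d * dW W y) (2 ^ kT))]

theorem DW_lipschitz {W : Finset (ℕ × Lat d)} (hW : W.Nonempty) (kT : ℕ) :
    LipschitzWith (kap d).toNNReal (DW W kT) := by
  apply LipschitzWith.of_le_add_mul
  intro x y
  rw [Real.coe_toNNReal _ (kap_pos d).le, dist_eq_norm]
  exact DW_le_add hW kT y x

theorem ts_anc_anc (i j : ℕ) (n : Lat d) : anc i (anc j n) = anc (j + i) n := by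
  funext l
  simp only [anc]
  rw [Int.ediv_ediv_of_nonneg (by positivity), ← pow_add]

theorem ts_anc_zero (n : Lat d) : anc 0 n = n := by
  funext l
  simp [anc]

theorem IsTree.anc_mem {v0 : Lat d → E d} {kT : ℕ} {nT : Lat d} {e : E d}
    {W : Finset (ℕ × Lat d)} (hT : IsTree v0 kT nT e W) {Q : ℕ × Lat d} (hQ : Q ∈ W) (j : ℕ)
    (hj : Q.1 + j ≤ kT) : (Q.1 + j, anc j Q.2) ∈ W := by
  induction j with
  | zero => simpa [ts_anc_zero] using hQ
  | succ j ih =>
    have h1 := ih (by omega)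
    have h2 := hT.parent _ h1 (by simp only; omega)
    simpa [ts_anc_anc, add_assoc] using h2

theorem pt_anc_bounds (k j : ℕ) (n : Lat d) (i : Fin d) :
    (2 : ℝ) ^ (k + j) * (anc j n i : ℝ) ≤ 2 ^ k * n i ∧
      2 ^ k * (n i : ℝ) < 2 ^ (k + j) * (anc j n i : ℝ) + 2 ^ (k + j) := by
  have h1 : 2 ^ j * (n i / 2 ^ j) ≤ n i := Int.mul_ediv_self_le (by positivity)
  have h2 : n i < 2 ^ j * (n i / 2 ^ j) + 2 ^ j := Int.lt_mul_ediv_self_add (by positivity)
  have h3 : (2 : ℝ) ^ j * (anc j n i : ℝ) ≤ n i := by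
    simp only [anc]
    exact_mod_cast h1
  have h4 : (n i : ℝ) < 2 ^ j * (anc j n i : ℝ) + 2 ^ j := by
    simp only [anc]
    exact_mod_cast h2
  have h5 : (0 : ℝ) < 2 ^ k := by positivity
  rw [pow_add]
  constructor <;> nlinarith only [h3, h5, h4]

/-- If `(y, r)` is admissible for the tree and `r` is below the top scale then there is a cell of
the tree of size comparable with `r / κ` close to `y`. -/
theorem IsTree.exists_cell (hd : 0 < d) {v0 : Lat d → E d} {kT : ℕ} {nT : Lat d} {e : E d}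
    {W : Finset (ℕ × Lat d)} (hT : IsTree v0 kT nT e W) {y : E d} {r : ℝ}
    (h1 : DW W kT y ≤ r) (h2 : r ≤ kap d * 2 ^ kT) :
    ∃ Q ∈ W, r / kap d ≤ 2 ^ Q.1 ∧ (2 : ℝ) ^ Q.1 < 2 * (r / kap d) ∧
      ∀ i, |y i - 2 ^ Q.1 * Q.2 i| ≤ 2 * 2 ^ Q.1 := by
  have hk := kap_pos d
  have hk1 := kap_le hd
  have hW : W.Nonempty := ⟨_, hT.top_mem⟩
  have hr1 : 1 ≤ r := (one_le_DW W kT y).trans h1
  have hr2 : r / kap d ≤ 2 ^ kT := by
    rw [div_le_iff₀ hk]
    linarith only [h2]
  have h2k : (0 : ℝ) < 2 ^ kT := by positivity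
  have hd1 : kap d * dW W y ≤ r := by
    have h3 : min (kap d * dW W y) (2 ^ kT) ≤ r := (le_max_right _ _).trans h1
    rcases min_le_iff.1 h3 with h | h
    · exact h
    · nlinarith only [h2, hk, hk1, hr1, h]
  have hd2 : dW W y ≤ r / kap d := by
    rw [le_div_iff₀ hk]
    linarith only [hd1]
  obtain ⟨Q1, hQ1, hQ1'⟩ := exists_dW hW y
  rw [hQ1'] at hd2
  have h3 : (2 : ℝ) ^ Q1.1 ≤ r / kap d := by linarith only [hd2, norm_nonneg (y - pt (co Q1.1 Q1.2))]
  have h4 : ‖y - pt (co Q1.1 Q1.2)‖ ≤ r / kap d := by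
    have : (0 : ℝ) < 2 ^ Q1.1 := by positivity
    linarith only [hd2, this]
  -- the level
  have hex : ∃ k : ℕ, r / kap d ≤ 2 ^ k := ⟨kT, hr2⟩
  classical
  let k := Nat.find hex
  have hk2 : r / kap d ≤ 2 ^ k := Nat.find_spec hex
  have hkT : k ≤ kT := Nat.find_min' hex hr2
  have hk3 : (2 : ℝ) ^ k < 2 * (r / kap d) := by
    rcases Nat.eq_zero_or_pos k with h | h
    · rw [h, pow_zero]
      have : 1 < r / kap d := by
        rw [lt_div_iff₀ hk]
        linarith only [hk1, hr1]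
      linarith only [this]
    · have h5 : ¬ (r / kap d ≤ 2 ^ (k - 1)) := Nat.find_min hex (by omega : k - 1 < k)
      have h6 : (2 : ℝ) ^ k = 2 * 2 ^ (k - 1) := by
        rw [← pow_succ']
        congr 1
        omega
      rw [h6]
      linarith only [not_le.1 h5]
  have hk4 : Q1.1 ≤ k := by
    have : (2 : ℝ) ^ Q1.1 ≤ 2 ^ k := h3.trans hk2
    exact (pow_le_pow_iff_right₀ (by norm_num : (1 : ℝ) < 2)).1 this
  obtain ⟨j, hj⟩ := Nat.exists_eq_add_of_le hk4
  have hmem := hT.anc_mem hQ1 j (by omega)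
  refine ⟨(Q1.1 + j, anc j Q1.2), hmem, ?_, ?_, ?_⟩
  · simpa only [← hj] using hk2
  · simpa [← hj] using hk3
  · intro i
    have h7 := pt_anc_bounds Q1.1 j Q1.2 i
    have h8 : |y i - 2 ^ Q1.1 * Q1.2 i| ≤ 2 ^ (Q1.1 + j) := by
      have h9 := abs_apply_le_norm (y - pt (co Q1.1 Q1.2)) i
      have h10 : (y - pt (co Q1.1 Q1.2)) i = y i - 2 ^ Q1.1 * Q1.2 i := by
        simp [pt_apply, co]
      rw [h10] at h9
      rw [← hj]
      linarith only [h4, hk2, h9]
    rw [abs_le] at h8 ⊢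
    simp only
    constructor <;> linarith only [h7.2, h8.2, h8, h7.1]

theorem norm_sub_pt_le {k : ℕ} {n : Lat d} {y : E d} {c : ℝ} (hc : 0 ≤ c)
    (h : ∀ i, |y i - 2 ^ k * n i| ≤ c) : ‖y - pt (co k n)‖ ≤ √d * c := by
  apply norm_le_of_abs_apply_le hc
  intro i
  have h10 : (y - pt (co k n)) i = y i - 2 ^ k * n i := by
    simp [pt_apply, co]
  rw [h10]
  exact h i

/-- Forward step inside a tree. -/
theorem tree_forward (hd : 0 < d) : ∃ C : ℝ, 0 < C ∧ ∀ (f : E d → ℝ),
    ContDiff ℝ 1 f → HasCompactSupport f → ∀ (kT : ℕ) (nT : Lat d) (e : E d)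
    (W : Finset (ℕ × Lat d)), IsTree (v0f (gradient f)) kT nT e W →
    ∀ (y : E d) (r : ℝ) (Q : ℕ × Lat d), 0 < r → Q ∈ W → r / kap d ≤ 2 ^ Q.1 →
    (2 : ℝ) ^ Q.1 < 2 * (r / kap d) → (∀ i, |y i - 2 ^ Q.1 * Q.2 i| ≤ 2 * 2 ^ Q.1) →
    ∀ s, kap d * r / 2 ≤ s → s ≤ r / kap d →
     avg f y r - C * (r / r ^ d) * eJ (v0f (gradient f)) (m0f (gradient f)) Q.1 Q.2 ≤
      avg f (y + s • e) (r + kap d * s) := by
  have hk := kap_pos d
  have hk1 := kap_le hd
  obtain ⟨C, hC, h⟩ := forward_step hd (kap d / 128) (by positivity)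
  refine ⟨C, hC, fun f hf hfc kT nT e W hT y r Q hr hQ h1 h2 h3 s hs1 hs2 => ?_⟩
  have h2k : (0 : ℝ) < 2 ^ Q.1 := by positivity
  have hpow : (2 : ℝ) ^ (Q.1 + 6) = 64 * 2 ^ Q.1 := by
    rw [pow_add]; norm_num; ring
  have hrk : r ≤ kap d * 2 ^ Q.1 := by
    rw [div_le_iff₀ hk] at h1
    linarith only [h1]
  have hrk2 : kap d * 2 ^ Q.1 < 2 * r := by
    have : 2 * (r / kap d) * kap d = 2 * r := by (clear * - hk hr; field_simp)
    nlinarith only [hr, h1, h2, this]
  have hs0 : 0 ≤ s := le_trans (by positivity) hs1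
  have hs3 : s ≤ 2 ^ Q.1 := hs2.trans h1
  have hbc : ∀ i, ((bc Q.1 Q.2 i : ℤ) : ℝ) = 2 ^ Q.1 * Q.2 i - 32 * 2 ^ Q.1 := by
    intro i
    simp only [bc]
    push_cast
    rw [pow_add]
    norm_num
    ring
  have hball : ∀ (z : E d) (t : ℝ), 0 ≤ t → (∀ i, |z i - 2 ^ Q.1 * Q.2 i| + t ≤ 10 * 2 ^ Q.1) →
      Metric.closedBall z t ⊆ cube (Q.1 + 6) (bc Q.1 Q.2) := by
    intro z t ht hz
    apply closedBall_subset_cube
    intro i
    rw [hbc i, hpow]
    have h4 := hz i
    have h5 := abs_le.1 (le_refl |z i - 2 ^ Q.1 * Q.2 i|)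
    constructor <;> linarith only [h4, h5, h2k]
  refine h f hf hfc (Q.1 + 6) (bc Q.1 Q.2) e y r s hT.norm_e ?_ ?_ hs1 hs2 ?_ ?_ ?_
  · rw [hpow]; linarith only [hrk2]
  · rw [hpow]; nlinarith only [hs1, hrk, hs0, hs3]
  · apply hball y r hr.le
    intro i
    have := h3 i
    nlinarith only [hs1, hrk, hs0, hs3, this]
  · apply hball (y + s • e) (r + kap d * s) (by (clear * - hr hk hs0; positivity))
    intro i
    have h4 := h3 i
    have h5 : (y + s • e) i - 2 ^ Q.1 * Q.2 i = (y i - 2 ^ Q.1 * Q.2 i) + s * e i := by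
      simp only [PiLp.add_apply, PiLp.smul_apply, smul_eq_mul]; ring
    have h6 : |s * e i| ≤ s := by
      rw [abs_mul, abs_of_nonneg hs0]
      have := abs_apply_le_norm e i
      rw [hT.norm_e] at this
      nlinarith only [hs0, this]
    rw [h5]
    have h7 := abs_add_le (y i - 2 ^ Q.1 * Q.2 i) (s * e i)
    have h8 : kap d * s ≤ 1 * 2 ^ Q.1 := by nlinarith only [hk, hk1, h1, h2, hs2]
    nlinarith only [hs1, hrk, hrk2, hs0, hs3, h4, h6, h7]
  · exact hT.cone Q hQ

end Vale.Agent.P137.U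
end
end

section

section

open MeasureTheory Set Filter Topology
open scoped ENNReal NNReal

namespace Vale.Agent.P137.U

open Vale.Agent.P137

variable {d : ℕ}

theorem avg_integrable {f : E d → ℝ} (hf : Continuous f) (y : E d) (r : ℝ) :
    IntegrableOn (fun w : E d => f (y + r • w)) (Metric.closedBall (0 : E d) 1) :=
  (Continuous.continuousOn (by fun_prop)).integrableOn_compact (isCompact_closedBall 0 1)

theorem volume_unit_pos : 0 < (volume.real (Metric.closedBall (0 : E d) 1)) := by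
  rw [measureReal_def]
  refine ENNReal.toReal_pos ?_ (isCompact_closedBall 0 1).measure_ne_top
  exact (Metric.measure_closedBall_pos volume 0 one_pos).ne'

theorem avg_eq (f : E d → ℝ) (y : E d) (r : ℝ) :
    avg f y r = (volume.real (Metric.closedBall (0 : E d) 1))⁻¹ *
      ∫ w in Metric.closedBall (0 : E d) 1, f (y + r • w) := by
  rw [avg, setAverage_eq, smul_eq_mul]

theorem avg_le_of_le {f : E d → ℝ} (hf : Continuous f) {y : E d} {r : ℝ} {c : ℝ}
    (h : ∀ w ∈ Metric.closedBall (0 : E d) 1, f (y + r • w) ≤ c) : avg f y r ≤ c := by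
  rw [avg_eq]
  have h1 : ∫ w in Metric.closedBall (0 : E d) 1, f (y + r • w) ≤
      ∫ w in Metric.closedBall (0 : E d) 1, c := by
    refine setIntegral_mono_on (avg_integrable hf y r) ?_ Metric.isClosed_closedBall.measurableSet h
    exact integrableOn_const (isCompact_closedBall 0 1).measure_ne_top
  rw [setIntegral_const, smul_eq_mul] at h1
  have h2 := volume_unit_pos (d := d)
  rw [inv_mul_le_iff₀ h2]
  exact h1

theorem avg_dist_le {f : E d → ℝ} {L : ℝ≥0} (hf : LipschitzWith L f) (y y' : E d) (r r' : ℝ) :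
    |avg f y r - avg f y' r'| ≤ L * (‖y - y'‖ + |r - r'|) := by
  have hV := volume_unit_pos (d := d)
  rw [avg_eq, avg_eq, ← mul_sub, ← integral_sub (avg_integrable hf.continuous y r)
    (avg_integrable hf.continuous y' r'), abs_mul, abs_of_pos (inv_pos.2 hV),
    inv_mul_le_iff₀ hV]
  have h1 : ‖∫ w in Metric.closedBall (0 : E d) 1, (f (y + r • w) - f (y' + r' • w))‖ ≤
      (L * (‖y - y'‖ + |r - r'|)) * volume.real (Metric.closedBall (0 : E d) 1) := by
    refine norm_setIntegral_le_of_norm_le_const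
      (isCompact_closedBall 0 1).measure_lt_top ?_
    intro w hw
    rw [mem_closedBall_zero_iff] at hw
    have h2 := hf.dist_le_mul (y + r • w) (y' + r' • w)
    rw [Real.dist_eq] at h2
    rw [Real.norm_eq_abs]
    refine h2.trans ?_
    refine mul_le_mul_of_nonneg_left ?_ L.coe_nonneg
    rw [dist_eq_norm]
    have h3 : y + r • w - (y' + r' • w) = (y - y') + (r - r') • w := by
      rw [sub_smul]; abel
    rw [h3]
    refine (norm_add_le _ _).trans ?_
    rw [norm_smul, Real.norm_eq_abs]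
    have := mul_le_mul_of_nonneg_left hw (abs_nonneg (r - r'))
    linarith
  rw [Real.norm_eq_abs] at h1
  linarith only [h1]

theorem exists_le_of_compact {f : E d → ℝ} (hf : Continuous f) (hfc : HasCompactSupport f) :
    ∃ C : ℝ, ∀ x, f x ≤ C := by
  obtain ⟨C, hC⟩ := hf.bounded_above_of_compact_support hfc
  exact ⟨C, fun x => (le_abs_self _).trans (by simpa using hC x)⟩

theorem uu_bddAbove {f : E d → ℝ} (D : E d → ℝ) (R : ℝ) (hf : Continuous f)
    (hfc : HasCompactSupport f) (x : E d) :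
    BddAbove {t | ∃ y r, D y ≤ r ∧ r ≤ R ∧ dist x y ≤ r ∧ avg f y r = t} := by
  obtain ⟨C, hC⟩ := exists_le_of_compact hf hfc
  refine ⟨C, ?_⟩
  rintro t ⟨y, r, -, -, -, rfl⟩
  exact avg_le_of_le hf fun w _ => hC _

theorem avg_le_uu {f : E d → ℝ} {D : E d → ℝ} {R : ℝ} (hf : Continuous f)
    (hfc : HasCompactSupport f) {x y : E d} {r : ℝ} (h1 : D y ≤ r) (h2 : r ≤ R)
    (h3 : dist x y ≤ r) : avg f y r ≤ uu f D R x :=
  le_csSup (uu_bddAbove D R hf hfc x) ⟨y, r, h1, h2, h3, rfl⟩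

theorem continuous_avg {f : E d → ℝ} (hf : Continuous f) :
    Continuous fun p : E d × ℝ => avg f p.1 p.2 := by
  have h1 : (fun p : E d × ℝ => avg f p.1 p.2) = fun p : E d × ℝ =>
      (volume.real (Metric.closedBall (0 : E d) 1))⁻¹ *
      ∫ w in Metric.closedBall (0 : E d) 1, f (p.1 + p.2 • w) := by
    funext p; exact avg_eq f p.1 p.2
  rw [h1]
  refine continuous_const.mul ?_
  exact continuous_parametric_integral_of_continuous (f := fun (p : E d × ℝ) (w : E d) =>
    f (p.1 + p.2 • w)) (by (clear * - hf; fun_prop)) (isCompact_closedBall 0 1)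

theorem uu_attained {f : E d → ℝ} {D : E d → ℝ} {R : ℝ} (hf : Continuous f)
    (hfc : HasCompactSupport f) (hD : Continuous D) (hD0 : ∀ y, 0 < D y) (hDR : ∀ y, D y ≤ R)
    (x : E d) : ∃ y r, D y ≤ r ∧ r ≤ R ∧ dist x y ≤ r ∧ avg f y r = uu f D R x := by
  set K : Set (E d × ℝ) := {p | D p.1 ≤ p.2 ∧ p.2 ≤ R ∧ dist x p.1 ≤ p.2} with hK
  have hKc : IsClosed K := by
    have a1 : IsClosed {p : E d × ℝ | D p.1 ≤ p.2} :=
      isClosed_le (hD.comp continuous_fst) continuous_snd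
    have a2 : IsClosed {p : E d × ℝ | p.2 ≤ R} := isClosed_le continuous_snd continuous_const
    have a3 : IsClosed {p : E d × ℝ | dist x p.1 ≤ p.2} :=
      isClosed_le (continuous_const.dist continuous_fst) continuous_snd
    exact a1.inter (a2.inter a3)
  have hKsub : K ⊆ Metric.closedBall x R ×ˢ Icc 0 R := by
    rintro ⟨y, r⟩ ⟨h1, h2, h3⟩
    refine ⟨?_, ?_, h2⟩
    · rw [Metric.mem_closedBall, dist_comm]; exact h3.trans h2
    · exact dist_nonneg.trans h3
  have hKcomp : IsCompact K :=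
    ((isCompact_closedBall x R).prod isCompact_Icc).of_isClosed_subset hKc hKsub
  have hKne : K.Nonempty := by
    refine ⟨(x, R), hDR x, le_rfl, ?_⟩
    simp only [dist_self]
    exact (hD0 x).le.trans (hDR x)
  obtain ⟨⟨y, r⟩, ⟨h1, h2, h3⟩, hmax⟩ := hKcomp.exists_isMaxOn hKne (continuous_avg hf).continuousOn
  refine ⟨y, r, h1, h2, h3, le_antisymm (avg_le_uu hf hfc h1 h2 h3) ?_⟩
  refine csSup_le ⟨_, y, r, h1, h2, h3, rfl⟩ ?_
  rintro t ⟨y', r', h1', h2', h3', rfl⟩
  exact hmax (a := (y', r')) ⟨h1', h2', h3'⟩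

theorem uu_lipschitz {f : E d → ℝ} {D : E d → ℝ} {R : ℝ} {L κ : ℝ≥0} (hf : LipschitzWith L f)
    (hfc : HasCompactSupport f) (hκ : κ ≤ 1) (hD : LipschitzWith κ D) (hD0 : ∀ y, 0 < D y)
    (hDR : ∀ y, D y ≤ R) : LipschitzWith (2 * L) (uu f D R) := by
  have key : ∀ x x' : E d, uu f D R x ≤ uu f D R x' + (2 * L : ℝ≥0) * dist x x' := by
    intro x x'
    obtain ⟨y, r, h1, h2, h3, h4⟩ := uu_attained hf.continuous hfc hD.continuous hD0 hDR x
    set h : E d := x' - x with hh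
    have hnorm : ‖h‖ = dist x x' := by rw [dist_comm, dist_eq_norm]
    set r' : ℝ := min (r + κ * ‖h‖) R with hr'
    have hκ0 : (0 : ℝ) ≤ κ := κ.coe_nonneg
    have hκ1 : (κ : ℝ) ≤ 1 := by exact_mod_cast hκ
    have hr1 : r ≤ r' := le_min (by nlinarith only [norm_nonneg h]) h2
    have hr2 : r' ≤ r + κ * ‖h‖ := min_le_left _ _
    have h5 : D (y + h) ≤ r' := by
      refine le_min ?_ (hDR _)
      have := hD.dist_le_mul (y + h) y
      rw [Real.dist_eq, dist_eq_norm, add_sub_cancel_left] at this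
      have h6 := (abs_le.1 this).2
      linarith only [h1, h6]
    have h6 : dist x' (y + h) ≤ r' := by
      have : x' - (y + h) = x - y := by rw [hh]; abel
      rw [dist_eq_norm, this, ← dist_eq_norm]
      exact h3.trans hr1
    have h7 := avg_le_uu hf.continuous hfc h5 (min_le_right _ _) h6
    have h8 := avg_dist_le hf y (y + h) r r'
    have h9 := (abs_le.1 h8).2
    have h10 : ‖y - (y + h)‖ = ‖h‖ := by rw [sub_add_cancel_left, norm_neg]
    have h11 : |r - r'| ≤ ‖h‖ := by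
      rw [abs_sub_comm, abs_of_nonneg (by linarith only [hr1])]
      nlinarith only [hκ1, hr2, norm_nonneg h]
    rw [← h4]
    have h12 : (L : ℝ) * (‖y - (y + h)‖ + |r - r'|) ≤ L * (2 * ‖h‖) := by
      refine mul_le_mul_of_nonneg_left ?_ L.coe_nonneg
      rw [h10]; linarith only [h11]
    push_cast
    rw [← hnorm]
    linarith only [h7, h9, h12]
  refine LipschitzWith.of_dist_le_mul fun x x' => ?_
  rw [Real.dist_eq, abs_le]
  have k1 := key x x'
  have k2 := key x' x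
  rw [dist_comm x' x] at k2
  constructor <;> linarith

theorem fderiv_uu_interior {f : E d → ℝ} {D : E d → ℝ} {R : ℝ} (hf : Continuous f)
    (hfc : HasCompactSupport f) {x y : E d} {r : ℝ} (h1 : D y ≤ r) (h2 : r ≤ R)
    (h3 : dist x y < r) (h4 : avg f y r = uu f D R x) : fderiv ℝ (uu f D R) x = 0 := by
  refine IsLocalMin.fderiv_eq_zero ?_
  have h5 : ∀ᶠ z in 𝓝 x, dist z y < r :=
    (continuous_id.dist continuous_const).continuousAt.eventually_lt continuousAt_const h3
  filter_upwards [h5] with z hz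
  rw [← h4]
  exact avg_le_uu hf hfc h1 h2 hz.le

theorem fderiv_uu_boundary {f : E d → ℝ} {D : E d → ℝ} {R : ℝ} (hf : Continuous f)
    (hfc : HasCompactSupport f) {x y : E d} {r : ℝ} (h1 : D y ≤ r) (h2 : r ≤ R)
    (h3 : dist x y = r) (hr : 0 < r) (h4 : avg f y r = uu f D R x)
    (h5 : DifferentiableAt ℝ (uu f D R) x) (ω : E d) :
    r * fderiv ℝ (uu f D R) x ω = -(‖fderiv ℝ (uu f D R) x‖ * inner ℝ (x - y) ω) := by
  set u := uu f D R with hu
  set n : E d := x - y with hn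
  have hnr : ‖n‖ = r := by rw [hn, ← dist_eq_norm]; exact h3
  -- for directions pointing strictly inside
  have key1 : ∀ h : E d, inner ℝ n h < 0 → 0 ≤ fderiv ℝ u x h := by
    intro h hh
    have hder : HasDerivAt (fun t : ℝ => u (x + t • h)) (fderiv ℝ u x h) 0 := by
      have h6 : HasFDerivAt u (fderiv ℝ u x) (x + (0 : ℝ) • h) := by
        rw [zero_smul, add_zero]; exact h5.hasFDerivAt
      have h7 : HasDerivAt (fun t : ℝ => x + t • h) h 0 := by
        simpa using ((hasDerivAt_id (0 : ℝ)).smul_const h).const_add x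
      exact h6.comp_hasDerivAt (0 : ℝ) h7
    have hle : ∀ᶠ t : ℝ in 𝓝[>] 0, u x ≤ u (x + t • h) := by
      -- |x + t h - y|^2 = r^2 + 2 t <n,h> + t^2 |h|^2 < r^2
      have h8 : ∀ᶠ t : ℝ in 𝓝[>] (0:ℝ), 2 * inner ℝ n h + t * ‖h‖ ^ 2 < 0 := by
        have : ContinuousAt (fun t : ℝ => 2 * inner ℝ n h + t * ‖h‖ ^ 2) 0 := by fun_prop
        have h9 := this.eventually_lt (continuousAt_const (y := (0:ℝ))) (by
            simp only [zero_mul, add_zero]; linarith only [hh])
        exact h9.filter_mono nhdsWithin_le_nhds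
      filter_upwards [h8, self_mem_nhdsWithin] with t ht ht0
      rw [mem_Ioi] at ht0
      rw [← h4]
      refine avg_le_uu hf hfc h1 h2 ?_
      rw [dist_eq_norm]
      have h10 : x + t • h - y = n + t • h := by rw [hn]; abel
      rw [h10]
      refine le_of_sq_le_sq ?_ hr.le
      rw [norm_add_sq_real, norm_smul, Real.norm_eq_abs, abs_of_pos ht0, real_inner_smul_right,
        hnr]
      nlinarith only [ht, ht0]
    by_contra hneg
    push Not at hneg
    have h11 : Tendsto (fun t : ℝ => t⁻¹ • (u (x + (0 + t) • h) - u (x + (0:ℝ) • h))) (𝓝[≠] 0)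
        (𝓝 (fderiv ℝ u x h)) := hder.tendsto_slope_zero
    have h12 : Tendsto (fun t : ℝ => t⁻¹ • (u (x + (0 + t) • h) - u (x + (0:ℝ) • h))) (𝓝[>] 0)
        (𝓝 (fderiv ℝ u x h)) := h11.mono_left (nhdsWithin_mono _ fun t ht => (ne_of_gt ht))
    have h13 : 0 ≤ fderiv ℝ u x h := by
      refine ge_of_tendsto h12 ?_
      filter_upwards [hle, self_mem_nhdsWithin] with t ht ht0
      rw [mem_Ioi] at ht0
      rw [zero_add, zero_smul, add_zero, smul_eq_mul]
      exact mul_nonneg (inv_nonneg.2 ht0.le) (by linarith only [ht])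
    linarith
  -- by density
  have hn2 : inner ℝ n n = r ^ 2 := by rw [real_inner_self_eq_norm_sq, hnr]
  have key2 : ∀ h : E d, inner ℝ n h ≤ 0 → 0 ≤ fderiv ℝ u x h := by
    intro h hh
    have hc : Tendsto (fun t : ℝ => fderiv ℝ u x (h - t • n)) (𝓝[>] 0) (𝓝 (fderiv ℝ u x h)) := by
      have h6 : ContinuousAt (fun t : ℝ => fderiv ℝ u x (h - t • n)) 0 := by (clear * -; fun_prop)
      have h7 := h6.tendsto
      simp only [zero_smul, sub_zero] at h7
      exact h7.mono_left nhdsWithin_le_nhds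
    refine ge_of_tendsto hc ?_
    filter_upwards [self_mem_nhdsWithin] with t ht
    rw [mem_Ioi] at ht
    refine key1 _ ?_
    rw [inner_sub_right, real_inner_smul_right, hn2]
    have : 0 < t * r ^ 2 := by (clear * - ht hr; positivity)
    linarith only [hh, this]
  have key3 : ∀ h : E d, inner ℝ n h = 0 → fderiv ℝ u x h = 0 := by
    intro h hh
    refine le_antisymm ?_ (key2 h hh.le)
    have h6 := key2 (-h) (by rw [inner_neg_right, hh]; simp)
    rw [map_neg] at h6
    linarith only [h6]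
  -- the derivative is a multiple of the inner product
  set c : ℝ := -(fderiv ℝ u x n) / r ^ 2 with hc
  have hc0 : 0 ≤ c := by
    have h6 := key2 (-n) (by rw [inner_neg_right, hn2]; nlinarith only [])
    rw [map_neg] at h6
    exact div_nonneg h6 (by positivity)
  have key4 : ∀ h : E d, fderiv ℝ u x h = -(c * inner ℝ n h) := by
    intro h
    have h6 := key3 (h - (inner ℝ n h / r ^ 2) • n) (by
      rw [inner_sub_right, real_inner_smul_right, hn2]; field_simp; ring)
    rw [map_sub, map_smul, smul_eq_mul, sub_eq_zero] at h6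
    rw [h6, hc]; (clear * - hr; field_simp)
  have hnorm : ‖fderiv ℝ u x‖ = c * r := by
    refine le_antisymm ?_ ?_
    · refine ContinuousLinearMap.opNorm_le_bound _ (by (clear * - hc0 hr; positivity)) fun h => ?_
      rw [key4, norm_neg, norm_mul, Real.norm_of_nonneg hc0, mul_assoc]
      refine mul_le_mul_of_nonneg_left ?_ hc0
      rw [← hnr]
      exact norm_inner_le_norm n h
    · have h6 := (fderiv ℝ u x).le_opNorm n
      rw [key4, norm_neg, norm_mul, Real.norm_of_nonneg hc0, hn2, hnr,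
        Real.norm_of_nonneg (by positivity)] at h6
      have : c * r ^ 2 = c * r * r := by ring
      rw [this] at h6
      exact le_of_mul_le_mul_right h6 hr
  rw [hnorm, key4]
  ring

end Vale.Agent.P137.U
end
end

section

section

/-!
# Track U: neighbourhood of the top cell, misaligned optimal balls, top scale.
-/

open MeasureTheory Set Filter Topology
open scoped ENNReal NNReal

namespace Vale.Agent.P137.U

open Vale.Agent.P137

variable {d : ℕ}

/-- Neighbourhood of the top cell. -/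
def NT (kT : ℕ) (nT : Lat d) : Set (E d) := {x | ∀ i, |x i - 2 ^ kT * nT i| ≤ 2 * 2 ^ kT}

/-- Reference average of the top cell. -/
noncomputable def refv (hd : 0 < d) (f : E d → ℝ) (kT : ℕ) (nT : Lat d) : ℝ :=
  avg f (pt (co kT nT) + EuclideanSpace.single ⟨0, hd⟩ (12 * 2 ^ kT)) (2 ^ kT)

open Classical in
/-- Sum of the error functionals over the cells of `W` of size about `ρ` near `x`. -/
noncomputable def SW (v0 : Lat d → E d) (m0 : Lat d → ℝ) (W : Finset (ℕ × Lat d)) (c ρ : ℝ)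
    (x : E d) : ℝ :=
  ∑ Q ∈ W, if (2 : ℝ) ^ Q.1 ≤ c * ρ ∧ ρ ≤ c * 2 ^ Q.1 ∧
    ‖x - pt (co Q.1 Q.2)‖ ≤ c * ρ then eJ v0 m0 Q.1 Q.2 else 0

theorem eJ_le_SW {v0 : Lat d → E d} {m0 : Lat d → ℝ} (hm : ∀ a, 0 ≤ m0 a)
    {W : Finset (ℕ × Lat d)} {c ρ : ℝ} {x : E d} {Q : ℕ × Lat d} (hQ : Q ∈ W)
    (h1 : (2 : ℝ) ^ Q.1 ≤ c * ρ) (h2 : ρ ≤ c * 2 ^ Q.1) (h3 : ‖x - pt (co Q.1 Q.2)‖ ≤ c * ρ) :
    eJ v0 m0 Q.1 Q.2 ≤ SW v0 m0 W c ρ x := by
  classical
  unfold SW
  have h := Finset.single_le_sum (f := fun Q : ℕ × Lat d => if (2 : ℝ) ^ Q.1 ≤ c * ρ ∧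
    ρ ≤ c * 2 ^ Q.1 ∧ ‖x - pt (co Q.1 Q.2)‖ ≤ c * ρ then eJ v0 m0 Q.1 Q.2 else 0)
    (s := W) ?_ hQ
  · simpa only [ge_iff_le, h1, h2, h3, and_self, ↓reduceIte] using h
  · intro Q' _
    split_ifs
    · exact eJ_nonneg hm _ _
    · exact le_refl _

theorem bc_cast (k : ℕ) (n : Lat d) (i : Fin d) :
    ((bc k n i : ℤ) : ℝ) = 2 ^ k * n i - 32 * 2 ^ k := by
  simp only [bc]
  push_cast
  rw [pow_add]
  norm_num
  ring

theorem pow_add_six (k : ℕ) : (2 : ℝ) ^ (k + 6) = 64 * 2 ^ k := by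
  rw [pow_add]; norm_num; ring

theorem closedBall_subset_block {k : ℕ} {n : Lat d} (z : E d) (t : ℝ)
    (hz : ∀ i, |z i - 2 ^ k * n i| + t ≤ 31 * 2 ^ k) :
    Metric.closedBall z t ⊆ cube (k + 6) (bc k n) := by
  have h2k : (0 : ℝ) < 2 ^ k := by positivity
  apply closedBall_subset_cube
  intro i
  rw [bc_cast, pow_add_six]
  have h4 := hz i
  have h5 := abs_le.1 (le_refl |z i - 2 ^ k * n i|)
  constructor <;> linarith only [h2k, h4, h5.1, h5.2]

/-- The ball moved forward contains a neighbourhood of `x` when the ball is misaligned. -/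
theorem moved_contains {x y e x' : E d} {r κ : ℝ} (hκ : 0 < κ) (hr : 0 < r)
    (he : ‖e‖ = 1) (h3 : dist x y ≤ r) (h4 : -(κ / 4 * r) ≤ inner ℝ (x - y) e)
    (h5 : ‖x' - x‖ ≤ κ ^ 2 * r / 5) :
    dist x' (y + (κ * r / 2) • e) ≤ r + κ * (κ * r / 2) := by
  set s : ℝ := κ * r / 2 with hs
  have hs0 : 0 < s := by positivity
  have hxe : ‖x - (y + s • e)‖ ≤ r * (1 + κ ^ 2 / 4) := by
    apply le_of_sq_le_sq _ (by positivity)
    have h6 : ‖x - (y + s • e)‖ ^ 2 = ‖x - y‖ ^ 2 - 2 * (s * inner ℝ (x - y) e) + s ^ 2 := by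
      have : x - (y + s • e) = (x - y) - s • e := by abel
      rw [this, norm_sub_sq_real, inner_smul_right, norm_smul, he, Real.norm_eq_abs,
        abs_of_pos hs0, mul_one]
    rw [h6]
    have h7 : ‖x - y‖ ^ 2 ≤ r ^ 2 := by
      rw [dist_eq_norm] at h3
      exact pow_le_pow_left₀ (norm_nonneg _) h3 2
    have h8 : -(s * (κ / 4 * r)) ≤ s * inner ℝ (x - y) e := by
      have := mul_le_mul_of_nonneg_left h4 hs0.le
      linarith only [this]
    have h9 : (r * (1 + κ ^ 2 / 4)) ^ 2 = r ^ 2 + r ^ 2 * κ ^ 2 / 2 + r ^ 2 * κ ^ 4 / 16 := by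
      ring
    have h10 : 0 ≤ r ^ 2 * κ ^ 4 / 16 := by positivity
    rw [h9]
    have h11 : s * (κ / 4 * r) = r ^ 2 * κ ^ 2 / 8 := by rw [hs]; ring
    have h12 : s ^ 2 = r ^ 2 * κ ^ 2 / 4 := by rw [hs]; ring
    linarith only [h7, h8, h10, h11, h12]
  rw [dist_eq_norm]
  have h6 : ‖x' - (y + s • e)‖ ≤ ‖x' - x‖ + ‖x - (y + s • e)‖ :=
    norm_sub_le_norm_sub_add_norm_sub _ _ _
  have h7 : κ * s = r * (κ ^ 2 / 2) := by rw [hs]; ring
  rw [h7]
  have h8 : 0 ≤ r * κ ^ 2 := by positivity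
  linarith only [h5, hxe, h6, h8]

/-- Forward step at the top scale. -/
theorem top_forward (hd : 0 < d) : ∃ C : ℝ, 0 < C ∧ ∀ (f : E d → ℝ),
    ContDiff ℝ 1 f → HasCompactSupport f → ∀ (kT : ℕ) (nT : Lat d) (e : E d)
    (W : Finset (ℕ × Lat d)), IsTree (v0f (gradient f)) kT nT e W →
    ∀ (y : E d) (r : ℝ), kap d * 2 ^ kT < r → r ≤ 2 ^ kT →
    (∀ i, |y i - 2 ^ kT * nT i| ≤ 3 * 2 ^ kT) →
    avg f y r - C * (r / r ^ d) * eJ (v0f (gradient f)) (m0f (gradient f)) kT nT ≤
      avg f (y + (kap d * r / 2) • e) (r + kap d * (kap d * r / 2)) := by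
  have hk := kap_pos d
  have hk1 := kap_le hd
  obtain ⟨C, hC, h⟩ := forward_step hd (kap d / 64) (by positivity)
  refine ⟨C, hC, fun f hf hfc kT nT e W hT y r h1 h2 hy => ?_⟩
  have h2k : (0 : ℝ) < 2 ^ kT := by positivity
  have hr0 : 0 < r := lt_trans (by positivity) h1
  have he := hT.norm_e
  set s : ℝ := kap d * r / 2 with hs
  have hs0 : 0 < s := by positivity
  have hs1 : s ≤ 2 ^ kT := by rw [hs]; nlinarith only [h1, h2, hr0]
  have hks : kap d * s ≤ 2 ^ kT := by nlinarith only [h1, h2, hs0, hs1]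
  have hse : ∀ i, |s * e i| ≤ s := by
    intro i
    rw [abs_mul, abs_of_pos hs0]
    have := abs_apply_le_norm e i
    rw [he] at this
    nlinarith only [hs0, this]
  have hsr : s ≤ r / kap d := by
    rw [hs, le_div_iff₀ hk]
    have h3 : kap d * r / 2 * kap d = r * (kap d ^ 2 / 2) := by ring
    rw [h3]
    have h4 : kap d ^ 2 ≤ 1 := by nlinarith only [hk, hk1]
    nlinarith only [hr0, h4]
  have hcone := hT.cone (kT, nT) hT.top_mem
  simp only [vJ] at hcone
  rw [eJ]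
  have e1 : kap d / 64 * 2 ^ (kT + 6) ≤ r := by rw [pow_add_six]; linarith only [h1]
  have e2 : r ≤ 2 ^ (kT + 6) := by rw [pow_add_six]; linarith only [h2, hr0]
  refine h f hf hfc (kT + 6) (bc kT nT) e y r s he e1 e2 (le_refl _) hsr ?_ ?_ hcone
  · apply closedBall_subset_block
    intro i
    have := hy i
    linarith only [h2, hr0, this]
  · apply closedBall_subset_block
    intro i
    have h8 : (y + s • e) i - 2 ^ kT * nT i = (y i - 2 ^ kT * nT i) + s * e i := by
      simp only [PiLp.add_apply, PiLp.smul_apply, smul_eq_mul]; ring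
    rw [h8]
    have h9 := abs_add_le (y i - 2 ^ kT * nT i) (s * e i)
    have h10 := hy i
    have h11 := hse i
    linarith only [h2, h2k, hs1, hks, h9, h10, h11]

/-- The constant used for the localisation of the cells. -/
noncomputable def cmis (d : ℕ) : ℝ := 1 + 4 * √d * (1 / kap d) + 2 * (1 / kap d)

theorem cmis_one_le (d : ℕ) : 1 ≤ cmis d := by
  have hk := kap_pos d
  unfold cmis
  have : 0 ≤ 4 * √d * (1 / kap d) := by positivity
  have : 0 ≤ 2 * (1 / kap d) := by positivity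
  linarith

theorem two_div_kap_le_cmis (d : ℕ) : 2 * (1 / kap d) ≤ cmis d := by
  have hk := kap_pos d
  unfold cmis
  have : 0 ≤ 4 * √d * (1 / kap d) := by positivity
  linarith only [this]

theorem cell_le_SW (hd : 0 < d) {v0 : Lat d → E d} {m0 : Lat d → ℝ} (hm : ∀ a, 0 ≤ m0 a)
    {W : Finset (ℕ × Lat d)} {x y : E d} {r : ℝ} {Q : ℕ × Lat d} (hQ : Q ∈ W) (hr : 0 < r)
    (hQ1 : r / kap d ≤ 2 ^ Q.1) (hQ2 : (2 : ℝ) ^ Q.1 < 2 * (r / kap d))
    (hQ3 : ∀ i, |y i - 2 ^ Q.1 * Q.2 i| ≤ 2 * 2 ^ Q.1) (h3 : dist x y ≤ r) :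
    eJ v0 m0 Q.1 Q.2 ≤ SW v0 m0 W (cmis d) r x := by
  have hk := kap_pos d
  have hk1 := kap_le hd
  have hsd : 0 ≤ √(d : ℝ) := Real.sqrt_nonneg _
  have h2Q : (0 : ℝ) < 2 ^ Q.1 := by positivity
  have hQ2' : (2 : ℝ) ^ Q.1 < 2 * (1 / kap d) * r := by
    have : 2 * (r / kap d) = 2 * (1 / kap d) * r := by ring
    linarith only [hQ2, this]
  have hQ1' : r ≤ kap d * 2 ^ Q.1 := by
    rw [div_le_iff₀ hk] at hQ1
    linarith only [hQ1]
  have hc1 := cmis_one_le d
  have hc2 := two_div_kap_le_cmis d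
  apply eJ_le_SW hm hQ
  · have : 2 * (1 / kap d) * r ≤ cmis d * r := mul_le_mul_of_nonneg_right hc2 hr.le
    linarith only [hQ2', this]
  · have h5 : kap d * 2 ^ Q.1 ≤ cmis d * 2 ^ Q.1 :=
      mul_le_mul_of_nonneg_right (by linarith only [hk1, hc1]) h2Q.le
    linarith only [hQ1', h5]
  · have h8 : ‖x - pt (co Q.1 Q.2)‖ ≤ ‖x - y‖ + ‖y - pt (co Q.1 Q.2)‖ :=
      norm_sub_le_norm_sub_add_norm_sub _ _ _
    have h9 : ‖y - pt (co Q.1 Q.2)‖ ≤ √d * (2 * 2 ^ Q.1) :=
      norm_sub_pt_le (by positivity) hQ3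
    rw [dist_eq_norm] at h3
    have h10 : √d * (2 * 2 ^ Q.1) ≤ √d * (2 * (2 * (1 / kap d) * r)) := by
      apply mul_le_mul_of_nonneg_left _ hsd
      linarith only [hQ2']
    have h11 : 0 ≤ 2 * (1 / kap d) * r := by positivity
    have h12 : cmis d * r = r + √d * (2 * (2 * (1 / kap d) * r)) + 2 * (1 / kap d) * r := by
      unfold cmis; ring
    rw [h12]
    linarith only [h3, h8, h9, h10, h11]

theorem top_le_SW (hd : 0 < d) {v0 : Lat d → E d} {m0 : Lat d → ℝ} (hm : ∀ a, 0 ≤ m0 a)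
    {W : Finset (ℕ × Lat d)} {x : E d} {r : ℝ} {kT : ℕ} {nT : Lat d} (hQ : (kT, nT) ∈ W)
    (hr : 0 < r) (h1 : kap d * 2 ^ kT < r) (h2 : r ≤ 2 ^ kT) (hx : x ∈ NT kT nT) :
    eJ v0 m0 kT nT ≤ SW v0 m0 W (cmis d) r x := by
  have hk := kap_pos d
  have hk1 := kap_le hd
  have hsd : 0 ≤ √(d : ℝ) := Real.sqrt_nonneg _
  have h2k : (0 : ℝ) < 2 ^ kT := by positivity
  have hc1 := cmis_one_le d
  have hc2 := two_div_kap_le_cmis d
  have hrk : (2 : ℝ) ^ kT ≤ (1 / kap d) * r := by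
    have h20 : (1 / kap d) * (kap d * 2 ^ kT) = 2 ^ kT := by
      (clear * - hk; field_simp)
    rw [← h20]
    exact mul_le_mul_of_nonneg_left h1.le (by positivity)
  have hki : 0 < 1 / kap d := by positivity
  apply eJ_le_SW (Q := (kT, nT)) hm hQ
  · have : (1 / kap d) * r ≤ cmis d * r := by
      apply mul_le_mul_of_nonneg_right _ hr.le
      linarith only [hc2, hki]
    simp only
    linarith only [hrk, this]
  · simp only
    have h5 : 1 * (2 : ℝ) ^ kT ≤ cmis d * 2 ^ kT :=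
      mul_le_mul_of_nonneg_right hc1 h2k.le
    linarith only [h2, h5]
  · have h9 : ‖x - pt (co kT nT)‖ ≤ √d * (2 * 2 ^ kT) :=
      norm_sub_pt_le (by positivity) hx
    have h10 : √d * (2 * 2 ^ kT) ≤ √d * (2 * (1 / kap d * r)) := by
      apply mul_le_mul_of_nonneg_left _ hsd
      linarith only [hrk]
    have h11 : 0 ≤ 2 * (1 / kap d) * r := by positivity
    have h13 : 0 ≤ √d * (2 * (1 / kap d * r)) := by positivity
    simp only
    have h12 : cmis d * r = r + √d * (2 * (1 / kap d * r)) + √d * (2 * (1 / kap d * r))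
        + 2 * (1 / kap d) * r := by
      unfold cmis; ring
    rw [h12]
    linarith only [hr, h9, h10, h11, h13]

theorem misaligned_small (hd : 0 < d) : ∃ C c : ℝ, 0 < C ∧ 0 < c ∧ ∀ (f : E d → ℝ),
    ContDiff ℝ 1 f → HasCompactSupport f → ∀ (kT : ℕ) (nT : Lat d) (e : E d)
    (W : Finset (ℕ × Lat d)), IsTree (v0f (gradient f)) kT nT e W →
    ∀ x ∈ NT kT nT, ∀ (y : E d) (r : ℝ), DW W kT y ≤ r → r ≤ 2 ^ kT → dist x y ≤ r →
    -(kap d / 4 * r) ≤ inner ℝ (x - y) e → ∀ x', ‖x' - x‖ ≤ kap d ^ 2 * r / 5 →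
    avg f y r - C * (r / r ^ d) * SW (v0f (gradient f)) (m0f (gradient f)) W c r x ≤
      uT f W kT x' := by
  have hk := kap_pos d
  have hk1 := kap_le hd
  obtain ⟨C₁, hC₁, hA⟩ := tree_forward hd
  obtain ⟨C₂, hC₂, hB⟩ := top_forward hd
  refine ⟨C₁ + C₂, cmis d, by positivity, by linarith only [cmis_one_le d], ?_⟩
  intro f hf hfc kT nT e W hT x hx y r h1 h2 h3 h4 x' h5
  have hW : W.Nonempty := ⟨_, hT.top_mem⟩
  have hr0 : 0 < r := lt_of_lt_of_le one_pos ((one_le_DW W kT y).trans h1)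
  have h2k : (0 : ℝ) < 2 ^ kT := by positivity
  have hm := m0f_nonneg (d := d) (gradient f)
  have he := hT.norm_e
  have hx'e := moved_contains hk hr0 he h3 h4 h5
  set s : ℝ := kap d * r / 2 with hs
  have hs0 : 0 < s := by positivity
  have hks : kap d * s ≤ r := by
    rw [hs]
    have h4 : kap d ^ 2 ≤ 1 := by nlinarith only [hk, hk1]
    nlinarith only [hr0, h4]
  have hadm : DW W kT (y + s • e) ≤ r + kap d * s := by
    have h6 := DW_le_add hW kT y (y + s • e)
    have h7 : ‖y + s • e - y‖ = s := by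
      rw [add_sub_cancel_left, norm_smul, he, Real.norm_eq_abs, abs_of_pos hs0, mul_one]
    rw [h7] at h6
    linarith only [h1, h6]
  have hu : avg f (y + s • e) (r + kap d * s) ≤ uT f W kT x' := by
    unfold uT
    exact avg_le_uu hf.continuous hfc hadm (by linarith only [h2, hks]) hx'e
  refine le_trans ?_ hu
  have hrd : 0 ≤ r / r ^ d := by (clear * - hr0; positivity)
  have key : ∀ (C' : ℝ) (k : ℕ) (n : Lat d), 0 ≤ C' → C' ≤ C₁ + C₂ →
      eJ (v0f (gradient f)) (m0f (gradient f)) k n ≤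
        SW (v0f (gradient f)) (m0f (gradient f)) W (cmis d) r x →
      C' * (r / r ^ d) * eJ (v0f (gradient f)) (m0f (gradient f)) k n ≤
        (C₁ + C₂) * (r / r ^ d) * SW (v0f (gradient f)) (m0f (gradient f)) W (cmis d) r x := by
    intro C' k n hC' hC'' h
    have h13 := eJ_nonneg (v0 := v0f (gradient f)) hm k n
    exact mul_le_mul (mul_le_mul_of_nonneg_right hC'' hrd) h h13
      (mul_nonneg (by linarith only [hC', hC'']) hrd)
  by_cases hcase : r ≤ kap d * 2 ^ kT
  · obtain ⟨Q, hQ, hQ1, hQ2, hQ3⟩ := hT.exists_cell hd h1 hcase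
    have hsr : s ≤ r / kap d := by
      rw [hs, le_div_iff₀ hk]
      have h3 : kap d * r / 2 * kap d = r * (kap d ^ 2 / 2) := by ring
      rw [h3]
      have h4 : kap d ^ 2 ≤ 1 := by nlinarith only [hk, hk1]
      nlinarith only [hr0, h4]
    have h6 := hA f hf hfc kT nT e W hT y r Q hr0 hQ hQ1 hQ2 hQ3 s (le_refl _) hsr
    refine le_trans ?_ h6
    have h12 := key C₁ Q.1 Q.2 hC₁.le (by linarith only [hC₂])
      (cell_le_SW hd hm hQ hr0 hQ1 hQ2 hQ3 h3)
    linarith only [h12]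
  · rw [not_le] at hcase
    have hyi : ∀ i, |y i - 2 ^ kT * nT i| ≤ 3 * 2 ^ kT := by
      intro i
      rw [dist_eq_norm] at h3
      have h6 := abs_apply_le_norm (x - y) i
      simp only [PiLp.sub_apply] at h6
      have h6' := h6.trans (h3.trans h2)
      have h7 := hx i
      rw [abs_le] at h6' h7 ⊢
      constructor <;> linarith only [h6'.1, h7.2, h6'.2, h7.1]
    have h6 := hB f hf hfc kT nT e W hT y r hcase h2 hyi
    refine le_trans ?_ h6
    have h12 := key C₂ kT nT hC₂.le (by linarith only [hC₁])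
      (top_le_SW hd hm hT.top_mem hr0 hcase h2 hx)
    linarith only [h12]

theorem top_small (hd : 0 < d) : ∃ C : ℝ, 0 < C ∧ ∀ (f : E d → ℝ),
    ContDiff ℝ 1 f → HasCompactSupport f → ∀ (kT : ℕ) (nT : Lat d) (y : E d) (r : ℝ),
    kap d * 2 ^ kT ≤ r → r ≤ 2 * 2 ^ kT → (∀ i, |y i - 2 ^ kT * nT i| ≤ 6 * 2 ^ kT) →
    |avg f y r - refv hd f kT nT| ≤ C * (2 ^ kT / (2 ^ kT) ^ d) *
      (‖vJ (v0f (gradient f)) kT nT‖ + eJ (v0f (gradient f)) (m0f (gradient f)) kT nT) := by
  have hk := kap_pos d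
  have hk1 := kap_le hd
  obtain ⟨C, hC, h⟩ := top_compare hd (kap d / 64) (by positivity)
  refine ⟨64 * C, by positivity, fun f hf hfc kT nT y r h1 h2 h3 => ?_⟩
  have h2k : (0 : ℝ) < 2 ^ kT := by positivity
  set z : E d := pt (co kT nT) + EuclideanSpace.single ⟨0, hd⟩ (12 * 2 ^ kT) with hz
  have hzi : ∀ i, z i - 2 ^ kT * nT i = if i = ⟨0, hd⟩ then 12 * 2 ^ kT else 0 := by
    intro i
    rw [hz]
    simp only [PiLp.add_apply, pt_apply, co, Int.cast_mul, Int.cast_pow, Int.cast_ofNat, PiLp.single_apply, add_sub_cancel_left]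
  have hzi' : ∀ i, |z i - 2 ^ kT * nT i| ≤ 12 * 2 ^ kT := by
    intro i
    rw [hzi]
    split_ifs
    · rw [abs_of_pos (by positivity)]
    · rw [abs_zero]; positivity
  have hzy : 6 * 2 ^ kT ≤ ‖y - z‖ := by
    have h4 := abs_apply_le_norm (y - z) ⟨0, hd⟩
    have h5 := hzi ⟨0, hd⟩
    have h6 := h3 ⟨0, hd⟩
    rw [if_pos rfl] at h5
    simp only [PiLp.sub_apply] at h4
    have h7 : 6 * 2 ^ kT ≤ |y ⟨0, hd⟩ - z ⟨0, hd⟩| := by
      rw [abs_le] at h6
      rw [abs_sub_comm]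
      refine le_trans ?_ (le_abs_self _)
      linarith only [h5, h6]
    linarith only [h4, h7]
  have h4 := h f hf hfc (kT + 6) (bc kT nT) z y (2 ^ kT) r
    (by rw [pow_add_six]; nlinarith only [hk1, h2k]) (by rw [pow_add_six]; linarith only [h2k])
    (by rw [pow_add_six]; linarith only [h1]) (by rw [pow_add_six]; linarith only [h2, h2k])
    (by rw [pow_add_six]; linarith only [h1, h2, h2k, hzy]) (by
      have : |r - 2 ^ kT| ≤ 2 ^ kT := by
        rw [abs_le]
        constructor <;> nlinarith only [h2, hk, h1, h2k]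
      linarith only [h2k, hzy, this])
    (by
      apply closedBall_subset_block
      intro i
      have := hzi' i
      linarith only [h2k, this])
    (by
      apply closedBall_subset_block
      intro i
      have := h3 i
      linarith only [h2, h2k, this])
  have h5 : (2 : ℝ) ^ (kT + 6) / (2 ^ (kT + 6)) ^ d ≤ 64 * (2 ^ kT / (2 ^ kT) ^ d) := by
    rw [pow_add_six, mul_div_assoc]
    apply mul_le_mul_of_nonneg_left _ (by norm_num)
    apply div_le_div_of_nonneg_left h2k.le (by positivity)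
    apply pow_le_pow_left₀ h2k.le
    linarith only [h2k]
  have hm := m0f_nonneg (d := d) (gradient f)
  have h6 : 0 ≤ ‖vv (v0f (gradient f)) (kT + 6) (bc kT nT)‖ +
      ee (v0f (gradient f)) (m0f (gradient f)) (kT + 6) (bc kT nT) := by
    have := ee_nonneg (v0 := v0f (gradient f)) hm (kT + 6) (bc kT nT)
    (clear * - this; positivity)
  refine h4.trans ?_
  unfold vJ eJ
  apply mul_le_mul_of_nonneg_right _ h6
  calc C * (2 ^ (kT + 6) / (2 ^ (kT + 6)) ^ d) ≤ C * (64 * (2 ^ kT / (2 ^ kT) ^ d)) :=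
        mul_le_mul_of_nonneg_left h5 hC.le
    _ = 64 * C * (2 ^ kT / (2 ^ kT) ^ d) := by ring

end Vale.Agent.P137.U
end
end

section

section

/-!
# Track U: oscillation bound for the maximal function of a tree (chain of forward steps).
-/

open MeasureTheory Set Filter Topology
open scoped ENNReal NNReal

namespace Vale.Agent.P137.U

open Vale.Agent.P137

variable {d : ℕ}

theorem div_pow_le_div_pow {a r ρ : ℝ} (ha : 0 < a) (hρ : 0 < ρ) (h1 : a * ρ ≤ r) (h2 : r ≤ ρ) :
    r / r ^ d ≤ (1 / a) ^ d * (ρ / ρ ^ d) := by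
  have hr : 0 < r := lt_of_lt_of_le (by positivity) h1
  have h3 : (a * ρ) ^ d ≤ r ^ d := pow_le_pow_left₀ (by positivity) h1 d
  have h4 : (1 / a) ^ d * (ρ / ρ ^ d) = ρ / (a * ρ) ^ d := by
    rw [mul_pow, one_div, inv_pow]
    field_simp
  rw [h4]
  exact div_le_div₀ hρ.le h2 (by positivity) h3

open Classical in
theorem osc_upper (hd : 0 < d) : ∃ C : ℝ, 0 < C ∧ ∀ (f : E d → ℝ),
    ContDiff ℝ 1 f → HasCompactSupport f → ∀ (kT : ℕ) (nT : Lat d) (e : E d)
    (W : Finset (ℕ × Lat d)), IsTree (v0f (gradient f)) kT nT e W →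
    ∀ (m : ℕ) (y : E d) (r : ℝ), DW W kT y ≤ r → r ≤ 2 * (kap d * 2 ^ kT) →
    kap d * 2 ^ kT < 2 ^ m * r → (∀ i, |y i - 2 ^ kT * nT i| ≤ 4 * 2 ^ kT + r / kap d) →
    avg f y r ≤ refv hd f kT nT +
      C * (2 ^ kT / (2 ^ kT) ^ d) * (‖vJ (v0f (gradient f)) kT nT‖ +
        eJ (v0f (gradient f)) (m0f (gradient f)) kT nT) +
      C * ∑ Q ∈ W, if r / kap d ≤ 2 ^ Q.1 ∧
          ‖y - pt (co Q.1 Q.2)‖ + r / kap d ≤ (1 + 2 * √d) * 2 ^ Q.1 then
        (2 ^ Q.1 / (2 ^ Q.1) ^ d) * eJ (v0f (gradient f)) (m0f (gradient f)) Q.1 Q.2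
        else 0 := by
  have hk := kap_pos d
  have hk1 := kap_le hd
  obtain ⟨C0, hC0, htop⟩ := top_small hd
  obtain ⟨C1, hC1, hfwd⟩ := tree_forward hd
  set C2 : ℝ := C1 * (1 / (kap d / 2)) ^ d with hC2
  have hC2' : 0 < C2 := by positivity
  refine ⟨C0 + C2, by positivity, fun f hf hfc kT nT e W hT m => ?_⟩
  have h2kT : (0 : ℝ) < 2 ^ kT := by positivity
  have hA : 0 ≤ (2 ^ kT / (2 ^ kT) ^ d : ℝ) * (‖vJ (v0f (gradient f)) kT nT‖ +
        eJ (v0f (gradient f)) (m0f (gradient f)) kT nT) := by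
    have := eJ_nonneg (v0 := v0f (gradient f)) (m0f_nonneg (gradient f)) kT nT
    (clear * - this; positivity)
  have hterm : ∀ Q : ℕ × Lat d, (0 : ℝ) ≤ (2 ^ Q.1 / (2 ^ Q.1) ^ d) *
      eJ (v0f (gradient f)) (m0f (gradient f)) Q.1 Q.2 := by
    intro Q
    have := eJ_nonneg (v0 := v0f (gradient f)) (m0f_nonneg (gradient f)) Q.1 Q.2
    (clear * - this; positivity)
  have hbase : ∀ (y : E d) (r : ℝ), kap d * 2 ^ kT < r → r ≤ 2 * (kap d * 2 ^ kT) →
      (∀ i, |y i - 2 ^ kT * nT i| ≤ 4 * 2 ^ kT + r / kap d) →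
      avg f y r ≤ refv hd f kT nT +
      (C0 + C2) * (2 ^ kT / (2 ^ kT) ^ d) * (‖vJ (v0f (gradient f)) kT nT‖ +
        eJ (v0f (gradient f)) (m0f (gradient f)) kT nT) +
      (C0 + C2) * ∑ Q ∈ W, if r / kap d ≤ 2 ^ Q.1 ∧
          ‖y - pt (co Q.1 Q.2)‖ + r / kap d ≤ (1 + 2 * √d) * 2 ^ Q.1 then
        (2 ^ Q.1 / (2 ^ Q.1) ^ d) * eJ (v0f (gradient f)) (m0f (gradient f)) Q.1 Q.2
        else 0 := by
    intro y r h1 h2 h3
    have h4 : r / kap d ≤ 2 * 2 ^ kT := by
      rw [div_le_iff₀ hk]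
      linarith only [h2]
    have h5 := htop f hf hfc kT nT y r h1.le (by nlinarith only [hk, hk1, h1, h2]) (fun i => (h3 i).trans (by linarith only [h4]))
    have h6 := (abs_le.1 h5).2
    have h7 : 0 ≤ ∑ Q ∈ W, if r / kap d ≤ 2 ^ Q.1 ∧
          ‖y - pt (co Q.1 Q.2)‖ + r / kap d ≤ (1 + 2 * √d) * 2 ^ Q.1 then
        (2 ^ Q.1 / (2 ^ Q.1) ^ d) * eJ (v0f (gradient f)) (m0f (gradient f)) Q.1 Q.2
        else 0 := by
      apply Finset.sum_nonneg
      intro Q _
      split_ifs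
      · exact hterm Q
      · exact le_rfl
    have h8 := mul_nonneg (by positivity : (0 : ℝ) ≤ C0 + C2) h7
    have h9 := mul_nonneg hC2'.le hA
    linarith only [h6, h8, h9]
  induction m with
  | zero =>
    intro y r h1 h2 h3 h4
    exact hbase y r (by simpa using h3) h2 h4
  | succ m ih =>
    intro y r h1 h2 h3 h4
    rcases lt_or_ge (kap d * 2 ^ kT) r with h5 | h5
    · exact hbase y r h5 h2 h4
    have hr0 : 0 < r := lt_of_lt_of_le one_pos ((one_le_DW W kT y).trans h1)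
    have hrk : 0 < r / kap d := by (clear * - hr0 hk; positivity)
    obtain ⟨Q0, hQ0, hQ1, hQ2, hQ3⟩ := hT.exists_cell hd h1 h5
    have h6 := hfwd f hf hfc kT nT e W hT y r Q0 hr0 hQ0 hQ1 hQ2 hQ3 (r / kap d) (by
      rw [le_div_iff₀ hk]; nlinarith only [hk1, hr0, mul_pos hr0 hk]) le_rfl
    have h7 : r + kap d * (r / kap d) = 2 * r := by field_simp; ring
    rw [h7] at h6
    have hnorm : ‖(r / kap d) • e‖ = r / kap d := by
      rw [norm_smul, hT.norm_e, mul_one, Real.norm_of_nonneg hrk.le]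
    have h8 := ih (y + (r / kap d) • e) (2 * r) ?_ (by linarith only [h5]) (by rw [pow_succ] at h3; linarith only [h3]) ?_
    · -- combine
      have h9 : C1 * (r / r ^ d) * eJ (v0f (gradient f)) (m0f (gradient f)) Q0.1 Q0.2 ≤
          (C0 + C2) * ((2 ^ Q0.1 / (2 ^ Q0.1) ^ d) *
            eJ (v0f (gradient f)) (m0f (gradient f)) Q0.1 Q0.2) := by
        have h10 : r / r ^ d ≤ (1 / (kap d / 2)) ^ d * (2 ^ Q0.1 / (2 ^ Q0.1) ^ d) := by
          apply div_pow_le_div_pow (by positivity) (by positivity)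
          · have : 2 * (r / kap d) * kap d = 2 * r := by (clear * - hk hr0; field_simp)
            nlinarith only [hr0, hQ1, hQ2, h7]
          · have h11 : r ≤ kap d * 2 ^ Q0.1 := by
              rw [div_le_iff₀ hk] at hQ1
              linarith only [hQ1]
            have : (0 : ℝ) < 2 ^ Q0.1 := by positivity
            nlinarith only [hk1, hQ1, hQ2, h7]
        have h12 := eJ_nonneg (v0 := v0f (gradient f)) (m0f_nonneg (gradient f)) Q0.1 Q0.2
        have h13 := mul_le_mul_of_nonneg_right (mul_le_mul_of_nonneg_left h10 hC1.le) h12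
        have h14 := mul_nonneg hC0.le (hterm Q0)
        calc _ ≤ _ := h13
          _ = C2 * ((2 ^ Q0.1 / (2 ^ Q0.1) ^ d) *
            eJ (v0f (gradient f)) (m0f (gradient f)) Q0.1 Q0.2) := by rw [hC2]; ring
          _ ≤ _ := by linarith only [h14]
      have h15 : (∑ Q ∈ W, if 2 * r / kap d ≤ 2 ^ Q.1 ∧
          ‖y + (r / kap d) • e - pt (co Q.1 Q.2)‖ + 2 * r / kap d ≤ (1 + 2 * √d) * 2 ^ Q.1 then
        (2 ^ Q.1 / (2 ^ Q.1) ^ d) * eJ (v0f (gradient f)) (m0f (gradient f)) Q.1 Q.2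
        else 0) + (2 ^ Q0.1 / (2 ^ Q0.1) ^ d) *
            eJ (v0f (gradient f)) (m0f (gradient f)) Q0.1 Q0.2 ≤
          ∑ Q ∈ W, if r / kap d ≤ 2 ^ Q.1 ∧
          ‖y - pt (co Q.1 Q.2)‖ + r / kap d ≤ (1 + 2 * √d) * 2 ^ Q.1 then
        (2 ^ Q.1 / (2 ^ Q.1) ^ d) * eJ (v0f (gradient f)) (m0f (gradient f)) Q.1 Q.2
        else 0 := by
        have h16 : (2 ^ Q0.1 / (2 ^ Q0.1) ^ d) *
            eJ (v0f (gradient f)) (m0f (gradient f)) Q0.1 Q0.2 = ∑ Q ∈ W, if Q = Q0 then
            (2 ^ Q.1 / (2 ^ Q.1) ^ d) * eJ (v0f (gradient f)) (m0f (gradient f)) Q.1 Q.2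
            else 0 := by
          rw [Finset.sum_ite_eq' W Q0, if_pos hQ0]
        rw [h16, ← Finset.sum_add_distrib]
        apply Finset.sum_le_sum
        intro Q hQ
        have hdiv : 2 * r / kap d = 2 * (r / kap d) := by ring
        rw [hdiv]
        by_cases hQQ : Q = Q0
        · subst hQQ
          have h17 : ‖y - pt (co Q.1 Q.2)‖ ≤ √d * (2 * 2 ^ Q.1) :=
            norm_sub_pt_le (by positivity) hQ3
          have h18 : ¬ (2 * (r / kap d) ≤ 2 ^ Q.1 ∧
            ‖y + (r / kap d) • e - pt (co Q.1 Q.2)‖ + 2 * (r / kap d) ≤ (1 + 2 * √d) * 2 ^ Q.1) := by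
            intro h
            linarith only [hQ2, h]
          rw [if_neg h18, if_pos rfl, if_pos, zero_add]
          refine ⟨hQ1, ?_⟩
          linarith only [hQ1, h17]
        · rw [if_neg hQQ, add_zero]
          split_ifs with h19 h20 h20
          · exact le_rfl
          · exfalso
            apply h20
            refine ⟨by linarith only [hQ1, hQ2, h19.1], ?_⟩
            have h21 : ‖y - pt (co Q.1 Q.2)‖ ≤ ‖y + (r / kap d) • e - pt (co Q.1 Q.2)‖ + r / kap d := by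
              have h22 : y - pt (co Q.1 Q.2) = (y + (r / kap d) • e - pt (co Q.1 Q.2)) - (r / kap d) • e := by
                abel
              rw [h22]
              refine (norm_sub_le _ _).trans ?_
              rw [hnorm]
            linarith only [h19, h21]
          · exact hterm Q
          · exact le_rfl
      have h23 := mul_le_mul_of_nonneg_left h15 (by positivity : (0 : ℝ) ≤ C0 + C2)
      rw [mul_add] at h23
      linarith only [h6, h8, h9, h23]
    · have h24 := DW_le_add (W := W) ⟨_, hT.top_mem⟩ kT y (y + (r / kap d) • e)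
      rw [add_sub_cancel_left, hnorm] at h24
      linarith only [h1, h7, h24]
    · intro i
      have h25 : (y + (r / kap d) • e) i - 2 ^ kT * nT i =
        (y i - 2 ^ kT * nT i) + ((r / kap d) • e) i := by simp only [PiLp.add_apply, PiLp.smul_apply, smul_eq_mul]; ring
      have h26 := abs_apply_le_norm ((r / kap d) • e) i
      rw [hnorm] at h26
      rw [h25]
      have h27 := abs_add_le (y i - 2 ^ kT * nT i) (((r / kap d) • e) i)
      have h28 := h4 i
      have hdiv : 2 * r / kap d = 2 * (r / kap d) := by ring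
      rw [hdiv]
      linarith only [h26, h27, h28]

open Classical in
theorem osc_bound (hd : 0 < d) : ∃ C c : ℝ, 0 < C ∧ 0 < c ∧ ∀ (f : E d → ℝ),
    ContDiff ℝ 1 f → HasCompactSupport f → ∀ (kT : ℕ) (nT : Lat d) (e : E d)
    (W : Finset (ℕ × Lat d)), IsTree (v0f (gradient f)) kT nT e W →
    ∀ x ∈ NT kT nT, |uT f W kT x - refv hd f kT nT| ≤
      C * (2 ^ kT / (2 ^ kT) ^ d) * (‖vJ (v0f (gradient f)) kT nT‖ +
        eJ (v0f (gradient f)) (m0f (gradient f)) kT nT) +
      C * ∑ Q ∈ W, if ‖x - pt (co Q.1 Q.2)‖ ≤ c * 2 ^ Q.1 then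
        (2 ^ Q.1 / (2 ^ Q.1) ^ d) * eJ (v0f (gradient f)) (m0f (gradient f)) Q.1 Q.2
        else 0 := by
  have hk := kap_pos d
  have hk1 := kap_le hd
  obtain ⟨C0, hC0, htop⟩ := top_small hd
  obtain ⟨C1, hC1, hup⟩ := osc_upper hd
  have hc : (0 : ℝ) < 1 + 2 * √d := by positivity
  refine ⟨C0 + C1, 1 + 2 * √d, by positivity, hc, fun f hf hfc kT nT e W hT x hx => ?_⟩
  have h2kT : (0 : ℝ) < 2 ^ kT := by positivity
  have hW : W.Nonempty := ⟨_, hT.top_mem⟩
  set A : ℝ := (2 ^ kT / (2 ^ kT) ^ d : ℝ) * (‖vJ (v0f (gradient f)) kT nT‖ +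
        eJ (v0f (gradient f)) (m0f (gradient f)) kT nT) with hA'
  have hA : 0 ≤ A := by
    have := eJ_nonneg (v0 := v0f (gradient f)) (m0f_nonneg (gradient f)) kT nT
    (clear * - this; positivity)
  have hterm : ∀ Q : ℕ × Lat d, (0 : ℝ) ≤ (2 ^ Q.1 / (2 ^ Q.1) ^ d) *
      eJ (v0f (gradient f)) (m0f (gradient f)) Q.1 Q.2 := by
    intro Q
    have := eJ_nonneg (v0 := v0f (gradient f)) (m0f_nonneg (gradient f)) Q.1 Q.2
    (clear * - this; positivity)
  set S : ℝ := ∑ Q ∈ W, if ‖x - pt (co Q.1 Q.2)‖ ≤ (1 + 2 * √d) * 2 ^ Q.1 then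
        (2 ^ Q.1 / (2 ^ Q.1) ^ d) * eJ (v0f (gradient f)) (m0f (gradient f)) Q.1 Q.2
        else 0 with hS'
  have hS : 0 ≤ S := by
    apply Finset.sum_nonneg
    intro Q _
    split_ifs
    · exact hterm Q
    · exact le_rfl
  have hx' : ∀ i, |x i - 2 ^ kT * nT i| ≤ 2 * 2 ^ kT := hx
  have hlow : refv hd f kT nT - C0 * A ≤ uT f W kT x := by
    have h1 := htop f hf hfc kT nT x (2 ^ kT) (by nlinarith only [hk1, h2kT]) (by linarith only [h2kT])
      (fun i => (hx' i).trans (by linarith only [h2kT]))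
    have h2 : avg f x (2 ^ kT) ≤ uT f W kT x :=
      avg_le_uu hf.continuous hfc (DW_le W kT x) (by linarith only [h2kT]) (by rw [dist_self]; positivity)
    have h3 := (abs_le.1 h1).1
    rw [mul_assoc] at h3
    linarith only [h2, h3]
  have hupp : uT f W kT x ≤ refv hd f kT nT + (C0 + C1) * A + C1 * S := by
    obtain ⟨y, r, h1, h2, h3, h4⟩ := uu_attained (D := DW W kT) (R := 2 * 2 ^ kT)
      hf.continuous hfc (DW_lipschitz hW kT).continuous
      (fun y => lt_of_lt_of_le one_pos (one_le_DW W kT y))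
      (fun y => (DW_le W kT y).trans (by linarith only [h2kT])) x
    have hr0 : 0 < r := lt_of_lt_of_le one_pos ((one_le_DW W kT y).trans h1)
    have hyx : ∀ i, |y i - 2 ^ kT * nT i| ≤ 2 * 2 ^ kT + r := by
      intro i
      have h5 := abs_apply_le_norm (y - x) i
      rw [← dist_eq_norm, dist_comm] at h5
      have h6 : y i - 2 ^ kT * nT i = (x i - 2 ^ kT * nT i) + (y - x) i := by simp
      rw [h6]
      have h7 := abs_add_le (x i - 2 ^ kT * nT i) ((y - x) i)
      linarith only [h3, h5, h7, hx' i]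
    have huT : uT f W kT x = avg f y r := h4.symm
    rw [huT]
    rcases lt_or_ge (kap d * 2 ^ kT) r with h5 | h5
    · have h6 := htop f hf hfc kT nT y r h5.le h2 (fun i => (hyx i).trans (by linarith only [h2, hr0]))
      have h7 := (abs_le.1 h6).2
      rw [mul_assoc] at h7
      have h8 := mul_nonneg hC1.le hA
      have h9 := mul_nonneg hC1.le hS
      linarith only [h7, h8, h9]
    · have h6 : kap d * 2 ^ kT < 2 ^ kT * r := by
        have : 1 ≤ r := (one_le_DW W kT y).trans h1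
        nlinarith only [hk, hk1, h5, this]
      have h7 : r / kap d ≤ 2 ^ kT := by
        rw [div_le_iff₀ hk]
        linarith only [h5]
      have h8 : r ≤ r / kap d := by
        rw [le_div_iff₀ hk]
        nlinarith only [hk1, hr0]
      have h9 := hup f hf hfc kT nT e W hT kT y r h1 (by linarith only [hr0, h5]) h6
        (fun i => (hyx i).trans (by linarith only [hr0, h7, h8]))
      have h10 : (∑ Q ∈ W, if r / kap d ≤ 2 ^ Q.1 ∧
          ‖y - pt (co Q.1 Q.2)‖ + r / kap d ≤ (1 + 2 * √d) * 2 ^ Q.1 then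
        (2 ^ Q.1 / (2 ^ Q.1) ^ d) * eJ (v0f (gradient f)) (m0f (gradient f)) Q.1 Q.2
        else 0) ≤ S := by
        apply Finset.sum_le_sum
        intro Q _
        split_ifs with h11 h12 h12
        · exact le_rfl
        · exfalso
          apply h12
          have h13 : ‖x - pt (co Q.1 Q.2)‖ ≤ ‖x - y‖ + ‖y - pt (co Q.1 Q.2)‖ :=
            norm_sub_le_norm_sub_add_norm_sub _ _ _
          have h16 : ‖x - y‖ ≤ r := by rwa [← dist_eq_norm]
          linarith only [h8, h11, h13, h16]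
        · exact hterm Q
        · exact le_rfl
      have h14 := mul_le_mul_of_nonneg_left h10 hC1.le
      have h15 := mul_nonneg hC0.le hA
      rw [mul_assoc] at h9
      linarith only [h9, h14, h15]
  have h1 := mul_nonneg hC0.le hA
  have h2 := mul_nonneg hC1.le hA
  have h3 := mul_nonneg hC0.le hS
  have h4 := mul_nonneg hC1.le hS
  rw [abs_le, mul_assoc]
  constructor <;> linarith only [hlow, h2, h3, h4, hupp]

end Vale.Agent.P137.U
end
end

section

section

/-!
# Track U: pointwise estimates for the maximal function of a tree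
(`misaligned_small`, `top_small`, `osc_bound`).
-/
end
end

section

section

open MeasureTheory Set Filter Topology
open scoped ENNReal NNReal

namespace Vale.Agent.P137.U

open Vale.Agent.P137

variable {d : ℕ}

/-- One line: the integral of the negative directional derivative over the part of the segment in
`F` is at most the oscillation. -/
theorem line_lemma_aux (u : E d → ℝ) (F : Set (E d))
    (hF : MeasurableSet F) (ω : E d) (τ : ℝ)
    (h2 : ∀ x ∈ F, ∀ t ∈ Icc 0 τ, x + t • ω ∈ F → u (x + t • ω) ≤ u x) (x : E d) (η : ℝ≥0∞)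
    (h3 : ∀ s ∈ Icc 0 τ, ∀ t ∈ Icc 0 τ, x + s • ω ∈ F → x + t • ω ∈ F →
      ENNReal.ofReal (|u (x + s • ω) - u (x + t • ω)|) ≤ η) :
    ∫⁻ t in Icc 0 τ, F.indicator (fun z => ENNReal.ofReal (-fderiv ℝ u z ω)) (x + t • ω) ≤ η := by
  classical
  set A : Set ℝ := {t | t ∈ Icc 0 τ ∧ x + t • ω ∈ F ∧ DifferentiableAt ℝ u (x + t • ω)} with hA
  have hline : Continuous fun t : ℝ => x + t • ω := by fun_prop
  have hAm : MeasurableSet A := by
    refine measurableSet_Icc.inter ((hline.measurable hF).inter ?_)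
    exact hline.measurable (measurableSet_of_differentiableAt ℝ u)
  have hsub : A ⊆ Icc 0 τ := fun t ht => ht.1
  have e1 : ∫⁻ t in Icc 0 τ, F.indicator (fun z => ENNReal.ofReal (-fderiv ℝ u z ω)) (x + t • ω) ≤
      ∫⁻ t in A, ENNReal.ofReal (-fderiv ℝ u (x + t • ω) ω) := by
    rw [← lintegral_indicator measurableSet_Icc, ← lintegral_indicator hAm]
    refine lintegral_mono fun t => ?_
    by_cases ht : t ∈ Icc 0 τ
    · rw [indicator_of_mem ht]
      by_cases hx : x + t • ω ∈ F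
      · rw [indicator_of_mem hx]
        by_cases hdiff : DifferentiableAt ℝ u (x + t • ω)
        · have : t ∈ A := ⟨ht, hx, hdiff⟩
          rw [indicator_of_mem this]
        · rw [fderiv_zero_of_not_differentiableAt hdiff]
          simp only [zero_apply, neg_zero, ENNReal.ofReal_zero, zero_le]
      · rw [indicator_of_notMem hx]
        exact zero_le
    · rw [indicator_of_notMem ht]
      exact zero_le
  refine e1.trans ?_
  have hder : ∀ t ∈ A, HasDerivWithinAt (fun t : ℝ => u (x + t • ω))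
      (fderiv ℝ u (x + t • ω) ω) A t := by
    intro t ht
    have h := ht.2.2.hasFDerivAt
    have hl : HasDerivAt (fun t : ℝ => x + t • ω) ω t := by
      simpa using ((hasDerivAt_id t).smul_const ω).const_add x
    exact (h.comp_hasDerivAt t hl).hasDerivWithinAt
  have hanti : AntitoneOn (fun t : ℝ => u (x + t • ω)) A := by
    intro s hs t ht hst
    have hts : x + t • ω = (x + s • ω) + (t - s) • ω := by
      rw [sub_smul]; abel
    have hmem : (x + s • ω) + (t - s) • ω ∈ F := by rw [← hts]; exact ht.2.1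
    have := h2 (x + s • ω) hs.2.1 (t - s) ⟨by linarith only [hst], by linarith only [hs.1.1, ht.1.2]⟩ hmem
    simp only
    rw [hts]
    exact this
  rw [lintegral_deriv_eq_volume_image_of_antitoneOn hAm hder hanti]
  refine (Real.volume_le_diam _).trans ?_
  refine Metric.ediam_le ?_
  rintro _ ⟨s, hs, rfl⟩ _ ⟨t, ht, rfl⟩
  rw [edist_dist, Real.dist_eq]
  exact h3 s hs.1 t ht.1 hs.2.1 ht.2.1

theorem line_lemma (u : E d → ℝ) (L : ℝ≥0) (hu : LipschitzWith L u) (F : Set (E d))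
    (hF : MeasurableSet F) (ω : E d) (hω : ‖ω‖ = 1) (τ β : ℝ) (hτ : 0 < τ) (hβ : 0 < β)
    (ε : E d → ℝ≥0∞) (hε : Measurable ε)
    (h1 : ∀ x ∈ F, DifferentiableAt ℝ u x → β * ‖fderiv ℝ u x‖ ≤ -fderiv ℝ u x ω)
    (h2 : ∀ x ∈ F, ∀ t ∈ Icc 0 τ, x + t • ω ∈ F → u (x + t • ω) ≤ u x)
    (h3 : ∀ x, ∀ s ∈ Icc 0 τ, ∀ t ∈ Icc 0 τ, x + s • ω ∈ F → x + t • ω ∈ F →
      ENNReal.ofReal (|u (x + s • ω) - u (x + t • ω)|) ≤ ε x) :
    ∫⁻ x in F, ‖fderiv ℝ u x‖ₑ ≤ ENNReal.ofReal (1 / (β * τ)) * ∫⁻ x, ε x := by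
  set g : E d → ℝ≥0∞ := F.indicator (fun z => ENNReal.ofReal (-fderiv ℝ u z ω)) with hg
  have hgm : Measurable g :=
    (measurable_fderiv_apply_const ℝ u ω).neg.ennreal_ofReal.indicator hF
  -- step 1
  have s1 : ∫⁻ x in F, ‖fderiv ℝ u x‖ₑ ≤ ENNReal.ofReal (1 / β) * ∫⁻ x, g x := by
    rw [← lintegral_indicator hF, ← lintegral_const_mul _ hgm]
    refine lintegral_mono fun x => ?_
    by_cases hx : x ∈ F
    · rw [indicator_of_mem hx, hg, indicator_of_mem hx]
      by_cases hdiff : DifferentiableAt ℝ u x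
      · have := h1 x hx hdiff
        rw [← ENNReal.ofReal_mul (by positivity), ← ofReal_norm]
        refine ENNReal.ofReal_le_ofReal ?_
        rw [one_div, ← div_eq_inv_mul, le_div_iff₀ hβ]
        linarith only [this]
      · rw [fderiv_zero_of_not_differentiableAt hdiff]
        exact (le_of_eq (enorm_zero (E := E d →L[ℝ] ℝ))).trans zero_le
    · rw [indicator_of_notMem hx]
      exact zero_le
  -- step 2
  have s2 : ENNReal.ofReal τ * ∫⁻ x, g x ≤ ∫⁻ x, ε x := by
    have e1 : ∫⁻ t in Icc 0 τ, ∫⁻ x, g (x + t • ω) = ENNReal.ofReal τ * ∫⁻ x, g x := by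
      have : ∀ t : ℝ, ∫⁻ x, g (x + t • ω) = ∫⁻ x, g x := fun t =>
        lintegral_add_right_eq_self g (t • ω)
      simp only [this]
      rw [setLIntegral_const, Real.volume_Icc, sub_zero, mul_comm]
    have hmeas : Measurable (Function.uncurry fun (t : ℝ) (x : E d) => g (x + t • ω)) := by
      refine hgm.comp ?_
      fun_prop
    rw [← e1, lintegral_lintegral_swap hmeas.aemeasurable]
    refine lintegral_mono fun x => ?_
    exact line_lemma_aux u F hF ω τ h2 x (ε x) (h3 x)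
  calc ∫⁻ x in F, ‖fderiv ℝ u x‖ₑ ≤ ENNReal.ofReal (1 / β) * ∫⁻ x, g x := s1
    _ = ENNReal.ofReal (1 / (β * τ)) * (ENNReal.ofReal τ * ∫⁻ x, g x) := by
        rw [← mul_assoc, ← ENNReal.ofReal_mul (by positivity)]
        congr 2
        field_simp
    _ ≤ ENNReal.ofReal (1 / (β * τ)) * ∫⁻ x, ε x := by (clear * - s2; gcongr)

end Vale.Agent.P137.U
end
end

section

section

open MeasureTheory Set Filter Topology
open scoped ENNReal NNReal

namespace Vale.Agent.P137.U

open Vale.Agent.P137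

variable {d : ℕ}

/-! ### The lower bound `DW` -/

theorem ptr_dW_lip {W : Finset (ℕ × Lat d)} (hW : W.Nonempty) : LipschitzWith 1 (dW W) := by
  haveI : Nonempty W := hW.to_subtype
  refine LipschitzWith.of_le_add fun x y => ?_
  have hbdd : BddBelow (Set.range fun Q : W => ((2 : ℝ) ^ Q.1.1 + ‖x - pt (co Q.1.1 Q.1.2)‖)) :=
    (Set.finite_range _).bddBelow
  rw [← sub_le_iff_le_add]
  refine le_ciInf fun Q => ?_
  have h1 : dW W x ≤ (2 : ℝ) ^ Q.1.1 + ‖x - pt (co Q.1.1 Q.1.2)‖ := ciInf_le hbdd Q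
  have h2 : ‖x - pt (co Q.1.1 Q.1.2)‖ ≤ ‖y - pt (co Q.1.1 Q.1.2)‖ + dist x y := by
    rw [dist_eq_norm]
    calc ‖x - pt (co Q.1.1 Q.1.2)‖ = ‖(y - pt (co Q.1.1 Q.1.2)) + (x - y)‖ := by congr 1; abel
      _ ≤ _ := norm_add_le _ _
  linarith only [h1, h2]

theorem ptr_DW_lip (hd : 0 < d) {W : Finset (ℕ × Lat d)} (hW : W.Nonempty) (kT : ℕ) :
    LipschitzWith 1 (DW W kT) := by
  have h0 := kap_pos d
  have h1 := kap_le hd
  refine LipschitzWith.of_dist_le_mul fun x y => ?_
  rw [Real.dist_eq]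
  unfold DW
  have h2 : |dW W x - dW W y| ≤ dist x y := by
    have := (ptr_dW_lip hW).dist_le_mul x y
    simpa only [ge_iff_le, Real.dist_eq, NNReal.coe_one, one_mul] using this
  calc |max 1 (min (kap d * dW W x) (2 ^ kT)) - max 1 (min (kap d * dW W y) (2 ^ kT))|
      ≤ |min (kap d * dW W x) (2 ^ kT) - min (kap d * dW W y) (2 ^ kT)| := by
        refine (abs_max_sub_max_le_max _ _ _ _).trans ?_
        simp only [sub_self, abs_zero, abs_nonneg, sup_of_le_right, Std.le_refl]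
    _ ≤ |kap d * dW W x - kap d * dW W y| := by
        refine (abs_min_sub_min_le_max _ _ _ _).trans ?_
        simp only [sub_self, abs_zero, abs_nonneg, sup_of_le_left, Std.le_refl]
    _ = kap d * |dW W x - dW W y| := by
        rw [← mul_sub, abs_mul, abs_of_pos h0]
    _ ≤ 1 * dist x y := by
        have := abs_nonneg (dW W x - dW W y)
        nlinarith only [h1, h2, this]
    _ = ((1 : ℝ≥0) : ℝ) * dist x y := by simp

theorem ptr_one_le_DW (W : Finset (ℕ × Lat d)) (kT : ℕ) (y : E d) : 1 ≤ DW W kT y :=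
  le_max_left _ _

theorem ptr_DW_le (W : Finset (ℕ × Lat d)) (kT : ℕ) (y : E d) : DW W kT y ≤ 2 * 2 ^ kT := by
  have h : (1 : ℝ) ≤ 2 ^ kT := one_le_pow₀ (by norm_num)
  refine max_le (by linarith only [h]) ((min_le_right _ _).trans (by linarith only [h]))

/-! ### Volumes and sums of indicator functions of balls -/

/-- Volume of the unit ball. -/
noncomputable def uvol (d : ℕ) : ℝ := volume.real (Metric.closedBall (0 : E d) 1)

theorem uvol_pos : 0 < uvol d := volume_unit_pos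

theorem ptr_vol_ball (x : E d) {ρ : ℝ} (hρ : 0 ≤ ρ) :
    volume (Metric.closedBall x ρ) = ENNReal.ofReal (ρ ^ d * uvol d) := by
  rw [Measure.addHaar_closedBall' volume x hρ, ENNReal.ofReal_mul (by positivity)]
  congr 1
  · rw [finrank_euclideanSpace, Fintype.card_fin]
  · rw [uvol, measureReal_def, ENNReal.ofReal_toReal]
    exact (isCompact_closedBall 0 1).measure_ne_top

open Classical in
theorem ptr_measurable_ite (p : E d) (ρ a : ℝ) :
    Measurable fun x : E d => if ‖x - p‖ ≤ ρ then a else 0 := by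
  refine Measurable.ite ?_ measurable_const measurable_const
  exact measurableSet_le (by (clear * -; fun_prop)) measurable_const

open Classical in
theorem ptr_lint_ite (p : E d) {ρ a : ℝ} (hρ : 0 ≤ ρ) (ha : 0 ≤ a) :
    ∫⁻ x : E d, ENNReal.ofReal (if ‖x - p‖ ≤ ρ then a else 0) =
      ENNReal.ofReal (a * (ρ ^ d * uvol d)) := by
  have h1 : (fun x : E d => ENNReal.ofReal (if ‖x - p‖ ≤ ρ then a else 0)) =
      (Metric.closedBall p ρ).indicator fun _ => ENNReal.ofReal a := by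
    funext x
    by_cases hx : ‖x - p‖ ≤ ρ
    · rw [indicator_of_mem (by rwa [Metric.mem_closedBall, dist_eq_norm]), if_pos hx]
    · rw [indicator_of_notMem (by rwa [Metric.mem_closedBall, dist_eq_norm]), if_neg hx]
      simp
  rw [h1, lintegral_indicator Metric.isClosed_closedBall.measurableSet, setLIntegral_const,
    ptr_vol_ball p hρ, ← ENNReal.ofReal_mul ha]

open Classical in
theorem ptr_lint_sum {ι : Type*} (s : Finset ι) (p : ι → E d) (ρ a : ι → ℝ)
    (hρ : ∀ i ∈ s, 0 ≤ ρ i) (ha : ∀ i ∈ s, 0 ≤ a i) :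
    ∫⁻ x : E d, ENNReal.ofReal (∑ i ∈ s, if ‖x - p i‖ ≤ ρ i then a i else 0) =
      ENNReal.ofReal (∑ i ∈ s, a i * (ρ i ^ d * uvol d)) := by
  have hnn : ∀ x : E d, ∀ i ∈ s, 0 ≤ (if ‖x - p i‖ ≤ ρ i then a i else 0) := by
    intro x i hi
    split_ifs
    · exact ha i hi
    · exact le_rfl
  have h1 : (fun x : E d => ENNReal.ofReal (∑ i ∈ s, if ‖x - p i‖ ≤ ρ i then a i else 0)) =
      fun x => ∑ i ∈ s, ENNReal.ofReal (if ‖x - p i‖ ≤ ρ i then a i else 0) := by
    funext x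
    exact ENNReal.ofReal_sum_of_nonneg (hnn x)
  rw [h1, lintegral_finset_sum s fun i _ => (ptr_measurable_ite _ _ _).ennreal_ofReal,
    ENNReal.ofReal_sum_of_nonneg]
  · exact Finset.sum_congr rfl fun i hi => ptr_lint_ite (p i) (hρ i hi) (ha i hi)
  · intro i hi
    have := hρ i hi
    have := uvol_pos (d := d)
    exact mul_nonneg (ha i hi) (by (clear p a ha hnn h1; positivity))

open Classical in
theorem ptr_measurable_sum {ι : Type*} (s : Finset ι) (p : ι → E d) (ρ a : ι → ℝ) :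
    Measurable fun x : E d => ∑ i ∈ s, if ‖x - p i‖ ≤ ρ i then a i else 0 :=
  Finset.measurable_sum s fun i _ => ptr_measurable_ite _ _ _

/-! ### The neighbourhood `NT` -/

theorem ptr_isClosed_NT (kT : ℕ) (nT : Lat d) : IsClosed (NT kT nT : Set (E d)) := by
  have : (NT kT nT : Set (E d)) = ⋂ i, {x : E d | |x i - 2 ^ kT * nT i| ≤ 2 * 2 ^ kT} := by
    ext x; simp only [NT, mem_ofPred_eq, mem_iInter]
  rw [this]
  refine isClosed_iInter fun i => isClosed_le ?_ continuous_const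
  fun_prop

theorem ptr_NT_norm {kT : ℕ} {nT : Lat d} {x : E d} (hx : x ∈ NT kT nT) :
    ‖x - pt (co kT nT)‖ ≤ √d * (2 * 2 ^ kT) := by
  refine norm_le_of_abs_apply_le (by positivity) fun i => ?_
  have := hx i
  simpa only [pt, co, Int.cast_mul, Int.cast_pow, Int.cast_ofNat, PiLp.sub_apply, ge_iff_le] using this

theorem ptr_NT_subset (kT : ℕ) (nT : Lat d) :
    (NT kT nT : Set (E d)) ⊆ Metric.closedBall (pt (co kT nT)) (√d * (2 * 2 ^ kT)) := by
  intro x hx
  rw [Metric.mem_closedBall, dist_eq_norm]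
  exact ptr_NT_norm hx

/-! ### The sets of misaligned points -/

/-- Points of `NT` having an optimal ball of radius about `2^j` which is misaligned with `e` and
whose contact direction is about `ω`. -/
def FF (f : E d → ℝ) (W : Finset (ℕ × Lat d)) (kT : ℕ) (nT : Lat d) (e : E d) (j : ℕ)
    (ω : E d) : Set (E d) :=
  {x | x ∈ NT kT nT ∧ ∃ y r, DW W kT y ≤ r ∧ r ≤ 2 * 2 ^ kT ∧ 2 ^ j ≤ r ∧ r ≤ 2 * 2 ^ j ∧
    dist x y = r ∧ avg f y r = uT f W kT x ∧ r / √d ≤ inner ℝ (x - y) ω ∧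
    -(kap d / 4 * r) ≤ inner ℝ (x - y) e}

theorem ptr_isClosed_FF (hd : 0 < d) {f : E d → ℝ} {L : ℝ≥0} (hf : LipschitzWith L f)
    (hfc : HasCompactSupport f) {W : Finset (ℕ × Lat d)} (hW : W.Nonempty) (kT : ℕ)
    (nT : Lat d) (e : E d) (j : ℕ) (ω : E d) : IsClosed (FF f W kT nT e j ω) := by
  have hDc : Continuous (DW W kT) := (ptr_DW_lip hd hW kT).continuous
  have hu : Continuous (uT f W kT) :=
    (uu_lipschitz hf hfc le_rfl (ptr_DW_lip hd hW kT)
      (fun y => lt_of_lt_of_le one_pos (ptr_one_le_DW W kT y)) (ptr_DW_le W kT)).continuous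
  have ha := continuous_avg hf.continuous
  set S : Set (E d × E d × ℝ) := {q | q.1 ∈ NT kT nT ∧ DW W kT q.2.1 ≤ q.2.2 ∧
    q.2.2 ≤ 2 * 2 ^ kT ∧ 2 ^ j ≤ q.2.2 ∧ q.2.2 ≤ 2 * 2 ^ j ∧
    dist q.1 q.2.1 = q.2.2 ∧ avg f q.2.1 q.2.2 = uT f W kT q.1 ∧
    q.2.2 / √d ≤ inner ℝ (q.1 - q.2.1) ω ∧
    -(kap d / 4 * q.2.2) ≤ inner ℝ (q.1 - q.2.1) e} with hS
  have hSc : IsClosed S := by
    refine IsClosed.and ((ptr_isClosed_NT kT nT).preimage continuous_fst) ?_
    refine IsClosed.and (isClosed_le (by fun_prop) (by fun_prop)) ?_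
    refine IsClosed.and (isClosed_le (by fun_prop) (by fun_prop)) ?_
    refine IsClosed.and (isClosed_le (by fun_prop) (by fun_prop)) ?_
    refine IsClosed.and (isClosed_le (by fun_prop) (by fun_prop)) ?_
    refine IsClosed.and (isClosed_eq (by fun_prop) (by fun_prop)) ?_
    refine IsClosed.and (isClosed_eq (ha.comp continuous_snd) (by fun_prop)) ?_
    exact IsClosed.and (isClosed_le (by fun_prop) (by (clear * -; fun_prop)))
      (isClosed_le (by fun_prop) (by fun_prop))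
  have hsub : S ⊆ Metric.closedBall (pt (co kT nT)) (√d * (2 * 2 ^ kT)) ×ˢ
      (Metric.closedBall (pt (co kT nT)) (√d * (2 * 2 ^ kT) + 2 * 2 ^ kT) ×ˢ
        Icc (0 : ℝ) (2 * 2 ^ kT)) := by
    rintro ⟨x, y, r⟩ ⟨h1, h2, h3, h4, h5, h6, h7, h8, h9⟩
    have hx := ptr_NT_subset kT nT h1
    refine ⟨hx, ?_, ?_, h3⟩
    · rw [Metric.mem_closedBall] at hx ⊢
      calc dist y (pt (co kT nT)) ≤ dist y x + dist x (pt (co kT nT)) := dist_triangle _ _ _
        _ = r + dist x (pt (co kT nT)) := by rw [dist_comm y x]; simp only at h6; rw [h6]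
        _ ≤ _ := by simp only at h3; linarith only [h3, hx]
    · simp only at h4 ⊢
      exact le_trans (by (clear * -; positivity)) h4
  have hScomp : IsCompact S :=
    ((isCompact_closedBall _ _).prod ((isCompact_closedBall _ _).prod
      isCompact_Icc)).of_isClosed_subset hSc hsub
  have himg : FF f W kT nT e j ω = Prod.fst '' S := by
    ext x
    constructor
    · rintro ⟨h1, y, r, h⟩
      exact ⟨(x, y, r), ⟨h1, h⟩, rfl⟩
    · rintro ⟨⟨x', y, r⟩, ⟨h1, h⟩, rfl⟩
      exact ⟨h1, y, r, h⟩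
  rw [himg]
  exact (hScomp.image continuous_fst).isClosed

end Vale.Agent.P137.U
end
end

section

section

open MeasureTheory Set Filter Topology
open scoped ENNReal NNReal

namespace Vale.Agent.P137.U

open Vale.Agent.P137

variable {d : ℕ}

theorem ptr_uT_lip (hd : 0 < d) {f : E d → ℝ} {L : ℝ≥0} (hf : LipschitzWith L f)
    (hfc : HasCompactSupport f) {W : Finset (ℕ × Lat d)} (hW : W.Nonempty) (kT : ℕ) :
    LipschitzWith (2 * L) (uT f W kT) :=
  uu_lipschitz hf hfc le_rfl (ptr_DW_lip hd hW kT)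
    (fun y => lt_of_lt_of_le one_pos (ptr_one_le_DW W kT y)) (ptr_DW_le W kT)

theorem ptr_kap_sqrt (d : ℕ) : kap d * √d ≤ 1 := by
  unfold kap
  have h : 0 ≤ √(d : ℝ) := Real.sqrt_nonneg _
  rw [one_div, inv_mul_le_iff₀ (by positivity)]
  linarith only [h]

theorem ptr_FF_deriv {f : E d → ℝ} {L : ℝ≥0} (hf : LipschitzWith L f)
    (hfc : HasCompactSupport f) {W : Finset (ℕ × Lat d)} {kT : ℕ}
    {nT : Lat d} {e : E d} {j : ℕ} {ω : E d} {x : E d} (hx : x ∈ FF f W kT nT e j ω)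
    (hdiff : DifferentiableAt ℝ (uT f W kT) x) :
    1 / √d * ‖fderiv ℝ (uT f W kT) x‖ ≤ -fderiv ℝ (uT f W kT) x ω := by
  obtain ⟨-, y, r, h2, h3, h4, -, h6, h7, h8, -⟩ := hx
  have hr : 0 < r := lt_of_lt_of_le (by positivity) h4
  have key := fderiv_uu_boundary hf.continuous hfc h2 h3 h6 hr h7 hdiff ω
  change r * fderiv ℝ (uT f W kT) x ω = -(‖fderiv ℝ (uT f W kT) x‖ * inner ℝ (x - y) ω) at key
  have h9 := mul_le_mul_of_nonneg_left h8 (norm_nonneg (fderiv ℝ (uT f W kT) x))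
  have h10 : r * (1 / √d * ‖fderiv ℝ (uT f W kT) x‖) ≤ r * (-fderiv ℝ (uT f W kT) x ω) := by
    calc r * (1 / √d * ‖fderiv ℝ (uT f W kT) x‖) = ‖fderiv ℝ (uT f W kT) x‖ * (r / √d) := by ring
      _ ≤ ‖fderiv ℝ (uT f W kT) x‖ * inner ℝ (x - y) ω := h9
      _ = r * (-fderiv ℝ (uT f W kT) x ω) := by linarith only [key]
  exact le_of_mul_le_mul_left h10 hr

theorem ptr_FF_mono (hd : 0 < d) {f : E d → ℝ} {L : ℝ≥0} (hf : LipschitzWith L f)
    (hfc : HasCompactSupport f) {W : Finset (ℕ × Lat d)} {kT : ℕ}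
    {nT : Lat d} {e : E d} {j : ℕ} {ω : E d} (hω : ‖ω‖ = 1) {x : E d} {t : ℝ} (ht : 0 ≤ t)
    (ht' : t ≤ kap d ^ 2 * 2 ^ j / 5) (hx : x + t • ω ∈ FF f W kT nT e j ω) :
    uT f W kT (x + t • ω) ≤ uT f W kT x := by
  obtain ⟨-, y, r, h2, h3, h4, -, h6, h7, h8, -⟩ := hx
  have hr : 0 < r := lt_of_lt_of_le (by positivity) h4
  have hsd : 0 < √(d : ℝ) := Real.sqrt_pos.2 (by exact_mod_cast hd)
  have hk0 := kap_pos d
  have hk1 := kap_le hd
  have hks := ptr_kap_sqrt d
  rw [← h7]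
  refine avg_le_uu hf.continuous hfc h2 h3 ?_
  have hnorm : ‖x + t • ω - y‖ = r := by rw [← dist_eq_norm]; exact h6
  have hsq : ‖x - y‖ ^ 2 = r ^ 2 - 2 * (t * inner ℝ (x + t • ω - y) ω) + t ^ 2 := by
    have : x - y = (x + t • ω - y) - t • ω := by abel
    rw [this, norm_sub_sq_real, hnorm, inner_smul_right, norm_smul, hω, Real.norm_eq_abs,
      mul_one, sq_abs]
  have hts : t * √d ≤ 2 * r := by
    have a1 : t * √d ≤ kap d ^ 2 * 2 ^ j / 5 * √d := by (clear * - hd ht'; gcongr)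
    have a2 : kap d ^ 2 * 2 ^ j / 5 * √d = (kap d * √d) * (kap d) * 2 ^ j / 5 := by ring
    have a3 : (kap d * √d) * (kap d) * 2 ^ j / 5 ≤ 1 * 1 * r / 5 := by
      gcongr
      linarith only [hk1]
    linarith only [hr, a1, a3]
  have h10 : t ^ 2 ≤ 2 * (t * inner ℝ (x + t • ω - y) ω) := by
    have b1 : t ≤ 2 * (r / √d) := by
      rw [mul_div_assoc', le_div_iff₀ hsd]; exact hts
    have b2 : t ≤ 2 * inner ℝ (x + t • ω - y) ω := by linarith only [h8, b1]
    nlinarith only [ht, b2]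
  have h11 : ‖x - y‖ ^ 2 ≤ r ^ 2 := by rw [hsq]; linarith only [h10]
  rw [dist_eq_norm]
  exact (sq_le_sq₀ (norm_nonneg _) hr.le).1 h11

theorem ptr_tau_le (hd : 0 < d) (j : ℕ) : kap d ^ 2 * 2 ^ j / 5 ≤ 2 ^ j := by
  have hk0 := kap_pos d
  have hk1 := kap_le hd
  have h : kap d ^ 2 ≤ 1 := by nlinarith only [hk0, hk1]
  have h2 : (0 : ℝ) < 2 ^ j := by positivity
  nlinarith only [h, h2]

/-- Line lemma specialised to the sets `FF`. -/
theorem ptr_FF_line (hd : 0 < d) {f : E d → ℝ} {L : ℝ≥0} (hf : LipschitzWith L f)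
    (hfc : HasCompactSupport f) {W : Finset (ℕ × Lat d)} (hW : W.Nonempty) {kT : ℕ}
    {nT : Lat d} {e : E d} {j : ℕ} {ω : E d} (hω : ‖ω‖ = 1)
    (ε : E d → ℝ≥0∞) (hε : Measurable ε)
    (h3 : ∀ x, ∀ s ∈ Icc 0 (kap d ^ 2 * 2 ^ j / 5), ∀ t ∈ Icc 0 (kap d ^ 2 * 2 ^ j / 5),
      x + s • ω ∈ FF f W kT nT e j ω → x + t • ω ∈ FF f W kT nT e j ω →
      ENNReal.ofReal (|uT f W kT (x + s • ω) - uT f W kT (x + t • ω)|) ≤ ε x) :
    ∫⁻ x in FF f W kT nT e j ω, ‖fderiv ℝ (uT f W kT) x‖ₑ ≤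
      ENNReal.ofReal (5 * √d / kap d ^ 2 * (1 / 2 ^ j)) * ∫⁻ x, ε x := by
  have hsd : 0 < √(d : ℝ) := Real.sqrt_pos.2 (by exact_mod_cast hd)
  have hk0 := kap_pos d
  have key := line_lemma (uT f W kT) (2 * L) (ptr_uT_lip hd hf hfc hW kT)
    (FF f W kT nT e j ω) (ptr_isClosed_FF hd hf hfc hW kT nT e j ω).measurableSet ω hω
    (kap d ^ 2 * 2 ^ j / 5) (1 / √d) (by positivity) (by positivity) ε hε
    (fun x hx hdiff => ptr_FF_deriv hf hfc hx hdiff)
    (fun x _ t ht hx => ptr_FF_mono hd hf hfc hω ht.1 ht.2 hx) h3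
  refine key.trans (le_of_eq ?_)
  congr 2
  field_simp

open Classical in
theorem ptr_FF_low (hd : 0 < d) : ∃ (C : ℝ) (m : ℕ), 0 < C ∧ ∀ (f : E d → ℝ),
    ContDiff ℝ 1 f → HasCompactSupport f → ∀ (kT : ℕ) (nT : Lat d) (e : E d)
    (W : Finset (ℕ × Lat d)), IsTree (v0f (gradient f)) kT nT e W → ∀ j < kT, ∀ ω : E d,
    ‖ω‖ = 1 → ∫⁻ x in FF f W kT nT e j ω, ‖fderiv ℝ (uT f W kT) x‖ₑ ≤
      ENNReal.ofReal (C * ∑ Q ∈ W, if Q.1 ≤ j + m ∧ j ≤ Q.1 + m then
        eJ (v0f (gradient f)) (m0f (gradient f)) Q.1 Q.2 else 0) := by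
  obtain ⟨C, c, hC, hc, key⟩ := misaligned_small (d := d) hd
  obtain ⟨m, hm⟩ := pow_unbounded_of_one_lt c (one_lt_two : (1 : ℝ) < 2)
  have hsd : 0 < √(d : ℝ) := Real.sqrt_pos.2 (by exact_mod_cast hd)
  have hk0 := kap_pos d
  have hk1 := kap_le hd
  have huv := uvol_pos (d := d)
  refine ⟨5 * √d / kap d ^ 2 * (2 * C * (2 * c + 1) ^ d * uvol d), m + 1, by (clear * - hd hk0 hC hc huv; positivity), ?_⟩
  intro f hf hfc kT nT e W hT j hj ω hω
  have hW : W.Nonempty := ⟨_, hT.top_mem⟩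
  obtain ⟨L, hL⟩ := hf.lipschitzWith_of_hasCompactSupport hfc one_ne_zero
  set v0 := v0f (gradient f) with hv0
  set m0 := m0f (gradient f) with hm0
  have heJ : ∀ Q : ℕ × Lat d, 0 ≤ eJ v0 m0 Q.1 Q.2 := fun Q =>
    eJ_nonneg (m0f_nonneg _) _ _
  have h2j : (0 : ℝ) < 2 ^ j := by (clear * -; positivity)
  set B : ℕ × Lat d → ℝ := fun Q => if Q.1 ≤ j + (m + 1) ∧ j ≤ Q.1 + (m + 1) then
    eJ v0 m0 Q.1 Q.2 else 0 with hB
  have hB0 : ∀ Q, 0 ≤ B Q := by
    intro Q
    simp only [hB]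
    split_ifs
    · exact heJ Q
    · exact le_rfl
  set A : ℕ × Lat d → ℝ := fun Q => 2 * C * (2 ^ j / (2 ^ j) ^ d) * B Q with hA
  have hA0 : ∀ Q, 0 ≤ A Q := fun Q => mul_nonneg (by (clear * - hC; positivity)) (hB0 Q)
  set G : E d → ℝ := fun x => ∑ Q ∈ W, if ‖x - pt (co Q.1 Q.2)‖ ≤ (2 * c + 1) * 2 ^ j then A Q
    else 0 with hG
  -- one-sided estimate
  have one : ∀ x : E d, ∀ s ∈ Icc 0 (kap d ^ 2 * 2 ^ j / 5), ∀ t ∈ Icc 0 (kap d ^ 2 * 2 ^ j / 5),
      x + s • ω ∈ FF f W kT nT e j ω →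
      uT f W kT (x + s • ω) - uT f W kT (x + t • ω) ≤ G x := by
    intro x s hs t ht hx
    obtain ⟨hNT, y, r, h2, h3, h4, h5, h6, h7, h8, h9⟩ := hx
    have hr : 0 < r := lt_of_lt_of_le (by (clear * -; positivity)) h4
    have hrkT : r ≤ 2 ^ kT := by
      refine h5.trans ?_
      rw [← pow_succ']
      exact pow_le_pow_right₀ (by norm_num) hj
    have hdist : ‖x + t • ω - (x + s • ω)‖ ≤ kap d ^ 2 * r / 5 := by
      have e1 : x + t • ω - (x + s • ω) = (t - s) • ω := by rw [sub_smul]; abel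
      rw [e1, norm_smul, hω, mul_one, Real.norm_eq_abs]
      have : |t - s| ≤ kap d ^ 2 * 2 ^ j / 5 := by
        rw [abs_le]; constructor <;> linarith only [hs.1, ht.2, hs.2, ht.1]
      refine this.trans ?_
      (clear * - hk0 h4; gcongr)
    have k1 := key f hf hfc kT nT e W hT (x + s • ω) hNT y r h2 hrkT h6.le h9 (x + t • ω) hdist
    rw [h7] at k1
    have k2 : uT f W kT (x + s • ω) - uT f W kT (x + t • ω) ≤
        C * (r / r ^ d) * SW v0 m0 W c r (x + s • ω) := by linarith only [k1]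
    refine k2.trans ?_
    -- bound `r / r^d`
    have k3 : r / r ^ d ≤ 2 * (2 ^ j / (2 ^ j) ^ d) := by
      have : r / r ^ d ≤ (2 * 2 ^ j) / (2 ^ j) ^ d := by (clear * - h4 h5; gcongr)
      rwa [mul_div_assoc] at this
    -- bound SW
    have k4 : SW v0 m0 W c r (x + s • ω) ≤
        ∑ Q ∈ W, if ‖x - pt (co Q.1 Q.2)‖ ≤ (2 * c + 1) * 2 ^ j then B Q else 0 := by
      unfold SW
      refine Finset.sum_le_sum fun Q _ => ?_
      by_cases hQ : (2 : ℝ) ^ Q.1 ≤ c * r ∧ r ≤ c * 2 ^ Q.1 ∧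
          ‖x + s • ω - pt (co Q.1 Q.2)‖ ≤ c * r
      · rw [if_pos hQ]
        obtain ⟨q1, q2, q3⟩ := hQ
        have e1 : Q.1 ≤ j + (m + 1) := by
          have : (2 : ℝ) ^ Q.1 < 2 ^ (j + (m + 1) + 1) := by
            calc (2 : ℝ) ^ Q.1 ≤ c * r := q1
              _ ≤ 2 ^ m * (2 * 2 ^ j) := by (clear * - hm h5 hr; gcongr)
              _ = 2 ^ (j + (m + 1)) := by rw [pow_add, pow_add]; ring
              _ < 2 ^ (j + (m + 1) + 1) := by
                refine pow_lt_pow_right₀ (by norm_num) (Nat.lt_succ_self _)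
          exact Nat.lt_succ_iff.1 ((pow_lt_pow_iff_right₀ (by norm_num)).1 this)
        have e2 : j ≤ Q.1 + (m + 1) := by
          have : (2 : ℝ) ^ j < 2 ^ (Q.1 + (m + 1)) := by
            calc (2 : ℝ) ^ j ≤ r := h4
              _ ≤ c * 2 ^ Q.1 := q2
              _ < 2 ^ m * 2 ^ Q.1 := by (clear * - hm; gcongr)
              _ ≤ 2 ^ (Q.1 + (m + 1)) := by
                rw [← pow_add]
                exact pow_le_pow_right₀ (by norm_num) (by (clear * -; omega))
          exact ((pow_lt_pow_iff_right₀ (by norm_num)).1 this).le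
        have e3 : ‖x - pt (co Q.1 Q.2)‖ ≤ (2 * c + 1) * 2 ^ j := by
          have f1 : x - pt (co Q.1 Q.2) = (x + s • ω - pt (co Q.1 Q.2)) - s • ω := by abel
          rw [f1]
          refine (norm_sub_le _ _).trans ?_
          rw [norm_smul, hω, mul_one, Real.norm_eq_abs, abs_of_nonneg hs.1]
          have f2 : s ≤ 2 ^ j := hs.2.trans (ptr_tau_le hd j)
          have f3 : c * r ≤ c * (2 * 2 ^ j) := by (clear * - hc h5; gcongr)
          linarith only [q3, f2, f3]
        rw [if_pos e3]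
        simp only [hB]
        rw [if_pos ⟨e1, e2⟩]
      · rw [if_neg hQ]
        split_ifs
        · exact hB0 Q
        · exact le_rfl
    have hSW0 : 0 ≤ ∑ Q ∈ W, if ‖x - pt (co Q.1 Q.2)‖ ≤ (2 * c + 1) * 2 ^ j then B Q else 0 := by
      refine Finset.sum_nonneg fun Q _ => ?_
      split_ifs
      · exact hB0 Q
      · exact le_rfl
    calc C * (r / r ^ d) * SW v0 m0 W c r (x + s • ω)
        ≤ C * (r / r ^ d) *
          ∑ Q ∈ W, (if ‖x - pt (co Q.1 Q.2)‖ ≤ (2 * c + 1) * 2 ^ j then B Q else 0) := by (clear * - hC hr k4; gcongr)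
      _ ≤ C * (2 * (2 ^ j / (2 ^ j) ^ d)) *
          ∑ Q ∈ W, (if ‖x - pt (co Q.1 Q.2)‖ ≤ (2 * c + 1) * 2 ^ j then B Q else 0) := by (clear * - hC k3 hSW0; gcongr)
      _ = G x := by
        simp only [hG, hA]
        rw [Finset.mul_sum]
        refine Finset.sum_congr rfl fun Q _ => ?_
        split_ifs
        · ring
        · ring
  have hGm : Measurable G := ptr_measurable_sum W (fun Q => pt (co Q.1 Q.2))
    (fun _ => (2 * c + 1) * 2 ^ j) A
  have h3 := ptr_FF_line hd hL hfc hW (kT := kT) (nT := nT) (e := e) (j := j) hω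
    (fun x => ENNReal.ofReal (G x)) hGm.ennreal_ofReal ?_
  · refine h3.trans ?_
    have hint : ∫⁻ x, ENNReal.ofReal (G x) =
        ENNReal.ofReal (∑ Q ∈ W, A Q * (((2 * c + 1) * 2 ^ j) ^ d * uvol d)) :=
      ptr_lint_sum W (fun Q => pt (co Q.1 Q.2)) (fun _ => (2 * c + 1) * 2 ^ j) A
        (fun _ _ => by (clear * - hc; positivity)) (fun Q _ => hA0 Q)
    rw [hint, ← ENNReal.ofReal_mul (by (clear * - hd hk0; positivity))]
    refine le_of_eq (congrArg _ ?_)
    simp only [hA, ← Finset.sum_mul, ← Finset.mul_sum]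
    rw [mul_pow]
    (clear * - huv hc hC hk0 hd; field_simp)
  · intro x s hs t ht hxs hxt
    refine ENNReal.ofReal_le_ofReal ?_
    rw [abs_le]
    constructor
    · have := one x t ht s hs hxt
      linarith only [this]
    · exact one x s hs t ht hxs

theorem ptr_FF_top (hd : 0 < d) : ∃ C : ℝ, 0 < C ∧ ∀ (f : E d → ℝ),
    ContDiff ℝ 1 f → HasCompactSupport f → ∀ (kT : ℕ) (nT : Lat d) (e : E d)
    (W : Finset (ℕ × Lat d)), W.Nonempty → ∀ ω : E d,
    ‖ω‖ = 1 → ∫⁻ x in FF f W kT nT e kT ω, ‖fderiv ℝ (uT f W kT) x‖ₑ ≤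
      ENNReal.ofReal (C * (‖vJ (v0f (gradient f)) kT nT‖ +
        eJ (v0f (gradient f)) (m0f (gradient f)) kT nT)) := by
  classical
  obtain ⟨C, hC, key⟩ := top_small (d := d) hd
  have hsd : 0 < √(d : ℝ) := Real.sqrt_pos.2 (by exact_mod_cast hd)
  have hk0 := kap_pos d
  have hk1 := kap_le hd
  have huv := uvol_pos (d := d)
  refine ⟨5 * √d / kap d ^ 2 * (2 * C * (2 * √d + 1) ^ d * uvol d), by (clear * - hd hk0 hC huv; positivity), ?_⟩
  intro f hf hfc kT nT e W hW ω hω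
  obtain ⟨L, hL⟩ := hf.lipschitzWith_of_hasCompactSupport hfc one_ne_zero
  set v0 := v0f (gradient f) with hv0
  set m0 := m0f (gradient f) with hm0
  set S : ℝ := ‖vJ v0 kT nT‖ + eJ v0 m0 kT nT with hS
  have hS0 : 0 ≤ S := add_nonneg (norm_nonneg _) (eJ_nonneg (m0f_nonneg _) _ _)
  have h2j : (0 : ℝ) < 2 ^ kT := by (clear * -; positivity)
  set a : ℝ := C * (2 ^ kT / (2 ^ kT) ^ d) * S with ha
  have ha0 : 0 ≤ a := mul_nonneg (by (clear * - hC; positivity)) hS0
  have one : ∀ x ∈ FF f W kT nT e kT ω, |uT f W kT x - refv hd f kT nT| ≤ a := by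
    rintro x ⟨hNT, y, r, h2, h3, h4, h5, h6, h7, h8, h9⟩
    rw [← h7]
    refine key f hf hfc kT nT y r ?_ h3 ?_
    · have : kap d * 2 ^ kT ≤ 1 * 2 ^ kT := by gcongr; linarith only [hk1]
      linarith only [h4, this]
    · intro i
      have q1 := hNT i
      have q2 : |(x - y) i| ≤ ‖x - y‖ := abs_apply_le_norm _ i
      rw [← dist_eq_norm, h6] at q2
      have q3 : y i - 2 ^ kT * nT i = (x i - 2 ^ kT * nT i) - (x - y) i := by
        simp
      rw [q3]
      refine (abs_sub _ _).trans ?_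
      linarith only [h4, h5, q1, q2]
  have two : ∀ x ∈ FF f W kT nT e kT ω, ∀ x' ∈ FF f W kT nT e kT ω,
      |uT f W kT x - uT f W kT x'| ≤ 2 * a := by
    intro x hx x' hx'
    have a1 := one x hx
    have a2 := one x' hx'
    rw [abs_le] at a1 a2 ⊢
    constructor <;> linarith only [a1.1, a2.2, a1.2, a2.1]
  have h3 := ptr_FF_line hd hL hfc hW (kT := kT) (nT := nT) (e := e) (j := kT) hω
    (fun x => ENNReal.ofReal (if ‖x - pt (co kT nT)‖ ≤ (2 * √d + 1) * 2 ^ kT then 2 * a else 0))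
    (ptr_measurable_ite _ _ _).ennreal_ofReal ?_
  · refine h3.trans ?_
    rw [ptr_lint_ite _ (by (clear * - hd; positivity)) (by (clear * - hC hS0; positivity)), ← ENNReal.ofReal_mul (by (clear * - hd hk0; positivity))]
    refine le_of_eq (congrArg _ ?_)
    simp only [ha]
    rw [mul_pow]
    (clear * - huv hd hC hk0; field_simp)
  · intro x s hs t ht hxs hxt
    refine ENNReal.ofReal_le_ofReal ?_
    have e3 : ‖x - pt (co kT nT)‖ ≤ (2 * √d + 1) * 2 ^ kT := by
      have f1 : x - pt (co kT nT) = (x + s • ω - pt (co kT nT)) - s • ω := by abel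
      rw [f1]
      refine (norm_sub_le _ _).trans ?_
      rw [norm_smul, hω, mul_one, Real.norm_eq_abs, abs_of_nonneg hs.1]
      have f2 : s ≤ 2 ^ kT := hs.2.trans (ptr_tau_le hd kT)
      have f3 := ptr_NT_norm hxs.1
      linarith only [f2, f3]
    rw [if_pos e3]
    exact two _ hxs _ hxt

end Vale.Agent.P137.U
end
end

section

section

open MeasureTheory Set Filter Topology
open scoped ENNReal NNReal

namespace Vale.Agent.P137.U

open Vale.Agent.P137

variable {d : ℕ}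

/-- The `2d` coordinate directions. -/
noncomputable def pt_dirv (p : Fin d × Bool) : E d :=
  EuclideanSpace.single p.1 (if p.2 then 1 else -1)

theorem ptr_norm_dirv (p : Fin d × Bool) : ‖pt_dirv p‖ = 1 := by
  unfold pt_dirv
  rw [EuclideanSpace.norm_single]
  split_ifs <;> simp

/-- Some coordinate direction has a large inner product with a given vector. -/
theorem ptr_exists_dirv (hd : 0 < d) (z : E d) {r : ℝ} (hz : ‖z‖ = r) :
    ∃ p : Fin d × Bool, r / √d ≤ inner ℝ z (pt_dirv p) := by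
  have hd' : (0 : ℝ) < d := by exact_mod_cast hd
  haveI : Nonempty (Fin d) := ⟨⟨0, hd⟩⟩
  have hr : 0 ≤ r := hz ▸ norm_nonneg _
  have hsd : 0 < √(d : ℝ) := Real.sqrt_pos.2 hd'
  have hsum : ∑ i : Fin d, (r / √d) ^ 2 ≤ ∑ i : Fin d, (z i) ^ 2 := by
    rw [Finset.sum_const, Finset.card_univ, Fintype.card_fin, nsmul_eq_mul, div_pow,
      Real.sq_sqrt hd'.le]
    have h1 : ‖z‖ ^ 2 = ∑ i : Fin d, (z i) ^ 2 := by
      rw [EuclideanSpace.norm_sq_eq]
      simp only [Real.norm_eq_abs, sq_abs]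
    rw [← h1, hz]
    field_simp
    exact le_rfl
  obtain ⟨i, -, hi⟩ := Finset.exists_le_of_sum_le Finset.univ_nonempty hsum
  have h2 : r / √d ≤ |z i| := by
    rw [← sq_abs (z i)] at hi
    exact (sq_le_sq₀ (by (clear * - hr hd; positivity)) (abs_nonneg _)).1 hi
  rcases le_total 0 (z i) with h | h
  · refine ⟨(i, true), ?_⟩
    rw [abs_of_nonneg h] at h2
    simpa only [pt_dirv, ↓reduceIte, EuclideanSpace.inner_single_right, Real.ringHom_apply, one_mul] using h2
  · refine ⟨(i, false), ?_⟩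
    rw [abs_of_nonpos h] at h2
    simpa only [pt_dirv, Bool.false_eq_true, ↓reduceIte, EuclideanSpace.inner_single_right, Real.ringHom_apply,     neg_mul, one_mul] using h2

/-- Off the sets `FF`, the gradient is aligned. -/
theorem ptr_cover (hd : 0 < d) {f : E d → ℝ} {L : ℝ≥0} (hf : LipschitzWith L f)
    (hfc : HasCompactSupport f) {W : Finset (ℕ × Lat d)} (hW : W.Nonempty) {kT : ℕ}
    {nT : Lat d} {e : E d} {x : E d} (hx : x ∈ NT kT nT)
    (hdiff : DifferentiableAt ℝ (uT f W kT) x)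
    (hF : ∀ j ≤ kT, ∀ p : Fin d × Bool, x ∉ FF f W kT nT e j (pt_dirv p)) :
    kap d / 4 * ‖fderiv ℝ (uT f W kT) x‖ ≤ fderiv ℝ (uT f W kT) x e := by
  obtain ⟨y, r, h1, h2, h3, h4⟩ := uu_attained hf.continuous hfc (ptr_DW_lip hd hW kT).continuous
    (fun y => lt_of_lt_of_le one_pos (ptr_one_le_DW W kT y)) (ptr_DW_le W kT) x
  have hr1 : 1 ≤ r := (ptr_one_le_DW W kT y).trans h1
  have hr : 0 < r := lt_of_lt_of_le one_pos hr1
  rcases h3.lt_or_eq with h3 | h3
  · have h0 : fderiv ℝ (uT f W kT) x = 0 :=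
      fderiv_uu_interior hf.continuous hfc h1 h2 h3 h4
    rw [h0]
    simp
  · have key := fderiv_uu_boundary hf.continuous hfc h1 h2 h3 hr h4 hdiff e
    change r * fderiv ℝ (uT f W kT) x e = -(‖fderiv ℝ (uT f W kT) x‖ * inner ℝ (x - y) e) at key
    by_cases hal : -(kap d / 4 * r) ≤ inner ℝ (x - y) e
    · exfalso
      have hnorm : ‖x - y‖ = r := by rw [← dist_eq_norm]; exact h3
      obtain ⟨p, hp⟩ := ptr_exists_dirv hd (x - y) hnorm
      obtain ⟨n, hn1, hn2⟩ := exists_nat_pow_near hr1 (one_lt_two : (1 : ℝ) < 2)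
      rcases le_or_gt n kT with hn | hn
      · refine hF n hn p ⟨hx, y, r, h1, h2, hn1, ?_, h3, h4, hp, hal⟩
        rw [← pow_succ']
        exact hn2.le
      · refine hF kT le_rfl p ⟨hx, y, r, h1, h2, ?_, h2, h3, h4, hp, hal⟩
        exact (pow_le_pow_right₀ (by norm_num) hn.le).trans hn1
    · push Not at hal
      have h5 := mul_le_mul_of_nonneg_left hal.le (norm_nonneg (fderiv ℝ (uT f W kT) x))
      have h6 : r * (kap d / 4 * ‖fderiv ℝ (uT f W kT) x‖) ≤ r * fderiv ℝ (uT f W kT) x e := by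
        rw [key]
        linarith only [h5]
      exact le_of_mul_le_mul_left h6 hr

/-- The union of the sets `FF`. -/
def FU (f : E d → ℝ) (W : Finset (ℕ × Lat d)) (kT : ℕ) (nT : Lat d) (e : E d) : Set (E d) :=
  ⋃ q : Fin (kT + 1) × (Fin d × Bool), FF f W kT nT e q.1 (pt_dirv q.2)

theorem ptr_measurableSet_FU (hd : 0 < d) {f : E d → ℝ} {L : ℝ≥0} (hf : LipschitzWith L f)
    (hfc : HasCompactSupport f) {W : Finset (ℕ × Lat d)} (hW : W.Nonempty) (kT : ℕ)
    (nT : Lat d) (e : E d) : MeasurableSet (FU f W kT nT e) :=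
  MeasurableSet.iUnion fun q => (ptr_isClosed_FF hd hf hfc hW kT nT e q.1 (pt_dirv q.2)).measurableSet

open Classical in
theorem ptr_count (W : Finset (ℕ × Lat d)) (g : ℕ × Lat d → ℝ) (hg : ∀ Q, 0 ≤ g Q) (m N : ℕ) :
    ∑ j ∈ Finset.range N, ∑ Q ∈ W, (if Q.1 ≤ j + m ∧ j ≤ Q.1 + m then g Q else 0) ≤
      (2 * m + 1) * ∑ Q ∈ W, g Q := by
  rw [Finset.sum_comm, Finset.mul_sum]
  refine Finset.sum_le_sum fun Q _ => ?_
  rw [← Finset.sum_filter, Finset.sum_const, nsmul_eq_mul]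
  refine mul_le_mul_of_nonneg_right ?_ (hg Q)
  have hsub : (Finset.range N).filter (fun j => Q.1 ≤ j + m ∧ j ≤ Q.1 + m) ⊆
      Finset.Icc (Q.1 - m) (Q.1 + m) := by
    intro j hj
    rw [Finset.mem_filter] at hj
    rw [Finset.mem_Icc]
    omega
  have hcard := Finset.card_le_card hsub
  rw [Nat.card_Icc] at hcard
  have : (Finset.filter (fun j => Q.1 ≤ j + m ∧ j ≤ Q.1 + m) (Finset.range N)).card
      ≤ 2 * m + 1 := by omega
  exact_mod_cast this

/-- Abstract summation over the pieces. -/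
theorem ptr_sum_pieces (N : ℕ) (s : ℕ → (Fin d × Bool) → Set (E d)) (F : E d → ℝ≥0∞)
    (b : ℕ → ℝ) (hb : ∀ j, 0 ≤ b j)
    (h : ∀ j < N, ∀ p, ∫⁻ x in s j p, F x ≤ ENNReal.ofReal (b j)) :
    ∫⁻ x in ⋃ q : Fin N × (Fin d × Bool), s q.1 q.2, F x ≤
      ENNReal.ofReal (2 * d * ∑ j ∈ Finset.range N, b j) := by
  calc ∫⁻ x in ⋃ q : Fin N × (Fin d × Bool), s q.1 q.2, F x
      ≤ ∑' q : Fin N × (Fin d × Bool), ∫⁻ x in s q.1 q.2, F x := lintegral_iUnion_le _ _
    _ = ∑ q : Fin N × (Fin d × Bool), ∫⁻ x in s q.1 q.2, F x := tsum_fintype _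
    _ ≤ ∑ q : Fin N × (Fin d × Bool), ENNReal.ofReal (b q.1) :=
        Finset.sum_le_sum fun q _ => h q.1 q.1.2 q.2
    _ = ENNReal.ofReal (∑ q : Fin N × (Fin d × Bool), b q.1) :=
        (ENNReal.ofReal_sum_of_nonneg fun q _ => hb _).symm
    _ = ENNReal.ofReal (2 * d * ∑ j ∈ Finset.range N, b j) := by
        congr 1
        rw [Fintype.sum_prod_type, Finset.sum_range, Finset.mul_sum]
        refine Finset.sum_congr rfl fun j _ => ?_
        simp only [Finset.sum_const, Finset.card_univ, Fintype.card_prod, Fintype.card_fin,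
          Fintype.card_bool, nsmul_eq_mul]
        push_cast
        ring

theorem ptr_FU_bound (hd : 0 < d) : ∃ C : ℝ, 0 < C ∧ ∀ (f : E d → ℝ),
    ContDiff ℝ 1 f → HasCompactSupport f → ∀ (kT : ℕ) (nT : Lat d) (e : E d)
    (W : Finset (ℕ × Lat d)), IsTree (v0f (gradient f)) kT nT e W →
    ∫⁻ x in FU f W kT nT e, ‖fderiv ℝ (uT f W kT) x‖ₑ ≤
      ENNReal.ofReal (C * (‖vJ (v0f (gradient f)) kT nT‖ +
        ∑ Q ∈ W, eJ (v0f (gradient f)) (m0f (gradient f)) Q.1 Q.2)) := by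
  classical
  obtain ⟨C₁, m, hC₁, key₁⟩ := ptr_FF_low (d := d) hd
  obtain ⟨C₂, hC₂, key₂⟩ := ptr_FF_top (d := d) hd
  refine ⟨2 * d * (C₁ * (2 * m + 1) + C₂), by (clear * - hd hC₁ hC₂; positivity), ?_⟩
  intro f hf hfc kT nT e W hT
  have hW : W.Nonempty := ⟨_, hT.top_mem⟩
  obtain ⟨g, hg⟩ : ∃ g : ℕ × Lat d → ℝ, g = fun Q =>
    eJ (v0f (gradient f)) (m0f (gradient f)) Q.1 Q.2 := ⟨_, rfl⟩
  have heJ : ∀ Q, 0 ≤ g Q := fun Q => by
    rw [hg]; exact eJ_nonneg (m0f_nonneg _) _ _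
  obtain ⟨V, hV⟩ : ∃ V : ℝ, V = ‖vJ (v0f (gradient f)) kT nT‖ := ⟨_, rfl⟩
  have hV0 : 0 ≤ V := hV ▸ norm_nonneg _
  have k1 : ∀ j < kT, ∀ p : Fin d × Bool,
      ∫⁻ x in FF f W kT nT e j (pt_dirv p), ‖fderiv ℝ (uT f W kT) x‖ₑ ≤
      ENNReal.ofReal (C₁ * ∑ Q ∈ W, if Q.1 ≤ j + m ∧ j ≤ Q.1 + m then g Q else 0) := by
    intro j hj p
    rw [hg]
    exact key₁ f hf hfc kT nT e W hT j hj (pt_dirv p) (ptr_norm_dirv p)
  have k2 : ∀ p : Fin d × Bool,
      ∫⁻ x in FF f W kT nT e kT (pt_dirv p), ‖fderiv ℝ (uT f W kT) x‖ₑ ≤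
      ENNReal.ofReal (C₂ * (V + g (kT, nT))) := by
    intro p
    rw [hg, hV]
    exact key₂ f hf hfc kT nT e W hW (pt_dirv p) (ptr_norm_dirv p)
  have goalS : ∑ Q ∈ W, eJ (v0f (gradient f)) (m0f (gradient f)) Q.1 Q.2 = ∑ Q ∈ W, g Q := by
    rw [hg]
  rw [goalS, ← hV]
  clear goalS key₁ key₂
  have hS0 : 0 ≤ ∑ Q ∈ W, g Q := Finset.sum_nonneg fun Q _ => heJ Q
  have hST : g (kT, nT) ≤ ∑ Q ∈ W, g Q :=
    Finset.single_le_sum (f := g) (fun Q _ => heJ Q) hT.top_mem
  obtain ⟨S, hS⟩ : ∃ S : ℝ, S = ∑ Q ∈ W, g Q := ⟨_, rfl⟩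
  rw [← hS] at hS0 hST ⊢
  set b : ℕ → ℝ := fun j => C₁ * (∑ Q ∈ W, if Q.1 ≤ j + m ∧ j ≤ Q.1 + m then
        g Q else 0) + (if j = kT then C₂ * (V + S) else 0) with hb
  have hb1 : ∀ j, 0 ≤ C₁ * (∑ Q ∈ W, if Q.1 ≤ j + m ∧ j ≤ Q.1 + m then g Q else 0) := by
    intro j
    refine mul_nonneg hC₁.le (Finset.sum_nonneg fun Q _ => ?_)
    split_ifs
    · exact heJ Q
    · exact le_rfl
  have hb2 : ∀ j, 0 ≤ (if j = kT then C₂ * (V + S) else 0) := by
    intro j
    split_ifs
    · (clear * - hC₂ hV0 hS0; positivity)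
    · exact le_rfl
  have hbsum : ∑ j ∈ Finset.range (kT + 1), b j ≤ C₁ * ((2 * m + 1) * S) + C₂ * (V + S) := by
    simp only [hb]
    rw [Finset.sum_add_distrib, ← Finset.mul_sum]
    refine add_le_add (mul_le_mul_of_nonneg_left ?_ hC₁.le) ?_
    · rw [hS]
      exact ptr_count W g heJ m (kT + 1)
    · rw [Finset.sum_ite_eq' (Finset.range (kT + 1)) kT, if_pos (Finset.self_mem_range_succ kT)]
  refine (ptr_sum_pieces (kT + 1) (fun j p => FF f W kT nT e j (pt_dirv p)) _ b
    (fun j => add_nonneg (hb1 j) (hb2 j)) ?_).trans ?_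
  · intro j hj p
    rcases (Nat.lt_succ_iff.1 hj).lt_or_eq with hj | hj
    · refine (k1 j hj p).trans (ENNReal.ofReal_le_ofReal ?_)
      have := hb2 j
      simp only [hb]
      linarith only [this]
    · subst hj
      refine (k2 p).trans (ENNReal.ofReal_le_ofReal ?_)
      have := hb1 j
      have h2 : C₂ * (V + g (j, nT)) ≤ C₂ * (V + S) := by (clear * - hC₂ hST; gcongr)
      simp only [hb, if_true]
      linarith only [this, h2]
  · refine ENNReal.ofReal_le_ofReal ?_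
    have h1 : 2 * d * ∑ j ∈ Finset.range (kT + 1), b j ≤
        2 * d * (C₁ * ((2 * m + 1) * S) + C₂ * (V + S)) := by (clear * - hd hbsum; gcongr)
    refine h1.trans ?_
    have h2 : 0 ≤ 2 * d * (C₁ * ((2 * m + 1) * V)) := by (clear * - hd hC₁ hV0; (clear * - hd hC₁ hV0; positivity))
    linarith only [h2]

/-! ### Cutoff function -/

/-- Cutoff, equal to 1 on the top cell and 0 off `NT`. -/
noncomputable def cutf (kT : ℕ) (nT : Lat d) (x : E d) : ℝ :=
  max 0 (min 1 (2 - ‖WithLp.ofLp x - fun i => (2 : ℝ) ^ kT * nT i‖ / 2 ^ kT))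

theorem ptr_cutf_nonneg (kT : ℕ) (nT : Lat d) (x : E d) : 0 ≤ cutf kT nT x := le_max_left _ _

theorem ptr_cutf_le_one (kT : ℕ) (nT : Lat d) (x : E d) : cutf kT nT x ≤ 1 :=
  max_le zero_le_one (min_le_left _ _)

theorem ptr_cutf_eq_one {kT : ℕ} {nT : Lat d} {x : E d} (hx : x ∈ cube kT (co kT nT)) :
    cutf kT nT x = 1 := by
  have h0 : (0 : ℝ) < 2 ^ kT := by positivity
  have h1 : ‖WithLp.ofLp x - fun i => (2 : ℝ) ^ kT * nT i‖ ≤ 2 ^ kT := by
    rw [pi_norm_le_iff_of_nonneg h0.le]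
    intro i
    have := hx i
    simp only [co] at this
    push_cast at this
    rw [Pi.sub_apply, Real.norm_eq_abs, abs_le]
    constructor <;> linarith
  have h2 : ‖WithLp.ofLp x - fun i => (2 : ℝ) ^ kT * nT i‖ / 2 ^ kT ≤ 1 := (div_le_one h0).2 h1
  unfold cutf
  rw [min_eq_left (by linarith only [h2]), max_eq_right zero_le_one]

theorem ptr_cutf_eq_zero {kT : ℕ} {nT : Lat d} {x : E d} (hx : x ∉ NT kT nT) :
    cutf kT nT x = 0 := by
  have h0 : (0 : ℝ) < 2 ^ kT := by positivity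
  simp only [NT, mem_setOf_eq, not_forall, not_le] at hx
  obtain ⟨i, hi⟩ := hx
  have h1 : 2 * 2 ^ kT ≤ ‖WithLp.ofLp x - fun i => (2 : ℝ) ^ kT * nT i‖ := by
    refine le_trans ?_ (norm_le_pi_norm _ i)
    rw [Pi.sub_apply, Real.norm_eq_abs]
    exact hi.le
  have h2 : 2 ≤ ‖WithLp.ofLp x - fun i => (2 : ℝ) ^ kT * nT i‖ / 2 ^ kT := by
    rw [le_div_iff₀ h0]; exact h1
  unfold cutf
  rw [max_eq_left ((min_le_right _ _).trans (by linarith only [h2]))]

theorem ptr_cutf_lip (kT : ℕ) (nT : Lat d) :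
    LipschitzWith ((2 : ℝ≥0) ^ kT)⁻¹ (cutf kT nT : E d → ℝ) := by
  have h0 : (0 : ℝ) < 2 ^ kT := by positivity
  refine LipschitzWith.of_dist_le_mul fun x y => ?_
  rw [Real.dist_eq]
  unfold cutf
  set a := ‖WithLp.ofLp x - fun i => (2 : ℝ) ^ kT * nT i‖ with ha
  set b := ‖WithLp.ofLp y - fun i => (2 : ℝ) ^ kT * nT i‖ with hb
  have hab : |a - b| ≤ dist x y := by
    refine (abs_norm_sub_norm_le _ _).trans ?_
    rw [sub_sub_sub_cancel_right, ← dist_eq_norm]
    have := (PiLp.lipschitzWith_ofLp 2 (fun _ : Fin d => ℝ)).dist_le_mul x y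
    simpa only [ge_iff_le, NNReal.coe_one, one_mul] using this
  calc |max 0 (min 1 (2 - a / 2 ^ kT)) - max 0 (min 1 (2 - b / 2 ^ kT))|
      ≤ |min 1 (2 - a / 2 ^ kT) - min 1 (2 - b / 2 ^ kT)| := by
        refine (abs_max_sub_max_le_max _ _ _ _).trans ?_
        simp only [sub_self, abs_zero, abs_nonneg, sup_of_le_right, Std.le_refl]
    _ ≤ |(2 - a / 2 ^ kT) - (2 - b / 2 ^ kT)| := by
        refine (abs_min_sub_min_le_max _ _ _ _).trans ?_
        simp only [sub_self, abs_zero, sub_sub_sub_cancel_left, abs_nonneg, sup_of_le_right, Std.le_refl]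
    _ = (2 ^ kT)⁻¹ * |a - b| := by
        have : (2 - a / 2 ^ kT) - (2 - b / 2 ^ kT) = -((2 ^ kT)⁻¹ * (a - b)) := by
          field_simp; ring
        rw [this, abs_neg, abs_mul, abs_of_pos (by positivity)]
    _ ≤ (2 ^ kT)⁻¹ * dist x y := by gcongr
    _ = _ := by push_cast; rfl

theorem ptr_NT_compact (kT : ℕ) (nT : Lat d) : IsCompact (NT kT nT : Set (E d)) :=
  (isCompact_closedBall _ _).of_isClosed_subset (ptr_isClosed_NT kT nT) (ptr_NT_subset kT nT)

theorem ptr_cutf_support (kT : ℕ) (nT : Lat d) : HasCompactSupport (cutf kT nT : E d → ℝ) :=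
  HasCompactSupport.intro (ptr_NT_compact kT nT) fun _ hx => ptr_cutf_eq_zero hx

theorem ptr_cutf_lineDeriv (kT : ℕ) (nT : Lat d) (x v : E d) :
    |lineDeriv ℝ (cutf kT nT) x v| ≤ (2 ^ kT)⁻¹ * ‖v‖ := by
  have := norm_lineDeriv_le_of_lipschitz (x₀ := x) (v := v) ℝ (ptr_cutf_lip (d := d) kT nT)
  rw [Real.norm_eq_abs] at this
  simpa only [ge_iff_le, NNReal.coe_inv, NNReal.coe_pow, NNReal.coe_ofNat] using this

theorem ptr_cutf_lineDeriv_zero {kT : ℕ} {nT : Lat d} {x : E d} (hx : x ∉ NT kT nT) (v : E d) :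
    lineDeriv ℝ (cutf kT nT) x v = 0 := by
  have h1 : (cutf kT nT : E d → ℝ) =ᶠ[𝓝 x] fun _ => 0 := by
    filter_upwards [(ptr_isClosed_NT kT nT).isOpen_compl.mem_nhds hx] with z hz
    exact ptr_cutf_eq_zero hz
  rw [h1.lineDeriv_eq]
  simp [lineDeriv]

end Vale.Agent.P137.U
end
end

section

section

open MeasureTheory Set Filter Topology
open scoped ENNReal NNReal

namespace Vale.Agent.P137.U

open Vale.Agent.P137

variable {d : ℕ}

/-- Abstract integration by parts step for the aligned part. -/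
theorem ptr_aligned (u : E d → ℝ) (K Kη : ℝ≥0) (hu : LipschitzWith K u) (η : E d → ℝ)
    (ηL : LipschitzWith Kη η) (ηc : HasCompactSupport η) (η0 : ∀ x, 0 ≤ η x)
    (U N T : Set (E d)) (hU : MeasurableSet U) (hT : MeasurableSet T)
    (e : E d) (he : ‖e‖ = 1) (c0 c B₁ B₂ : ℝ) (hc0 : 0 < c0) (hB₁ : 0 ≤ B₁) (hB₂ : 0 ≤ B₂)
    (ηT : ∀ x ∈ T, η x = 1) (η1 : ∀ x, η x ≤ 1) (ηN : ∀ x, x ∉ N → η x = 0)
    (hcover : ∀ x ∈ N, DifferentiableAt ℝ u x → x ∉ U → c0 * ‖fderiv ℝ u x‖ ≤ fderiv ℝ u x e)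
    (k1 : ∫⁻ x in U, ‖fderiv ℝ u x‖ₑ ≤ ENNReal.ofReal B₁)
    (k2 : ∫⁻ x, ENNReal.ofReal ‖lineDeriv ℝ η x (-e) * (u x - c)‖ ≤ ENNReal.ofReal B₂) :
    ∫⁻ x in T, ‖fderiv ℝ u x‖ₑ ≤ ENNReal.ofReal (c0⁻¹ * (B₂ + (1 + c0) * B₁)) := by
  have hDm : Measurable fun x => ‖fderiv ℝ u x‖ := (measurable_fderiv ℝ u).norm
  have hDe : Measurable fun x => fderiv ℝ u x e := measurable_fderiv_apply_const ℝ u e
  have hηm : Measurable η := ηL.continuous.measurable
  have hηi : Integrable η := ηL.continuous.integrable_of_hasCompactSupport ηc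
  have hDb : ∀ x, ‖fderiv ℝ u x‖ ≤ K := fun x => norm_fderiv_le_of_lipschitz ℝ hu
  have hDeb : ∀ x, |fderiv ℝ u x e| ≤ ‖fderiv ℝ u x‖ := by
    intro x
    have := (fderiv ℝ u x).le_opNorm e
    rwa [he, mul_one, Real.norm_eq_abs] at this
  -- integrability
  have i1 : Integrable fun x => η x * ‖fderiv ℝ u x‖ := by
    refine (hηi.mul_const (K : ℝ)).mono' (hηm.mul hDm).aestronglyMeasurable
      (Eventually.of_forall fun x => ?_)
    rw [Real.norm_eq_abs, abs_of_nonneg (mul_nonneg (η0 x) (norm_nonneg _))]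
    exact mul_le_mul_of_nonneg_left (hDb x) (η0 x)
  have i2 : Integrable fun x => fderiv ℝ u x e * η x := by
    refine i1.mono' (hDe.mul hηm).aestronglyMeasurable (Eventually.of_forall fun x => ?_)
    rw [norm_mul, Real.norm_eq_abs, Real.norm_eq_abs, abs_of_nonneg (η0 x), mul_comm]
    exact mul_le_mul_of_nonneg_left (hDeb x) (η0 x)
  have i3 : Integrable (U.indicator fun x => η x * ‖fderiv ℝ u x‖) := i1.indicator hU
  -- integration by parts
  have hw : LipschitzWith K fun x => u x - c := by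
    refine LipschitzWith.of_dist_le_mul fun x y => ?_
    rw [dist_sub_right]
    exact hu.dist_le_mul x y
  have hdiff : ∀ᵐ x : E d, DifferentiableAt ℝ u x := hu.ae_differentiableAt
  have ibp : ∫ x, fderiv ℝ u x e * η x = ∫ x, lineDeriv ℝ η x (-e) * (u x - c) := by
    rw [← LipschitzWith.integral_lineDeriv_mul_eq hw ηL ηc e]
    refine integral_congr_ae ?_
    filter_upwards [hdiff] with x hx
    have h1 : HasFDerivAt (fun x => u x - c) (fderiv ℝ u x) x := hx.hasFDerivAt.sub_const c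
    rw [(h1.hasLineDerivAt e).lineDeriv]
  have b2 : ∫ x, fderiv ℝ u x e * η x ≤ B₂ := by
    rw [ibp]
    refine (le_abs_self _).trans ?_
    rw [← Real.norm_eq_abs]
    refine (norm_integral_le_lintegral_norm _).trans ?_
    refine ENNReal.toReal_le_of_le_ofReal hB₂ k2
  have b1 : ∫ x, U.indicator (fun x => η x * ‖fderiv ℝ u x‖) x ≤ B₁ := by
    rw [integral_eq_lintegral_of_nonneg_ae]
    · refine ENNReal.toReal_le_of_le_ofReal hB₁ (le_trans ?_ k1)
      rw [← lintegral_indicator hU]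
      refine lintegral_mono fun x => ?_
      by_cases hx : x ∈ U
      · rw [indicator_of_mem hx, indicator_of_mem hx, ← ofReal_norm]
        refine ENNReal.ofReal_le_ofReal ?_
        exact mul_le_of_le_one_left (norm_nonneg _) (η1 x)
      · rw [indicator_of_notMem hx, indicator_of_notMem hx]
        simp
    · refine Eventually.of_forall fun x => ?_
      exact indicator_nonneg (fun x _ => mul_nonneg (η0 x) (norm_nonneg _)) x
    · exact i3.aestronglyMeasurable
  -- the pointwise inequality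
  have hpt : ∀ᵐ x : E d, c0 * (η x * ‖fderiv ℝ u x‖) ≤
      fderiv ℝ u x e * η x + (1 + c0) * U.indicator (fun x => η x * ‖fderiv ℝ u x‖) x := by
    filter_upwards [hdiff] with x hx
    have h0 := η0 x
    have hn := norm_nonneg (fderiv ℝ u x)
    by_cases hxU : x ∈ U
    · rw [indicator_of_mem hxU]
      have h1 : -‖fderiv ℝ u x‖ ≤ fderiv ℝ u x e := (abs_le.1 (hDeb x)).1
      have h2 := mul_le_mul_of_nonneg_right h1 h0
      linarith only [h2]
    · rw [indicator_of_notMem hxU, mul_zero, add_zero]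
      by_cases hxN : x ∈ N
      · have h1 := mul_le_mul_of_nonneg_right (hcover x hxN hx hxU) h0
        linarith only [h1]
      · rw [ηN x hxN]
        simp only [zero_mul, mul_zero, Std.le_refl]
  have hmain : c0 * ∫ x, η x * ‖fderiv ℝ u x‖ ≤ B₂ + (1 + c0) * B₁ := by
    rw [← integral_const_mul]
    calc ∫ x, c0 * (η x * ‖fderiv ℝ u x‖)
        ≤ ∫ x, (fderiv ℝ u x e * η x +
          (1 + c0) * U.indicator (fun x => η x * ‖fderiv ℝ u x‖) x) :=
          integral_mono_ae (i1.const_mul c0) (i2.add (i3.const_mul (1 + c0))) hpt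
      _ = (∫ x, fderiv ℝ u x e * η x) +
          (1 + c0) * ∫ x, U.indicator (fun x => η x * ‖fderiv ℝ u x‖) x := by
          rw [integral_add i2 (i3.const_mul (1 + c0)), integral_const_mul]
      _ ≤ B₂ + (1 + c0) * B₁ := by (clear * - hc0 b2 b1; (clear * - b2 b1 hc0; gcongr))
  have hfin : ∫ x, η x * ‖fderiv ℝ u x‖ ≤ c0⁻¹ * (B₂ + (1 + c0) * B₁) := by
    rw [← div_eq_inv_mul, le_div_iff₀ hc0]
    linarith only [hmain]
  calc ∫⁻ x in T, ‖fderiv ℝ u x‖ₑ ≤ ∫⁻ x, ENNReal.ofReal (η x * ‖fderiv ℝ u x‖) := by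
        rw [← lintegral_indicator hT]
        refine lintegral_mono fun x => ?_
        by_cases hx : x ∈ T
        · rw [indicator_of_mem hx, ηT x hx, one_mul, ofReal_norm]
        · rw [indicator_of_notMem hx]
          exact zero_le
    _ = ENNReal.ofReal (∫ x, η x * ‖fderiv ℝ u x‖) :=
        (ofReal_integral_eq_lintegral_ofReal i1
          (Eventually.of_forall fun x => mul_nonneg (η0 x) (norm_nonneg _))).symm
    _ ≤ _ := ENNReal.ofReal_le_ofReal hfin

end Vale.Agent.P137.U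
end
end

section

section

open MeasureTheory Set Filter Topology
open scoped ENNReal NNReal

namespace Vale.Agent.P137.U

open Vale.Agent.P137

variable {d : ℕ}

/-- Weighted oscillation bound: integration against the gradient of the cutoff. -/
theorem ptr_osc_lint (hd : 0 < d) : ∃ C : ℝ, 0 < C ∧ ∀ (f : E d → ℝ),
    ContDiff ℝ 1 f → HasCompactSupport f → ∀ (kT : ℕ) (nT : Lat d) (e : E d)
    (W : Finset (ℕ × Lat d)), IsTree (v0f (gradient f)) kT nT e W → ∀ v : E d, ‖v‖ = 1 →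
    ∫⁻ x, ENNReal.ofReal ‖lineDeriv ℝ (cutf kT nT) x v * (uT f W kT x - refv hd f kT nT)‖ ≤
      ENNReal.ofReal (C * (‖vJ (v0f (gradient f)) kT nT‖ +
        ∑ Q ∈ W, eJ (v0f (gradient f)) (m0f (gradient f)) Q.1 Q.2)) := by
  classical
  obtain ⟨C, c, hC, hc, key⟩ := osc_bound (d := d) hd
  have hsd : 0 < √(d : ℝ) := Real.sqrt_pos.2 (by exact_mod_cast hd)
  have huv := uvol_pos (d := d)
  refine ⟨C * (2 * √d) ^ d * uvol d + C * c ^ d * uvol d, by (clear * - hC hd huv hc; positivity), ?_⟩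
  intro f hf hfc kT nT e W hT v hv
  obtain ⟨g, hg⟩ : ∃ g : ℕ × Lat d → ℝ, g = fun Q =>
    eJ (v0f (gradient f)) (m0f (gradient f)) Q.1 Q.2 := ⟨_, rfl⟩
  have heJ : ∀ Q, 0 ≤ g Q := fun Q => by
    rw [hg]; exact eJ_nonneg (m0f_nonneg _) _ _
  obtain ⟨V, hV⟩ : ∃ V : ℝ, V = ‖vJ (v0f (gradient f)) kT nT‖ := ⟨_, rfl⟩
  have hV0 : 0 ≤ V := hV ▸ norm_nonneg _
  have k1 : ∀ x ∈ NT kT nT, |uT f W kT x - refv hd f kT nT| ≤
      C * (2 ^ kT / (2 ^ kT) ^ d) * (V + g (kT, nT)) +
      C * ∑ Q ∈ W, if ‖x - pt (co Q.1 Q.2)‖ ≤ c * 2 ^ Q.1 then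
        (2 ^ Q.1 / (2 ^ Q.1) ^ d) * g Q else 0 := by
    intro x hx
    rw [hg, hV]
    exact key f hf hfc kT nT e W hT x hx
  have goalS : ∑ Q ∈ W, eJ (v0f (gradient f)) (m0f (gradient f)) Q.1 Q.2 = ∑ Q ∈ W, g Q := by
    rw [hg]
  rw [goalS, ← hV]
  clear goalS key
  have hS0 : 0 ≤ ∑ Q ∈ W, g Q := Finset.sum_nonneg fun Q _ => heJ Q
  have hST : g (kT, nT) ≤ ∑ Q ∈ W, g Q :=
    Finset.single_le_sum (f := g) (fun Q _ => heJ Q) hT.top_mem
  obtain ⟨R, hR⟩ : ∃ R : ℝ, R = 2 ^ kT := ⟨_, rfl⟩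
  have hR0 : 0 < R := by rw [hR]; (clear * -; positivity)
  obtain ⟨A, hA⟩ : ∃ A : ℝ, A = R⁻¹ * (C * (R / R ^ d) * (V + g (kT, nT))) := ⟨_, rfl⟩
  have hgT := heJ (kT, nT)
  have hA0 : 0 ≤ A := by rw [hA]; (clear * - hC hV0 hR0 hgT; positivity)
  obtain ⟨a, ha⟩ : ∃ a : ℕ × Lat d → ℝ, a = fun Q => R⁻¹ * (C * ((2 ^ Q.1 / (2 ^ Q.1) ^ d) * g Q)) :=
    ⟨_, rfl⟩
  have ha0 : ∀ Q, 0 ≤ a Q := by
    intro Q
    rw [ha]
    have := heJ Q
    (clear * - hC hR0 this; positivity)
  have hsum0 : ∀ x : E d, 0 ≤ ∑ Q ∈ W, (if ‖x - pt (co Q.1 Q.2)‖ ≤ c * 2 ^ Q.1 then a Q else 0) := by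
    intro x
    refine Finset.sum_nonneg fun Q _ => ?_
    split_ifs
    · exact ha0 Q
    · exact le_rfl
  have hpt : ∀ x : E d, ‖lineDeriv ℝ (cutf kT nT) x v * (uT f W kT x - refv hd f kT nT)‖ ≤
      (if ‖x - pt (co kT nT)‖ ≤ √d * (2 * 2 ^ kT) then A else 0) +
        ∑ Q ∈ W, (if ‖x - pt (co Q.1 Q.2)‖ ≤ c * 2 ^ Q.1 then a Q else 0) := by
    intro x
    by_cases hx : x ∈ NT kT nT
    · rw [norm_mul, Real.norm_eq_abs, Real.norm_eq_abs]
      have h1 := ptr_cutf_lineDeriv kT nT x v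
      rw [hv, mul_one, ← hR] at h1
      have h2 := k1 x hx
      rw [if_pos (ptr_NT_norm hx)]
      calc |lineDeriv ℝ (cutf kT nT) x v| * |uT f W kT x - refv hd f kT nT|
          ≤ R⁻¹ * (C * (2 ^ kT / (2 ^ kT) ^ d) * (V + g (kT, nT)) +
      C * ∑ Q ∈ W, if ‖x - pt (co Q.1 Q.2)‖ ≤ c * 2 ^ Q.1 then
        (2 ^ Q.1 / (2 ^ Q.1) ^ d) * g Q else 0) := by
            refine mul_le_mul h1 h2 (abs_nonneg _) (by (clear * - hR0; positivity))
        _ = _ := by
            rw [mul_add, hA, hR, ha, Finset.mul_sum, Finset.mul_sum]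
            congr 1
            refine Finset.sum_congr rfl fun Q _ => ?_
            split_ifs
            · rw [hR]
            · ring
    · rw [ptr_cutf_lineDeriv_zero hx, zero_mul, norm_zero]
      refine add_nonneg ?_ (hsum0 x)
      split_ifs
      · exact hA0
      · exact le_rfl
  calc ∫⁻ x, ENNReal.ofReal ‖lineDeriv ℝ (cutf kT nT) x v * (uT f W kT x - refv hd f kT nT)‖
      ≤ ∫⁻ x : E d, (ENNReal.ofReal (if ‖x - pt (co kT nT)‖ ≤ √d * (2 * 2 ^ kT) then A else 0) +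
        ENNReal.ofReal
          (∑ Q ∈ W, (if ‖x - pt (co Q.1 Q.2)‖ ≤ c * 2 ^ Q.1 then a Q else 0))) := by
        refine lintegral_mono fun x => ?_
        exact (ENNReal.ofReal_le_ofReal (hpt x)).trans ENNReal.ofReal_add_le
    _ = ENNReal.ofReal (A * ((√d * (2 * 2 ^ kT)) ^ d * uvol d)) +
        ENNReal.ofReal (∑ Q ∈ W, a Q * ((c * 2 ^ Q.1) ^ d * uvol d)) := by
        rw [lintegral_add_left (ptr_measurable_ite _ _ _).ennreal_ofReal,
          ptr_lint_ite _ (by (clear * - hd; positivity)) hA0,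
          ptr_lint_sum W (fun Q => pt (co Q.1 Q.2)) (fun Q => c * 2 ^ Q.1) a
            (fun _ _ => by (clear * - hc; positivity)) (fun Q _ => ha0 Q)]
    _ ≤ ENNReal.ofReal (C * (2 * √d) ^ d * uvol d * (V + ∑ Q ∈ W, g Q)) +
        ENNReal.ofReal (C * c ^ d * uvol d * (∑ Q ∈ W, g Q)) := by
        refine add_le_add (ENNReal.ofReal_le_ofReal ?_) (ENNReal.ofReal_le_ofReal ?_)
        · have h1 : A * ((√d * (2 * 2 ^ kT)) ^ d * uvol d) =
              C * (2 * √d) ^ d * uvol d * (V + g (kT, nT)) := by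
            rw [hA, ← hR, mul_pow √(d : ℝ), mul_pow 2 R, mul_pow 2 √(d : ℝ)]
            (clear * - hR0 huv hd hC; field_simp)
          rw [h1]
          (clear * - hd hC huv hST; gcongr)
        · rw [Finset.mul_sum]
          refine Finset.sum_le_sum fun Q hQ => ?_
          have h1 : a Q * ((c * 2 ^ Q.1) ^ d * uvol d) =
              C * c ^ d * uvol d * g Q * (2 ^ Q.1 / R) := by
            rw [ha, mul_pow c]
            simp only
            (clear * - huv hc hC hR0; field_simp)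
          rw [h1]
          have h2 : (2 : ℝ) ^ Q.1 / R ≤ 1 := by
            rw [div_le_one hR0, hR]
            exact pow_le_pow_right₀ (by norm_num) (hT.le_top Q hQ)
          have h3 := heJ Q
          have h4 : 0 ≤ C * c ^ d * uvol d * g Q := by (clear * - hC hc huv h3; positivity)
          nlinarith only [h2, h4]
    _ = ENNReal.ofReal (C * (2 * √d) ^ d * uvol d * (V + ∑ Q ∈ W, g Q) +
          C * c ^ d * uvol d * (∑ Q ∈ W, g Q)) := by
        rw [ENNReal.ofReal_add (by (clear * - hd hC huv hV0 hS0; positivity)) (by (clear * - hC hc huv hS0; positivity))]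
    _ ≤ _ := by
        refine ENNReal.ofReal_le_ofReal ?_
        have : 0 ≤ C * c ^ d * uvol d * V := by (clear * - hC hc huv hV0; positivity)
        linarith only [this]

theorem per_tree (hd : 0 < d) : ∃ C : ℝ≥0, ∀ (f : E d → ℝ),
    ContDiff ℝ 1 f → HasCompactSupport f → ∀ (kT : ℕ) (nT : Lat d) (e : E d)
    (W : Finset (ℕ × Lat d)), IsTree (v0f (gradient f)) kT nT e W →
    ∫⁻ x in cube kT (co kT nT), ‖fderiv ℝ (uT f W kT) x‖ₑ ≤
      C * (ENNReal.ofReal ‖vJ (v0f (gradient f)) kT nT‖ +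
        ∑ Q ∈ W, ENNReal.ofReal (eJ (v0f (gradient f)) (m0f (gradient f)) Q.1 Q.2)) := by
  obtain ⟨C₁, hC₁, key₁⟩ := ptr_FU_bound (d := d) hd
  obtain ⟨C₂, hC₂, key₂⟩ := ptr_osc_lint (d := d) hd
  have hk0 := kap_pos d
  have hk1 := kap_le hd
  obtain ⟨c0, hc0⟩ : ∃ c0 : ℝ, c0 = kap d / 4 := ⟨_, rfl⟩
  have hc00 : 0 < c0 := by rw [hc0]; positivity
  refine ⟨(c0⁻¹ * (C₂ + (1 + c0) * C₁)).toNNReal, ?_⟩
  intro f hf hfc kT nT e W hT
  have hW : W.Nonempty := ⟨_, hT.top_mem⟩
  obtain ⟨L, hL⟩ := hf.lipschitzWith_of_hasCompactSupport hfc one_ne_zero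
  have hu := ptr_uT_lip hd hL hfc hW kT
  have hS0 : 0 ≤ ∑ Q ∈ W, eJ (v0f (gradient f)) (m0f (gradient f)) Q.1 Q.2 :=
    Finset.sum_nonneg fun Q _ => eJ_nonneg (m0f_nonneg _) _ _
  have hrhs : (((c0⁻¹ * (C₂ + (1 + c0) * C₁)).toNNReal : ℝ≥0) : ℝ≥0∞) *
      (ENNReal.ofReal ‖vJ (v0f (gradient f)) kT nT‖ +
        ∑ Q ∈ W, ENNReal.ofReal (eJ (v0f (gradient f)) (m0f (gradient f)) Q.1 Q.2)) =
      ENNReal.ofReal (c0⁻¹ * (C₂ + (1 + c0) * C₁) * (‖vJ (v0f (gradient f)) kT nT‖ +
        ∑ Q ∈ W, eJ (v0f (gradient f)) (m0f (gradient f)) Q.1 Q.2)) := by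
    rw [ENNReal.ofReal_mul (by (clear * - hC₁ hC₂ hc00; positivity)), ENNReal.ofReal_add (norm_nonneg _) hS0,
      ENNReal.ofReal_sum_of_nonneg fun Q _ => eJ_nonneg (m0f_nonneg _) _ _]
    rfl
  rw [hrhs]
  obtain ⟨X, hX⟩ : ∃ X : ℝ, X = ‖vJ (v0f (gradient f)) kT nT‖ +
        ∑ Q ∈ W, eJ (v0f (gradient f)) (m0f (gradient f)) Q.1 Q.2 := ⟨_, rfl⟩
  have hX0 : 0 ≤ X := by rw [hX]; exact add_nonneg (norm_nonneg _) hS0
  have k1 : ∫⁻ x in FU f W kT nT e, ‖fderiv ℝ (uT f W kT) x‖ₑ ≤ ENNReal.ofReal (C₁ * X) := by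
    rw [hX]; exact key₁ f hf hfc kT nT e W hT
  have k2 : ∫⁻ x, ENNReal.ofReal ‖lineDeriv ℝ (cutf kT nT) x (-e) *
      (uT f W kT x - refv hd f kT nT)‖ ≤ ENNReal.ofReal (C₂ * X) := by
    rw [hX]; exact key₂ f hf hfc kT nT e W hT (-e) (by rw [norm_neg]; exact hT.norm_e)
  rw [← hX]
  clear hrhs key₁ key₂
  have he := hT.norm_e
  have hFUm := ptr_measurableSet_FU hd hL hfc hW kT nT e
  have hFF : ∀ x, x ∉ FU f W kT nT e → ∀ j ≤ kT, ∀ p : Fin d × Bool,
      x ∉ FF f W kT nT e j (pt_dirv p) := by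
    intro x hx j hj p hxF
    exact hx (mem_iUnion.2 ⟨(⟨j, Nat.lt_succ_iff.2 hj⟩, p), hxF⟩)
  have hfinal := ptr_aligned (uT f W kT) (2 * L) ((2 : ℝ≥0) ^ kT)⁻¹ hu (cutf kT nT)
    (ptr_cutf_lip kT nT) (ptr_cutf_support kT nT) (ptr_cutf_nonneg kT nT)
    (FU f W kT nT e) (NT kT nT) (cube kT (co kT nT)) hFUm (measurableSet_cube _ _) e he
    c0 (refv hd f kT nT) (C₁ * X) (C₂ * X) hc00 (by (clear * - hC₁ hX0; positivity)) (by (clear * - hC₂ hX0; positivity))
    (fun x hx => ptr_cutf_eq_one hx) (ptr_cutf_le_one kT nT) (fun x hx => ptr_cutf_eq_zero hx)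
    (fun x hx hdiff hxU => by
      rw [hc0]
      exact ptr_cover hd hL hfc hW hx hdiff (hFF x hxU)) k1 k2
  refine hfinal.trans (le_of_eq (congrArg _ ?_))
  ring

end Vale.Agent.P137.U
end
end

section

section

open MeasureTheory Set Filter Topology
open scoped ENNReal NNReal

namespace Vale.Agent.P137.U

open Vale.Agent.P137

variable {d : ℕ}

/-! ### elementary facts on `kap`, `dW`, `DW` -/

theorem core_kap_pos (d : ℕ) : 0 < kap d := by
  unfold kap; positivity

theorem core_kap_le_one (d : ℕ) : kap d ≤ 1 := by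
  unfold kap
  rw [div_le_one (by positivity)]
  have : 0 ≤ √(d : ℝ) := Real.sqrt_nonneg _
  linarith only [this]

theorem core_kap_mul (d : ℕ) : kap d * (101 * √d + 2) = 1 := by
  unfold kap
  rw [one_div, inv_mul_cancel₀]
  positivity

theorem core_dW_le {W : Finset (ℕ × Lat d)} {Q : ℕ × Lat d} (hQ : Q ∈ W) (y : E d) :
    dW W y ≤ 2 ^ Q.1 + ‖y - pt (co Q.1 Q.2)‖ := by
  unfold dW
  refine ciInf_le (f := fun Q : W => ((2 : ℝ) ^ Q.1.1 + ‖y - pt (co Q.1.1 Q.1.2)‖)) ?_ ⟨Q, hQ⟩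
  refine ⟨0, ?_⟩
  rintro _ ⟨P, rfl⟩
  positivity

theorem core_dW_lipschitz {W : Finset (ℕ × Lat d)} (hW : W.Nonempty) :
    LipschitzWith 1 (dW W : E d → ℝ) := by
  have : Nonempty W := hW.to_subtype
  refine LipschitzWith.of_le_add fun y y' => ?_
  rw [← sub_le_iff_le_add]
  unfold dW
  refine le_ciInf fun Q => ?_
  have h1 := core_dW_le Q.2 y
  unfold dW at h1
  rw [sub_le_iff_le_add]
  refine h1.trans ?_
  have h2 : ‖y - pt (co Q.1.1 Q.1.2)‖ ≤ ‖y' - pt (co Q.1.1 Q.1.2)‖ + dist y y' := by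
    rw [dist_eq_norm]
    calc ‖y - pt (co Q.1.1 Q.1.2)‖ = ‖(y' - pt (co Q.1.1 Q.1.2)) + (y - y')‖ := by congr 1; abel
      _ ≤ _ := norm_add_le _ _
  linarith only [h2]

theorem core_DW_lipschitz {W : Finset (ℕ × Lat d)} (hW : W.Nonempty) (kT : ℕ) :
    LipschitzWith (kap d).toNNReal (DW W kT : E d → ℝ) := by
  have h1 : LipschitzWith (kap d).toNNReal (fun y : E d => kap d * dW W y) := by
    refine LipschitzWith.of_dist_le_mul fun y y' => ?_
    have h := (core_dW_lipschitz hW).dist_le_mul y y'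
    rw [Real.coe_toNNReal _ (core_kap_pos d).le, Real.dist_eq, ← mul_sub, abs_mul,
      abs_of_pos (core_kap_pos d)]
    rw [Real.dist_eq] at h
    have := (core_kap_pos d).le
    simpa only [ge_iff_le, NNReal.coe_one, one_mul] using mul_le_mul_of_nonneg_left h this
  exact (h1.min_const _).const_max 1

theorem core_one_le_DW (W : Finset (ℕ × Lat d)) (kT : ℕ) (y : E d) : 1 ≤ DW W kT y :=
  le_max_left _ _

theorem core_DW_le (W : Finset (ℕ × Lat d)) (kT : ℕ) (y : E d) : DW W kT y ≤ 2 * 2 ^ kT := by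
  unfold DW
  have h1 : (1 : ℝ) ≤ 2 ^ kT := one_le_pow₀ (by norm_num)
  refine max_le (by linarith only [h1]) ((min_le_right _ _).trans (by linarith only [h1]))

/-! ### translation -/

theorem core_avg_shift (f : E d → ℝ) (p y : E d) (r : ℝ) :
    avg (fun x => f (x + p)) y r = avg f (y + p) r := by
  unfold avg
  congr 1
  funext w
  rw [add_right_comm]

theorem core_uu_shift (f : E d → ℝ) (p : E d) (R : ℝ) (x : E d) :
    uu (fun x => f (x + p)) (fun _ => 1) R x = uu f (fun _ => 1) R (x + p) := by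
  unfold uu
  congr 1
  ext t
  simp only [mem_ofPred_eq]
  constructor
  · rintro ⟨y, r, h1, h2, h3, h4⟩
    refine ⟨y + p, r, h1, h2, by simpa only [dist_add_right] using h3, ?_⟩
    rw [← core_avg_shift]; exact h4
  · rintro ⟨y, r, h1, h2, h3, h4⟩
    refine ⟨y - p, r, h1, h2, ?_, ?_⟩
    · have : dist x (y - p) = dist (x + p) y := by
        rw [dist_eq_norm, dist_eq_norm]; congr 1; abel
      rw [this]; exact h3
    · rw [core_avg_shift, sub_add_cancel]; exact h4

theorem core_gradient_shift (f : E d → ℝ) (p x : E d) :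
    gradient (fun x => f (x + p)) x = gradient f (x + p) := by
  unfold gradient
  rw [fderiv_comp_add_right]

theorem core_enorm_gradient (f : E d → ℝ) (x : E d) : ‖gradient f x‖ₑ = ‖fderiv ℝ f x‖ₑ := by
  unfold gradient
  rw [← ofReal_norm, ← ofReal_norm, LinearIsometryEquiv.norm_map]

theorem core_continuous_gradient {f : E d → ℝ} (hf : ContDiff ℝ 1 f) : Continuous (gradient f) := by
  unfold gradient
  exact (LinearIsometryEquiv.continuous _).comp (hf.continuous_fderiv one_ne_zero)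

theorem core_integrable_gradient {f : E d → ℝ} (hf : ContDiff ℝ 1 f) (hfc : HasCompactSupport f) :
    Integrable (gradient f) := by
  refine (core_continuous_gradient hf).integrable_of_hasCompactSupport ?_
  have : HasCompactSupport (fderiv ℝ f) := hfc.fderiv ℝ
  unfold gradient
  exact this.comp_left (g := (InnerProductSpace.toDual ℝ (E d)).symm) (map_zero _)

theorem core_anc_anc (i j : ℕ) (n : Lat d) : anc j (anc i n) = anc (i + j) n := by
  funext t
  unfold anc
  rw [Int.ediv_ediv_of_nonneg (by positivity), pow_add]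

theorem core_level {K : ℕ} {r : ℝ} (h1 : 1 ≤ r) (h2 : r ≤ 2 * 2 ^ K) :
    ∃ k ≤ K, (2 : ℝ) ^ k ≤ r ∧ r ≤ 2 * 2 ^ k := by
  obtain ⟨n, hn1, hn2⟩ := exists_nat_pow_near h1 (y := 2) (by norm_num)
  by_cases hnK : n ≤ K
  · exact ⟨n, hnK, hn1, by rw [pow_succ] at hn2; linarith only [hn2]⟩
  · push Not at hnK
    have : (2 : ℝ) ^ (K + 1) ≤ 2 ^ n := pow_le_pow_right₀ (by norm_num) hnK
    rw [pow_succ] at this
    refine ⟨K, le_rfl, ?_, h2⟩
    have : (0 : ℝ) < 2 ^ K := by positivity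
    (clear h2 hn2 hnK this; linarith)

theorem core_anc_bounds {j : ℕ} {m N : Lat d} (h : anc j m = N) (i : Fin d) :
    2 ^ j * N i ≤ m i ∧ m i < 2 ^ j * N i + 2 ^ j := by
  have hp : (0 : ℤ) < 2 ^ j := by positivity
  have h1 : m i / 2 ^ j = N i := congrFun h i
  have h2 := Int.mul_ediv_add_emod (m i) (2 ^ j)
  have h3 := Int.emod_nonneg (m i) hp.ne'
  have h4 := Int.emod_lt_of_pos (m i) hp
  rw [h1] at h2
  constructor <;> omega

theorem core_loc {K q : ℕ} {m N c : Lat d} {x : E d} (hq : q ≤ K) (hN : anc (K - q) m = N)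
    (hx : x ∈ cube K (co K N))
    (hc : ∀ i, bc q m i ≤ c i ∧ c i < bc q m i + 2 ^ (q + 6)) (i : Fin d) :
    |x i - c i| ≤ 34 * 2 ^ K := by
  have h1 := core_anc_bounds hN i
  have h2 := hx i
  have h3 := hc i
  unfold co at h2
  unfold bc at h3
  have hK : (2 : ℝ) ^ K = 2 ^ q * 2 ^ (K - q) := by rw [← pow_add]; congr 1; omega
  have h1a : ((2 : ℝ) ^ (K - q) * N i : ℝ) ≤ m i := by exact_mod_cast h1.1
  have h1b : ((m i : ℤ) : ℝ) < 2 ^ (K - q) * N i + 2 ^ (K - q) := by exact_mod_cast h1.2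
  have h3a : ((2 : ℝ) ^ q * m i - 2 ^ (q + 5) : ℝ) ≤ c i := by exact_mod_cast h3.1
  have h3b : ((c i : ℤ) : ℝ) < 2 ^ q * m i - 2 ^ (q + 5) + 2 ^ (q + 6) := by exact_mod_cast h3.2
  have h2a : ((2 : ℝ) ^ K * N i : ℝ) ≤ x i := by
    have := h2.1; push_cast at this; exact this
  have h2b : x i < (2 : ℝ) ^ K * N i + 2 ^ K := by
    have := h2.2; push_cast at this; exact this
  have hq0 : (0 : ℝ) < 2 ^ q := by (clear * -; positivity)
  have h4 : (2 : ℝ) ^ K * N i ≤ 2 ^ q * m i := by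
    rw [hK, mul_assoc]; exact mul_le_mul_of_nonneg_left h1a hq0.le
  have h5 : (2 : ℝ) ^ q * m i ≤ (2 : ℝ) ^ K * N i + 2 ^ K := by
    calc (2 : ℝ) ^ q * m i ≤ 2 ^ q * (2 ^ (K - q) * N i + 2 ^ (K - q)) :=
          mul_le_mul_of_nonneg_left h1b.le hq0.le
      _ = (2 : ℝ) ^ K * N i + 2 ^ K := by rw [hK]; ring
  have h6 : (2 : ℝ) ^ q ≤ 2 ^ K := pow_le_pow_right₀ (by norm_num) hq
  have e5 : (2 : ℝ) ^ (q + 5) = 32 * 2 ^ q := by rw [pow_add]; ring
  have e6 : (2 : ℝ) ^ (q + 6) = 64 * 2 ^ q := by rw [pow_add]; ring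
  rw [e5] at h3a h3b
  rw [e6] at h3b
  rw [abs_le]
  constructor <;> linarith only [h3b, h2a, h5, h6, h4, h3a, h2b]

/-- properties of the functions attached to a tree -/
theorem core_uT_le {f : E d → ℝ} (hf : Continuous f) (hfc : HasCompactSupport f)
    {W : Finset (ℕ × Lat d)} (hW : W.Nonempty) {kT K : ℕ} (hk : kT ≤ K) (x : E d) :
    uT f W kT x ≤ uu f (fun _ => 1) (2 * 2 ^ K) x := by
  obtain ⟨y, r, h1, h2, h3, h4⟩ := uu_attained hf hfc (core_DW_lipschitz hW kT).continuous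
    (fun y => lt_of_lt_of_le one_pos (core_one_le_DW W kT y)) (core_DW_le W kT) x
  have h5 : (2 : ℝ) ^ kT ≤ 2 ^ K := pow_le_pow_right₀ (by norm_num) hk
  unfold uT
  rw [← h4]
  exact avg_le_uu hf hfc ((core_one_le_DW W kT y).trans h1) (by linarith only [h2, h5]) h3

theorem core_uT_lipschitz {f : E d → ℝ} {L : ℝ≥0} (hf : LipschitzWith L f)
    (hfc : HasCompactSupport f) {W : Finset (ℕ × Lat d)} (hW : W.Nonempty) (kT : ℕ) :
    LipschitzWith (2 * L) (uT f W kT) := by
  refine uu_lipschitz hf hfc (κ := (kap d).toNNReal) ?_ (core_DW_lipschitz hW kT)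
    (fun y => lt_of_lt_of_le one_pos (core_one_le_DW W kT y)) (core_DW_le W kT)
  rw [Real.toNNReal_le_one]
  exact core_kap_le_one d

theorem core_u_lipschitz {f : E d → ℝ} {L : ℝ≥0} (hf : LipschitzWith L f)
    (hfc : HasCompactSupport f) (K : ℕ) :
    LipschitzWith (2 * L) (uu f (fun _ => 1) (2 * 2 ^ K)) := by
  have h1 : (1 : ℝ) ≤ 2 ^ K := one_le_pow₀ (by norm_num)
  refine uu_lipschitz hf hfc (κ := 0) zero_le_one (LipschitzWith.const 1)
    (fun y => one_pos) (fun _ => by linarith only [h1])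

theorem core_fderiv_eq {u v : E d → ℝ} {x : E d} (hle : ∀ z, v z ≤ u z) (hx : u x ≤ v x)
    (hu : DifferentiableAt ℝ u x) (hv : DifferentiableAt ℝ v x) :
    fderiv ℝ u x = fderiv ℝ v x := by
  have hmin : IsLocalMin (fun z => u z - v z) x := by
    refine Eventually.of_forall fun z => ?_
    have := hle z
    have := hle x
    simp only
    linarith
  have h := hmin.fderiv_eq_zero
  have h2 : fderiv ℝ (fun z => u z - v z) x = fderiv ℝ u x - fderiv ℝ v x := fderiv_sub hu hv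
  rw [h2] at h
  exact sub_eq_zero.mp h

theorem core_one (hd : 0 < d) : ∃ C : ℝ≥0, ∀ (f : E d → ℝ), ContDiff ℝ 1 f →
    HasCompactSupport f → ∀ (K : ℕ) (S : Set (E d)), MeasurableSet S →
    ∀ (v0 : Lat d → E d) (m0 : Lat d → ℝ), (∀ a, ‖v0 a‖ ≤ m0 a) →
    (∀ x ∈ S, ∀ c : Lat d, (∀ i, |x i - c i| ≤ 34 * 2 ^ K) →
      v0 c = v0f (gradient f) c ∧ m0 c = m0f (gradient f) c) →
    ∫⁻ x in S, ‖fderiv ℝ (uu f (fun _ => 1) (2 * 2 ^ K)) x‖ₑ ≤
      C * (∑' a, ENNReal.ofReal (m0 a) +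
        ∑ k ∈ Finset.range (K + 1), ∑' n, ENNReal.ofReal (eJ v0 m0 k n)) := by
  obtain ⟨C2, hforest⟩ := forest hd
  obtain ⟨C3, htree⟩ := per_tree hd
  refine ⟨C3 * C2, fun f hf hfc K S hS v0 m0 hv hloc => ?_⟩
  obtain ⟨tops, e, W, htops, hcov, hsum⟩ := hforest K v0 m0 hv
  obtain ⟨L, hL⟩ := ContDiff.lipschitzWith_of_hasCompactSupport hfc hf one_ne_zero
  set u := uu f (fun _ => 1) (2 * 2 ^ K) with hu
  -- relevant tops
  let rel : Set (ℕ × Lat d) :=
    {T | T ∈ tops ∧ ∃ x ∈ S, x ∈ cube K (co K (anc (K - T.1) T.2))}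
  have hWne : ∀ T ∈ tops, (W T).Nonempty := fun T hT => ⟨_, (htops T hT).2.top_mem⟩
  -- on relevant tops the truncated field is the true field
  have hagree : ∀ T ∈ rel, ∀ Q ∈ W T,
      vJ v0 Q.1 Q.2 = vJ (v0f (gradient f)) Q.1 Q.2 ∧
      eJ v0 m0 Q.1 Q.2 = eJ (v0f (gradient f)) (m0f (gradient f)) Q.1 Q.2 := by
    rintro T ⟨hT, x, hxS, hxc⟩ Q hQ
    obtain ⟨hTK, htr⟩ := htops T hT
    have hq : Q.1 ≤ T.1 := htr.le_top Q hQ
    have hanc : anc (K - Q.1) Q.2 = anc (K - T.1) T.2 := by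
      rw [← htr.anc_top Q hQ, core_anc_anc]
      congr 1; (clear * - hTK hq; omega)
    have hc : ∀ c : Lat d, (∀ i, bc Q.1 Q.2 i ≤ c i ∧ c i < bc Q.1 Q.2 i + 2 ^ (Q.1 + 6)) →
        v0 c = v0f (gradient f) c ∧ m0 c = m0f (gradient f) c := fun c hcc =>
      hloc x hxS c (core_loc (hq.trans hTK) hanc hxc hcc)
    exact ⟨vv_congr fun c hcc => (hc c hcc).1,
      ee_congr (fun c hcc => (hc c hcc).1) (fun c hcc => (hc c hcc).2)⟩
  have htree' : ∀ T ∈ rel, ∫⁻ x in cube T.1 (co T.1 T.2), ‖fderiv ℝ (uT f (W T) T.1) x‖ₑ ≤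
      C3 * (ENNReal.ofReal ‖vJ v0 T.1 T.2‖ +
        ∑ Q ∈ W T, ENNReal.ofReal (eJ v0 m0 Q.1 Q.2)) := by
    intro T hT
    have htr := (htops T hT.1).2
    have htr' : IsTree (v0f (gradient f)) T.1 T.2 (e T) (W T) :=
      { norm_e := htr.norm_e
        top_mem := htr.top_mem
        le_top := htr.le_top
        anc_top := htr.anc_top
        parent := htr.parent
        cone := fun Q hQ => by
          rw [← (hagree T hT Q hQ).1]
          exact htr.cone Q hQ }
    refine (htree f hf hfc T.1 T.2 (e T) (W T) htr').trans (le_of_eq ?_)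
    have e1 := (hagree T hT _ htr.top_mem).1
    have e2 : ∑ Q ∈ W T, ENNReal.ofReal (eJ v0 m0 Q.1 Q.2) =
        ∑ Q ∈ W T, ENNReal.ofReal (eJ (v0f (gradient f)) (m0f (gradient f)) Q.1 Q.2) :=
      Finset.sum_congr rfl fun Q hQ => by rw [(hagree T hT Q hQ).2]
    simp only at e1
    rw [e1, e2]
  -- pointwise bound
  have hcount : Countable tops := Set.to_countable tops
  have hdiff : ∀ᵐ x : E d, DifferentiableAt ℝ u x ∧
      ∀ T : tops, DifferentiableAt ℝ (uT f (W T.1) T.1.1) x := by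
    have h1 : ∀ᵐ x : E d, DifferentiableAt ℝ u x := (core_u_lipschitz hL hfc K).ae_differentiableAt
    have h2 : ∀ᵐ x : E d, ∀ T : tops, DifferentiableAt ℝ (uT f (W T.1) T.1.1) x := by
      rw [ae_all_iff]
      intro T
      exact (core_uT_lipschitz hL hfc (hWne T.1 T.2) T.1.1).ae_differentiableAt
    filter_upwards [h1, h2] with x hx1 hx2 using ⟨hx1, hx2⟩
  have hpt : ∀ᵐ x ∂(volume.restrict S), ‖fderiv ℝ u x‖ₑ ≤ ∑' T : rel,
      (cube T.1.1 (co T.1.1 T.1.2)).indicator (fun x => ‖fderiv ℝ (uT f (W T.1) T.1.1) x‖ₑ) x := by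
    filter_upwards [ae_restrict_of_ae hdiff, ae_restrict_mem hS] with x hx hxS
    obtain ⟨hxu, hxT⟩ := hx
    have h2K : (1 : ℝ) ≤ 2 ^ K := one_le_pow₀ (by norm_num)
    obtain ⟨y, r, h1, h2, h3, h4⟩ := uu_attained (D := fun _ => 1) (R := 2 * 2 ^ K)
      hf.continuous hfc continuous_const (fun _ => one_pos) (fun _ => by linarith only [h2K]) x
    obtain ⟨k, hkK, hk1, hk2⟩ := core_level h1 h2
    obtain ⟨n, hn, -⟩ := existsUnique_cell k x
    obtain ⟨T, hT, hkT, hancT, n', hn', hnn'⟩ := hcov k hkK n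
    have hTK := (htops T hT).1
    have hxT' : x ∈ cube T.1 (co T.1 T.2) := by
      have := mem_cell_anc (j := T.1 - k) hn
      rw [hancT] at this
      have e1 : k + (T.1 - k) = T.1 := by (clear * - hkT; omega)
      rwa [e1] at this
    have hxK : x ∈ cube K (co K (anc (K - T.1) T.2)) := by
      have := mem_cell_anc (j := K - T.1) hxT'
      have e1 : T.1 + (K - T.1) = K := by (clear * - hTK; omega)
      rwa [e1] at this
    have hrel : T ∈ rel := ⟨hT, x, hxS, hxK⟩
    have hDr : DW (W T) T.1 y ≤ r := by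
      unfold DW
      refine max_le h1 ((min_le_left _ _).trans ?_)
      have hs : 0 ≤ √(d : ℝ) := Real.sqrt_nonneg _
      have hk0 : (0 : ℝ) < 2 ^ k := by (clear * -; positivity)
      have h5 : dW (W T) y ≤ (101 * √d + 2) * r := by
        refine (core_dW_le hn' y).trans ?_
        have h6 : ‖x - pt (co k n')‖ ≤ √d * (101 * 2 ^ k) := by
          refine norm_le_of_abs_apply_le (by (clear * -; positivity)) fun i => ?_
          have h7 := hn i
          have h8 := hnn' i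
          have h9 : (x - pt (co k n')) i = x i - 2 ^ k * n' i := by
            simp [pt_apply, co]
          have h10a : (2 : ℝ) ^ k * n i ≤ x i := by
            have := h7.1; unfold co at this; push_cast at this; exact this
          have h10b : x i < (2 : ℝ) ^ k * n i + 2 ^ k := by
            have := h7.2; unfold co at this; push_cast at this; exact this
          have h11 : |(n i : ℝ) - n' i| ≤ 100 := by exact_mod_cast h8
          rw [abs_le] at h11
          rw [h9, abs_le]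
          constructor <;> nlinarith only [h10a, h10b, h11]
        have h12 : ‖y - pt (co k n')‖ ≤ r + √d * (101 * 2 ^ k) := by
          calc ‖y - pt (co k n')‖ = ‖(y - x) + (x - pt (co k n'))‖ := by congr 1; abel
            _ ≤ ‖y - x‖ + ‖x - pt (co k n')‖ := norm_add_le _ _
            _ ≤ r + √d * (101 * 2 ^ k) := by
                refine add_le_add ?_ h6
                rw [← dist_eq_norm, dist_comm]; exact h3
        simp only
        nlinarith only [hk1, hs, h12]
      calc kap d * dW (W T) y ≤ kap d * ((101 * √d + 2) * r) :=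
            mul_le_mul_of_nonneg_left h5 (core_kap_pos d).le
        _ = r := by rw [← mul_assoc, core_kap_mul, one_mul]
    have hle : ∀ z, uT f (W T) T.1 z ≤ u z := core_uT_le hf.continuous hfc (hWne T hT) hTK
    have hge : u x ≤ uT f (W T) T.1 x := by
      rw [hu, ← h4]
      have h5 : (2 : ℝ) ^ k ≤ 2 ^ T.1 := pow_le_pow_right₀ (by norm_num) hkT
      exact avg_le_uu hf.continuous hfc hDr (by linarith only [hk2, h5]) h3
    rw [core_fderiv_eq hle hge hxu (hxT ⟨T, hT⟩)]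
    refine le_trans ?_ (ENNReal.le_tsum (⟨T, hrel⟩ : rel))
    simp only [indicator_of_mem hxT', le_refl]
  have hrelc : Countable rel := Set.to_countable rel
  calc ∫⁻ x in S, ‖fderiv ℝ u x‖ₑ
      ≤ ∫⁻ x in S, ∑' T : rel, (cube T.1.1 (co T.1.1 T.1.2)).indicator
          (fun x => ‖fderiv ℝ (uT f (W T.1) T.1.1) x‖ₑ) x := lintegral_mono_ae hpt
    _ ≤ ∫⁻ x, ∑' T : rel, (cube T.1.1 (co T.1.1 T.1.2)).indicator
          (fun x => ‖fderiv ℝ (uT f (W T.1) T.1.1) x‖ₑ) x := setLIntegral_le_lintegral _ _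
    _ = ∑' T : rel, ∫⁻ x, (cube T.1.1 (co T.1.1 T.1.2)).indicator
          (fun x => ‖fderiv ℝ (uT f (W T.1) T.1.1) x‖ₑ) x := by
        refine lintegral_tsum fun T => ?_
        refine (Measurable.indicator ?_ (measurableSet_cube _ _)).aemeasurable
        exact (measurable_fderiv ℝ _).enorm
    _ = ∑' T : rel, ∫⁻ x in cube T.1.1 (co T.1.1 T.1.2),
          ‖fderiv ℝ (uT f (W T.1) T.1.1) x‖ₑ := by
        refine tsum_congr fun T => ?_
        rw [lintegral_indicator (measurableSet_cube _ _)]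
    _ ≤ ∑' T : rel, C3 * (ENNReal.ofReal ‖vJ v0 T.1.1 T.1.2‖ +
        ∑ Q ∈ W T.1, ENNReal.ofReal (eJ v0 m0 Q.1 Q.2)) :=
        ENNReal.tsum_le_tsum fun T => htree' T.1 T.2
    _ = C3 * ∑' T : rel, (ENNReal.ofReal ‖vJ v0 T.1.1 T.1.2‖ +
        ∑ Q ∈ W T.1, ENNReal.ofReal (eJ v0 m0 Q.1 Q.2)) := ENNReal.tsum_mul_left
    _ ≤ C3 * ∑' T : tops, (ENNReal.ofReal ‖vJ v0 T.1.1 T.1.2‖ +
        ∑ Q ∈ W T.1, ENNReal.ofReal (eJ v0 m0 Q.1 Q.2)) := by
        refine mul_le_mul_right ?_ _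
        exact ENNReal.tsum_mono_subtype (fun T : ℕ × Lat d => (ENNReal.ofReal ‖vJ v0 T.1 T.2‖ +
          ∑ Q ∈ W T, ENNReal.ofReal (eJ v0 m0 Q.1 Q.2))) (fun T hT => hT.1)
    _ ≤ C3 * (C2 * (∑' a, ENNReal.ofReal (m0 a) +
        ∑ k ∈ Finset.range (K + 1), ∑' n, ENNReal.ofReal (eJ v0 m0 k n))) :=
        mul_le_mul_right hsum _
    _ = _ := by rw [ENNReal.coe_mul, mul_assoc]

theorem core_local (hd : 0 < d) : ∃ C C' : ℝ≥0, ∀ (f : E d → ℝ),
    ContDiff ℝ 1 f → HasCompactSupport f → ∀ (K : ℕ) (S : Set (E d)), MeasurableSet S →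
    ∫⁻ x in S, ‖fderiv ℝ (uu f (fun _ => 1) (2 * 2 ^ K)) x‖ₑ ≤
      C * ∫⁻ x in Metric.thickening (C' * 2 ^ K) S, ‖fderiv ℝ f x‖ₑ := by
  classical
  obtain ⟨C1, horigin⟩ := good_origin d
  obtain ⟨C, hone⟩ := core_one hd
  refine ⟨C * (1 + C1), ⟨35 * √d + 1, by positivity⟩, fun f hf hfc K S hS => ?_⟩
  set g := gradient f with hg
  have hgi : Integrable g := core_integrable_gradient hf hfc
  set A : Set (Lat d) := {a | ∃ x ∈ S, ∀ i, |x i - a i| ≤ 34 * 2 ^ K} with hA
  set v0 : Lat d → E d := A.indicator (v0f g) with hv0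
  set m0 : Lat d → ℝ := A.indicator (m0f g) with hm0
  set U := Metric.thickening (((⟨35 * √d + 1, by positivity⟩ : ℝ≥0) : ℝ) * 2 ^ K) S with hU
  have h2K : (1 : ℝ) ≤ 2 ^ K := one_le_pow₀ (by norm_num)
  have hsd : 0 ≤ √(d : ℝ) := Real.sqrt_nonneg _
  have hvm : ∀ a, ‖v0 a‖ ≤ m0 a := by
    intro a
    by_cases ha : a ∈ A
    · rw [hv0, hm0, indicator_of_mem ha, indicator_of_mem ha]
      exact norm_v0f_le g a
    · rw [hv0, hm0, indicator_of_notMem ha, indicator_of_notMem ha, norm_zero]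
  have hms : Summable m0 := by
    rw [hm0]
    exact (summable_m0f hgi).indicator A
  -- Step 1
  have hstep1 : ∑' a, ENNReal.ofReal (m0 a) ≤ ∫⁻ x in U, ‖fderiv ℝ f x‖ₑ := by
    have hUo : MeasurableSet U := Metric.isOpen_thickening.measurableSet
    have hgU : Integrable (U.indicator g) := hgi.indicator hUo
    have h1 := tsum_m0f hgU
    have h2 : ∫⁻ x, ‖U.indicator g x‖ₑ = ∫⁻ x in U, ‖fderiv ℝ f x‖ₑ := by
      rw [← lintegral_indicator hUo]
      refine lintegral_congr fun x => ?_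
      by_cases hx : x ∈ U
      · rw [indicator_of_mem hx, indicator_of_mem hx, hg, core_enorm_gradient]
      · rw [indicator_of_notMem hx, indicator_of_notMem hx, enorm_zero]
    rw [← h2, ← h1]
    refine ENNReal.tsum_le_tsum fun a => ENNReal.ofReal_le_ofReal ?_
    by_cases ha : a ∈ A
    · rw [hm0, indicator_of_mem ha]
      unfold m0f
      refine le_of_eq (setIntegral_congr_fun (measurableSet_cube 0 a) fun z hz => ?_)
      rw [indicator_of_mem]
      obtain ⟨x, hxS, hx⟩ := ha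
      rw [hU, Metric.mem_thickening_iff]
      refine ⟨x, hxS, ?_⟩
      have h3 : ‖z - x‖ ≤ √d * (35 * 2 ^ K) := by
        refine norm_le_of_abs_apply_le (by (clear * -; positivity)) fun i => ?_
        have h4 := hz i
        have h5 := hx i
        rw [pow_zero] at h4
        have h6 : (z - x) i = z i - x i := rfl
        rw [abs_le] at h5
        rw [h6, abs_le]
        constructor <;> linarith only [h2K, h4.1, h5.2, h4.2, h5.1]
      rw [dist_eq_norm]
      refine lt_of_le_of_lt h3 ?_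
      have : ((⟨35 * √d + 1, by (clear * - hd; positivity)⟩ : ℝ≥0) : ℝ) = 35 * √d + 1 := rfl
      rw [this]
      linarith only [h2K]
    · rw [hm0, indicator_of_notMem ha]
      exact m0f_nonneg _ _
  -- Step 2
  have hstep2 : ∀ ω : Lat d, ∫⁻ x in S, ‖fderiv ℝ (uu f (fun _ => 1) (2 * 2 ^ K)) x‖ₑ ≤
      C * (∑' a, ENNReal.ofReal (m0 a) + ∑ k ∈ Finset.range (K + 1), ∑' n : Lat d,
        ENNReal.ofReal (eJ (fun a => v0 (a + ω)) (fun a => m0 (a + ω)) k n)) := by
    intro ω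
    set fω : E d → ℝ := fun x => f (x + pt ω) with hfω
    have hfω1 : ContDiff ℝ 1 fω := hf.comp (contDiff_id.add contDiff_const)
    have hfω2 : HasCompactSupport fω := hfc.comp_homeomorph (Homeomorph.addRight (pt ω))
    have hgω : gradient fω = fun x => g (x + pt ω) := by
      funext x
      exact core_gradient_shift f (pt ω) x
    have hmeas : MeasurableSet ((fun x : E d => x + pt ω) ⁻¹' S) :=
      hS.preimage (measurable_add_const _)
    have h1 := hone fω hfω1 hfω2 K ((fun x : E d => x + pt ω) ⁻¹' S) hmeas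
      (fun a => v0 (a + ω)) (fun a => m0 (a + ω)) (fun a => hvm (a + ω)) ?_
    · have h2 : ∑' a, ENNReal.ofReal (m0 (a + ω)) = ∑' a, ENNReal.ofReal (m0 a) :=
        (Equiv.addRight ω).tsum_eq (fun a => ENNReal.ofReal (m0 a))
      have h3 : ∫⁻ x in (fun x : E d => x + pt ω) ⁻¹' S,
          ‖fderiv ℝ (uu fω (fun _ => 1) (2 * 2 ^ K)) x‖ₑ =
          ∫⁻ x in S, ‖fderiv ℝ (uu f (fun _ => 1) (2 * 2 ^ K)) x‖ₑ := by
        have h4 : uu fω (fun _ => 1) (2 * 2 ^ K) =
            fun x => uu f (fun _ => 1) (2 * 2 ^ K) (x + pt ω) := by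
          funext x
          exact core_uu_shift f (pt ω) _ x
        have h5 : ∀ x, ‖fderiv ℝ (uu fω (fun _ => 1) (2 * 2 ^ K)) x‖ₑ =
            (fun z => ‖fderiv ℝ (uu f (fun _ => 1) (2 * 2 ^ K)) z‖ₑ) (x + pt ω) := by
          intro x
          rw [h4, fderiv_comp_add_right]
        simp_rw [h5]
        exact (measurePreserving_add_right volume (pt ω)).setLIntegral_comp_preimage hS
          (measurable_fderiv ℝ _).enorm
      rw [h2, h3] at h1
      exact h1
    · intro x hx c hc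
      have hcA : c + ω ∈ A := by
        refine ⟨x + pt ω, hx, fun i => ?_⟩
        have : (x + pt ω) i - ((c + ω) i : ℤ) = x i - c i := by
          have h6 : (x + pt ω) i = x i + ω i := rfl
          have h7 : (c + ω) i = c i + ω i := rfl
          rw [h6, h7]; push_cast; ring
        rw [this]
        exact hc i
      rw [hv0, hm0, indicator_of_mem hcA, indicator_of_mem hcA, hgω, v0f_shift, m0f_shift]
      exact ⟨rfl, rfl⟩
  -- Step 3
  set I := ∫⁻ x in S, ‖fderiv ℝ (uu f (fun _ => 1) (2 * 2 ^ K)) x‖ₑ with hI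
  set P := Fintype.piFinset (fun _ : Fin d => Finset.Ico (0 : ℤ) (2 ^ K)) with hP
  have hcard : ((P.card : ℕ) : ℝ≥0∞) = 2 ^ (K * d) := by
    rw [hP, Fintype.card_piFinset]
    simp only [Int.card_Ico, sub_zero, Finset.prod_const, Finset.card_univ, Fintype.card_fin]
    have : ((2 : ℤ) ^ K).toNat = 2 ^ K := by
      have h : ((2 : ℤ) ^ K) = ((2 ^ K : ℕ) : ℤ) := by push_cast; rfl
      rw [h, Int.toNat_natCast]
    rw [this, ← pow_mul]
    push_cast
    rfl
  have hsum : (2 : ℝ≥0∞) ^ (K * d) * I ≤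
      2 ^ (K * d) * (C * ((1 + C1) * ∑' a, ENNReal.ofReal (m0 a))) := by
    calc (2 : ℝ≥0∞) ^ (K * d) * I = ∑ ω ∈ P, I := by
          rw [Finset.sum_const, nsmul_eq_mul, hcard]
      _ ≤ ∑ ω ∈ P, (C * (∑' a, ENNReal.ofReal (m0 a) + ∑ k ∈ Finset.range (K + 1), ∑' n : Lat d,
            ENNReal.ofReal (eJ (fun a => v0 (a + ω)) (fun a => m0 (a + ω)) k n))) :=
          Finset.sum_le_sum fun ω _ => hstep2 ω
      _ = C * (2 ^ (K * d) * ∑' a, ENNReal.ofReal (m0 a) +
            ∑ ω ∈ P, ∑ k ∈ Finset.range (K + 1), ∑' n : Lat d,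
            ENNReal.ofReal (eJ (fun a => v0 (a + ω)) (fun a => m0 (a + ω)) k n)) := by
          rw [← Finset.mul_sum, Finset.sum_add_distrib, Finset.sum_const, nsmul_eq_mul, hcard]
      _ ≤ C * (2 ^ (K * d) * ∑' a, ENNReal.ofReal (m0 a) +
            C1 * 2 ^ (K * d) * ∑' a, ENNReal.ofReal (m0 a)) := by
          gcongr
          exact horigin K v0 m0 hvm hms
      _ = 2 ^ (K * d) * (C * ((1 + C1) * ∑' a, ENNReal.ofReal (m0 a))) := by ring
  have hI2 : I ≤ C * ((1 + C1) * ∑' a, ENNReal.ofReal (m0 a)) := by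
    rwa [ENNReal.mul_le_mul_iff_right (by (clear * -; positivity)) (by finiteness)] at hsum
  calc I ≤ C * ((1 + C1) * ∑' a, ENNReal.ofReal (m0 a)) := hI2
    _ ≤ C * ((1 + C1) * ∫⁻ x in U, ‖fderiv ℝ f x‖ₑ) := by (clear * - hstep1; (clear * - hstep1; gcongr))
    _ = _ := by
        rw [ENNReal.coe_mul, ENNReal.coe_add, ENNReal.coe_one, mul_assoc, hU]
        rfl

end Vale.Agent.P137.U
end
end

section

section

open MeasureTheory Set Filter Topology
open scoped ENNReal NNReal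

namespace Vale.Agent.P137.U

open Vale.Agent.P137

variable {d : ℕ}

/-- dilation as a continuous linear equivalence -/
noncomputable def dil (d : ℕ) (δ : ℝ) (hδ : 0 < δ) : E d ≃L[ℝ] E d :=
  ContinuousLinearEquiv.smulLeft (Units.mk0 δ hδ.ne')

theorem dil_apply {δ : ℝ} (hδ : 0 < δ) (x : E d) : dil d δ hδ x = δ • x := rfl

theorem lint_dil {δ : ℝ} (hδ : 0 < δ) (F : E d → ℝ≥0∞) (S : Set (E d)) :
    ∫⁻ y in (fun y : E d => δ • y) ⁻¹' S, F (δ • y) =
      ENNReal.ofReal ((δ ^ d)⁻¹) * ∫⁻ x in S, F x := by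
  set e := (dil d δ hδ).toHomeomorph.toMeasurableEquiv with he
  have he' : ∀ y, e y = δ • y := fun y => rfl
  have h1 : Measure.map e (volume : Measure (E d)) = ENNReal.ofReal ((δ ^ d)⁻¹) • volume := by
    have h2 := Measure.map_addHaar_smul (volume : Measure (E d)) hδ.ne'
    have h3 : |(δ ^ Module.finrank ℝ (E d))⁻¹| = (δ ^ d)⁻¹ := by
      rw [finrank_euclideanSpace, Fintype.card_fin, abs_of_pos (by positivity)]
    rw [h3] at h2
    exact h2
  have h4 : ∫⁻ x in S, F x ∂(Measure.map e (volume : Measure (E d))) =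
      ∫⁻ y in (fun y : E d => δ • y) ⁻¹' S, F (δ • y) := by
    rw [e.measurableEmbedding.restrict_map, lintegral_map_equiv]
    rfl
  rw [← h4, h1, Measure.restrict_smul, lintegral_smul_measure, smul_eq_mul]

theorem avg_dil (f : E d → ℝ) (δ : ℝ) (y : E d) (r : ℝ) :
    avg (fun x => f (δ • x)) y r = avg f (δ • y) (δ * r) := by
  unfold avg
  congr 1
  funext w
  show f (δ • (y + r • w)) = f (δ • y + (δ * r) • w)
  rw [smul_add, smul_smul]

theorem uu_dil (f : E d → ℝ) {δ : ℝ} (hδ : 0 < δ) (R : ℝ) (x : E d) :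
    uu (fun x => f (δ • x)) (fun _ => 1) R x = uu f (fun _ => δ) (R * δ) (δ • x) := by
  unfold uu
  congr 1
  ext t
  constructor
  · rintro ⟨y, r, h1, h2, h3, h4⟩
    refine ⟨δ • y, δ * r, ?_, ?_, ?_, ?_⟩
    · nlinarith only [hδ, h1]
    · nlinarith only [hδ, h2]
    · rw [dist_smul₀, Real.norm_eq_abs, abs_of_pos hδ]
      exact mul_le_mul_of_nonneg_left h3 hδ.le
    · rw [← h4, avg_dil]
  · rintro ⟨y, r, h1, h2, h3, h4⟩
    refine ⟨δ⁻¹ • y, δ⁻¹ * r, ?_, ?_, ?_, ?_⟩
    · rw [← div_eq_inv_mul, le_div_iff₀ hδ]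
      linarith only [h1]
    · rw [← div_eq_inv_mul, div_le_iff₀ hδ]
      exact h2
    · have e1 : x = δ⁻¹ • (δ • x) := by rw [smul_smul, inv_mul_cancel₀ hδ.ne', one_smul]
      rw [e1, dist_smul₀, Real.norm_eq_abs, abs_of_pos (inv_pos.2 hδ)]
      exact mul_le_mul_of_nonneg_left h3 (inv_pos.2 hδ).le
    · rw [← h4, avg_dil, smul_smul, mul_inv_cancel₀ hδ.ne', one_smul, ← mul_assoc,
        mul_inv_cancel₀ hδ.ne', one_mul]

theorem fderiv_dil (g : E d → ℝ) {δ : ℝ} (hδ : 0 < δ) (x : E d) :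
    ‖fderiv ℝ (fun x => g (δ • x)) x‖ₑ = ENNReal.ofReal δ * ‖fderiv ℝ g (δ • x)‖ₑ := by
  have h1 : fderiv ℝ (g ∘ dil d δ hδ) x =
      (fderiv ℝ g (dil d δ hδ x)).comp (dil d δ hδ : E d →L[ℝ] E d) :=
    (dil d δ hδ).comp_right_fderiv
  have h2 : fderiv ℝ (fun x => g (δ • x)) x = δ • fderiv ℝ g (δ • x) := by
    have h3 : (fun x => g (δ • x)) = g ∘ dil d δ hδ := rfl
    rw [h3, h1]
    ext v
    simp [dil_apply]
  rw [h2, enorm_smul, Real.enorm_eq_ofReal hδ.le]

theorem core_scaled (hd : 0 < d) : ∃ C C' : ℝ≥0, ∀ (f : E d → ℝ),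
    ContDiff ℝ 1 f → HasCompactSupport f → ∀ (δ : ℝ), 0 < δ → ∀ (K : ℕ) (S : Set (E d)),
    MeasurableSet S →
    ∫⁻ x in S, ‖fderiv ℝ (uu f (fun _ => δ) (2 * 2 ^ K * δ)) x‖ₑ ≤
      C * ∫⁻ x in Metric.thickening (C' * 2 ^ K * δ) S, ‖fderiv ℝ f x‖ₑ := by
  obtain ⟨C, C', hC⟩ := core_local hd
  refine ⟨C, C', fun f hf hfc δ hδ K S hS => ?_⟩
  set U := uu f (fun _ => δ) (2 * 2 ^ K * δ) with hU
  set fδ : E d → ℝ := fun x => f (δ • x) with hfδ
  have hfδ1 : ContDiff ℝ 1 fδ := hf.comp (contDiff_const_smul δ)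
  have hfδ2 : HasCompactSupport fδ := by
    have := hfc.comp_homeomorph (dil d δ hδ).toHomeomorph
    exact this
  set S' : Set (E d) := (fun y : E d => δ • y) ⁻¹' S with hS'
  have hmeas : Measurable fun y : E d => δ • y := by fun_prop
  have hS'm : MeasurableSet S' := hmeas hS
  have h1 := hC fδ hfδ1 hfδ2 K S' hS'm
  have hu : uu fδ (fun _ => 1) (2 * 2 ^ K) = fun x => U (δ • x) := by
    funext x
    exact uu_dil f hδ _ x
  rw [hu] at h1
  have e1 : ∀ x, ‖fderiv ℝ (fun x => U (δ • x)) x‖ₑ = ENNReal.ofReal δ * ‖fderiv ℝ U (δ • x)‖ₑ :=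
    fun x => fderiv_dil U hδ x
  have e2 : ∀ x, ‖fderiv ℝ fδ x‖ₑ = ENNReal.ofReal δ * ‖fderiv ℝ f (δ • x)‖ₑ :=
    fun x => fderiv_dil f hδ x
  simp_rw [e1, e2] at h1
  have hδt : ENNReal.ofReal δ ≠ ∞ := ENNReal.ofReal_ne_top
  have hδ0 : ENNReal.ofReal δ ≠ 0 := by
    rw [Ne, ENNReal.ofReal_eq_zero, not_le]
    exact hδ
  rw [lintegral_const_mul' _ _ hδt, lintegral_const_mul' _ _ hδt] at h1
  have h2 : ∫⁻ x in S', ‖fderiv ℝ U (δ • x)‖ₑ ≤
      C * ∫⁻ x in Metric.thickening (C' * 2 ^ K) S', ‖fderiv ℝ f (δ • x)‖ₑ := by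
    have h3 : ENNReal.ofReal δ * ∫⁻ x in S', ‖fderiv ℝ U (δ • x)‖ₑ ≤ ENNReal.ofReal δ *
        (C * ∫⁻ x in Metric.thickening (C' * 2 ^ K) S', ‖fderiv ℝ f (δ • x)‖ₑ) := by
      refine h1.trans (le_of_eq ?_)
      ring
    exact (ENNReal.mul_le_mul_iff_right hδ0 hδt).1 h3
  have hsub : Metric.thickening (C' * 2 ^ K) S' ⊆
      (fun y : E d => δ • y) ⁻¹' Metric.thickening (C' * 2 ^ K * δ) S := by
    intro x hx
    rw [Metric.mem_thickening_iff] at hx
    obtain ⟨z, hz, hxz⟩ := hx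
    rw [mem_preimage, Metric.mem_thickening_iff]
    refine ⟨δ • z, hz, ?_⟩
    rw [dist_smul₀, Real.norm_eq_abs, abs_of_pos hδ, mul_comm]
    exact mul_lt_mul_of_pos_right hxz hδ
  have h4 := h2.trans (mul_le_mul_right (lintegral_mono_set hsub) _)
  rw [hS', lint_dil hδ (fun x => ‖fderiv ℝ U x‖ₑ) S, lint_dil hδ (fun x => ‖fderiv ℝ f x‖ₑ)] at h4
  have hc0 : ENNReal.ofReal ((δ ^ d)⁻¹) ≠ 0 := by
    rw [Ne, ENNReal.ofReal_eq_zero, not_le]
    (clear * - hδ; positivity)
  have hct : ENNReal.ofReal ((δ ^ d)⁻¹) ≠ ∞ := ENNReal.ofReal_ne_top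
  have h5 : ENNReal.ofReal ((δ ^ d)⁻¹) * ∫⁻ x in S, ‖fderiv ℝ U x‖ₑ ≤
      ENNReal.ofReal ((δ ^ d)⁻¹) *
        (C * ∫⁻ x in Metric.thickening (C' * 2 ^ K * δ) S, ‖fderiv ℝ f x‖ₑ) := by
    refine h4.trans (le_of_eq ?_)
    ring
  exact (ENNReal.mul_le_mul_iff_right hc0 hct).1 h5

end Vale.Agent.P137.U
end
end

section

section

open MeasureTheory Set Filter Topology
open scoped ENNReal NNReal

namespace Vale.Agent.P137.U

open Vale.Agent.P137

variable {d : ℕ}

/-- Clamped first coordinate. -/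
noncomputable def clampC (i : Fin d) (R : ℝ) (x : E d) : ℝ := max (-R) (min (x i) R)

theorem clampC_lip (i : Fin d) (R : ℝ) : LipschitzWith 1 (clampC i R) := by
  have h1 : LipschitzWith 1 (fun x : E d => x i) := by
    refine LipschitzWith.of_dist_le_mul fun x y => ?_
    rw [NNReal.coe_one, one_mul, dist_eq_norm, dist_eq_norm]
    exact PiLp.norm_apply_le (x - y) i
  have h2 : LipschitzWith 1 (fun x : E d => min (x i) R) := h1.min_const R
  exact h2.const_max (-R)

theorem clampC_line (i : Fin d) (R : ℝ) (x : E d) (t : ℝ) :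
    clampC i R (x + t • EuclideanSpace.single i 1) = max (-R) (min (x i + t) R) := by
  simp only [clampC, PiLp.add_apply, PiLp.smul_apply, PiLp.single_eq_same, smul_eq_mul, mul_one]

theorem clampC_lineDeriv_nonneg (i : Fin d) (R : ℝ) (x : E d) :
    0 ≤ lineDeriv ℝ (clampC i R) x (EuclideanSpace.single i 1) := by
  unfold lineDeriv
  have h : Monotone fun t : ℝ => clampC i R (x + t • EuclideanSpace.single i 1) := by
    intro a b hab
    simp only [clampC_line]
    gcongr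
  exact h.deriv_nonneg

theorem clampC_lineDeriv_slab (i : Fin d) (R : ℝ) (x : E d) (hx : |x i| < R) :
    lineDeriv ℝ (clampC i R) x (EuclideanSpace.single i 1) = 1 := by
  unfold lineDeriv
  have h : (fun t : ℝ => clampC i R (x + t • EuclideanSpace.single i 1)) =ᶠ[𝓝 0]
      fun t => x i + t := by
    rw [abs_lt] at hx
    have h1 : ∀ᶠ t : ℝ in 𝓝 0, x i + t < R := by
      have : ContinuousAt (fun t : ℝ => x i + t) 0 := by fun_prop
      exact this.eventually_lt_const (by simpa using hx.2)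
    have h2 : ∀ᶠ t : ℝ in 𝓝 0, -R < x i + t := by
      have : ContinuousAt (fun t : ℝ => x i + t) 0 := by fun_prop
      exact this.eventually_const_lt (by simpa using hx.1)
    filter_upwards [h1, h2] with t ht1 ht2
    rw [clampC_line, min_eq_left ht1.le, max_eq_right ht2.le]
  rw [h.deriv_eq]
  simp

theorem clampC_abs_le (i : Fin d) {R : ℝ} (hR : 0 < R) (x : E d) : |clampC i R x| ≤ R := by
  unfold clampC
  rw [abs_le]
  constructor
  · exact le_max_left _ _
  · exact max_le (by linarith only [hR]) (min_le_right _ _)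

theorem slab_bound (hd : 0 < d) (u : E d → ℝ) (L : ℝ≥0) (hu : LipschitzWith L u)
    (hc : HasCompactSupport u) (h0 : ∀ x, 0 ≤ u x) (R : ℝ) (hR : 0 < R) :
    ∫⁻ x in Metric.ball (0 : E d) R, ‖u x‖ₑ ≤
      ENNReal.ofReal R * ∫⁻ x, ‖fderiv ℝ u x‖ₑ := by
  set i : Fin d := ⟨0, hd⟩ with hi
  set e : E d := EuclideanSpace.single i 1 with he
  have hen : ‖e‖ = 1 := by simp [he]
  have huint : Integrable u := hu.continuous.integrable_of_hasCompactSupport hc
  have hψ := clampC_lip i R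
  have hint : Integrable (fun x => lineDeriv ℝ (clampC i R) x e * u x) := by
    have h1 := hψ.memLp_lineDeriv (μ := volume) e
    exact huint.bdd_mul (c := 1 * ‖e‖) h1.1 (Eventually.of_forall fun x => by
      have := norm_lineDeriv_le_of_lipschitz (𝕜 := ℝ) hψ (x₀ := x) (v := e)
      simpa only [Real.norm_eq_abs, one_mul, ge_iff_le, NNReal.coe_one] using this)
  have key := hψ.integral_lineDeriv_mul_eq (μ := volume) hu hc e
  have h1 : ∫⁻ x in Metric.ball (0 : E d) R, ‖u x‖ₑ ≤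
      ∫⁻ x, ‖lineDeriv ℝ (clampC i R) x e * u x‖ₑ := by
    rw [← lintegral_indicator Metric.isOpen_ball.measurableSet]
    refine lintegral_mono fun x => ?_
    by_cases hx : x ∈ Metric.ball (0 : E d) R
    · rw [indicator_of_mem hx]
      have hxi : |x i| < R := by
        rw [mem_ball_zero_iff] at hx
        exact (PiLp.norm_apply_le x i).trans_lt hx
      rw [clampC_lineDeriv_slab i R x hxi, one_mul]
    · rw [indicator_of_notMem hx]
      exact zero_le
  refine h1.trans ?_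
  have h2 : ∫⁻ x, ‖lineDeriv ℝ (clampC i R) x e * u x‖ₑ =
      ‖∫ x, lineDeriv ℝ (clampC i R) x e * u x‖ₑ := by
    rw [← ofReal_integral_norm_eq_lintegral_enorm hint]
    have h3 : ∀ x, ‖lineDeriv ℝ (clampC i R) x e * u x‖ = lineDeriv ℝ (clampC i R) x e * u x :=
      fun x => Real.norm_of_nonneg (mul_nonneg (clampC_lineDeriv_nonneg i R x) (h0 x))
    simp_rw [h3]
    rw [← ofReal_norm, Real.norm_of_nonneg]
    exact integral_nonneg fun x => mul_nonneg (clampC_lineDeriv_nonneg i R x) (h0 x)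
  rw [h2, key]
  refine (enorm_integral_le_lintegral_enorm _).trans ?_
  rw [← lintegral_const_mul _ (measurable_fderiv ℝ u).enorm]
  refine lintegral_mono_ae ?_
  filter_upwards [hu.ae_differentiableAt] with x hx
  rw [enorm_mul, hx.lineDeriv_eq_fderiv, mul_comm]
  refine mul_le_mul' ?_ ?_
  · rw [← ofReal_norm, Real.norm_eq_abs]
    exact ENNReal.ofReal_le_ofReal (clampC_abs_le i hR x)
  · rw [← ofReal_norm, ← ofReal_norm]
    refine ENNReal.ofReal_le_ofReal ?_
    have := (fderiv ℝ u x).le_opNorm (-e)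
    rwa [norm_neg, hen, mul_one] at this

end Vale.Agent.P137.U
end
end

section

section

open MeasureTheory Set Filter Topology
open scoped ENNReal NNReal

namespace Vale.Agent.P137.U

open Vale.Agent.P137

variable {d : ℕ}

/-- The uncentered Hardy-Littlewood maximal function, with values in `[0, ∞]`. -/
noncomputable def uncenteredMax (f : E d → ℝ) (x : E d) : ℝ≥0∞ :=
  ⨆ (y : E d) (r : ℝ) (_ : 0 < r) (_ : x ∈ Metric.ball y r),
    (∫⁻ z in Metric.ball y r, ‖f z‖ₑ) / volume (Metric.ball y r)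

end Vale.Agent.P137.U
end
end

section

section

open MeasureTheory Set Filter Topology
open scoped ENNReal NNReal Pointwise

namespace Vale.Agent.P137.U

open Vale.Agent.P137

variable {d : ℕ}

/-- The normalised average over a closed ball as an integral over that ball. -/
theorem tt_avg_eq (f : E d → ℝ) (y : E d) {r : ℝ} (hr : 0 < r) :
    avg f y r = (volume.real (Metric.closedBall y r))⁻¹ * ∫ z in Metric.closedBall y r, f z := by
  unfold avg
  rw [setAverage_eq, smul_eq_mul]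
  have h1 : ∫ w in Metric.closedBall (0 : E d) 1, f (y + r • w) =
      (r ^ Module.finrank ℝ (E d))⁻¹ • ∫ w in r • Metric.closedBall (0 : E d) 1, f (y + w) :=
    Measure.setIntegral_comp_smul_of_pos volume (fun w => f (y + w)) _ hr
  have h2 : r • Metric.closedBall (0 : E d) 1 = Metric.closedBall (0 : E d) r := by
    rw [smul_closedBall r 0 zero_le_one, smul_zero, Real.norm_of_nonneg hr.le, mul_one]
  have h3 : ∫ w in Metric.closedBall (0 : E d) r, f (y + w) =
      ∫ z in Metric.closedBall y r, f z := by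
    have h := (measurePreserving_add_left (volume : Measure (E d)) y).setIntegral_preimage_emb
      (MeasurableEquiv.addLeft y).measurableEmbedding f (Metric.closedBall y r)
    have h4 : (fun x => y + x) ⁻¹' Metric.closedBall y r = Metric.closedBall (0 : E d) r := by
      ext w
      simp only [preimage_add_closedBall, sub_self, Metric.mem_closedBall, dist_eq_norm, sub_zero]
    rw [h4] at h
    exact h
  rw [h1, h2, h3, smul_eq_mul, ← mul_assoc]
  congr 1
  have h5 : volume.real (Metric.closedBall y r) =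
      r ^ Module.finrank ℝ (E d) * volume.real (Metric.closedBall (0 : E d) 1) := by
    unfold Measure.real
    rw [Measure.addHaar_closedBall volume y hr.le, ENNReal.toReal_mul,
      ENNReal.toReal_ofReal (by positivity), Measure.addHaar_closedBall volume 0 zero_le_one,
      one_pow, ENNReal.ofReal_one, one_mul]
  rw [h5, mul_inv]
  ring

theorem tt_real_closedBall (y : E d) {r : ℝ} (hr : 0 ≤ r) :
    volume.real (Metric.closedBall y r) =
      r ^ d * volume.real (Metric.ball (0 : E d) 1) := by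
  unfold Measure.real
  rw [Measure.addHaar_closedBall volume y hr, ENNReal.toReal_mul,
    ENNReal.toReal_ofReal (by positivity), finrank_euclideanSpace_fin]

theorem tt_vol_pos : 0 < volume.real (Metric.ball (0 : E d) 1) :=
  ENNReal.toReal_pos (Metric.measure_ball_pos volume 0 one_pos).ne' measure_ball_lt_top.ne

/-- The average of `|f|` over a ball. -/
noncomputable def ttA (f : E d → ℝ) (y : E d) (r : ℝ) : ℝ :=
  (volume.real (Metric.closedBall y r))⁻¹ * ∫ z in Metric.closedBall y r, |f z|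

theorem tt_A_ofReal {f : E d → ℝ} (hf : Integrable f) (y : E d) {r : ℝ} (hr : 0 < r) :
    ENNReal.ofReal (ttA f y r) =
      (∫⁻ z in Metric.ball y r, ‖f z‖ₑ) / volume (Metric.ball y r) := by
  have hv : 0 < volume.real (Metric.closedBall y r) := by
    rw [tt_real_closedBall y hr.le]
    exact mul_pos (pow_pos hr _) tt_vol_pos
  have h1 : volume (Metric.closedBall y r) = volume (Metric.ball y r) := by
    rw [Measure.addHaar_closedBall volume y hr.le, Measure.addHaar_ball_of_pos volume y hr]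
  have h2 : (volume : Measure (E d)).restrict (Metric.ball y r) =
      volume.restrict (Metric.closedBall y r) := by
    apply Measure.restrict_congr_set
    have h3 : Metric.closedBall y r \ Metric.ball y r = Metric.sphere y r :=
      Metric.closedBall_sdiff_ball
    have h4 : volume (Metric.sphere y r) = 0 := Measure.addHaar_sphere_of_ne_zero volume y hr.ne'
    refine (LE.le.eventuallyLE Metric.ball_subset_closedBall).antisymm ?_
    rw [ae_le_set, h3, h4]
  rw [h2, ← h1, ttA, ENNReal.ofReal_mul (inv_nonneg.2 hv.le), ENNReal.ofReal_inv_of_pos hv,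
    Measure.real, ENNReal.ofReal_toReal measure_closedBall_lt_top.ne]
  have h5 : ENNReal.ofReal (∫ z in Metric.closedBall y r, |f z|) =
      ∫⁻ z in Metric.closedBall y r, ‖f z‖ₑ :=
    ofReal_integral_norm_eq_lintegral_enorm hf.restrict
  rw [h5, mul_comm, ENNReal.div_eq_inv_mul, mul_comm]

/-- Comparison of averages. -/
theorem tt_avg_close {f φ ψ : E d → ℝ} (hf : Integrable f) (hφ : Integrable φ)
    (hψ : Integrable ψ) (hψ0 : ∀ x, 0 ≤ ψ x) {a b : ℝ}
    (h : ∀ x, |φ x - abs (f x)| ≤ a + ψ x) (hb : ∫ x, ψ x ≤ b) (y : E d) {r s : ℝ}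
    (hs : 0 < s) (hsr : s ≤ r) :
    |avg φ y r - ttA f y r| ≤ a + b / (s ^ d * volume.real (Metric.ball (0 : E d) 1)) := by
  have hr : 0 < r := hs.trans_le hsr
  have hv : 0 < volume.real (Metric.closedBall y r) := by
    rw [tt_real_closedBall y hr.le]
    exact mul_pos (pow_pos hr _) tt_vol_pos
  have hb0 : 0 ≤ b := (integral_nonneg hψ0).trans hb
  rw [tt_avg_eq φ y hr, ttA, ← mul_sub, ← integral_sub hφ.restrict hf.abs.restrict, abs_mul,
    abs_of_nonneg (inv_nonneg.2 hv.le)]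
  have h1 : |∫ z in Metric.closedBall y r, (φ z - abs (f z))| ≤
      a * volume.real (Metric.closedBall y r) + b := by
    calc |∫ z in Metric.closedBall y r, (φ z - abs (f z))|
        ≤ ∫ z in Metric.closedBall y r, |φ z - abs (f z)| := abs_integral_le_integral_abs
      _ ≤ ∫ z in Metric.closedBall y r, (a + ψ z) := by
          apply integral_mono (hφ.restrict.sub hf.abs.restrict).abs
            ((integrable_const_iff.2 (Or.inr ?_)).add hψ.restrict) h
          rw [isFiniteMeasure_restrict]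
          exact measure_closedBall_lt_top.ne
      _ = a * volume.real (Metric.closedBall y r) + ∫ z in Metric.closedBall y r, ψ z := by
          rw [integral_add _ hψ.restrict]
          · simp only [integral_const, MeasurableSet.univ, measureReal_restrict_apply, univ_inter, smul_eq_mul, mul_comm]
          · apply integrable_const_iff.2 (Or.inr ?_)
            rw [isFiniteMeasure_restrict]
            exact measure_closedBall_lt_top.ne
      _ ≤ a * volume.real (Metric.closedBall y r) + b := by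
          have := setIntegral_le_integral (s := Metric.closedBall y r) hψ
            (Eventually.of_forall hψ0)
          linarith only [hb, this]
  calc (volume.real (Metric.closedBall y r))⁻¹ * |∫ z in Metric.closedBall y r, (φ z - abs (f z))|
      ≤ (volume.real (Metric.closedBall y r))⁻¹ *
        (a * volume.real (Metric.closedBall y r) + b) :=
        mul_le_mul_of_nonneg_left h1 (inv_nonneg.2 hv.le)
    _ = a + b / volume.real (Metric.closedBall y r) := by
        (clear * - hv; field_simp)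
    _ ≤ a + b / (s ^ d * volume.real (Metric.ball (0 : E d) 1)) := by
        rw [tt_real_closedBall y hr.le]
        gcongr
        · exact mul_pos (pow_pos hs _) tt_vol_pos

/-- Averages over closed balls of positive radius containing `x` are bounded by the maximal
function. -/
theorem tt_A_le_max {f : E d → ℝ} (hf : Integrable f) (y x : E d) {r : ℝ} (hr : 0 < r)
    (hx : dist x y ≤ r) : ENNReal.ofReal (ttA f y r) ≤ uncenteredMax f x := by
  have h1 : ∀ r' ∈ Ioi r, ENNReal.ofReal (ttA f y r) ≤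
      ENNReal.ofReal ((r' / r) ^ d) * uncenteredMax f x := by
    intro r' hr'
    have hr'0 : 0 < r' := hr.trans hr'
    have h2 : ttA f y r ≤ (r' / r) ^ d * ttA f y r' := by
      unfold ttA
      rw [tt_real_closedBall y hr.le, tt_real_closedBall y hr'0.le]
      have hI : ∫ z in Metric.closedBall y r, |f z| ≤ ∫ z in Metric.closedBall y r', |f z| :=
        setIntegral_mono_set hf.abs.integrableOn (Eventually.of_forall fun _ => abs_nonneg _)
          (LE.le.eventuallyLE (Metric.closedBall_subset_closedBall (le_of_lt hr')))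
      have hv := tt_vol_pos (d := d)
      have hrd : 0 < r ^ d := pow_pos hr d
      have hrd' : 0 < r' ^ d := pow_pos hr'0 d
      calc (r ^ d * volume.real (Metric.ball (0 : E d) 1))⁻¹ * ∫ z in Metric.closedBall y r, |f z|
          ≤ (r ^ d * volume.real (Metric.ball (0 : E d) 1))⁻¹ *
            ∫ z in Metric.closedBall y r', |f z| :=
            mul_le_mul_of_nonneg_left hI (by positivity)
        _ = (r' / r) ^ d * ((r' ^ d * volume.real (Metric.ball (0 : E d) 1))⁻¹ *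
            ∫ z in Metric.closedBall y r', |f z|) := by
            rw [div_pow]
            field_simp
    have h3 : ENNReal.ofReal (ttA f y r') ≤ uncenteredMax f x := by
      rw [tt_A_ofReal hf y hr'0]
      unfold uncenteredMax
      refine le_iSup_of_le y (le_iSup_of_le r' (le_iSup_of_le hr'0 (le_iSup_of_le ?_ le_rfl)))
      exact Metric.mem_ball.2 (hx.trans_lt hr')
    calc ENNReal.ofReal (ttA f y r) ≤ ENNReal.ofReal ((r' / r) ^ d * ttA f y r') :=
          ENNReal.ofReal_le_ofReal h2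
      _ = ENNReal.ofReal ((r' / r) ^ d) * ENNReal.ofReal (ttA f y r') :=
          ENNReal.ofReal_mul (by positivity)
      _ ≤ _ := by (clear * - h3; gcongr)
  have h2 : Tendsto (fun r' : ℝ => ENNReal.ofReal ((r' / r) ^ d)) (𝓝[>] r) (𝓝 1) := by
    have h3 : Continuous fun r' : ℝ => ENNReal.ofReal ((r' / r) ^ d) := by
      apply ENNReal.continuous_ofReal.comp
      fun_prop
    have h4 := (h3.tendsto r).mono_left (nhdsWithin_le_nhds (s := Ioi r))
    simpa only [div_self hr.ne', one_pow, ENNReal.ofReal_one] using h4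
  have h3 := ENNReal.Tendsto.mul_const (b := uncenteredMax f x) h2 (Or.inl one_ne_zero)
  rw [one_mul] at h3
  exact ge_of_tendsto h3 (eventually_mem_nhdsWithin.mono h1)

theorem uu_tendsto (f : E d → ℝ) (hf : Integrable f) (φ : ℕ → E d → ℝ) (hφ : ∀ n, Continuous (φ n))
    (hφc : ∀ n, HasCompactSupport (φ n)) (hφ0 : ∀ n x, 0 ≤ φ n x)
    (hφf : ∀ n, ∃ a b : ℝ, 0 ≤ a ∧ 0 ≤ b ∧ a ≤ 2⁻¹ ^ n ∧ b ≤ 2⁻¹ ^ (n * (d + 1)) ∧
      ∃ ψ : E d → ℝ, Integrable ψ ∧ (∀ x, 0 ≤ ψ x) ∧ (∀ x, |φ n x - abs (f x)| ≤ a + ψ x) ∧ ∫ x, ψ x ≤ b) (x : E d) :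
    Tendsto (fun n => ENNReal.ofReal (uu (φ n) (fun _ => 2⁻¹ ^ n) (2 ^ n) x)) atTop
      (𝓝 (uncenteredMax f x)) := by
  have hv := tt_vol_pos (d := d)
  set v := volume.real (Metric.ball (0 : E d) 1) with hvdef
  have key : ∀ (n : ℕ) (y : E d) (r : ℝ), (2⁻¹ : ℝ) ^ n ≤ r →
      |avg (φ n) y r - ttA f y r| ≤ 2⁻¹ ^ n * (1 + 1 / v) := by
    intro n y r hr
    obtain ⟨a, b, ha, hb, ha2, hb2, ψ, hψi, hψ0, hψ, hψb⟩ := hφf n
    have h1 := tt_avg_close hf ((hφ n).integrable_of_hasCompactSupport (hφc n)) hψi hψ0 hψ hψb y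
      (s := 2⁻¹ ^ n) (by (clear * -; positivity)) hr
    refine h1.trans ?_
    have h2 : b / ((2⁻¹ ^ n) ^ d * v) ≤ 2⁻¹ ^ (n * (d + 1)) / ((2⁻¹ ^ n) ^ d * v) := by
      (clear * - hv hb2; gcongr)
    have h3 : (2⁻¹ : ℝ) ^ (n * (d + 1)) / ((2⁻¹ ^ n) ^ d * v) = 2⁻¹ ^ n * (1 / v) := by
      rw [pow_mul, pow_succ]
      field_simp
    rw [← hvdef]
    linarith only [ha2, h2, h3]
  have hc : Tendsto (fun n : ℕ => (2⁻¹ : ℝ) ^ n * (1 + 1 / v)) atTop (𝓝 0) := by
    have h1 : Tendsto (fun n : ℕ => (2⁻¹ : ℝ) ^ n) atTop (𝓝 0) :=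
      tendsto_pow_atTop_nhds_zero_of_lt_one (by norm_num) (by norm_num)
    simpa only [inv_pow, one_div, zero_mul] using h1.mul_const (1 + 1 / v)
  have hR : ∀ n : ℕ, (2⁻¹ : ℝ) ^ n ≤ 2 ^ n := fun n =>
    pow_le_pow_left₀ (by norm_num) (by norm_num) n
  rw [tendsto_order]
  constructor
  · intro a' ha'
    unfold uncenteredMax at ha'
    simp only [lt_iSup_iff] at ha'
    obtain ⟨y, r, hr, hx, h⟩ := ha'
    rw [← tt_A_ofReal hf y hr] at h
    have h1 : Tendsto (fun n : ℕ => ENNReal.ofReal (ttA f y r - 2⁻¹ ^ n * (1 + 1 / v))) atTop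
        (𝓝 (ENNReal.ofReal (ttA f y r))) := by
      apply ENNReal.tendsto_ofReal
      simpa only [inv_pow, one_div, sub_zero] using hc.const_sub (ttA f y r)
    have h2 : ∀ᶠ n : ℕ in atTop, (2⁻¹ : ℝ) ^ n < r :=
      (tendsto_pow_atTop_nhds_zero_of_lt_one (by norm_num) (by norm_num :
        (2⁻¹ : ℝ) < 1)).eventually_lt_const hr
    have h3 : ∀ᶠ n : ℕ in atTop, r ≤ (2 : ℝ) ^ n :=
      (tendsto_pow_atTop_atTop_of_one_lt (by norm_num : (1 : ℝ) < 2)).eventually_ge_atTop r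
    filter_upwards [h1.eventually_const_lt h, h2, h3] with n h4 h5 h6
    refine h4.trans_le (ENNReal.ofReal_le_ofReal ?_)
    have h7 := avg_le_uu (f := φ n) (D := fun _ => 2⁻¹ ^ n) (R := 2 ^ n) (hφ n) (hφc n)
      (x := x) (y := y) (r := r) h5.le h6 (Metric.mem_ball.1 hx).le
    have h8 := abs_le.1 (key n y r h5.le)
    linarith only [h7, h8]
  · intro a' ha'
    have h1 : Tendsto (fun n : ℕ => uncenteredMax f x + ENNReal.ofReal (2⁻¹ ^ n * (1 + 1 / v)))
        atTop (𝓝 (uncenteredMax f x + ENNReal.ofReal 0)) :=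
      (ENNReal.tendsto_ofReal hc).const_add _
    rw [ENNReal.ofReal_zero, add_zero] at h1
    filter_upwards [h1.eventually_lt_const ha'] with n hn
    refine lt_of_le_of_lt ?_ hn
    by_cases htop : uncenteredMax f x = ⊤
    · simp only [inv_pow, htop, one_div, inv_nonneg, Nat.ofNat_nonneg, pow_nonneg, ENNReal.ofReal_mul, Nat.ofNat_pos, pow_pos, ENNReal.ofReal_inv_of_pos, ENNReal.ofReal_pow, ENNReal.ofReal_ofNat, top_add, le_top]
    · rw [← ENNReal.ofReal_toReal htop, ← ENNReal.ofReal_add ENNReal.toReal_nonneg (by (clear * - hv; positivity))]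
      apply ENNReal.ofReal_le_ofReal
      unfold uu
      apply csSup_le
      · exact ⟨_, x, 2 ^ n, hR n, le_rfl, by simp only [dist_self, Nat.ofNat_nonneg, pow_nonneg], rfl⟩
      · rintro t ⟨y, r, hr1, hr2, hr3, rfl⟩
        have hr0 : 0 < r := lt_of_lt_of_le (by (clear * -; positivity)) hr1
        have h8 := abs_le.1 (key n y r hr1)
        have h9 := tt_A_le_max hf y x hr0 hr3
        rw [← ENNReal.ofReal_toReal htop] at h9
        have h10 := (ENNReal.ofReal_le_ofReal_iff ENNReal.toReal_nonneg).1 h9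
        linarith only [h8, h10]

end Vale.Agent.P137.U
end
end

section

section

open MeasureTheory Set Filter Topology
open scoped ENNReal NNReal

namespace Vale.Agent.P137.U

open Vale.Agent.P137

variable {d : ℕ}

/-- Derivative of the average over a ball with respect to the centre. -/
theorem avg_hasFDerivAt {f : E d → ℝ} (hf : ContDiff ℝ 1 f) (hfc : HasCompactSupport f) (r : ℝ)
    (y : E d) :
    HasFDerivAt (fun h => avg f (y + h) r)
      (⨍ w in Metric.closedBall (0 : E d) 1, fderiv ℝ f (y + r • w)) 0 := by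
  have hfd : Continuous (fderiv ℝ f) := hf.continuous_fderiv one_ne_zero
  have hfdc : HasCompactSupport (fderiv ℝ f) := hfc.fderiv ℝ
  obtain ⟨C, hC⟩ := hfdc.exists_bound_of_continuous hfd
  have hB : volume (Metric.closedBall (0 : E d) 1) < ∞ := measure_closedBall_lt_top
  haveI : IsFiniteMeasure (volume.restrict (Metric.closedBall (0 : E d) 1)) :=
    ⟨by rwa [Measure.restrict_apply_univ]⟩
  have key := hasFDerivAt_integral_of_dominated_of_fderiv_le (𝕜 := ℝ)
    (μ := volume.restrict (Metric.closedBall (0 : E d) 1))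
    (F := fun h w => f (y + h + r • w)) (F' := fun h w => fderiv ℝ f (y + h + r • w))
    (x₀ := (0 : E d)) (bound := fun _ => C) (s := univ) univ_mem ?_ ?_ ?_ ?_ ?_ ?_
  · have h2 : HasFDerivAt (fun h => (volume.real (Metric.closedBall (0 : E d) 1))⁻¹ •
        ∫ w in Metric.closedBall (0 : E d) 1, f (y + h + r • w))
        ((volume.real (Metric.closedBall (0 : E d) 1))⁻¹ •
        ∫ w in Metric.closedBall (0 : E d) 1, fderiv ℝ f (y + 0 + r • w)) 0 :=
      key.const_smul (volume.real (Metric.closedBall (0 : E d) 1))⁻¹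
    simp only [avg, setAverage_eq]
    simpa only [smul_eq_mul, add_zero] using h2
  · refine Eventually.of_forall fun h => ?_
    have := hf.continuous
    exact Continuous.aestronglyMeasurable (by fun_prop)
  · have h1 : Integrable f := hf.continuous.integrable_of_hasCompactSupport hfc
    obtain ⟨D, hD⟩ := hfc.exists_bound_of_continuous hf.continuous
    refine (integrable_const D).mono' ?_ (Eventually.of_forall fun w => hD _)
    have := hf.continuous
    exact Continuous.aestronglyMeasurable (by fun_prop)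
  · exact Continuous.aestronglyMeasurable (by fun_prop)
  · exact Eventually.of_forall fun w h _ => hC _
  · exact integrable_const C
  · refine Eventually.of_forall fun w h _ => ?_
    have h1 : HasFDerivAt f (fderiv ℝ f (y + h + r • w)) (y + h + r • w) :=
      (hf.differentiable one_ne_zero _).hasFDerivAt
    have h2 : HasFDerivAt (fun h : E d => y + h + r • w) (ContinuousLinearMap.id ℝ (E d)) h :=
      ((hasFDerivAt_id h).const_add y).add_const _
    have h3 := h1.comp h h2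
    rw [ContinuousLinearMap.comp_id] at h3
    exact h3

theorem volume_closedBall_one_eq (d : ℕ) :
    volume (Metric.closedBall (0 : E d) 1) = volume (Metric.ball (0 : E d) 1) :=
  Measure.addHaar_unitClosedBall_eq_addHaar_unitBall _

theorem enorm_avg_fderiv_le {f : E d → ℝ} (hf : ContDiff ℝ 1 f) {δ₀ r : ℝ} (hδ : 0 < δ₀)
    (hr : δ₀ ≤ r) (y : E d) :
    ‖⨍ w in Metric.closedBall (0 : E d) 1, fderiv ℝ f (y + r • w)‖ₑ ≤
      (∫⁻ z, ‖fderiv ℝ f z‖ₑ) / volume (Metric.ball (0 : E d) δ₀) := by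
  have hfd : Continuous (fderiv ℝ f) := hf.continuous_fderiv one_ne_zero
  have hr0 : 0 < r := hδ.trans_le hr
  have hB : volume (Metric.closedBall (0 : E d) 1) ≠ ∞ := measure_closedBall_lt_top.ne
  have hB0 : volume (Metric.closedBall (0 : E d) 1) ≠ 0 :=
    (Metric.measure_closedBall_pos _ _ one_pos).ne'
  have h1 : ‖⨍ w in Metric.closedBall (0 : E d) 1, fderiv ℝ f (y + r • w)‖ₑ ≤
      (volume (Metric.closedBall (0 : E d) 1))⁻¹ * ∫⁻ w, ‖fderiv ℝ f (y + r • w)‖ₑ := by
    rw [setAverage_eq, enorm_smul]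
    refine mul_le_mul' ?_ ?_
    · rw [← ofReal_norm, norm_inv, Real.norm_of_nonneg measureReal_nonneg, Measure.real,
        ENNReal.ofReal_inv_of_pos (ENNReal.toReal_pos hB0 hB), ENNReal.ofReal_toReal hB]
    · exact (enorm_integral_le_lintegral_enorm _).trans (setLIntegral_le_lintegral _ _)
  refine h1.trans ?_
  have h2 : ∫⁻ w, ‖fderiv ℝ f (y + r • w)‖ₑ =
      ENNReal.ofReal ((r ^ d)⁻¹) * ∫⁻ z, ‖fderiv ℝ f z‖ₑ := by
    have hm : Measurable fun z : E d => ‖fderiv ℝ f (y + z)‖ₑ := by (clear * -; fun_prop)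
    have h3 : ∫⁻ w, ‖fderiv ℝ f (y + r • w)‖ₑ =
        ∫⁻ z, ‖fderiv ℝ f (y + z)‖ₑ ∂(Measure.map (r • ·) (volume : Measure (E d))) :=
      (lintegral_map hm (measurable_const_smul r)).symm
    rw [h3, Measure.map_addHaar_smul _ hr0.ne', lintegral_smul_measure,
      lintegral_add_left_eq_self (fun z => ‖fderiv ℝ f z‖ₑ) y]
    simp only [finrank_euclideanSpace, Fintype.card_fin, smul_eq_mul]
    rw [abs_of_pos (by positivity)]
  rw [h2, ENNReal.div_eq_inv_mul, ← mul_assoc]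
  refine mul_le_mul' ?_ le_rfl
  rw [Measure.addHaar_ball_of_pos _ _ hδ, finrank_euclideanSpace, Fintype.card_fin,
    ENNReal.mul_inv (Or.inl (by simp only [ne_eq, ENNReal.ofReal_eq_zero, not_le, hδ, pow_pos])) (Or.inl (by simp only [ne_eq, ENNReal.ofReal_ne_top, not_false_eq_true])), mul_comm,
    volume_closedBall_one_eq]
  refine mul_le_mul' ?_ le_rfl
  rw [← ENNReal.ofReal_inv_of_pos (by positivity)]
  refine ENNReal.ofReal_le_ofReal ?_
  gcongr

theorem fderiv_uu_large (f : E d → ℝ) (hf : ContDiff ℝ 1 f) (hfc : HasCompactSupport f)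
    (δ₀ δ R : ℝ) (hδ : 0 < δ) (hδ₀ : δ ≤ δ₀) (hR : δ₀ ≤ R) (x : E d)
    (h1 : DifferentiableAt ℝ (uu f (fun _ => δ) R) x)
    (h2 : DifferentiableAt ℝ (uu f (fun _ => δ) δ₀) x) :
    ‖fderiv ℝ (uu f (fun _ => δ) R) x‖ₑ ≤ ‖fderiv ℝ (uu f (fun _ => δ) δ₀) x‖ₑ +
      (∫⁻ z, ‖fderiv ℝ f z‖ₑ) / volume (Metric.ball (0 : E d) δ₀) := by
  obtain ⟨y, r, hr1, hr2, hr3, hr4⟩ := uu_attained (D := fun _ : E d => δ) (R := R) hf.continuous
    hfc continuous_const (fun _ => hδ) (fun _ => hδ₀.trans hR) x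
  rcases le_or_gt r δ₀ with hr | hr
  · refine le_trans (le_of_eq ?_) le_self_add
    congr 1
    have hmin : IsLocalMin (fun z => uu f (fun _ => δ) R z - uu f (fun _ => δ) δ₀ z) x := by
      refine Eventually.of_forall fun z => ?_
      have e1 : uu f (fun _ => δ) R x ≤ uu f (fun _ => δ) δ₀ x := by
        rw [← hr4]
        exact avg_le_uu hf.continuous hfc hr1 hr hr3
      obtain ⟨y', r', hr1', hr2', hr3', hr4'⟩ := uu_attained (D := fun _ : E d => δ) (R := δ₀)
        hf.continuous hfc continuous_const (fun _ => hδ) (fun _ => hδ₀) z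
      have e2 : uu f (fun _ => δ) δ₀ z ≤ uu f (fun _ => δ) R z := by
        rw [← hr4']
        exact avg_le_uu hf.continuous hfc hr1' (hr2'.trans hR) hr3'
      simp only
      linarith only [e1, e2]
    have h3 := hmin.hasFDerivAt_eq_zero (h1.hasFDerivAt.sub h2.hasFDerivAt)
    exact sub_eq_zero.1 h3
  · refine le_trans ?_ le_add_self
    have e1 : HasFDerivAt (fun h => uu f (fun _ => δ) R (x + h))
        (fderiv ℝ (uu f (fun _ => δ) R) x) 0 := by
      have h3 : HasFDerivAt (uu f (fun _ => δ) R) (fderiv ℝ (uu f (fun _ => δ) R) x) (x + 0) := by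
        rw [add_zero]
        exact h1.hasFDerivAt
      have h4 : HasFDerivAt (fun h : E d => x + h) (ContinuousLinearMap.id ℝ (E d)) 0 :=
        (hasFDerivAt_id 0).const_add x
      have h5 := h3.comp 0 h4
      rw [ContinuousLinearMap.comp_id] at h5
      exact h5
    have e2 := avg_hasFDerivAt hf hfc r y
    have hmin : IsLocalMin (fun h => uu f (fun _ => δ) R (x + h) - avg f (y + h) r) 0 := by
      refine Eventually.of_forall fun h => ?_
      simp only [add_zero]
      rw [hr4, sub_self, sub_nonneg]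
      refine avg_le_uu hf.continuous hfc hr1 hr2 ?_
      rwa [dist_add_right]
    have h3 := hmin.hasFDerivAt_eq_zero (e1.sub e2)
    rw [sub_eq_zero.1 h3]
    exact enorm_avg_fderiv_le hf (hδ.trans_le hδ₀) hr.le y

end Vale.Agent.P137.U
end
end

section

section

open MeasureTheory Set Filter Topology
open scoped ENNReal NNReal ContDiff

namespace Vale.Agent.P137.U

open Vale.Agent.P137

variable {d : ℕ}

/-! ### Smoothed absolute value -/

/-- Smoothed absolute value of `φ`. -/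
noncomputable def faS (ε : ℝ) (φ : E d → ℝ) (x : E d) : ℝ := √(φ x ^ 2 + ε ^ 2) - ε

theorem faS_contDiff {ε : ℝ} (hε : 0 < ε) {φ : E d → ℝ} (hφ : ContDiff ℝ ∞ φ) :
    ContDiff ℝ 1 (faS ε φ) := by
  have h1 : ContDiff ℝ 1 φ := hφ.of_le (by exact_mod_cast le_top)
  have h : ContDiff ℝ 1 fun x => φ x ^ 2 + ε ^ 2 := (h1.pow 2).add contDiff_const
  exact (h.sqrt (fun x => by positivity)).sub contDiff_const

theorem faS_compact {ε : ℝ} (hε : 0 < ε) {φ : E d → ℝ} (hφ : HasCompactSupport φ) :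
    HasCompactSupport (faS ε φ) := by
  have h : faS ε φ = (fun t : ℝ => √(t ^ 2 + ε ^ 2) - ε) ∘ φ := rfl
  rw [h]
  apply hφ.comp_left
  simp [Real.sqrt_sq hε.le]

theorem faS_nonneg {ε : ℝ} (φ : E d → ℝ) (x : E d) : 0 ≤ faS ε φ x := by
  unfold faS
  rw [sub_nonneg]
  exact Real.le_sqrt_of_sq_le (by linarith only [sq_nonneg (φ x)])

theorem faS_le {ε : ℝ} (hε : 0 < ε) (φ : E d → ℝ) (x : E d) : faS ε φ x ≤ |φ x| := by
  unfold faS
  rw [sub_le_iff_le_add]
  apply Real.sqrt_le_iff.2 ⟨by positivity, ?_⟩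
  nlinarith only [hε, abs_nonneg (φ x), sq_abs (φ x)]

theorem faS_ge {ε : ℝ} (φ : E d → ℝ) (x : E d) : |φ x| - ε ≤ faS ε φ x := by
  unfold faS
  have : |φ x| ≤ √(φ x ^ 2 + ε ^ 2) := by
    rw [← Real.sqrt_sq_eq_abs]
    exact Real.sqrt_le_sqrt (by linarith only [sq_nonneg ε])
  linarith only [this]

theorem faS_fderiv {ε : ℝ} (hε : 0 < ε) {φ : E d → ℝ} (hφ : ContDiff ℝ ∞ φ) (x : E d) :
    ‖fderiv ℝ (faS ε φ) x‖ ≤ ‖fderiv ℝ φ x‖ := by
  have h1 : HasFDerivAt φ (fderiv ℝ φ x) x :=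
    (hφ.differentiable (by simp)).differentiableAt.hasFDerivAt
  have h2 : HasFDerivAt (fun x => φ x ^ 2 + ε ^ 2) ((2 * φ x) • fderiv ℝ φ x) x := by
    have h := (h1.pow 2).add_const (ε ^ 2)
    have e : (2 • φ x ^ (2 - 1) : ℝ) = 2 * φ x := by simp
    rw [e] at h
    exact h
  have h3 : φ x ^ 2 + ε ^ 2 ≠ 0 := by (clear * - hε; positivity)
  have h4 := (h2.sqrt h3).sub_const ε
  have h5 : fderiv ℝ (faS ε φ) x = (1 / (2 * √(φ x ^ 2 + ε ^ 2))) • ((2 * φ x) • fderiv ℝ φ x) :=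
    h4.fderiv
  rw [h5, smul_smul, norm_smul]
  have h6 : |φ x| ≤ √(φ x ^ 2 + ε ^ 2) := by
    rw [← Real.sqrt_sq_eq_abs]
    exact Real.sqrt_le_sqrt (by linarith only [sq_nonneg ε])
  have h7 : 0 < √(φ x ^ 2 + ε ^ 2) := Real.sqrt_pos.2 (by (clear * - hε; positivity))
  have h8 : ‖1 / (2 * √(φ x ^ 2 + ε ^ 2)) * (2 * φ x)‖ ≤ 1 := by
    rw [Real.norm_eq_abs, abs_mul, abs_of_pos (by (clear * - hε; positivity)), abs_mul, abs_two]
    rw [div_mul_eq_mul_div, div_le_one (by (clear * - hε; positivity))]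
    linarith only [h6]
  calc _ ≤ 1 * ‖fderiv ℝ φ x‖ := by (clear * - h8; gcongr)
    _ = _ := one_mul _

/-! ### Elementary properties of the truncated maximal function -/

theorem fa_lip {F : E d → ℝ} (hF : ContDiff ℝ 1 F) (hc : HasCompactSupport F) :
    ∃ L : ℝ≥0, LipschitzWith L F :=
  hF.lipschitzWith_of_hasCompactSupport hc one_ne_zero

theorem fa_uu_lip {F : E d → ℝ} (hF : ContDiff ℝ 1 F) (hc : HasCompactSupport F) {δ R : ℝ}
    (hδ : 0 < δ) (hR : δ ≤ R) : ∃ L : ℝ≥0, LipschitzWith L (uu F (fun _ => δ) R) := by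
  obtain ⟨L, hL⟩ := fa_lip hF hc
  exact ⟨2 * L, uu_lipschitz (κ := 0) hL hc zero_le_one (LipschitzWith.const δ) (fun _ => hδ)
    (fun _ => hR)⟩

theorem fa_uu_nonneg {F : E d → ℝ} (hF : Continuous F) (hc : HasCompactSupport F)
    (h0 : ∀ x, 0 ≤ F x) {δ R : ℝ} (hδ : 0 < δ) (hR : δ ≤ R) (x : E d) :
    0 ≤ uu F (fun _ => δ) R x := by
  have h1 := avg_le_uu (f := F) (D := fun _ => δ) (R := R) hF hc (x := x) (y := x) (r := R) hR
    le_rfl (by simp only [dist_self]; linarith only [hδ, hR])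
  refine le_trans ?_ h1
  rw [tt_avg_eq F x (hδ.trans_le hR)]
  exact mul_nonneg (inv_nonneg.2 measureReal_nonneg) (integral_nonneg h0)

theorem fa_uu_compact {F : E d → ℝ} (hc : HasCompactSupport F) {δ R : ℝ}
    (hδ : 0 < δ) (hR : δ ≤ R) : HasCompactSupport (uu F (fun _ => δ) R) := by
  obtain ⟨ρ, hρ⟩ := hc.isCompact.isBounded.subset_closedBall (0 : E d)
  apply HasCompactSupport.intro (isCompact_closedBall (0 : E d) (ρ + 2 * R))
  intro x hx
  have h1 : {t | ∃ y r, δ ≤ r ∧ r ≤ R ∧ dist x y ≤ r ∧ avg F y r = t} = {0} := by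
    ext t
    simp only [mem_ofPred_eq, mem_singleton_iff]
    constructor
    · rintro ⟨y, r, h1, h2, h3, rfl⟩
      rw [tt_avg_eq F y (hδ.trans_le h1)]
      have : ∫ z in Metric.closedBall y r, F z = 0 := by
        apply setIntegral_eq_zero_of_forall_eq_zero
        intro z hz
        by_contra hne
        apply hx
        have h4 := hρ (subset_tsupport F (Function.mem_support.2 hne))
        rw [Metric.mem_closedBall] at h4 hz ⊢
        calc dist x 0 ≤ dist x y + dist y z + dist z 0 := dist_triangle4 _ _ _ _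
          _ ≤ r + r + ρ := by
            gcongr
            rw [dist_comm]
            exact hz
          _ ≤ ρ + 2 * R := by linarith only [h2]
      rw [this, mul_zero]
    · rintro rfl
      refine ⟨x, R, hR, le_rfl, by simp only [dist_self]; linarith only [hδ, hR], ?_⟩
      rw [tt_avg_eq F x (hδ.trans_le hR)]
      have : ∫ z in Metric.closedBall x R, F z = 0 := by
        apply setIntegral_eq_zero_of_forall_eq_zero
        intro z hz
        by_contra hne
        apply hx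
        have h4 := hρ (subset_tsupport F (Function.mem_support.2 hne))
        rw [Metric.mem_closedBall] at h4 hz ⊢
        calc dist x 0 ≤ dist x z + dist z 0 := dist_triangle _ _ _
          _ ≤ R + ρ := by
            gcongr
            rw [dist_comm]
            exact hz
          _ ≤ ρ + 2 * R := by linarith only [hδ, hR]
      rw [this, mul_zero]
  unfold uu
  rw [h1, csSup_singleton]

/-- The truncated maximal function of a nonnegative function is below the full one. -/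
theorem fa_uu_le_max {F φ : E d → ℝ} (hF : Integrable F) (hφ : Integrable φ)
    (h : ∀ x, F x ≤ |φ x|) {δ R : ℝ} (hδ : 0 < δ) (hR : δ ≤ R) (x : E d) :
    ENNReal.ofReal (uu F (fun _ => δ) R x) ≤ uncenteredMax φ x := by
  by_cases htop : uncenteredMax φ x = ⊤
  · simp [htop]
  rw [← ENNReal.ofReal_toReal htop]
  apply ENNReal.ofReal_le_ofReal
  unfold uu
  apply csSup_le
  · exact ⟨_, x, R, hR, le_rfl, by simp only [dist_self]; linarith only [hδ, hR], rfl⟩
  · rintro t ⟨y, r, hr1, hr2, hr3, rfl⟩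
    have hr0 : 0 < r := hδ.trans_le hr1
    have h9 := tt_A_le_max hφ y x hr0 hr3
    rw [← ENNReal.ofReal_toReal htop] at h9
    have h10 := (ENNReal.ofReal_le_ofReal_iff ENNReal.toReal_nonneg).1 h9
    refine le_trans ?_ h10
    rw [tt_avg_eq F y hr0, ttA]
    apply mul_le_mul_of_nonneg_left _ (inv_nonneg.2 measureReal_nonneg)
    exact integral_mono hF.restrict hφ.abs.restrict h

/-! ### Sublinearity -/

theorem fa_max_add {f g : E d → ℝ} (hf : Integrable f) (x : E d) :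
    uncenteredMax (fun z => f z + g z) x ≤ uncenteredMax f x + uncenteredMax g x := by
  unfold uncenteredMax
  refine iSup_le fun y => iSup_le fun r => iSup_le fun hr => iSup_le fun hx => ?_
  have h1 : ∫⁻ z in Metric.ball y r, ‖f z + g z‖ₑ ≤
      (∫⁻ z in Metric.ball y r, ‖f z‖ₑ) + ∫⁻ z in Metric.ball y r, ‖g z‖ₑ := by
    rw [← lintegral_add_left' hf.aestronglyMeasurable.restrict.enorm]
    exact lintegral_mono fun z => enorm_add_le _ _
  calc (∫⁻ z in Metric.ball y r, ‖f z + g z‖ₑ) / volume (Metric.ball y r)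
      ≤ ((∫⁻ z in Metric.ball y r, ‖f z‖ₑ) + ∫⁻ z in Metric.ball y r, ‖g z‖ₑ) /
        volume (Metric.ball y r) := by (clear * - h1; gcongr)
    _ = (∫⁻ z in Metric.ball y r, ‖f z‖ₑ) / volume (Metric.ball y r) +
        (∫⁻ z in Metric.ball y r, ‖g z‖ₑ) / volume (Metric.ball y r) := ENNReal.add_div
    _ ≤ _ := by
      gcongr
      · exact le_iSup_of_le y (le_iSup_of_le r (le_iSup_of_le hr (le_iSup_of_le hx le_rfl)))
      · exact le_iSup_of_le y (le_iSup_of_le r (le_iSup_of_le hr (le_iSup_of_le hx le_rfl)))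

theorem fa_max_telescope {φ : ℕ → E d → ℝ} (hφ : ∀ n, Integrable (φ n)) (x : E d) (m : ℕ) :
    uncenteredMax (φ m) x ≤ uncenteredMax (φ 0) x +
      ∑ k ∈ Finset.range m, uncenteredMax (fun z => φ (k + 1) z - φ k z) x := by
  induction m with
  | zero => simp
  | succ m ih =>
    have h1 : φ (m + 1) = fun z => φ m z + (fun z => φ (m + 1) z - φ m z) z := by
      ext z
      simp
    have h2 := fa_max_add (f := φ m) (g := fun z => φ (m + 1) z - φ m z) (hφ m) x
    rw [← h1] at h2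
    rw [Finset.sum_range_succ, ← add_assoc]
    exact h2.trans (by gcongr)

end Vale.Agent.P137.U
end
end

section

section

open MeasureTheory Set Filter Topology
open scoped ENNReal NNReal ContDiff

namespace Vale.Agent.P137.U

open Vale.Agent.P137

variable {d : ℕ}

/-- The scaled core estimate with constants `C`, `C'`. -/
def FaCore (d : ℕ) (C C' : ℝ≥0) : Prop := ∀ (f : E d → ℝ),
    ContDiff ℝ 1 f → HasCompactSupport f → ∀ (δ : ℝ), 0 < δ → ∀ (K : ℕ) (S : Set (E d)),
    MeasurableSet S →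
    ∫⁻ x in S, ‖fderiv ℝ (uu f (fun _ => δ) (2 * 2 ^ K * δ)) x‖ₑ ≤
      C * ∫⁻ x in Metric.thickening (C' * 2 ^ K * δ) S, ‖fderiv ℝ f x‖ₑ

/-- A sequence of smooth compactly supported functions converging quickly to `f` in `L^1`. -/
structure FaApprox (f : E d → ℝ) (φ : ℕ → E d → ℝ) : Prop where
  smooth : ∀ n, ContDiff ℝ ∞ (φ n)
  compact : ∀ n, HasCompactSupport (φ n)
  close : ∀ n, ∫ x, ‖f x - φ n x‖ ≤ 2⁻¹ ^ (n * (d + 1))

/-- The approximating truncated maximal functions. -/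
noncomputable def faU (φ : ℕ → E d → ℝ) (n : ℕ) : E d → ℝ :=
  uu (faS (2⁻¹ ^ n) (φ n)) (fun _ => 2⁻¹ ^ n) (2 ^ n)

theorem fa_pow_le (n : ℕ) : (2⁻¹ : ℝ) ^ n ≤ 2 ^ n :=
  pow_le_pow_left₀ (by norm_num) (by norm_num) n

theorem fa_pow_pos (n : ℕ) : (0 : ℝ) < 2⁻¹ ^ n := by positivity

namespace FaApprox

variable {f : E d → ℝ} {φ : ℕ → E d → ℝ}

theorem integrable (h : FaApprox f φ) (n : ℕ) : Integrable (φ n) :=
  (h.smooth n).continuous.integrable_of_hasCompactSupport (h.compact n)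

theorem tendsto (h : FaApprox f φ) (hf : Integrable f) (x : E d) :
    Tendsto (fun n => ENNReal.ofReal (faU φ n x)) atTop (𝓝 (uncenteredMax f x)) := by
  apply uu_tendsto f hf (fun n => faS (2⁻¹ ^ n) (φ n))
  · exact fun n => (faS_contDiff (fa_pow_pos n) (h.smooth n)).continuous
  · exact fun n => faS_compact (fa_pow_pos n) (h.compact n)
  · exact fun n x => faS_nonneg _ _
  · intro n
    refine ⟨2⁻¹ ^ n, 2⁻¹ ^ (n * (d + 1)), by positivity, by positivity, le_rfl, le_rfl,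
      fun x => ‖f x - φ n x‖, (hf.sub (h.integrable n)).norm, fun x => norm_nonneg _, ?_,
      h.close n⟩
    intro x
    have h1 := faS_le (fa_pow_pos n) (φ n) x
    have h2 := faS_ge (ε := 2⁻¹ ^ n) (φ n) x
    have h3 : |abs (φ n x) - abs (f x)| ≤ ‖f x - φ n x‖ := by
      rw [Real.norm_eq_abs, abs_sub_comm (f x)]
      exact abs_abs_sub_abs_le _ _
    have h4 := abs_le.1 h3
    have h5 := fa_pow_pos n
    rw [abs_le]
    constructor <;> linarith only [h1, h5, h4.2, h2, h4.1]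

theorem lip (h : FaApprox f φ) (n : ℕ) : ∃ L : ℝ≥0, LipschitzWith L (faU φ n) :=
  fa_uu_lip (faS_contDiff (fa_pow_pos n) (h.smooth n)) (faS_compact (fa_pow_pos n) (h.compact n))
    (fa_pow_pos n) (fa_pow_le n)

theorem cont (h : FaApprox f φ) (n : ℕ) : Continuous (faU φ n) := by
  obtain ⟨L, hL⟩ := h.lip n
  exact hL.continuous

theorem compactU (h : FaApprox f φ) (n : ℕ) : HasCompactSupport (faU φ n) :=
  fa_uu_compact (faS_compact (fa_pow_pos n) (h.compact n)) (fa_pow_pos n) (fa_pow_le n)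

theorem nonneg (h : FaApprox f φ) (n : ℕ) (x : E d) : 0 ≤ faU φ n x :=
  fa_uu_nonneg (faS_contDiff (fa_pow_pos n) (h.smooth n)).continuous
    (faS_compact (fa_pow_pos n) (h.compact n)) (fun _ => faS_nonneg _ _) (fa_pow_pos n)
    (fa_pow_le n) x

theorem measurable (h : FaApprox f φ) (hf : Integrable f) : Measurable (uncenteredMax f) :=
  measurable_of_tendsto_metrizable (fun n => (ENNReal.measurable_ofReal.comp (h.cont n).measurable))
    (tendsto_pi_nhds.2 fun x => h.tendsto hf x)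

theorem le_max (h : FaApprox f φ) (n : ℕ) (x : E d) :
    ENNReal.ofReal (faU φ n x) ≤ uncenteredMax (φ n) x :=
  fa_uu_le_max ((faS_contDiff (fa_pow_pos n) (h.smooth n)).continuous.integrable_of_hasCompactSupport
    (faS_compact (fa_pow_pos n) (h.compact n))) (h.integrable n)
    (fun x => faS_le (fa_pow_pos n) (φ n) x) (fa_pow_pos n) (fa_pow_le n) x

/-- Integral of the gradient of the smoothed absolute value. -/
theorem lintegral_faS (h : FaApprox f φ) (n : ℕ) (μ : Measure (E d)) :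
    ∫⁻ x, ‖fderiv ℝ (faS (2⁻¹ ^ n) (φ n)) x‖ₑ ∂μ ≤ ∫⁻ x, ‖fderiv ℝ (φ n) x‖ₑ ∂μ := by
  apply lintegral_mono
  intro x
  rw [enorm_le_iff_norm_le]
  exact faS_fderiv (fa_pow_pos n) (h.smooth n) x

theorem grad_bound {C C' : ℝ≥0} (hC : FaCore d C C') (h : FaApprox f φ) (n : ℕ) (hn : 1 ≤ n) :
    ∫⁻ x, ‖fderiv ℝ (faU φ n) x‖ₑ ≤ C * ∫⁻ x, ‖fderiv ℝ (φ n) x‖ₑ := by
  have h1 := hC (faS (2⁻¹ ^ n) (φ n)) (faS_contDiff (fa_pow_pos n) (h.smooth n))
    (faS_compact (fa_pow_pos n) (h.compact n)) (2⁻¹ ^ n) (fa_pow_pos n) (2 * n - 1) univ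
    MeasurableSet.univ
  have h2 : (2 : ℝ) * 2 ^ (2 * n - 1) * 2⁻¹ ^ n = 2 ^ n := by
    rw [← pow_succ', show 2 * n - 1 + 1 = n + n by omega, pow_add, mul_assoc, ← mul_pow]
    norm_num
  rw [h2, Measure.restrict_univ] at h1
  refine h1.trans ?_
  exact mul_le_mul_right ((setLIntegral_le_lintegral _ _).trans (h.lintegral_faS n volume)) _

theorem ball_bound (hd : 0 < d) {C C' : ℝ≥0} (hC : FaCore d C C') (h : FaApprox f φ)
    (hf : Integrable f) {B : ℝ≥0∞} (hB : ∀ n, ∫⁻ x, ‖fderiv ℝ (φ n) x‖ₑ ≤ B) {R : ℝ}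
    (hR : 0 < R) :
    ∫⁻ x in Metric.ball (0 : E d) R, uncenteredMax f x ≤ ENNReal.ofReal R * (C * B) := by
  have h1 : ∀ x, uncenteredMax f x = liminf (fun n => ENNReal.ofReal (faU φ n x)) atTop :=
    fun x => (h.tendsto hf x).liminf_eq.symm
  calc ∫⁻ x in Metric.ball (0 : E d) R, uncenteredMax f x
      = ∫⁻ x in Metric.ball (0 : E d) R, liminf (fun n => ENNReal.ofReal (faU φ n x)) atTop :=
        lintegral_congr fun x => h1 x
    _ ≤ liminf (fun n => ∫⁻ x in Metric.ball (0 : E d) R, ENNReal.ofReal (faU φ n x)) atTop :=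
        lintegral_liminf_le fun n => ENNReal.measurable_ofReal.comp (h.cont n).measurable
    _ ≤ ENNReal.ofReal R * (C * B) := by
        apply liminf_le_of_le
        · exact isBoundedUnder_of ⟨0, fun _ => bot_le⟩
        · intro b hb
          obtain ⟨n, hn1, hn2⟩ := (hb.and (eventually_ge_atTop 1)).exists
          refine hn1.trans ?_
          obtain ⟨L, hL⟩ := h.lip n
          have h2 := slab_bound hd (faU φ n) L hL (h.compactU n) (h.nonneg n) R hR
          have h3 : ∫⁻ x in Metric.ball (0 : E d) R, ENNReal.ofReal (faU φ n x) =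
              ∫⁻ x in Metric.ball (0 : E d) R, ‖faU φ n x‖ₑ := by
            apply lintegral_congr
            intro x
            rw [Real.enorm_of_nonneg (h.nonneg n x)]
          rw [h3]
          refine h2.trans ?_
          gcongr
          refine (h.grad_bound hC n hn2).trans ?_
          gcongr
          exact hB n

end FaApprox

theorem faApprox_const {φ : E d → ℝ} (h1 : ContDiff ℝ ∞ φ) (h2 : HasCompactSupport φ) :
    FaApprox φ (fun _ => φ) where
  smooth _ := h1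
  compact _ := h2
  close n := by simp only [sub_self, norm_zero, integral_zero, inv_pow, inv_nonneg, Nat.ofNat_nonneg, pow_nonneg]

theorem fa_ball_smooth (hd : 0 < d) {C C' : ℝ≥0} (hC : FaCore d C C') {φ : E d → ℝ}
    (h1 : ContDiff ℝ ∞ φ) (h2 : HasCompactSupport φ) {R : ℝ} (hR : 0 < R) :
    ∫⁻ x in Metric.ball (0 : E d) R, uncenteredMax φ x ≤
      ENNReal.ofReal R * (C * ∫⁻ x, ‖fderiv ℝ φ x‖ₑ) :=
  (faApprox_const h1 h2).ball_bound hd hC (h1.continuous.integrable_of_hasCompactSupport h2)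
    (fun _ => le_rfl) hR

theorem fa_measurable_smooth {φ : E d → ℝ}
    (h1 : ContDiff ℝ ∞ φ) (h2 : HasCompactSupport φ) : Measurable (uncenteredMax φ) :=
  (faApprox_const h1 h2).measurable (h1.continuous.integrable_of_hasCompactSupport h2)

namespace FaApprox

variable {f : E d → ℝ} {φ : ℕ → E d → ℝ}

/-- The dominating function. -/
theorem dominate (h : FaApprox f φ) (n : ℕ) (x : E d) :
    ENNReal.ofReal (faU φ n x) ≤ uncenteredMax (φ 0) x +
      ∑' k, uncenteredMax (fun z => φ (k + 1) z - φ k z) x :=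
  (h.le_max n x).trans ((fa_max_telescope h.integrable x n).trans (by
    gcongr
    exact ENNReal.sum_le_tsum _))

theorem dominate_lt (hd : 0 < d) {C C' : ℝ≥0} (hC : FaCore d C C') (h : FaApprox f φ)
    (hsum : ∑' k, ∫⁻ x, ‖fderiv ℝ (fun z => φ (k + 1) z - φ k z) x‖ₑ ≠ ⊤) {R : ℝ}
    (hR : 0 < R) :
    ∫⁻ x in Metric.ball (0 : E d) R, (uncenteredMax (φ 0) x +
      ∑' k, uncenteredMax (fun z => φ (k + 1) z - φ k z) x) ≠ ⊤ := by
  have hs : ∀ k, ContDiff ℝ ∞ (fun z => φ (k + 1) z - φ k z) := fun k =>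
    (h.smooth (k + 1)).sub (h.smooth k)
  have hc : ∀ k, HasCompactSupport (fun z => φ (k + 1) z - φ k z) := fun k =>
    (h.compact (k + 1)).sub (h.compact k)
  rw [lintegral_add_left (fa_measurable_smooth (h.smooth 0) (h.compact 0)),
    lintegral_tsum fun k => (fa_measurable_smooth (hs k) (hc k)).aemeasurable]
  have h1 : ∫⁻ x in Metric.ball (0 : E d) R, uncenteredMax (φ 0) x ≠ ⊤ := by
    refine ne_top_of_le_ne_top ?_ (fa_ball_smooth hd hC (h.smooth 0) (h.compact 0) hR)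
    apply ENNReal.mul_ne_top ENNReal.ofReal_ne_top
    apply ENNReal.mul_ne_top ENNReal.coe_ne_top
    have h2 : Integrable (fderiv ℝ (φ 0)) :=
      ((h.smooth 0).continuous_fderiv (by simp)).integrable_of_hasCompactSupport
        ((h.compact 0).fderiv ℝ)
    exact h2.2.ne
  have h2 : ∑' k, ∫⁻ x in Metric.ball (0 : E d) R,
      uncenteredMax (fun z => φ (k + 1) z - φ k z) x ≠ ⊤ := by
    have h3 : ∑' k, ∫⁻ x in Metric.ball (0 : E d) R,
        uncenteredMax (fun z => φ (k + 1) z - φ k z) x ≤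
        ∑' k, ENNReal.ofReal R * (C * ∫⁻ x, ‖fderiv ℝ (fun z => φ (k + 1) z - φ k z) x‖ₑ) :=
      ENNReal.tsum_le_tsum fun k => fa_ball_smooth hd hC (hs k) (hc k) hR
    refine ne_top_of_le_ne_top ?_ h3
    rw [ENNReal.tsum_mul_left, ENNReal.tsum_mul_left]
    exact ENNReal.mul_ne_top ENNReal.ofReal_ne_top (ENNReal.mul_ne_top ENNReal.coe_ne_top hsum)
  exact ENNReal.add_ne_top.2 ⟨h1, h2⟩

theorem ae_lt_top (hd : 0 < d) {C C' : ℝ≥0} (hC : FaCore d C C') (h : FaApprox f φ)
    (hf : Integrable f) {B : ℝ≥0∞} (hB : ∀ n, ∫⁻ x, ‖fderiv ℝ (φ n) x‖ₑ ≤ B) (hB' : B ≠ ⊤) :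
    ∀ᵐ x, uncenteredMax f x < ⊤ := by
  have h1 : ∀ k : ℕ, ∀ᵐ x : E d, x ∈ Metric.ball (0 : E d) (k + 1) → uncenteredMax f x < ⊤ := by
    intro k
    rw [← ae_restrict_iff' measurableSet_ball]
    apply MeasureTheory.ae_lt_top (h.measurable hf)
    refine ne_top_of_le_ne_top ?_ (h.ball_bound hd hC hf hB (by (clear * -; positivity)))
    exact ENNReal.mul_ne_top ENNReal.ofReal_ne_top (ENNReal.mul_ne_top ENNReal.coe_ne_top hB')
  rw [← ae_all_iff] at h1
  filter_upwards [h1] with x hx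
  obtain ⟨k, hk⟩ := exists_nat_gt ‖x‖
  apply hx k
  rw [mem_ball_zero_iff]
  linarith only [hk]

theorem L1 (hd : 0 < d) {C C' : ℝ≥0} (hC : FaCore d C C') (h : FaApprox f φ)
    (hf : Integrable f) {B : ℝ≥0∞} (hB : ∀ n, ∫⁻ x, ‖fderiv ℝ (φ n) x‖ₑ ≤ B) (hB' : B ≠ ⊤)
    (hsum : ∑' k, ∫⁻ x, ‖fderiv ℝ (fun z => φ (k + 1) z - φ k z) x‖ₑ ≠ ⊤) (R : ℝ) :
    Tendsto (fun n => ∫⁻ x in Metric.ball (0 : E d) R,
      ‖faU φ n x - (uncenteredMax f x).toReal‖ₑ) atTop (𝓝 0) := by
  rcases le_or_gt R 0 with hR | hR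
  · simp only [Metric.ball_eq_empty.2 hR, Measure.restrict_empty, lintegral_zero_measure, tendsto_const_nhds_iff]
  set Φ : E d → ℝ≥0∞ := fun x => uncenteredMax (φ 0) x +
      ∑' k, uncenteredMax (fun z => φ (k + 1) z - φ k z) x with hΦ
  have hΦm : Measurable Φ := by
    apply (fa_measurable_smooth (h.smooth 0) (h.compact 0)).add
    apply Measurable.tsum
    intro k
    exact fa_measurable_smooth ((h.smooth (k + 1)).sub (h.smooth k))
      ((h.compact (k + 1)).sub (h.compact k))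
  have h1 : Tendsto (fun n => ∫⁻ x in Metric.ball (0 : E d) R,
      ‖faU φ n x - (uncenteredMax f x).toReal‖ₑ) atTop
      (𝓝 (∫⁻ x in Metric.ball (0 : E d) R, 0)) := by
    apply tendsto_lintegral_of_dominated_convergence (fun x => Φ x + Φ x)
    · intro n
      exact ((h.cont n).measurable.sub (h.measurable hf).ennreal_toReal).enorm
    · intro n
      apply Eventually.of_forall
      intro x
      calc ‖faU φ n x - (uncenteredMax f x).toReal‖ₑ
          ≤ ‖faU φ n x‖ₑ + ‖(uncenteredMax f x).toReal‖ₑ := enorm_sub_le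
        _ ≤ Φ x + Φ x := by
          gcongr
          · rw [Real.enorm_of_nonneg (h.nonneg n x)]
            exact h.dominate n x
          · rw [Real.enorm_of_nonneg ENNReal.toReal_nonneg]
            refine ENNReal.ofReal_toReal_le.trans ?_
            exact le_of_tendsto' (h.tendsto hf x) fun n => h.dominate n x
    · rw [lintegral_add_left hΦm]
      have := h.dominate_lt hd hC hsum hR
      exact ENNReal.add_ne_top.2 ⟨this, this⟩
    · apply ae_restrict_of_ae
      filter_upwards [h.ae_lt_top hd hC hf hB hB'] with x hx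
      have h2 : Tendsto (fun n => faU φ n x) atTop (𝓝 (uncenteredMax f x).toReal) := by
        have h3 := (ENNReal.tendsto_toReal hx.ne).comp (h.tendsto hf x)
        refine h3.congr fun n => ?_
        exact ENNReal.toReal_ofReal (h.nonneg n x)
      have h3 : Tendsto (fun n => faU φ n x - (uncenteredMax f x).toReal) atTop (𝓝 0) := by
        simpa only [sub_self] using h2.sub_const (uncenteredMax f x).toReal
      have h4 := (continuous_enorm.tendsto (0 : ℝ)).comp h3
      rw [enorm_zero] at h4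
      exact h4
  simpa only [lintegral_const, MeasurableSet.univ, Measure.restrict_apply, univ_inter, zero_mul] using h1

end FaApprox

end Vale.Agent.P137.U
end
end

section

section

open MeasureTheory Set Filter Topology Metric
open scoped ENNReal NNReal ContDiff Convolution

namespace Vale.Agent.P137.U

open Vale.Agent.P137

variable {d : ℕ}

section Mollify

variable {F : Type*} [NormedAddCommGroup F] [NormedSpace ℝ F]

/-- Mollification by a normalised bump function. -/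
noncomputable def mol (φ : ContDiffBump (0 : E d)) (h : E d → F) : E d → F :=
  φ.normed volume ⋆[ContinuousLinearMap.lsmul ℝ ℝ, volume] h

theorem mol_apply (φ : ContDiffBump (0 : E d)) (h : E d → F) (x : E d) :
    mol φ h x = ∫ t, φ.normed volume t • h (x - t) := rfl

theorem mol_integrable (φ : ContDiffBump (0 : E d)) {h : E d → F} (hh : Integrable h) :
    Integrable (mol φ h) :=
  φ.integrable_normed.integrable_convolution _ hh

theorem mol_exists (φ : ContDiffBump (0 : E d)) {h : E d → F} (hh : LocallyIntegrable h) :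
    ConvolutionExists (φ.normed volume) h (ContinuousLinearMap.lsmul ℝ ℝ) volume :=
  φ.hasCompactSupport_normed.convolutionExists_left _ φ.continuous_normed hh

theorem mol_l1 (φ : ContDiffBump (0 : E d)) {u : E d → F} (hu : Integrable u) :
    ∫ x, ‖mol φ u x‖ ≤ ∫ x, ‖u x‖ := by
  have h1 : ∀ x, ‖mol φ u x‖ ≤ mol φ (fun y => ‖u y‖) x := by
    intro x
    rw [mol_apply, mol_apply]
    refine (norm_integral_le_integral_norm _).trans (le_of_eq ?_)
    congr 1
    funext t
    rw [norm_smul, smul_eq_mul, Real.norm_of_nonneg (φ.nonneg_normed t)]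
  have h2 : ∫ x, mol φ (fun y => ‖u y‖) x = ∫ x, ‖u x‖ := by
    have := integral_convolution (ContinuousLinearMap.lsmul ℝ ℝ) (μ := (volume : Measure (E d)))
      (ν := (volume : Measure (E d))) (f := φ.normed volume) φ.integrable_normed hu.norm
    rw [φ.integral_normed, ContinuousLinearMap.lsmul_apply, one_smul] at this
    exact this
  rw [← h2]
  exact integral_mono (mol_integrable φ hu).norm (mol_integrable φ hu.norm) h1

theorem mol_l1_tendsto [CompleteSpace F] {h : E d → F} (hh : Integrable h) {ε : ℝ} (hε : 0 < ε) :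
    ∃ δ > 0, ∀ φ : ContDiffBump (0 : E d), φ.rOut ≤ δ → ∫ x, ‖h x - mol φ h x‖ ≤ ε := by
  obtain ⟨k, hkc, hk, hkcont, hki⟩ := hh.exists_hasCompactSupport_integral_sub_le
    (show 0 < ε / 3 by positivity)
  set K := cthickening 1 (tsupport k) with hK
  have hKc : IsCompact K := hkc.isCompact.cthickening
  have hKfin : volume K ≠ ⊤ := hKc.measure_ne_top
  set η : ℝ := ε / 3 / (volume.real K + 1) with hη
  have hvol : 0 ≤ volume.real K := measureReal_nonneg
  have hη0 : 0 < η := by (clear * - hε; positivity)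
  obtain ⟨δ, hδ, hunif⟩ := Metric.uniformContinuous_iff.1
    (hkc.uniformContinuous_of_continuous hkcont) η hη0
  refine ⟨min δ 1, by (clear * - hδ; positivity), fun φ hφ => ?_⟩
  have hφ1 : φ.rOut ≤ δ := hφ.trans (min_le_left _ _)
  have hφ2 : φ.rOut ≤ 1 := hφ.trans (min_le_right _ _)
  have hsub : mol φ h = fun x => mol φ (fun y => h y - k y) x + mol φ k x := by
    have e := (mol_exists φ (hh.sub hki).locallyIntegrable).distrib_add
      (mol_exists φ hki.locallyIntegrable)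
    have e2 : (h - k) + k = h := sub_add_cancel _ _
    funext x
    have := congrFun e x
    rw [e2] at this
    exact this
  have hb : ∀ x, ‖mol φ k x - k x‖ ≤ K.indicator (fun _ => η) x := by
    intro x
    rw [← dist_eq_norm]
    by_cases hx : x ∈ K
    · rw [indicator_of_mem hx]
      refine φ.dist_normed_convolution_le hkcont.aestronglyMeasurable fun y hy => ?_
      exact (hunif (lt_of_lt_of_le (mem_ball.1 hy) hφ1)).le
    · rw [indicator_of_notMem hx]
      refine φ.dist_normed_convolution_le hkcont.aestronglyMeasurable fun y hy => ?_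
      have hx' : x ∉ tsupport k := fun h => hx (self_subset_cthickening _ h)
      have hy' : y ∉ tsupport k := by
        intro h
        apply hx
        refine mem_cthickening_of_dist_le x y 1 _ h ?_
        rw [dist_comm]
        exact (mem_ball.1 hy).le.trans hφ2
      rw [image_eq_zero_of_notMem_tsupport hx', image_eq_zero_of_notMem_tsupport hy', dist_self]
  have hind : Integrable (K.indicator (fun _ => η) : E d → ℝ) :=
    (integrable_indicator_iff hKc.measurableSet).2 (integrableOn_const hKfin)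
  have h3 : ∫ x, ‖mol φ k x - k x‖ ≤ ε / 3 := by
    refine (integral_mono ((mol_integrable φ hki).sub hki).norm hind hb).trans ?_
    rw [integral_indicator hKc.measurableSet, setIntegral_const, smul_eq_mul, hη]
    rw [mul_div_assoc', div_le_iff₀ (by (clear * -; positivity))]
    linarith only [hε]
  have h4 : ∫ x, ‖mol φ (fun y => h y - k y) x‖ ≤ ε / 3 := (mol_l1 φ (hh.sub hki)).trans hk
  have hi1 : Integrable (fun x => ‖h x - k x‖) := (hh.sub hki).norm
  have hi2 : Integrable (fun x => ‖mol φ (fun y => h y - k y) x‖) :=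
    (mol_integrable φ (hh.sub hki)).norm
  have hi3 : Integrable (fun x => ‖mol φ k x - k x‖) := ((mol_integrable φ hki).sub hki).norm
  calc ∫ x, ‖h x - mol φ h x‖
      ≤ ∫ x, (‖h x - k x‖ + ‖mol φ (fun y => h y - k y) x‖ + ‖mol φ k x - k x‖) := by
        refine integral_mono (hh.sub (mol_integrable φ hh)).norm ((hi1.add hi2).add hi3) fun x => ?_
        have e : h x - mol φ h x = (h x - k x) - mol φ (fun y => h y - k y) x
            - (mol φ k x - k x) := by
          have e3 : mol φ h x = mol φ (fun y => h y - k y) x + mol φ k x := congrFun hsub x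
          rw [e3]; abel
        simp only [e]
        refine (norm_sub_le _ _).trans ?_
        gcongr
        exact norm_sub_le _ _
    _ = (∫ x, ‖h x - k x‖) + (∫ x, ‖mol φ (fun y => h y - k y) x‖) +
        ∫ x, ‖mol φ k x - k x‖ := by
        have e1 := integral_add (hi1.add hi2) hi3
        have e2 := integral_add hi1 hi2
        simp only [Pi.add_apply] at e1 e2
        rw [e1, e2]
    _ ≤ ε := by linarith only [hk, h3, h4]

end Mollify

section Grad

theorem single_inner (v : E d) (i : Fin d) :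
    inner ℝ v (EuclideanSpace.single i (1 : ℝ)) = v i := by
  rw [EuclideanSpace.inner_single_right]; simp

theorem gradient_apply (f : E d → ℝ) (x : E d) (i : Fin d) :
    gradient f x i = fderiv ℝ f x (EuclideanSpace.single i 1) := by
  rw [← single_inner (gradient f x) i, gradient, InnerProductSpace.toDual_symm_apply]

theorem mol_grad {f : E d → ℝ} {g : E d → E d} (hw : IsWeakGradient f g)
    (φ : ContDiffBump (0 : E d)) (x : E d) : gradient (mol φ f) x = mol φ g x := by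
  obtain ⟨hf, hg, hw⟩ := hw
  set ρ := φ.normed (volume : Measure (E d)) with hρ
  have hρs : ContDiff ℝ ∞ ρ := φ.contDiff_normed
  have hρc : HasCompactSupport ρ := φ.hasCompactSupport_normed
  have hD := (hρc.hasFDerivAt_convolution_left (ContinuousLinearMap.lsmul ℝ ℝ)
    (hρs.of_le (by norm_cast)) hf x).fderiv
  ext i
  rw [gradient_apply]
  have h1 : fderiv ℝ (mol φ f) x = (fderiv ℝ ρ ⋆[(ContinuousLinearMap.lsmul ℝ ℝ).precompL (E d),
    volume] f) x := hD
  rw [h1, convolution_def]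
  have hex : Integrable (fun t => ((ContinuousLinearMap.lsmul ℝ ℝ).precompL (E d))
      (fderiv ℝ ρ t) (f (x - t))) := by
    have := (hρc.fderiv ℝ).convolutionExists_left
      ((ContinuousLinearMap.lsmul ℝ ℝ).precompL (E d))
      (hρs.continuous_fderiv (by norm_cast)) hf x
    exact this
  rw [ContinuousLinearMap.integral_apply hex]
  -- the test function
  set ψ : E d → ℝ := fun y => ρ (x - y) with hψ
  have hψs : ContDiff ℝ ∞ ψ := hρs.comp (contDiff_const.sub contDiff_id)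
  have hψc : HasCompactSupport ψ := hρc.comp_homeomorph (Homeomorph.subLeft x)
  have hψd : ∀ y v, fderiv ℝ ψ y v = - fderiv ℝ ρ (x - y) v := by
    intro y v
    have h2 : HasFDerivAt (fun y : E d => x - y) (-(ContinuousLinearMap.id ℝ (E d))) y :=
      (hasFDerivAt_id y).const_sub x
    have h3 := ((hρs.differentiable (by norm_cast)) (x - y)).hasFDerivAt.comp y h2
    have h4 : fderiv ℝ ψ y = (fderiv ℝ ρ (x - y)).comp (-(ContinuousLinearMap.id ℝ (E d))) :=
      h3.fderiv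
    rw [h4]; simp
  have h5 := hw ψ hψs hψc i
  have h6 : ∫ t, (((ContinuousLinearMap.lsmul ℝ ℝ).precompL (E d)) (fderiv ℝ ρ t) (f (x - t)))
      (EuclideanSpace.single i 1) = ∫ y, f y * fderiv ℝ ρ (x - y) (EuclideanSpace.single i 1) := by
    rw [← integral_sub_left_eq_self _ _ x]
    congr 1
    funext t
    simp only [sub_sub_cancel, ContinuousLinearMap.precompL_apply, ContinuousLinearMap.lsmul_apply, smul_eq_mul, mul_comm]
  rw [h6]
  have h7 : ∫ y, f y * fderiv ℝ ρ (x - y) (EuclideanSpace.single i 1) = ∫ y, g y i * ψ y := by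
    have : ∀ y, f y * fderiv ℝ ρ (x - y) (EuclideanSpace.single i 1) =
        -(f y * fderiv ℝ ψ y (EuclideanSpace.single i 1)) := by
      intro y; rw [hψd]; ring
    simp_rw [this]
    rw [integral_neg, h5, neg_neg]
  rw [h7, mol_apply]
  have hex2 : Integrable (fun t => ρ t • g (x - t)) := mol_exists φ hg x
  have h8 : (∫ t, ρ t • g (x - t)) i = ∫ t, (ρ t • g (x - t)) i := by
    have := (EuclideanSpace.proj i : E d →L[ℝ] ℝ).integral_comp_comm hex2
    exact this.symm
  rw [h8, ← integral_sub_left_eq_self _ _ x]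
  congr 1
  funext t
  simp [hψ, mul_comm]

end Grad

section Cutoff

/-- the basic cutoff function -/
noncomputable def cut0 (d : ℕ) : ContDiffBump (0 : E d) := ⟨1, 2, one_pos, one_lt_two⟩

/-- the rescaled cutoff functions -/
noncomputable def cut (n : ℕ) (x : E d) : ℝ := cut0 d (((n : ℝ) + 1)⁻¹ • x)

theorem cut_contDiff (n : ℕ) : ContDiff ℝ ∞ (cut n : E d → ℝ) :=
  (cut0 d).contDiff.comp (contDiff_const_smul _)

theorem cut_compact (n : ℕ) : HasCompactSupport (cut n : E d → ℝ) :=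
  (cut0 d).hasCompactSupport.comp_smul (inv_ne_zero (by positivity))

theorem cut_nonneg (n : ℕ) (x : E d) : 0 ≤ cut n x := (cut0 d).nonneg

theorem cut_le_one (n : ℕ) (x : E d) : cut n x ≤ 1 := (cut0 d).le_one

theorem cut_eq_one {n : ℕ} {x : E d} (h : ‖x‖ ≤ n + 1) : cut n x = 1 := by
  apply (cut0 d).one_of_mem_closedBall
  rw [mem_closedBall, dist_zero_right, norm_smul, norm_inv, Real.norm_of_nonneg (by positivity)]
  rw [inv_mul_le_iff₀ (by positivity)]
  change ‖x‖ ≤ (n + 1) * 1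
  linarith only [h]

theorem exists_cut_grad : ∃ C : ℝ, 0 ≤ C ∧ ∀ (n : ℕ) (x : E d),
    ‖gradient (cut n) x‖ ≤ C * ((n : ℝ) + 1)⁻¹ := by
  obtain ⟨C, hC⟩ := ((cut0 d).hasCompactSupport.fderiv ℝ).exists_bound_of_continuous
    (((cut0 d).contDiff (n := 1)).continuous_fderiv one_ne_zero)
  refine ⟨C, (norm_nonneg _).trans (hC 0), fun n x => ?_⟩
  rw [gradient, LinearIsometryEquiv.norm_map]
  have h1 : HasFDerivAt (fun y : E d => ((n : ℝ) + 1)⁻¹ • y)
      (((n : ℝ) + 1)⁻¹ • ContinuousLinearMap.id ℝ (E d)) x :=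
    (hasFDerivAt_id (𝕜 := ℝ) x).fun_const_smul (((n : ℝ) + 1)⁻¹)
  have h2 := (((cut0 d).contDiff (n := 1)).differentiable one_ne_zero
    (((n : ℝ) + 1)⁻¹ • x)).hasFDerivAt.comp x h1
  have h3 : fderiv ℝ (cut n) x = (fderiv ℝ (cut0 d) (((n : ℝ) + 1)⁻¹ • x)).comp
      (((n : ℝ) + 1)⁻¹ • ContinuousLinearMap.id ℝ (E d)) := h2.fderiv
  rw [h3, ContinuousLinearMap.comp_smul, norm_smul, ContinuousLinearMap.comp_id, norm_inv,
    Real.norm_of_nonneg (by (clear * -; positivity) : (0:ℝ) ≤ n + 1), mul_comm]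
  gcongr
  exact hC _

/-- the weak gradient of the product with a cutoff function -/
theorem weak_mul {f : E d → ℝ} {g : E d → E d} (hw : IsWeakGradient f g) {χ : E d → ℝ}
    (hχ : ContDiff ℝ ∞ χ) :
    IsWeakGradient (fun x => χ x * f x) (fun x => χ x • g x + f x • gradient χ x) := by
  obtain ⟨hf, hg, hw⟩ := hw
  have hχc : Continuous χ := hχ.continuous
  have hgχ : Continuous (gradient χ) :=
    (InnerProductSpace.toDual ℝ (E d)).symm.continuous.comp (hχ.continuous_fderiv (by norm_cast))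
  have hf' : LocallyIntegrable (fun x => χ x * f x) := by
    have := hf.continuous_smul hχc
    exact this
  have hg1 : LocallyIntegrable (fun x => χ x • g x) := hg.continuous_smul hχc
  have hg2 : LocallyIntegrable (fun x => f x • gradient χ x) := hf.smul_continuous hgχ
  refine ⟨hf', hg1.add hg2, fun φ hφ hφc i => ?_⟩
  have hφ0 : Continuous φ := hφ.continuous
  have hφ1 : Continuous (fun x => fderiv ℝ φ x (EuclideanSpace.single i 1)) :=
    (hφ.continuous_fderiv (by norm_cast)).clm_apply continuous_const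
  have hφ1c : HasCompactSupport (fun x => fderiv ℝ φ x (EuclideanSpace.single i 1)) :=
    (hφc.fderiv ℝ).mono (fun x hx h => hx (by simp only [h]; rfl))
  have key := hw (fun x => χ x * φ x) (hχ.mul hφ) (hφc.mul_left) i
  have hd : ∀ x, fderiv ℝ (fun x => χ x * φ x) x (EuclideanSpace.single i 1) =
      χ x * fderiv ℝ φ x (EuclideanSpace.single i 1) + φ x * gradient χ x i := by
    intro x
    rw [fderiv_fun_mul ((hχ.differentiable (by norm_cast)) x)
      ((hφ.differentiable (by norm_cast)) x), gradient_apply]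
    simp
  simp only [hd] at key
  have hi1 : Integrable (fun x => f x * (χ x * fderiv ℝ φ x (EuclideanSpace.single i 1))) := by
    have := hf.integrable_smul_left_of_hasCompactSupport (hχc.mul hφ1) (hφ1c.mul_left)
    simpa only [Pi.mul_apply, smul_eq_mul, mul_comm] using this
  have hgi : Continuous fun x => gradient χ x i :=
    (EuclideanSpace.proj i : E d →L[ℝ] ℝ).continuous.comp hgχ
  have hi2 : Integrable (fun x => f x * (φ x * gradient χ x i)) := by
    have := hf.integrable_smul_left_of_hasCompactSupport (hφ0.mul hgi) (hφc.mul_right)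
    simpa only [Pi.mul_apply, smul_eq_mul, mul_comm] using this
  have hi3 : Integrable (fun x => g x i * (χ x * φ x)) := by
    have h1 := hg.integrable_smul_left_of_hasCompactSupport (hχc.mul hφ0) (hφc.mul_left)
    have h2 := (EuclideanSpace.proj i : E d →L[ℝ] ℝ).integrable_comp h1
    simpa only [mul_comm, Pi.mul_apply, map_smul, PiLp.proj_apply, smul_eq_mul] using h2
  simp only [mul_add] at key
  rw [integral_add hi1 hi2] at key
  have e1 : ∫ x, (χ x * f x) * fderiv ℝ φ x (EuclideanSpace.single i 1) =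
      ∫ x, f x * (χ x * fderiv ℝ φ x (EuclideanSpace.single i 1)) := by
    congr 1; funext x; ring
  have e2 : ∫ x, (χ x • g x + f x • gradient χ x) i * φ x =
      (∫ x, g x i * (χ x * φ x)) + ∫ x, f x * (φ x * gradient χ x i) := by
    rw [← integral_add hi3 hi2]
    congr 1; funext x
    simp only [PiLp.add_apply, PiLp.smul_apply, smul_eq_mul]
    ring
  rw [e1, e2]
  linarith only [key]

end Cutoff

theorem density {f : E d → ℝ} {g : E d → E d} (hf : Integrable f) (hg : Integrable g)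
    (hw : IsWeakGradient f g) {ε : ℝ} (hε : 0 < ε) :
    ∃ φ : E d → ℝ, ContDiff ℝ ∞ φ ∧ HasCompactSupport φ ∧ ∫ x, ‖f x - φ x‖ ≤ ε ∧
      ∫ x, ‖g x - gradient φ x‖ ≤ ε := by
  obtain ⟨C, hC0, hC⟩ := exists_cut_grad (d := d)
  set fn : ℕ → E d → ℝ := fun n x => cut n x * f x with hfn
  set gn : ℕ → E d → E d := fun n x => cut n x • g x + f x • gradient (cut n) x with hgn
  have hgrc : ∀ n, Continuous (gradient (cut n : E d → ℝ)) := fun n =>
    (InnerProductSpace.toDual ℝ (E d)).symm.continuous.comp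
      ((cut_contDiff n).continuous_fderiv (by norm_cast))
  have hfni : ∀ n, Integrable (fn n) := fun n =>
    hf.bdd_mul (c := 1) (cut_contDiff n).continuous.aestronglyMeasurable
      (Eventually.of_forall fun x => by
        rw [Real.norm_of_nonneg (cut_nonneg n x)]; exact cut_le_one n x)
  have hgn1 : ∀ n, Integrable (fun x => cut n x • g x) := fun n =>
    hg.bdd_smul 1 (cut_contDiff n).continuous.aestronglyMeasurable
      (Eventually.of_forall fun x => by
        rw [Real.norm_of_nonneg (cut_nonneg n x)]; exact cut_le_one n x)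
  have hgn2 : ∀ n, Integrable (fun x => f x • gradient (cut n) x) := by
    intro n
    refine Integrable.mono' (hf.norm.const_mul C)
      (hf.1.smul (hgrc n).aestronglyMeasurable) (Eventually.of_forall fun x => ?_)
    rw [norm_smul, mul_comm]
    gcongr
    refine (hC n x).trans ?_
    have : ((n : ℝ) + 1)⁻¹ ≤ 1 := inv_le_one_of_one_le₀ (by linarith only [n.cast_nonneg (α := ℝ)])
    nlinarith only [hC0, this]
  have hgni : ∀ n, Integrable (gn n) := fun n => (hgn1 n).add (hgn2 n)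
  have hT : Tendsto (fun n : ℕ => C * ((n : ℝ) + 1)⁻¹) atTop (𝓝 0) := by
    have := (tendsto_one_div_add_atTop_nhds_zero_nat (𝕜 := ℝ)).const_mul C
    simpa only [one_div, mul_zero] using this
  have hcut1 : ∀ x : E d, ∀ᶠ n : ℕ in atTop, cut n x = 1 := by
    intro x
    obtain ⟨N, hN⟩ := exists_nat_ge ‖x‖
    filter_upwards [eventually_ge_atTop N] with n hn
    apply cut_eq_one
    have : (N : ℝ) ≤ n := by exact_mod_cast hn
    linarith only [hN, this]
  have hL1 : Tendsto (fun n => ∫ x, ‖f x - fn n x‖) atTop (𝓝 0) := by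
    have := tendsto_integral_of_dominated_convergence (μ := (volume : Measure (E d)))
      (F := fun n x => ‖f x - fn n x‖) (f := fun _ => (0:ℝ)) (fun x => ‖f x‖)
      (fun n => (hf.sub (hfni n)).norm.1) hf.norm (fun n => Eventually.of_forall fun x => by
        rw [norm_norm]
        have e : f x - fn n x = (1 - cut n x) * f x := by simp only [hfn]; ring
        rw [e, norm_mul, Real.norm_of_nonneg (by linarith only [cut_le_one n x])]
        have := cut_nonneg n x
        have h2 := norm_nonneg (f x)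
        nlinarith only [this, h2]) (Eventually.of_forall fun x => by
        refine tendsto_const_nhds.congr' ?_
        filter_upwards [hcut1 x] with n hn
        simp [hfn, hn])
    simpa only [Real.norm_eq_abs, integral_zero] using this
  have hL2 : Tendsto (fun n => ∫ x, ‖g x - gn n x‖) atTop (𝓝 0) := by
    have := tendsto_integral_of_dominated_convergence (μ := (volume : Measure (E d)))
      (F := fun n x => ‖g x - gn n x‖) (f := fun _ => (0:ℝ)) (fun x => ‖g x‖ + C * ‖f x‖)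
      (fun n => (hg.sub (hgni n)).norm.1) (hg.norm.add (hf.norm.const_mul C))
      (fun n => Eventually.of_forall fun x => by
        rw [norm_norm]
        have e : g x - gn n x = (1 - cut n x) • g x - f x • gradient (cut n) x := by
          simp only [hgn, sub_smul, one_smul]; abel
        rw [e]
        refine (norm_sub_le _ _).trans ?_
        rw [norm_smul, norm_smul, Real.norm_of_nonneg (by linarith only [cut_le_one n x])]
        have h1 := cut_nonneg n x
        have h2 := norm_nonneg (g x)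
        have h3 := norm_nonneg (f x)
        have h4 : ((n : ℝ) + 1)⁻¹ ≤ 1 :=
          inv_le_one_of_one_le₀ (by linarith only [n.cast_nonneg (α := ℝ)])
        have h5 : ‖gradient (cut n) x‖ ≤ C := (hC n x).trans (by nlinarith only [hC0, h4])
        nlinarith only [h1, h2, h3, h5]) (Eventually.of_forall fun x => by
        rw [← norm_zero (E := E d)]
        refine Tendsto.norm ?_
        have hz : Tendsto (fun n => f x • gradient (cut n) x) atTop (𝓝 0) := by
          have h6 : Tendsto (fun n : ℕ => gradient (cut n) x) atTop (𝓝 0) :=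
            squeeze_zero_norm (fun n => hC n x) hT
          simpa only [smul_zero] using h6.const_smul (f x)
        have hz2 : Tendsto (fun n => -(f x • gradient (cut n) x)) atTop (𝓝 0) := by
          simpa only [neg_zero] using hz.neg
        refine hz2.congr' ?_
        filter_upwards [hcut1 x] with n hn
        simp [hgn, hn])
    simpa only [integral_zero] using this
  obtain ⟨n, hn1, hn2⟩ := ((hL1.eventually_le_const (show (0:ℝ) < ε / 2 by (clear * - hε; positivity))).and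
    (hL2.eventually_le_const (show (0:ℝ) < ε / 2 by (clear * - hε; positivity)))).exists
  obtain ⟨δ₁, hδ₁, h1⟩ := mol_l1_tendsto (hfni n) (show 0 < ε / 2 by (clear * - hε; positivity))
  obtain ⟨δ₂, hδ₂, h2⟩ := mol_l1_tendsto (hgni n) (show 0 < ε / 2 by (clear * - hε; positivity))
  set δ := min δ₁ δ₂ with hδ
  have hδ0 : 0 < δ := lt_min hδ₁ hδ₂
  let φ : ContDiffBump (0 : E d) := ⟨δ / 2, δ, by (clear * - hδ₁ hδ₂; positivity), by linarith only [hδ0]⟩
  have hφ1 := h1 φ (min_le_left _ _)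
  have hφ2 := h2 φ (min_le_right _ _)
  have hwn : IsWeakGradient (fn n) (gn n) := weak_mul hw (cut_contDiff n)
  refine ⟨mol φ (fn n), ?_, ?_, ?_, ?_⟩
  · exact φ.hasCompactSupport_normed.contDiff_convolution_left _ φ.contDiff_normed
      (hfni n).locallyIntegrable
  · exact φ.hasCompactSupport_normed.convolution _ ((cut_compact n).mul_right)
  · calc ∫ x, ‖f x - mol φ (fn n) x‖
        ≤ ∫ x, (‖f x - fn n x‖ + ‖fn n x - mol φ (fn n) x‖) := by
          refine integral_mono (hf.sub (mol_integrable φ (hfni n))).norm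
            ((hf.sub (hfni n)).norm.add ((hfni n).sub (mol_integrable φ (hfni n))).norm)
            fun x => ?_
          exact norm_sub_le_norm_sub_add_norm_sub _ _ _
      _ = (∫ x, ‖f x - fn n x‖) + ∫ x, ‖fn n x - mol φ (fn n) x‖ :=
          integral_add (hf.sub (hfni n)).norm ((hfni n).sub (mol_integrable φ (hfni n))).norm
      _ ≤ ε := by linarith only [hn1, hφ1]
  · simp only [mol_grad hwn φ]
    calc ∫ x, ‖g x - mol φ (gn n) x‖
        ≤ ∫ x, (‖g x - gn n x‖ + ‖gn n x - mol φ (gn n) x‖) := by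
          refine integral_mono (hg.sub (mol_integrable φ (hgni n))).norm
            ((hg.sub (hgni n)).norm.add ((hgni n).sub (mol_integrable φ (hgni n))).norm)
            fun x => ?_
          exact norm_sub_le_norm_sub_add_norm_sub _ _ _
      _ = (∫ x, ‖g x - gn n x‖) + ∫ x, ‖gn n x - mol φ (gn n) x‖ :=
          integral_add (hg.sub (hgni n)).norm ((hgni n).sub (mol_integrable φ (hgni n))).norm
      _ ≤ ε := by linarith only [hn2, hφ2]

end Vale.Agent.P137.U
end
end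

section

section

open MeasureTheory Set Filter Topology
open scoped ENNReal NNReal CompactlySupported

namespace Vale.Agent.P137.U

open Vale.Agent.P137

variable {d : ℕ}

/-- Positive densities with bounded mass that do not concentrate on null sets converge weakly,
along an ultrafilter, to an integrable density. -/
theorem pos_weak_limit (w : ℕ → E d → ℝ) (hwm : ∀ n, Measurable (w n)) (hw0 : ∀ n x, 0 ≤ w n x)
    (M : ℝ≥0) (hM : ∀ n, ∫⁻ x, ENNReal.ofReal (w n x) ≤ M)
    (hac : ∀ G : Set (E d), IsCompact G → volume G = 0 → ∀ ε : ℝ≥0∞, 0 < ε →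
      ∃ O : Set (E d), IsOpen O ∧ G ⊆ O ∧
        ∀ᶠ n in atTop, ∫⁻ x in O, ENNReal.ofReal (w n x) ≤ ε) :
    ∃ p : E d → ℝ, (∀ x, 0 ≤ p x) ∧ Integrable p ∧ ∫ x, p x ≤ M ∧
      ∀ φ : E d → ℝ, Continuous φ → HasCompactSupport φ →
        Tendsto (fun n => ∫ x, w n x * φ x) (hyperfilter ℕ) (𝓝 (∫ x, p x * φ x)) := by
  have hint : ∀ n, Integrable (w n) := fun n =>
    ⟨(hwm n).aestronglyMeasurable,
      (hasFiniteIntegral_iff_ofReal (ae_of_all _ (hw0 n))).2
        (lt_of_le_of_lt (hM n) ENNReal.coe_lt_top)⟩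
  have hintM : ∀ n, ∫ x, w n x ≤ M := fun n => by
    rw [integral_eq_lintegral_of_nonneg_ae (ae_of_all _ (hw0 n)) (hwm n).aestronglyMeasurable]
    exact ENNReal.toReal_le_of_le_ofReal M.2 (by simpa only [ENNReal.ofReal_coe_nnreal] using hM n)
  have hint2 : ∀ n (φ : C_c(E d, ℝ)), Integrable (fun x => w n x * φ x) := fun n φ => by
    obtain ⟨C, hC⟩ := φ.hasCompactSupport.exists_bound_of_continuous φ.continuous
    exact (hint n).mul_bdd (c := C) φ.continuous.aestronglyMeasurable (ae_of_all _ hC)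
  have hlim : ∀ φ : C_c(E d, ℝ), ∃ l : ℝ,
      Tendsto (fun n => ∫ x, w n x * φ x) (hyperfilter ℕ) (𝓝 l) := fun φ => by
    obtain ⟨C, hC⟩ := φ.hasCompactSupport.exists_bound_of_continuous φ.continuous
    have hb : ∀ n, (∫ x, w n x * φ x) ∈ Metric.closedBall (0 : ℝ) (C * M) := fun n => by
      rw [mem_closedBall_zero_iff]
      calc ‖∫ x, w n x * φ x‖ ≤ ∫ x, ‖w n x * φ x‖ := norm_integral_le_integral_norm _
        _ ≤ ∫ x, C * w n x := by
            refine integral_mono (hint2 n φ).norm ((hint n).const_mul C) fun x => ?_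
            simp only [norm_mul, Real.norm_of_nonneg (hw0 n x)]
            rw [mul_comm]
            exact mul_le_mul_of_nonneg_right (hC x) (hw0 n x)
        _ = C * ∫ x, w n x := integral_const_mul _ _
        _ ≤ C * M := by
            refine mul_le_mul_of_nonneg_left (hintM n) ?_
            exact (norm_nonneg _).trans (hC 0)
    obtain ⟨l, -, hl⟩ := (isCompact_closedBall (0 : ℝ) (C * M)).ultrafilter_le_nhds
      ((hyperfilter ℕ : Ultrafilter ℕ).map (fun n => ∫ x, w n x * φ x)) (by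
        rw [Ultrafilter.coe_map, le_principal_iff]
        exact Filter.mem_map.2 (Filter.univ_mem' hb))
    exact ⟨l, hl⟩
  choose L hL using hlim
  let Λ : C_c(E d, ℝ) →ₚ[ℝ] ℝ :=
    { toFun := L
      map_add' := fun φ ψ => by
        refine tendsto_nhds_unique (hL (φ + ψ)) ?_
        refine ((hL φ).add (hL ψ)).congr fun n => ?_
        rw [← integral_add (hint2 n φ) (hint2 n ψ)]
        refine integral_congr_ae (ae_of_all _ fun x => ?_)
        simp only [CompactlySupportedContinuousMap.coe_add, Pi.add_apply, mul_add]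
      map_smul' := fun c φ => by
        refine tendsto_nhds_unique (hL (c • φ)) ?_
        refine ((hL φ).const_mul c).congr fun n => ?_
        rw [← integral_const_mul]
        refine integral_congr_ae (ae_of_all _ fun x => ?_)
        simp only [CompactlySupportedContinuousMap.coe_smul, Pi.smul_apply, smul_eq_mul]
        ring
      monotone' := fun φ ψ hφψ => by
        refine le_of_tendsto_of_tendsto' (hL φ) (hL ψ) fun n => ?_
        refine integral_mono (hint2 n φ) (hint2 n ψ) fun x => ?_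
        exact mul_le_mul_of_nonneg_left (hφψ x) (hw0 n x) }
  have hΛ : ∀ φ, Λ φ = L φ := fun _ => rfl
  set m := RealRMK.rieszMeasure Λ with hm
  -- mass bound on compact sets, by testing
  have hcut : ∀ K O : Set (E d), IsCompact K → IsOpen O → K ⊆ O → ∃ φ : C_c(E d, ℝ),
      (∀ x ∈ K, φ x = 1) ∧ (∀ x, 0 ≤ φ x) ∧ (∀ x, φ x ≤ O.indicator 1 x) := by
    intro K O hK hO hKO
    obtain ⟨f, hf1, hf2, hf3, hf4⟩ :=
      exists_continuousMap_one_of_isCompact_subset_isOpen hK hO hKO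
    refine ⟨⟨f, hasCompactSupport_def.mpr hf2⟩, fun x hx => hf1 hx, fun x => (hf4 x).1,
      fun x => ?_⟩
    by_cases hx : x ∈ tsupport f
    · simpa only [CompactlySupportedContinuousMap.coe_mk, hf3 hx, indicator_of_mem, Pi.one_apply] using (hf4 x).2
    · simp only [CompactlySupportedContinuousMap.coe_mk, image_eq_zero_of_notMem_tsupport hx, Pi.one_apply, zero_le_one, implies_true, indicator_nonneg]
  have hKM : ∀ K : Set (E d), IsCompact K → m K ≤ M := by
    intro K hK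
    obtain ⟨φ, h1, h0, hle⟩ := hcut K univ hK isOpen_univ (subset_univ _)
    refine (RealRMK.rieszMeasure_le_of_eq_one Λ h0 hK h1).trans ?_
    rw [hΛ]
    refine ENNReal.ofReal_le_of_le_toReal ?_
    rw [ENNReal.coe_toReal]
    refine le_of_tendsto' (hL φ) fun n => le_trans ?_ (hintM n)
    refine integral_mono (hint2 n φ) (hint n) fun x => ?_
    have := hle x
    simp only [indicator_univ, Pi.one_apply] at this
    exact mul_le_of_le_one_right (hw0 n x) this
  have huniv : m univ ≤ M := by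
    rw [isOpen_univ.measure_eq_iSup_isCompact m]
    exact iSup_le fun K => iSup_le fun _ => iSup_le fun hK => hKM K hK
  have : IsFiniteMeasure m := ⟨lt_of_le_of_lt huniv ENNReal.coe_lt_top⟩
  have hK0 : ∀ G : Set (E d), IsCompact G → volume G = 0 → m G = 0 := by
    intro G hG hG0
    refine le_antisymm (le_of_forall_pos_le_add fun ε hε => ?_) bot_le
    rw [zero_add]
    obtain ⟨O, hO, hGO, hev⟩ := hac G hG hG0 ε hε
    obtain ⟨φ, h1, h0, hle⟩ := hcut G O hG hO hGO
    refine (RealRMK.rieszMeasure_le_of_eq_one Λ h0 hG h1).trans ?_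
    rcases eq_or_ne ε ⊤ with rfl | hεt
    · exact le_top
    rw [hΛ]
    refine ENNReal.ofReal_le_of_le_toReal ?_
    have hev' : ∀ᶠ n in (hyperfilter ℕ : Filter ℕ), ∫⁻ x in O, ENNReal.ofReal (w n x) ≤ ε :=
      hev.filter_mono Nat.hyperfilter_le_atTop
    refine le_of_tendsto (hL φ) (hev'.mono fun n hn => ?_)
    calc ∫ x, w n x * φ x ≤ ∫ x, O.indicator (w n) x := by
          refine integral_mono (hint2 n φ) ((hint n).indicator hO.measurableSet) fun x => ?_
          have := hle x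
          by_cases hx : x ∈ O
          · simp only [indicator_of_mem hx, Pi.one_apply] at this ⊢
            exact mul_le_of_le_one_right (hw0 n x) this
          · simp only [indicator_of_notMem hx] at this ⊢
            rw [le_antisymm this (h0 x), mul_zero]
      _ = ∫ x in O, w n x := integral_indicator hO.measurableSet
      _ = (∫⁻ x in O, ENNReal.ofReal (w n x)).toReal :=
          integral_eq_lintegral_of_nonneg_ae (ae_of_all _ (hw0 n)) (hwm n).aestronglyMeasurable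
      _ ≤ ε.toReal := ENNReal.toReal_mono hεt hn
  have hmv : m ≪ volume := by
    refine Measure.AbsolutelyContinuous.mk fun A hA hA0 => ?_
    rw [hA.measure_eq_iSup_isCompact_of_ne_top (measure_ne_top m A)]
    simp only [ENNReal.iSup_eq_zero]
    intro K hKA hK
    exact hK0 K hK (measure_mono_null hKA hA0)
  refine ⟨fun x => (m.rnDeriv volume x).toReal, fun x => ENNReal.toReal_nonneg,
    Measure.integrable_toReal_rnDeriv, ?_, fun φ hφ hφc => ?_⟩
  · rw [Measure.integral_toReal_rnDeriv hmv]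
    exact ENNReal.toReal_le_of_le_ofReal M.2 (by simpa only [ENNReal.ofReal_coe_nnreal] using huniv)
  · have h := hL ⟨⟨φ, hφ⟩, hφc⟩
    have h2 := RealRMK.integral_rieszMeasure Λ ⟨⟨φ, hφ⟩, hφc⟩
    rw [hΛ, ← hm] at h2
    rw [← h2] at h
    have h3 := integral_rnDeriv_smul (f := φ) hmv
    simp only [smul_eq_mul] at h3
    rw [h3]
    exact h

theorem weak_limit (u : E d → ℝ) (un : ℕ → E d → ℝ) (hlip : ∀ n, ∃ L : ℝ≥0, LipschitzWith L (un n))
    (hu : LocallyIntegrable u)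
    (hlim : ∀ R : ℝ, Tendsto (fun n => ∫⁻ x in Metric.ball 0 R, ‖un n x - u x‖ₑ) atTop (𝓝 0))
    (M : ℝ≥0) (hM : ∀ n, ∫⁻ x, ‖fderiv ℝ (un n) x‖ₑ ≤ M)
    (hac : ∀ G : Set (E d), IsCompact G → volume G = 0 → ∀ ε : ℝ≥0∞, 0 < ε →
      ∃ O : Set (E d), IsOpen O ∧ G ⊆ O ∧
        ∀ᶠ n in atTop, ∫⁻ x in O, ‖fderiv ℝ (un n) x‖ₑ ≤ ε) :
    ∃ h : E d → E d, IsWeakGradient u h ∧ Integrable h ∧ ∫ x, ‖h x‖ ≤ 2 * d * M := by
  -- the coordinate derivatives
  set D : Fin d → ℕ → E d → ℝ := fun i n x => fderiv ℝ (un n) x (EuclideanSpace.single i 1)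
    with hD
  have hDm : ∀ i n, Measurable (D i n) := fun i n => measurable_fderiv_apply_const ℝ _ _
  have hDle : ∀ i n x, ‖D i n x‖ₑ ≤ ‖fderiv ℝ (un n) x‖ₑ := fun i n x => by
    rw [enorm_le_iff_norm_le]
    refine ((fderiv ℝ (un n) x).le_opNorm _).trans ?_
    simp only [PiLp.norm_single, norm_one, mul_one, Std.le_refl]
  have hplus : ∀ i n x, ENNReal.ofReal (max (D i n x) 0) ≤ ‖fderiv ℝ (un n) x‖ₑ := by
    intro i n x
    refine le_trans ?_ (hDle i n x)
    rw [Real.enorm_eq_ofReal_abs]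
    exact ENNReal.ofReal_le_ofReal (max_le (le_abs_self _) (abs_nonneg _))
  have hminus : ∀ i n x, ENNReal.ofReal (max (-D i n x) 0) ≤ ‖fderiv ℝ (un n) x‖ₑ := by
    intro i n x
    refine le_trans ?_ (hDle i n x)
    rw [Real.enorm_eq_ofReal_abs]
    exact ENNReal.ofReal_le_ofReal (max_le (neg_le_abs _) (abs_nonneg _))
  have key : ∀ w : ℕ → E d → ℝ, (∀ n, Measurable (w n)) → (∀ n x, 0 ≤ w n x) →
      (∀ n x, ENNReal.ofReal (w n x) ≤ ‖fderiv ℝ (un n) x‖ₑ) →
      ∃ p : E d → ℝ, (∀ x, 0 ≤ p x) ∧ Integrable p ∧ ∫ x, p x ≤ M ∧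
      ∀ φ : E d → ℝ, Continuous φ → HasCompactSupport φ →
        Tendsto (fun n => ∫ x, w n x * φ x) (hyperfilter ℕ) (𝓝 (∫ x, p x * φ x)) := by
    intro w hw hw0 hle
    refine pos_weak_limit w hw hw0 M (fun n => (lintegral_mono (hle n)).trans (hM n)) ?_
    intro G hG hG0 ε hε
    obtain ⟨O, hO, hGO, hev⟩ := hac G hG hG0 ε hε
    exact ⟨O, hO, hGO, hev.mono fun n hn => (lintegral_mono (hle n)).trans hn⟩
  have hp := fun i => key (fun n x => max (D i n x) 0) (fun n => (hDm i n).max measurable_const)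
    (fun n x => le_max_right _ _) (hplus i)
  have hq := fun i => key (fun n x => max (-D i n x) 0)
    (fun n => (hDm i n).neg.max measurable_const) (fun n x => le_max_right _ _) (hminus i)
  choose p hp0 hpi hpM hpl using hp
  choose q hq0 hqi hqM hql using hq
  have hhi : Integrable (fun x => ∑ i, (p i x - q i x) • (EuclideanSpace.single i (1 : ℝ) : E d)) :=
    integrable_finsetSum _ fun i _ => ((hpi i).sub (hqi i)).smul_const _
  refine ⟨fun x => ∑ i, (p i x - q i x) • (EuclideanSpace.single i (1 : ℝ) : E d),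
    ⟨hu, hhi.locallyIntegrable, fun φ hφ hφc i => ?_⟩, hhi, ?_⟩
  · have hcoord : ∀ x, (∑ j, (p j x - q j x) • (EuclideanSpace.single j (1 : ℝ) : E d)) i
        = p i x - q i x := fun x => by
      simp only [WithLp.ofLp_sum, WithLp.ofLp_smul, PiLp.ofLp_single, Finset.sum_apply, Pi.smul_apply, Pi.single_apply, smul_eq_mul, mul_ite, mul_one, mul_zero, Finset.sum_ite_eq, Finset.mem_univ, ↓reduceIte]
    simp only [hcoord]
    -- the test function
    set ψ : E d → ℝ := fun x => fderiv ℝ φ x (EuclideanSpace.single i 1) with hψ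
    have hψc : Continuous ψ := (hφ.continuous_fderiv (by simp)).clm_apply continuous_const
    have hψs : HasCompactSupport ψ := (hφc.fderiv_apply (𝕜 := ℝ) _)
    obtain ⟨C, hC⟩ := hψs.exists_bound_of_continuous hψc
    obtain ⟨R, hR⟩ := hψs.isCompact.isBounded.subset_ball 0
    have hC0 : 0 ≤ C := (norm_nonneg _).trans (hC 0)
    have hint1 : ∀ n, Integrable (fun x => un n x * ψ x) := fun n => by
      obtain ⟨L, hL⟩ := hlip n
      exact (hL.continuous.mul hψc).integrable_of_hasCompactSupport hψs.mul_left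
    have hint0 : Integrable (fun x => u x * ψ x) := by
      have := hu.integrable_smul_left_of_hasCompactSupport hψc hψs
      simpa only [smul_eq_mul, mul_comm] using this
    have hT : Tendsto (fun n => ∫ x, un n x * ψ x) atTop (𝓝 (∫ x, u x * ψ x)) := by
      refine tendsto_integral_of_L1 _ hint0.aestronglyMeasurable (Eventually.of_forall hint1) ?_
      have h0 : Tendsto (fun n => ENNReal.ofReal C *
          ∫⁻ x in Metric.ball 0 R, ‖un n x - u x‖ₑ) atTop (𝓝 0) := by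
        have := ENNReal.Tendsto.const_mul (a := ENNReal.ofReal C) (hlim R)
          (Or.inr ENNReal.ofReal_ne_top)
        simpa only [mul_zero] using this
      refine tendsto_of_tendsto_of_tendsto_of_le_of_le tendsto_const_nhds h0
        (fun _ => bot_le) fun n => ?_
      have hle : ∀ x, ‖un n x * ψ x - u x * ψ x‖ₑ ≤ (Metric.ball (0 : E d) R).indicator
          (fun x => ENNReal.ofReal C * ‖un n x - u x‖ₑ) x := by
        intro x
        by_cases hx : x ∈ Metric.ball (0 : E d) R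
        · rw [indicator_of_mem hx, ← sub_mul, enorm_mul, mul_comm]
          gcongr
          rw [← ofReal_norm]
          exact ENNReal.ofReal_le_ofReal (hC x)
        · have : ψ x = 0 := image_eq_zero_of_notMem_tsupport fun h => hx (hR h)
          simp only [this, mul_zero, sub_self, enorm_zero, zero_le]
      calc ∫⁻ x, ‖un n x * ψ x - u x * ψ x‖ₑ
          ≤ ∫⁻ x, (Metric.ball (0 : E d) R).indicator
            (fun x => ENNReal.ofReal C * ‖un n x - u x‖ₑ) x := lintegral_mono hle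
        _ = ∫⁻ x in Metric.ball (0 : E d) R, ENNReal.ofReal C * ‖un n x - u x‖ₑ :=
            lintegral_indicator measurableSet_ball _
        _ = ENNReal.ofReal C * ∫⁻ x in Metric.ball (0 : E d) R, ‖un n x - u x‖ₑ :=
            lintegral_const_mul' _ _ ENNReal.ofReal_ne_top
    obtain ⟨Lφ, hLφ⟩ : ∃ L, LipschitzWith L φ :=
      ContDiff.lipschitzWith_of_hasCompactSupport hφc hφ (by simp)
    have hDint : ∀ n, Integrable (D i n) := fun n =>
      ⟨(hDm i n).aestronglyMeasurable, lt_of_le_of_lt ((lintegral_mono (hDle i n)).trans (hM n))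
        ENNReal.coe_lt_top⟩
    obtain ⟨C', hC'⟩ := hφc.exists_bound_of_continuous hφ.continuous
    have hbd : ∀ w : E d → ℝ, Integrable w → Integrable (fun x => w x * φ x) := fun w hw =>
      hw.mul_bdd (c := C') hφ.continuous.aestronglyMeasurable (ae_of_all _ hC')
    have hparts : ∀ n, ∫ x, un n x * ψ x
        = -(∫ x, max (D i n x) 0 * φ x) + ∫ x, max (-D i n x) 0 * φ x := fun n => by
      obtain ⟨L, hL⟩ := hlip n
      have h1 := hL.integral_lineDeriv_mul_eq (μ := volume) hLφ hφc (EuclideanSpace.single i 1)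
      have h2 : ∫ x, lineDeriv ℝ (un n) x (EuclideanSpace.single i 1) * φ x
          = ∫ x, D i n x * φ x := by
        refine integral_congr_ae ?_
        filter_upwards [hL.ae_differentiableAt (μ := volume)] with x hx
        rw [hx.lineDeriv_eq_fderiv]
      have h3 : ∫ x, lineDeriv ℝ φ x (-EuclideanSpace.single i 1) * un n x
          = -∫ x, un n x * ψ x := by
        rw [← integral_neg]
        refine integral_congr_ae (ae_of_all _ fun x => ?_)
        simp only
        rw [((hφ.differentiable (by simp)) x).lineDeriv_eq_fderiv, map_neg]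
        ring
      rw [h2, h3] at h1
      have h4 : ∫ x, D i n x * φ x
          = (∫ x, max (D i n x) 0 * φ x) - ∫ x, max (-D i n x) 0 * φ x := by
        rw [← integral_sub (hbd _ (hDint n).pos_part) (hbd _ (hDint n).neg_part)]
        refine integral_congr_ae (ae_of_all _ fun x => ?_)
        simp only
        rw [← sub_mul]
        congr 1
        rcases le_total 0 (D i n x) with h | h
        · rw [max_eq_left h, max_eq_right (by linarith only [h])]; ring
        · rw [max_eq_right h, max_eq_left (by linarith only [h])]; ring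
      linarith only [h1, h4]
    have hT2 := ((hpl i φ hφ.continuous hφc).neg).add (hql i φ hφ.continuous hφc)
    have hT3 := tendsto_nhds_unique (hT.mono_left Nat.hyperfilter_le_atTop)
      (hT2.congr fun n => (hparts n).symm)
    rw [hT3]
    simp only [sub_mul]
    rw [integral_sub (hbd _ (hpi i)) (hbd _ (hqi i))]
    ring
  · calc ∫ x, ‖∑ i, (p i x - q i x) • (EuclideanSpace.single i (1 : ℝ) : E d)‖
        ≤ ∫ x, ∑ i, (p i x + q i x) := by
          refine integral_mono hhi.norm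
            (integrable_finsetSum _ fun i _ => (hpi i).add (hqi i)) fun x => ?_
          refine (norm_sum_le _ _).trans (Finset.sum_le_sum fun i _ => ?_)
          have h1 : ‖(EuclideanSpace.single i (1 : ℝ) : E d)‖ = 1 := by simp
          rw [norm_smul, h1, mul_one, Real.norm_eq_abs, abs_le]
          constructor <;> linarith only [hp0 i x, hq0 i x]
      _ = ∑ i, ((∫ x, p i x) + ∫ x, q i x) := by
          rw [integral_finsetSum (s := Finset.univ) (f := fun i x => p i x + q i x)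
            fun i _ => (hpi i).add (hqi i)]
          exact Finset.sum_congr rfl fun i _ => integral_add (hpi i) (hqi i)
      _ ≤ ∑ _i : Fin d, ((M : ℝ) + M) := Finset.sum_le_sum fun i _ => add_le_add (hpM i) (hqM i)
      _ = 2 * d * M := by simp only [Finset.sum_const, Finset.card_univ, Fintype.card_fin, smul_add, nsmul_eq_mul]; ring

end Vale.Agent.P137.U
end
end

section

section

open MeasureTheory Set Filter Topology
open scoped ENNReal NNReal ContDiff

namespace Vale.Agent.P137.U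

open Vale.Agent.P137

variable {d : ℕ}

theorem fa_enorm_gradient (φ : E d → ℝ) (x : E d) : ‖gradient φ x‖ₑ = ‖fderiv ℝ φ x‖ₑ := by
  rw [enorm_eq_iff_norm_eq]
  exact LinearIsometryEquiv.norm_map _ _

theorem fa_integrable_gradient {φ : E d → ℝ} (h1 : ContDiff ℝ ∞ φ) (h2 : HasCompactSupport φ) :
    Integrable (gradient φ) := by
  have h3 : Continuous (gradient φ) :=
    (InnerProductSpace.toDual ℝ (E d)).symm.continuous.comp (h1.continuous_fderiv (by simp))
  have h4 : HasCompactSupport (gradient φ) := by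
    have h5 : gradient φ = (InnerProductSpace.toDual ℝ (E d)).symm ∘ fderiv ℝ φ := rfl
    rw [h5]
    exact (h2.fderiv ℝ).comp_left (map_zero _)
  exact h3.integrable_of_hasCompactSupport h4

theorem fa_set_grad {g : E d → E d} (hg : Integrable g) {φ : E d → ℝ} {b : ℝ≥0∞}
    (hb : ∫⁻ x, ‖g x - gradient φ x‖ₑ ≤ b) (S : Set (E d)) :
    ∫⁻ x in S, ‖fderiv ℝ φ x‖ₑ ≤ (∫⁻ x in S, ‖g x‖ₑ) + b := by
  calc ∫⁻ x in S, ‖fderiv ℝ φ x‖ₑ ≤ ∫⁻ x in S, (‖g x‖ₑ + ‖g x - gradient φ x‖ₑ) := by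
        apply lintegral_mono
        intro x
        simp only
        rw [← fa_enorm_gradient φ x]
        have h1 : gradient φ x = g x - (g x - gradient φ x) := by abel
        calc ‖gradient φ x‖ₑ = ‖g x - (g x - gradient φ x)‖ₑ := by rw [← h1]
          _ ≤ _ := enorm_sub_le
    _ = (∫⁻ x in S, ‖g x‖ₑ) + ∫⁻ x in S, ‖g x - gradient φ x‖ₑ :=
        lintegral_add_left' hg.aestronglyMeasurable.restrict.enorm _
    _ ≤ _ := by
        gcongr
        exact (setLIntegral_le_lintegral _ _).trans hb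

/-- Two weak gradients of the same function agree almost everywhere. -/
theorem fa_unique {u : E d → ℝ} {h₁ h₂ : E d → E d} (H₁ : IsWeakGradient u h₁)
    (H₂ : IsWeakGradient u h₂) : h₁ =ᵐ[volume] h₂ := by
  have hi : ∀ i : Fin d, ∀ᵐ x, h₁ x i = h₂ x i := by
    intro i
    have hloc : ∀ {h : E d → E d}, LocallyIntegrable h → LocallyIntegrable (fun x => h x i) := by
      intro h hh
      rw [locallyIntegrable_iff] at hh ⊢
      intro K hK
      exact (EuclideanSpace.proj (𝕜 := ℝ) i).integrable_comp (hh K hK)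
    apply ae_eq_of_integral_contDiff_smul_eq (hloc H₁.2.1) (hloc H₂.2.1)
    intro ψ hψ hψc
    have h3 := H₁.2.2 ψ hψ hψc i
    have h4 := H₂.2.2 ψ hψ hψc i
    have h5 : ∫ x, h₁ x i * ψ x = ∫ x, h₂ x i * ψ x := by
      rw [h3] at h4
      exact neg_inj.1 h4
    simpa only [smul_eq_mul, mul_comm] using h5
  have h1 : ∀ᵐ x, ∀ i : Fin d, h₁ x i = h₂ x i := ae_all_iff.2 hi
  filter_upwards [h1] with x hx
  ext i
  exact hx i

namespace FaApprox

variable {f : E d → ℝ} {φ : ℕ → E d → ℝ}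

theorem local_bound {C C' : ℝ≥0} (hC : FaCore d C C') (h : FaApprox f φ) {n j : ℕ}
    (hn : j + 1 ≤ n) {O : Set (E d)} (hO : MeasurableSet O) :
    ∫⁻ x in O, ‖fderiv ℝ (faU φ n) x‖ₑ ≤
      C * (∫⁻ x in Metric.thickening (C' * 2⁻¹ ^ (j + 1)) O, ‖fderiv ℝ (φ n) x‖ₑ) +
        (∫⁻ x, ‖fderiv ℝ (φ n) x‖ₑ) / volume (Metric.ball (0 : E d) (2⁻¹ ^ j)) * volume O := by
  have hF := faS_contDiff (fa_pow_pos n) (h.smooth n)
  have hFc := faS_compact (fa_pow_pos n) (h.compact n)
  have hle : (2⁻¹ : ℝ) ^ n ≤ 2⁻¹ ^ j :=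
    pow_le_pow_of_le_one (by norm_num) (by norm_num) (by omega)
  have hle2 : (2⁻¹ : ℝ) ^ j ≤ 2 ^ n :=
    (pow_le_one₀ (by norm_num) (by norm_num)).trans (one_le_pow₀ (by norm_num))
  have hK : (2 : ℝ) * 2 ^ (n - j - 1) * 2⁻¹ ^ n = 2⁻¹ ^ j := by
    obtain ⟨k, rfl⟩ := Nat.exists_eq_add_of_le hn
    rw [show j + 1 + k - j - 1 = k by omega, pow_add, pow_add]
    simp only [inv_pow, pow_one]
    field_simp
  have hK2 : (2 : ℝ) ^ (n - j - 1) * 2⁻¹ ^ n = 2⁻¹ ^ (j + 1) := by
    rw [pow_succ]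
    linarith only [hK]
  have h1 := hC (faS (2⁻¹ ^ n) (φ n)) hF hFc (2⁻¹ ^ n) (fa_pow_pos n) (n - j - 1) O hO
  rw [hK, mul_assoc, hK2] at h1
  obtain ⟨L1, hL1⟩ := h.lip n
  obtain ⟨L2, hL2⟩ := fa_uu_lip hF hFc (fa_pow_pos n) hle
  have h2 : ∀ᵐ x : E d, ‖fderiv ℝ (faU φ n) x‖ₑ ≤
      ‖fderiv ℝ (uu (faS (2⁻¹ ^ n) (φ n)) (fun _ => 2⁻¹ ^ n) (2⁻¹ ^ j)) x‖ₑ +
      (∫⁻ z, ‖fderiv ℝ (faS (2⁻¹ ^ n) (φ n)) z‖ₑ) /
        volume (Metric.ball (0 : E d) (2⁻¹ ^ j)) := by
    filter_upwards [hL1.ae_differentiableAt, hL2.ae_differentiableAt] with x hx1 hx2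
    exact fderiv_uu_large (faS (2⁻¹ ^ n) (φ n)) hF hFc (2⁻¹ ^ j) (2⁻¹ ^ n) (2 ^ n)
      (fa_pow_pos n) hle hle2 x hx1 hx2
  calc ∫⁻ x in O, ‖fderiv ℝ (faU φ n) x‖ₑ
      ≤ ∫⁻ x in O, (‖fderiv ℝ (uu (faS (2⁻¹ ^ n) (φ n)) (fun _ => 2⁻¹ ^ n) (2⁻¹ ^ j)) x‖ₑ +
      (∫⁻ z, ‖fderiv ℝ (faS (2⁻¹ ^ n) (φ n)) z‖ₑ) /
        volume (Metric.ball (0 : E d) (2⁻¹ ^ j))) := lintegral_mono_ae (ae_restrict_of_ae h2)
    _ = (∫⁻ x in O, ‖fderiv ℝ (uu (faS (2⁻¹ ^ n) (φ n)) (fun _ => 2⁻¹ ^ n) (2⁻¹ ^ j)) x‖ₑ) +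
      (∫⁻ z, ‖fderiv ℝ (faS (2⁻¹ ^ n) (φ n)) z‖ₑ) /
        volume (Metric.ball (0 : E d) (2⁻¹ ^ j)) * volume O := by
        rw [lintegral_add_right _ measurable_const, setLIntegral_const]
    _ ≤ _ := by
        refine add_le_add (h1.trans (mul_le_mul_right (h.lintegral_faS n _) _)) ?_
        exact mul_le_mul_left (ENNReal.div_le_div_right (h.lintegral_faS n _) _) _

theorem hac {C C' : ℝ≥0} (hC : FaCore d C C') (h : FaApprox f φ) {g : E d → E d}
    (hg : Integrable g)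
    (hgφ : ∀ n, ∫⁻ x, ‖g x - gradient (φ n) x‖ₑ ≤ ENNReal.ofReal (2⁻¹ ^ n))
    (G : Set (E d)) (hG : IsCompact G) (hG0 : volume G = 0) (ε : ℝ≥0∞) (hε : 0 < ε) :
    ∃ O : Set (E d), IsOpen O ∧ G ⊆ O ∧
      ∀ᶠ n in atTop, ∫⁻ x in O, ‖fderiv ℝ (faU φ n) x‖ₑ ≤ ε := by
  -- step 1: choose the scale `2⁻¹ ^ j`
  set ν : Measure (E d) := volume.withDensity fun x => ‖g x‖ₑ with hν
  have hνfin : IsFiniteMeasure ν := isFiniteMeasure_withDensity hg.2.ne
  have hνG : ν G = 0 := withDensity_absolutelyContinuous _ _ hG0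
  have ht1 : Tendsto (fun r => ν (Metric.thickening r G)) (𝓝[>] 0) (𝓝 0) := by
    rw [← hνG]
    exact tendsto_measure_thickening_of_isClosed ⟨1, one_pos, measure_ne_top _ _⟩ hG.isClosed
  have ht2 : Tendsto (fun r => volume (Metric.thickening r G)) (𝓝[>] 0) (𝓝 0) := by
    rw [← hG0]
    have hGb : Bornology.IsBounded (Metric.thickening 1 G) := hG.isBounded.thickening
    have hGfin : volume (Metric.thickening 1 G) < ⊤ :=
      Bornology.IsBounded.measure_lt_top (μ := volume) hGb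
    exact tendsto_measure_thickening_of_isClosed ⟨1, one_pos, hGfin.ne⟩ hG.isClosed
  have hj : Tendsto (fun j : ℕ => ((C' : ℝ) + 1) * 2⁻¹ ^ j) atTop (𝓝[>] 0) := by
    rw [tendsto_nhdsWithin_iff]
    constructor
    · have h1 : Tendsto (fun n : ℕ => (2⁻¹ : ℝ) ^ n) atTop (𝓝 0) :=
        tendsto_pow_atTop_nhds_zero_of_lt_one (by norm_num) (by norm_num)
      simpa only [inv_pow, mul_zero] using h1.const_mul ((C' : ℝ) + 1)
    · exact Eventually.of_forall fun n => by
        simp only [mem_Ioi]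
        (clear * -; positivity)
  have hC1 : Tendsto (fun j : ℕ => (C : ℝ≥0∞) * ν (Metric.thickening (((C' : ℝ) + 1) * 2⁻¹ ^ j) G))
      atTop (𝓝 0) := by
    have h2 := ENNReal.Tendsto.const_mul (ht1.comp hj) (Or.inr (ENNReal.coe_ne_top (r := C)))
    rw [mul_zero] at h2
    exact h2
  have hε3 : 0 < ε / 3 := ENNReal.div_pos hε.ne' (by norm_num)
  obtain ⟨j, hj1⟩ := (hC1.eventually_lt_const hε3).exists
  -- step 2: choose the radius of the neighbourhood
  set B : ℝ≥0∞ := ((∫⁻ x, ‖g x‖ₑ) + 1) / volume (Metric.ball (0 : E d) (2⁻¹ ^ j)) with hB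
  have hBtop : B ≠ ⊤ := by
    apply ENNReal.div_ne_top
    · exact ENNReal.add_ne_top.2 ⟨hg.2.ne, ENNReal.one_ne_top⟩
    · exact (Metric.measure_ball_pos volume 0 (fa_pow_pos j)).ne'
  have ht3 : Tendsto (fun r => B * volume (Metric.thickening r G)) (𝓝[>] 0) (𝓝 0) := by
    have h2 := ENNReal.Tendsto.const_mul ht2 (Or.inr hBtop)
    rw [mul_zero] at h2
    exact h2
  have hsmall : ∀ᶠ r : ℝ in 𝓝[>] 0, r < 2⁻¹ ^ (j + 1) :=
    (eventually_lt_nhds (fa_pow_pos (j + 1))).filter_mono nhdsWithin_le_nhds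
  obtain ⟨η, hη1, hη2, hη0⟩ :=
    ((ht3.eventually_lt_const hε3).and (hsmall.and eventually_mem_nhdsWithin)).exists
  simp only [mem_Ioi] at hη0
  refine ⟨Metric.thickening η G, Metric.isOpen_thickening, Metric.self_subset_thickening hη0 G, ?_⟩
  -- step 3: large `n`
  have ht4 : Tendsto (fun n : ℕ => (C : ℝ≥0∞) * ENNReal.ofReal (2⁻¹ ^ n)) atTop (𝓝 0) := by
    have h1 : Tendsto (fun n : ℕ => (2⁻¹ : ℝ) ^ n) atTop (𝓝 0) :=
      tendsto_pow_atTop_nhds_zero_of_lt_one (by norm_num) (by norm_num)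
    have h2 := ENNReal.Tendsto.const_mul (ENNReal.tendsto_ofReal h1)
      (Or.inr (ENNReal.coe_ne_top (r := C)))
    rw [ENNReal.ofReal_zero, mul_zero] at h2
    exact h2
  filter_upwards [ht4.eventually_lt_const hε3, eventually_ge_atTop (j + 1)] with n hn1 hn2
  refine (h.local_bound hC hn2 Metric.isOpen_thickening.measurableSet).trans ?_
  have h5 : ∫⁻ x in Metric.thickening (C' * 2⁻¹ ^ (j + 1)) (Metric.thickening η G),
      ‖fderiv ℝ (φ n) x‖ₑ ≤ ν (Metric.thickening (((C' : ℝ) + 1) * 2⁻¹ ^ j) G) +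
        ENNReal.ofReal (2⁻¹ ^ n) := by
    refine (fa_set_grad hg (hgφ n) _).trans ?_
    gcongr
    rw [hν, withDensity_apply _ Metric.isOpen_thickening.measurableSet]
    apply lintegral_mono_set
    refine (Metric.thickening_thickening_subset _ _ _).trans (Metric.thickening_mono ?_ _)
    have hC'0 : (0 : ℝ) ≤ C' := C'.2
    have hp := fa_pow_pos j
    rw [pow_succ] at hη2 ⊢
    linarith only [hη2, hp, mul_nonneg hC'0 hp.le]
  have h6 : ∫⁻ x, ‖fderiv ℝ (φ n) x‖ₑ ≤ (∫⁻ x, ‖g x‖ₑ) + 1 := by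
    have h7 := fa_set_grad hg (hgφ n) univ
    rw [Measure.restrict_univ] at h7
    refine h7.trans ?_
    gcongr
    rw [← ENNReal.ofReal_one]
    exact ENNReal.ofReal_le_ofReal (pow_le_one₀ (by norm_num) (by norm_num))
  calc _ ≤ C * (ν (Metric.thickening (((C' : ℝ) + 1) * 2⁻¹ ^ j) G) +
        ENNReal.ofReal (2⁻¹ ^ n)) + B * volume (Metric.thickening η G) := by
        refine add_le_add (mul_le_mul_right h5 _) ?_
        exact mul_le_mul_left (ENNReal.div_le_div_right h6 _) _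
    _ ≤ ε / 3 + ε / 3 + ε / 3 := by
        rw [mul_add]
        (clear * - hj1 hη1 hn1; gcongr)
    _ = ε := ENNReal.add_thirds ε

end FaApprox

/-- Final theorem. -/
theorem final (hd : 0 < d) : ∃ C : ℝ, ∀ (f : E d → ℝ) (g : E d → E d), Integrable f →
    Integrable g → IsWeakGradient f g →
    (∀ᵐ x, uncenteredMax f x < ⊤) ∧
    ∃ h : E d → E d, IsWeakGradient (fun x => (uncenteredMax f x).toReal) h ∧ Integrable h ∧
      ∫ x, ‖h x‖ ≤ C * ∫ x, ‖g x‖ := by
  obtain ⟨C, C', hC⟩ := core_scaled hd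
  have hCore : FaCore d C C' := hC
  refine ⟨2 * d * C, ?_⟩
  intro f g hf hg hw
  have hdens : ∀ n : ℕ, ∃ φ : E d → ℝ, ContDiff ℝ ∞ φ ∧ HasCompactSupport φ ∧
      ∫ x, ‖f x - φ x‖ ≤ 2⁻¹ ^ (n * (d + 1)) ∧ ∫ x, ‖g x - gradient φ x‖ ≤ 2⁻¹ ^ (n * (d + 1)) :=
    fun n => density hf hg hw (by positivity)
  choose φ hφ1 hφ2 hφ3 hφ4 using hdens
  have h : FaApprox f φ := ⟨hφ1, hφ2, hφ3⟩
  have hgφ : ∀ n, ∫⁻ x, ‖g x - gradient (φ n) x‖ₑ ≤ ENNReal.ofReal (2⁻¹ ^ n) := by
    intro n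
    have h1 : ENNReal.ofReal (∫ x, ‖g x - gradient (φ n) x‖) =
        ∫⁻ x, ‖g x - gradient (φ n) x‖ₑ :=
      ofReal_integral_norm_eq_lintegral_enorm (hg.sub (fa_integrable_gradient (hφ1 n) (hφ2 n)))
    rw [← h1]
    apply ENNReal.ofReal_le_ofReal
    refine (hφ4 n).trans (pow_le_pow_of_le_one (by norm_num) (by norm_num) ?_)
    nlinarith only []
  have hgn : ∀ n, ∫⁻ x, ‖fderiv ℝ (φ n) x‖ₑ ≤ (∫⁻ x, ‖g x‖ₑ) + ENNReal.ofReal (2⁻¹ ^ n) := by
    intro n
    have h7 := fa_set_grad hg (hgφ n) univ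
    rwa [Measure.restrict_univ] at h7
  have hB : ∀ n, ∫⁻ x, ‖fderiv ℝ (φ n) x‖ₑ ≤ (∫⁻ x, ‖g x‖ₑ) + 1 := by
    intro n
    refine (hgn n).trans ?_
    gcongr
    rw [← ENNReal.ofReal_one]
    exact ENNReal.ofReal_le_ofReal (pow_le_one₀ (by norm_num) (by norm_num))
  have hB' : (∫⁻ x, ‖g x‖ₑ) + 1 ≠ ⊤ := ENNReal.add_ne_top.2 ⟨hg.2.ne, ENNReal.one_ne_top⟩
  have hsum : ∑' k, ∫⁻ x, ‖fderiv ℝ (fun z => φ (k + 1) z - φ k z) x‖ₑ ≠ ⊤ := by
    have h1 : ∀ k, ∫⁻ x, ‖fderiv ℝ (fun z => φ (k + 1) z - φ k z) x‖ₑ ≤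
        ENNReal.ofReal (2⁻¹ ^ (k + 1)) + ENNReal.ofReal (2⁻¹ ^ k) := by
      intro k
      have h2 : ∀ x, ‖fderiv ℝ (fun z => φ (k + 1) z - φ k z) x‖ₑ ≤
          ‖g x - gradient (φ (k + 1)) x‖ₑ + ‖g x - gradient (φ k) x‖ₑ := by
        intro x
        have e1 : fderiv ℝ (fun z => φ (k + 1) z - φ k z) x =
            fderiv ℝ (φ (k + 1)) x - fderiv ℝ (φ k) x :=
          fderiv_fun_sub ((hφ1 (k + 1)).differentiable (by simp)).differentiableAt
            ((hφ1 k).differentiable (by simp)).differentiableAt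
        have e2 : gradient (fun z => φ (k + 1) z - φ k z) x =
            gradient (φ (k + 1)) x - gradient (φ k) x := by
          unfold gradient
          rw [e1, map_sub]
        rw [← fa_enorm_gradient, e2]
        have e3 : gradient (φ (k + 1)) x - gradient (φ k) x =
            (g x - gradient (φ k) x) - (g x - gradient (φ (k + 1)) x) := by abel
        rw [e3, add_comm ‖g x - gradient (φ (k + 1)) x‖ₑ]
        exact enorm_sub_le (a := g x - gradient (φ k) x) (b := g x - gradient (φ (k + 1)) x)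
      calc _ ≤ ∫⁻ x, (‖g x - gradient (φ (k + 1)) x‖ₑ + ‖g x - gradient (φ k) x‖ₑ) :=
            lintegral_mono h2
        _ = _ := lintegral_add_left'
            (hg.sub (fa_integrable_gradient (hφ1 (k + 1)) (hφ2 (k + 1)))).aestronglyMeasurable.enorm _
        _ ≤ _ := add_le_add (hgφ (k + 1)) (hgφ k)
    refine ne_top_of_le_ne_top ?_ (ENNReal.tsum_le_tsum h1)
    rw [ENNReal.tsum_add]
    have hs : Summable fun k : ℕ => (2⁻¹ : ℝ) ^ k :=
      summable_geometric_of_lt_one (by norm_num) (by norm_num)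
    have hs1 : Summable fun k : ℕ => (2⁻¹ : ℝ) ^ (k + 1) := (summable_nat_add_iff 1).2 hs
    rw [← ENNReal.ofReal_tsum_of_nonneg (fun k => by (clear * -; positivity)) hs,
      ← ENNReal.ofReal_tsum_of_nonneg (fun k => by (clear * -; positivity)) hs1]
    exact ENNReal.add_ne_top.2 ⟨ENNReal.ofReal_ne_top, ENNReal.ofReal_ne_top⟩
  have hfin := h.ae_lt_top hd hCore hf hB hB'
  refine ⟨hfin, ?_⟩
  -- local integrability of the maximal function
  have hloc : LocallyIntegrable fun x => (uncenteredMax f x).toReal := by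
    rw [locallyIntegrable_iff]
    intro K hK
    obtain ⟨R, hR⟩ := hK.isBounded.subset_ball (0 : E d)
    have hR' : K ⊆ Metric.ball (0 : E d) (max R 1) :=
      hR.trans (Metric.ball_subset_ball (le_max_left _ _))
    refine IntegrableOn.mono_set ?_ hR'
    refine ⟨(h.measurable hf).ennreal_toReal.aestronglyMeasurable, ?_⟩
    rw [hasFiniteIntegral_iff_enorm]
    have h1 : ∫⁻ x in Metric.ball (0 : E d) (max R 1), ‖(uncenteredMax f x).toReal‖ₑ ≤
        ∫⁻ x in Metric.ball (0 : E d) (max R 1), uncenteredMax f x := by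
      apply lintegral_mono
      intro x
      simp only
      rw [Real.enorm_of_nonneg ENNReal.toReal_nonneg]
      exact ENNReal.ofReal_toReal_le
    refine h1.trans_lt ((h.ball_bound hd hCore hf hB (by (clear * -; positivity))).trans_lt ?_)
    exact (ENNReal.mul_ne_top ENNReal.ofReal_ne_top
      (ENNReal.mul_ne_top ENNReal.coe_ne_top hB')).lt_top
  have hg1 : (0 : ℝ) ≤ ∫ x, ‖g x‖ := integral_nonneg fun _ => norm_nonneg _
  set G1 : ℝ≥0 := ⟨∫ x, ‖g x‖, hg1⟩ with hG1
  have hG1' : ∫⁻ x, ‖g x‖ₑ = (G1 : ℝ≥0∞) := by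
    rw [← ofReal_integral_norm_eq_lintegral_enorm hg, hG1, ENNReal.ofReal]
    congr 1
    exact Real.toNNReal_of_nonneg hg1
  have hex : ∀ s : ℕ, ∃ h : E d → E d, IsWeakGradient (fun x => (uncenteredMax f x).toReal) h ∧
      Integrable h ∧ ∫ x, ‖h x‖ ≤ 2 * d * (C * (G1 + 2⁻¹ ^ s) : ℝ≥0) := by
    intro s
    apply weak_limit (fun x => (uncenteredMax f x).toReal) (fun n => faU φ (n + (s + 1)))
    · exact fun n => h.lip _
    · exact hloc
    · intro R
      exact (h.L1 hd hCore hf hB hB' hsum R).comp (tendsto_add_atTop_nat (s + 1))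
    · intro n
      refine (h.grad_bound hCore (n + (s + 1)) (by (clear * -; omega))).trans ?_
      push_cast
      gcongr
      refine (hgn _).trans ?_
      rw [hG1']
      gcongr
      have h2 : ((2 : ℝ≥0∞)⁻¹) ^ s = ENNReal.ofReal (2⁻¹ ^ s) := by
        rw [ENNReal.ofReal_pow (by norm_num), ENNReal.ofReal_inv_of_pos (by norm_num)]
        norm_num
      rw [h2]
      exact ENNReal.ofReal_le_ofReal
        (pow_le_pow_of_le_one (by norm_num) (by norm_num) (by (clear * -; omega)))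
    · intro G hG hG0 ε hε
      obtain ⟨O, hO1, hO2, hO3⟩ := h.hac hCore hg hgφ G hG hG0 ε hε
      exact ⟨O, hO1, hO2, (tendsto_add_atTop_nat (s + 1)).eventually hO3⟩
  choose hh hh1 hh2 hh3 using hex
  refine ⟨hh 0, hh1 0, hh2 0, ?_⟩
  have hall : ∀ s : ℕ, ∫ x, ‖hh 0 x‖ ≤ 2 * d * (C * ((∫ x, ‖g x‖) + 2⁻¹ ^ s)) := by
    intro s
    have h1 : ∫ x, ‖hh 0 x‖ = ∫ x, ‖hh s x‖ := by
      apply integral_congr_ae
      filter_upwards [fa_unique (hh1 0) (hh1 s)] with x hx
      rw [hx]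
    rw [h1]
    refine (hh3 s).trans (le_of_eq ?_)
    push_cast
    rfl
  have hlim : Tendsto (fun s : ℕ => 2 * (d : ℝ) * (C * ((∫ x, ‖g x‖) + 2⁻¹ ^ s))) atTop
      (𝓝 (2 * (d : ℝ) * (C * ((∫ x, ‖g x‖) + 0)))) := by
    have h1 : Tendsto (fun n : ℕ => (2⁻¹ : ℝ) ^ n) atTop (𝓝 0) :=
      tendsto_pow_atTop_nhds_zero_of_lt_one (by norm_num) (by norm_num)
    exact ((h1.const_add _).const_mul _).const_mul _
  have := ge_of_tendsto' hlim hall
  rw [add_zero] at this
  linarith only [this]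

end Vale.Agent.P137.U
end
end

section

section

open MeasureTheory Set
open scoped ENNReal ContDiff

namespace Vale.Agent.P137

/-- Endpoint gradient bound for the centered Hardy-Littlewood maximal operator on radial
functions, in every dimension at least two. -/
theorem centered_radial (d : ℕ) (hd : 2 ≤ d) :
    ∃ C : ℝ, ∀ (f : E d → ℝ) (g : E d → E d), Integrable f → Integrable g →
      IsWeakGradient f g → (∃ F : ℝ → ℝ, ∀ᵐ x, f x = F ‖x‖) →
      (∀ᵐ x, centeredMax f x ≠ ⊤) ∧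
      ∃ G : E d → E d, Integrable G ∧
        IsWeakGradient (fun x => (centeredMax f x).toReal) G ∧
        ∫ x, ‖G x‖ ≤ C * ∫ x, ‖g x‖ := by
  obtain ⟨n, rfl⟩ := Nat.exists_eq_add_of_le' hd
  refine ⟨2 ^ (n + 2) * C1 n, fun f g hf hg hw hr => ?_⟩
  obtain ⟨F0, hF0⟩ := hr
  obtain ⟨F, φ, hφm, hφi, hFp, hfF, hle⟩ := radial_profile (n := n + 1) hf hg hw hF0
  obtain ⟨H, ψ, hψm, hH, hH0, hHs, hψi, hψle⟩ := profile_core hf hφm hφi hFp.sub hfF
  obtain ⟨hwH, hHi, hHn⟩ := weakGradient_radial (n := n + 1) hψm hψi (isProfile_of hψm hψi hHs)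
  have hnt : ∀ᵐ x : E (n + 2), x ≠ 0 := by simp [ae_iff, measure_singleton]
  have hae : (fun x : E (n + 2) => (centeredMax f x).toReal) =ᵐ[volume] fun x => H ‖x‖ := by
    filter_upwards [hH, hnt] with x hx hx0
    rw [hx, ENNReal.toReal_ofReal (hH0 _ (norm_pos_iff.2 hx0))]
  refine ⟨?_, fun x => (ψ ‖x‖ / ‖x‖) • x, hHi, ⟨?_, hwH.2.1, ?_⟩, ?_⟩
  · filter_upwards [hH] with x hx
    rw [hx]
    exact ENNReal.ofReal_ne_top
  · exact hwH.1.congr hae.symm
  · intro θ hθ hθc i
    rw [← hwH.2.2 θ hθ hθc i]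
    apply integral_congr_ae
    filter_upwards [hae] with x hx
    rw [hx]
  · have hC : 0 ≤ 2 ^ (n + 2) * C1 n := mul_nonneg (by positivity) (C1_nonneg n)
    have hc : 0 ≤ ((n + 1 + 1 : ℕ) : ℝ) * om (n + 1 + 1) :=
      mul_nonneg (Nat.cast_nonneg _) (om_pos _).le
    calc ∫ x : E (n + 2), ‖(ψ ‖x‖ / ‖x‖) • x‖
        = ((n + 1 + 1 : ℕ) : ℝ) * om (n + 1 + 1) * ∫ t in Ioi (0:ℝ), t ^ (n + 1) * |ψ t| := hHn
      _ ≤ ((n + 1 + 1 : ℕ) : ℝ) * om (n + 1 + 1) *
          (2 ^ (n + 2) * C1 n * ∫ t in Ioi (0:ℝ), t ^ (n + 1) * |φ t|) :=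
          mul_le_mul_of_nonneg_left hψle hc
      _ = 2 ^ (n + 2) * C1 n * (((n + 1 + 1 : ℕ) : ℝ) * om (n + 1 + 1) *
          ∫ t in Ioi (0:ℝ), t ^ (n + 1) * |φ t|) := by ring
      _ ≤ 2 ^ (n + 2) * C1 n * ∫ x, ‖g x‖ := mul_le_mul_of_nonneg_left hle hC

lemma inner_single {d : ℕ} (x : E d) (i : Fin d) :
    inner ℝ x (EuclideanSpace.single i (1:ℝ)) = x i := by
  rw [EuclideanSpace.inner_single_right]
  simp

lemma isWeak_of_weakGrad {d : ℕ} {f : E d → ℝ} {g : E d → E d} (h : WeakGrad f g) :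
    IsWeakGradient f g := by
  refine ⟨h.1, h.2.1, fun φ hφ hc i => ?_⟩
  rw [h.2.2 φ hφ hc (EuclideanSpace.single i 1)]
  simp only [inner_single]

lemma weakGrad_of_isWeak {d : ℕ} {f : E d → ℝ} {g : E d → E d} (h : IsWeakGradient f g) :
    WeakGrad f g := by
  refine ⟨h.1, h.2.1, fun φ hφ hc v => ?_⟩
  have hv : ∑ i, v i • EuclideanSpace.single i (1:ℝ) = v := by
    ext j
    simp only [WithLp.ofLp_sum, WithLp.ofLp_smul, PiLp.ofLp_single, Finset.sum_apply, Pi.smul_apply, Pi.single_apply, smul_eq_mul, mul_ite, mul_one, mul_zero, Finset.sum_ite_eq, Finset.mem_univ, ↓reduceIte]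
  have e1 : ∀ x, f x * fderiv ℝ φ x v
      = ∑ i, v i * (f x * fderiv ℝ φ x (EuclideanSpace.single i 1)) := by
    intro x
    conv_lhs => rw [← hv]
    rw [map_sum, Finset.mul_sum]
    refine Finset.sum_congr rfl (fun i _ => ?_)
    rw [map_smul, smul_eq_mul]
    ring
  have e2 : ∀ x, inner ℝ (g x) v * φ x = ∑ i, v i * (g x i * φ x) := by
    intro x
    rw [PiLp.inner_apply, Finset.sum_mul]
    refine Finset.sum_congr rfl (fun i _ => ?_)
    simp
    ring
  have i1 : ∀ i : Fin d, Integrable (fun x => f x * fderiv ℝ φ x (EuclideanSpace.single i 1)) := by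
    intro i
    have hcont : Continuous (fun x => fderiv ℝ φ x (EuclideanSpace.single i 1)) :=
      (hφ.continuous_fderiv (by norm_num)).clm_apply continuous_const
    exact h.1.integrable_smul_right_of_hasCompactSupport hcont (hc.fderiv_apply ℝ _)
  have i2 : ∀ i : Fin d, Integrable (fun x => g x i * φ x) := by
    intro i
    have h3 : Integrable (fun x => φ x • g x) :=
      h.2.1.integrable_smul_left_of_hasCompactSupport hφ.continuous hc
    have h4 := (EuclideanSpace.proj (𝕜 := ℝ) i).integrable_comp h3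
    refine h4.congr (Filter.Eventually.of_forall (fun x => ?_))
    simp only [map_smul, PiLp.proj_apply, smul_eq_mul]
    ring
  simp only [e1, e2]
  rw [integral_finsetSum _ (fun i _ => (i1 i).const_mul _),
    integral_finsetSum _ (fun i _ => (i2 i).const_mul _), ← Finset.sum_neg_distrib]
  refine Finset.sum_congr rfl (fun i _ => ?_)
  rw [integral_const_mul, integral_const_mul, h.2.2 φ hφ hc i]
  ring

theorem radialBound (d : ℕ) (hd : 2 ≤ d) : ∃ C : ℝ, RadialBound (EuclideanSpace ℝ (Fin d)) C := by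
  obtain ⟨C, hC⟩ := centered_radial d hd
  refine ⟨C, fun f g hf hg hw hr => ?_⟩
  obtain ⟨h1, G, h2, h3, h4⟩ := hC f g hf hg (isWeak_of_weakGrad hw) hr
  exact ⟨h1, G, h2, weakGrad_of_isWeak h3, h4⟩

end Vale.Agent.P137
end
end

section

section

open MeasureTheory Metric
open scoped ENNReal ContDiff

namespace Vale.Agent.P137

theorem uncenteredBound (d : ℕ) (hd : 0 < d) :
    ∃ C : ℝ, UncenteredBound (EuclideanSpace ℝ (Fin d)) C := by
  obtain ⟨C, hC⟩ := U.final (d := d) hd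
  refine ⟨C, fun f g hf hg hw => ?_⟩
  obtain ⟨h1, G, h2, h3, h4⟩ := hC f g hf hg (isWeak_of_weakGrad hw)
  refine ⟨?_, G, h3, weakGrad_of_isWeak h2, h4⟩
  filter_upwards [h1] with x hx
  exact hx.ne

end Vale.Agent.P137
end
end
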